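import Vale.Agent.P137.Centred.Transfer
import Mathlib.Analysis.Calculus.FDeriv.Basic

/-!
# P137, centred operator: derivatives of the calibrating weights
-/

open MeasureTheory Filter Set Metric Finset
open scoped ENNReal NNReal Topology RealInnerProductSpace

noncomputable section

namespace Vale.Agent.P137.Centred

variable {d : ℕ}

/-- Bounded Lipschitz functions multiply. -/
lemma exists_lipschitz_mul {f g : Euc d → ℝ} (hf : ∃ K, LipschitzWith K f)
    (hg : ∃ K, LipschitzWith K g) (hf1 : ∀ x, |f x| ≤ 1) (hg1 : ∀ x, |g x| ≤ 1) :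
    ∃ K, LipschitzWith K fun x => f x * g x := by
  obtain ⟨K, hK⟩ := hf
  obtain ⟨K', hK'⟩ := hg
  refine ⟨K + K', LipschitzWith.of_dist_le_mul fun x y => ?_⟩
  have h1 := hK.dist_le_mul x y
  have h2 := hK'.dist_le_mul x y
  rw [Real.dist_eq] at h1 h2 ⊢
  rw [show f x * g x - f y * g y = (f x - f y) * g x + f y * (g x - g y) by ring,
    NNReal.coe_add, add_mul]
  refine (abs_add_le _ _).trans ?_
  rw [abs_mul, abs_mul]
  exact add_le_add ((mul_le_of_le_one_right (abs_nonneg _) (hg1 x)).trans h1)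
    ((mul_le_of_le_one_left (abs_nonneg _) (hf1 y)).trans h2)

lemma exists_lipschitz_sum {ι : Type*} (S : Finset ι) (c : ι → ℝ) {f : ι → Euc d → ℝ}
    (hf : ∀ i ∈ S, ∃ K, LipschitzWith K (f i)) :
    ∃ K, LipschitzWith K fun x => ∑ i ∈ S, f i x * c i := by
  choose K hK using hf
  refine ⟨Real.toNNReal (∑ i ∈ S.attach, K i.1 i.2 * |c i.1|),
    LipschitzWith.of_dist_le' fun x y => ?_⟩
  rw [Real.dist_eq, ← sum_attach, ← sum_attach (f := fun i => f i y * c i), ← sum_sub_distrib,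
    sum_mul]
  refine (abs_sum_le_sum_abs _ _).trans (Finset.sum_le_sum fun i _ => ?_)
  rw [← sub_mul, abs_mul, mul_right_comm]
  refine mul_le_mul_of_nonneg_right ?_ (abs_nonneg _)
  simpa [Real.dist_eq] using (hK i.1 i.2).dist_le_mul x y

lemma norm_clm_le_sum_abs (L : Euc d →L[ℝ] ℝ) :
    ‖L‖ ≤ ∑ k, |L (EuclideanSpace.single k (1 : ℝ))| := by
  refine L.opNorm_le_bound (sum_nonneg fun i _ => abs_nonneg _) fun v => ?_
  have hv : v = ∑ k, v k • EuclideanSpace.single k (1 : ℝ) := by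
    ext j; simp [WithLp.ofLp_sum, Pi.single_apply]
  conv_lhs => rw [hv]
  rw [map_sum, Real.norm_eq_abs, sum_mul]
  refine (abs_sum_le_sum_abs _ _).trans (Finset.sum_le_sum fun k _ => ?_)
  rw [map_smul, smul_eq_mul, abs_mul, mul_comm]
  exact mul_le_mul_of_nonneg_left (PiLp.norm_apply_le v k) (abs_nonneg _)

namespace Params

variable {P : Params d}

lemma q_le_one {K : ℕ} (hK : K ≤ P.N) {i : Comp d} (hi : i ∈ P.comps K) (x : Euc d) :
    P.q K i x ≤ 1 :=
  (single_le_sum (f := fun i => P.q K i x) (fun i _ => q_nonneg _ _ _) hi).trans_eq (sum_q hK x)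

lemma Valid.exists_lipschitz_phi (hP : P.Valid) (K : ℕ) (c : Fin d → ℤ) :
    ∃ L, LipschitzWith L (P.phi K c) := by
  refine ⟨Real.toNNReal (d / P.rho K), LipschitzWith.of_dist_le' fun x y => ?_⟩
  rw [Real.dist_eq, dist_eq_norm]
  exact (hP.abs_phi_sub_le K c x y).trans_eq (by ring)

lemma Valid.exists_lipschitz_q (hP : P.Valid) {K : ℕ} (hK : K ≤ P.N) :
    ∀ i ∈ P.comps K, ∃ L, LipschitzWith L (P.q K i) := by
  induction hK using Nat.decreasingInduction with
  | self =>
    intro i hi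
    have h := (mem_comps.1 hi).1
    obtain ⟨L, hL⟩ := hP.exists_lipschitz_phi P.N i.2
    have e : P.q P.N i = P.phi P.N i.2 := funext fun x => by
      rw [q_top, if_pos (by omega)]
    exact ⟨L, e ▸ hL⟩
  | of_succ k hk ih =>
    intro i hi
    have habs : ∀ (c : Fin d → ℤ) x, |P.phi k c x| ≤ 1 := fun c x => by
      rw [abs_of_nonneg (phi_nonneg _ _ _)]; exact phi_le_one _ _ _
    by_cases h : i.1 = k
    · obtain ⟨J, c⟩ := i
      obtain rfl : J = k := h
      have e : P.q J ⟨J, c⟩ = fun x => P.phi J c x * P.killed J c x :=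
        funext fun x => q_new hk c x
      rw [e]
      refine exists_lipschitz_mul (hP.exists_lipschitz_phi _ _)
        (exists_lipschitz_sum _ _ ih) (habs c) fun x => ?_
      rw [abs_of_nonneg (killed_nonneg _ _ _)]
      exact killed_le_one hk _ _
    · have hi' : i ∈ P.comps (k + 1) := by
        have := mem_comps.1 hi
        exact mem_comps.2 ⟨⟨by omega, this.1.2⟩, this.2⟩
      have e : P.q k i = fun x => P.q (k + 1) i x * (1 - P.killAt k i x) :=
        funext fun x => q_old hk hi' x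
      rw [e]
      refine exists_lipschitz_mul (ih i hi') ?_ (fun x => ?_) fun x => ?_
      · obtain ⟨L, hL⟩ := exists_lipschitz_sum (P.grid k) (fun c => P.rate k c i)
          fun c _ => hP.exists_lipschitz_phi k c
        exact ⟨0 + L, (LipschitzWith.const 1).sub hL⟩
      · rw [abs_of_nonneg (q_nonneg _ _ _)]
        exact q_le_one hk hi' x
      · rw [abs_of_nonneg (sub_nonneg.2 (killAt_le_one _ _ _))]
        linarith [killAt_nonneg (P := P) k i x]

lemma q_le_succ {K : ℕ} {i : Comp d} (hi : i ∈ P.comps (K + 1)) (x : Euc d) :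
    P.q K i x ≤ P.q (K + 1) i x := by
  have h := (mem_comps.1 hi).1
  rw [q_old (show K < P.N by omega) hi]
  exact mul_le_of_le_one_right (q_nonneg _ _ _) (by linarith [killAt_nonneg (P := P) K i x])

lemma mem_comps_of_le {K J : ℕ} {i : Comp d} (hi : i ∈ P.comps K) (hJ : J ≤ i.1) :
    i ∈ P.comps J := by
  have h := mem_comps.1 hi
  exact mem_comps.2 ⟨⟨hJ, h.1.2⟩, h.2⟩

lemma q_mono {K J : ℕ} (hKJ : K ≤ J) {i : Comp d} (hi : i ∈ P.comps K) (hJ : J ≤ i.1) (x : Euc d) :
    P.q K i x ≤ P.q J i x := by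
  induction hKJ with
  | refl => exact le_rfl
  | @step m h ih => exact (ih (by omega)).trans (q_le_succ (mem_comps_of_le hi hJ) x)

/-- The variation of the weights bounds their derivatives. -/
lemma Valid.sum_abs_fderiv_q_le (hP : P.Valid) {j : ℕ} (hj : j ≤ P.N) {x : Euc d}
    (hx : ‖x‖ < P.Ω) (hdiff : ∀ i ∈ P.comps j, DifferentiableAt ℝ (P.q j i) x) {e : Euc d}
    (he : ‖e‖ ≤ 1) :
    ∑ i ∈ P.comps j, |fderiv ℝ (P.q j i) x e| ≤ P.varW (lam0 d) j x / P.rho j := by
  have hr := hP.rho_pos j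
  have hlim : Tendsto (fun t : ℝ => ∑ i ∈ P.comps j, |t⁻¹ * (P.q j i (x + t • e) - P.q j i x)|)
      (𝓝[>] 0) (𝓝 (∑ i ∈ P.comps j, |fderiv ℝ (P.q j i) x e|)) := by
    refine tendsto_finsetSum _ fun i hi => ?_
    exact (((hdiff i hi).hasFDerivAt.hasLineDerivAt e).tendsto_slope_zero_right).abs
  refine le_of_tendsto hlim ?_
  have hev : ∀ᶠ t in 𝓝[>] (0 : ℝ), t < P.Ω - ‖x‖ ∧ t < 2 * P.rho j :=
    ((eventually_lt_nhds (by linarith : (0 : ℝ) < P.Ω - ‖x‖)).and
      (eventually_lt_nhds (by linarith : (0 : ℝ) < 2 * P.rho j))).filter_mono nhdsWithin_le_nhds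
  filter_upwards [hev, self_mem_nhdsWithin] with t ht (ht0 : 0 < t)
  have hte : ‖t • e‖ ≤ t := by
    rw [norm_smul, Real.norm_eq_abs, abs_of_pos ht0]
    exact mul_le_of_le_one_right ht0.le he
  have hy : ∀ k, |x k| ≤ P.Ω := fun k => (PiLp.norm_apply_le x k).trans hx.le
  have hz : ∀ k, |(x + t • e) k| ≤ P.Ω := fun k =>
    (PiLp.norm_apply_le (x + t • e) k).trans ((norm_add_le _ _).trans (by linarith [ht.1]))
  have hd : ‖x - (x + t • e)‖ ≤ t := by rwa [sub_add_cancel_left, norm_neg]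
  have hdiv : ∀ J, j ≤ J → ‖x - (x + t • e)‖ / P.rho J ≤ t * (P.decay (J - j) / P.rho j) := by
    intro J hJ
    rw [← hP.rho_div hJ, div_div, mul_comm (P.rho J), ← div_div, div_self hr.ne', ← div_eq_mul_one_div]
    exact div_le_div_of_nonneg_right hd (hP.rho_pos J).le
  have hV := hP.V_le hj hy hz (hd.trans ht.2.le)
  have hV' : P.V j x (x + t • e) ≤ t * (P.varW (lam0 d) j x / P.rho j) := by
    refine hV.trans ((add_le_add (mul_le_mul_of_nonneg_left (hdiv P.N hj)
      (mul_nonneg (Nat.cast_nonneg d) (cnt_nonneg _))) (mul_le_mul_of_nonneg_left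
        (Finset.sum_le_sum fun J hJ => mul_le_mul_of_nonneg_right
          (hdiv J (Finset.mem_Ico.1 hJ).1) (S_nonneg _ _ _))
        (by positivity : (0:ℝ) ≤ 2 * d))).trans_eq ?_)
    simp only [Params.varW, add_div, mul_add, mul_sum, sum_div]
    congr 1
    · ring
    · exact Finset.sum_congr rfl fun J _ => by ring
  calc ∑ i ∈ P.comps j, |t⁻¹ * (P.q j i (x + t • e) - P.q j i x)|
      = t⁻¹ * P.V j x (x + t • e) := by
        rw [Params.V, mul_sum]
        exact Finset.sum_congr rfl fun i _ => by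
          rw [abs_mul, abs_of_pos (inv_pos.2 ht0), abs_sub_comm]
    _ ≤ _ := by rwa [inv_mul_le_iff₀ ht0]

/-- The derivatives of the weights, each in its own direction. -/
lemma Valid.sum_abs_fderiv_q_dir_le (hP : P.Valid) {j : ℕ} (hj : j ≤ P.N) {x : Euc d}
    (hx : ‖x‖ < P.Ω) (hdiff : ∀ i ∈ P.comps j, DifferentiableAt ℝ (P.q j i) x) :
    ∑ i ∈ P.comps j, |fderiv ℝ (P.q j i) x (P.compDir i)| ≤
      d * (P.varW (lam0 d) j x / P.rho j) := by
  refine (Finset.sum_le_sum fun i _ => ((ContinuousLinearMap.le_opNorm _ _).trans_eq (by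
    rw [hP.norm_compDir, mul_one])).trans (norm_clm_le_sum_abs _)).trans ?_
  rw [sum_comm]
  refine (sum_le_card_nsmul _ _ _ fun k _ => hP.sum_abs_fderiv_q_le hj hx hdiff ?_).trans_eq
    (by simp)
  simp

/-- The mass born in a block is the killed mass. -/
lemma Valid.sum_born_le (hP : P.Valid) {B : ℕ} (hB : B < P.N) {x : Euc d}
    (hx : ∀ k, |x k| ≤ P.Ω) :
    ∑ c ∈ P.grid B, P.q B ⟨B, c⟩ x ≤ P.S (lam0 d) B x := by
  refine Finset.sum_le_sum fun c _ => ?_
  rw [q_new hB]
  by_cases h : P.phi B c x = 0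
  · rw [h, zero_mul]
    exact indicator_nonneg (fun _ _ => killed_nonneg _ _ _) _
  · rw [indicator_of_mem (mem_closedBall_iff_norm.2 ((hP.dist_pt_le hx h).trans
      (mul_le_mul_of_nonneg_right (by rw [lam0]; linarith) (hP.rho_pos B).le)))]
    exact mul_le_of_le_one_left (killed_nonneg _ _ _) (phi_le_one _ _ _)

lemma sum_born_le_one {B : ℕ} (hB : B ≤ P.N) (x : Euc d) :
    ∑ c ∈ P.grid B, P.q B ⟨B, c⟩ x ≤ 1 := by
  rw [← sum_q hB x, sum_comps_succ hB]
  exact le_add_of_nonneg_right (sum_nonneg fun i _ => q_nonneg _ _ _)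

end Params

end Vale.Agent.P137.Centred
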