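import Vale.Agent.P137.Centred.Deriv
import Vale.Agent.P137.Centred.WeightsDeriv
import Vale.Agent.P137.Variation
import Mathlib.Analysis.Calculus.Rademacher

/-!
# P137, centred operator: the calibrated band bound
-/

open MeasureTheory Filter Set Metric
open scoped ENNReal NNReal Topology RealInnerProductSpace Gradient

noncomputable section

namespace Vale.Agent.P137.Centred

variable {d : ℕ}

namespace Params

variable {P : Params d}

/-- The band maxima of the components born in block `B`. -/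
def W (P : Params d) (f : Euc d → ℝ) (j B : ℕ) (x : Euc d) : ℝ :=
  bandMax f (P.rho (j - 1)) (P.rho B) x

/-- The calibrated function of a component. -/
def G (P : Params d) (f : Euc d → ℝ) (i : Comp d) (x : Euc d) : ℝ :=
  ∑ j ∈ Finset.Icc 1 i.1, P.q j i x * (P.W f j i.1 x - P.W f (j + 1) i.1 x)

/-- The increments of the weights of a component. -/
def wt (P : Params d) (j : ℕ) (i : Comp d) (x : Euc d) : ℝ :=
  P.q j i x - if j = 1 then 0 else P.q (j - 1) i x

lemma sum_wt (i : Comp d) (x : Euc d) : ∀ J, 1 ≤ J →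
    ∑ j ∈ Finset.Icc 1 J, P.wt j i x = P.q J i x := by
  intro J hJ
  induction J, hJ using Nat.le_induction with
  | base => simp [Params.wt]
  | succ J hJ ih =>
    rw [Finset.sum_Icc_succ_top (by omega), ih, Params.wt, if_neg (by omega), Nat.add_sub_cancel]
    ring

lemma sum_by_parts (a : ℕ → ℝ) (i : Comp d) (x : Euc d) : ∀ B, 1 ≤ B →
    ∑ j ∈ Finset.Icc 1 B, P.q j i x * (a j - a (j + 1)) =
      (∑ j ∈ Finset.Icc 1 B, P.wt j i x * a j) - P.q B i x * a (B + 1) := by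
  intro B hB
  induction B, hB using Nat.le_induction with
  | base => simp [Params.wt]; ring
  | succ B hB ih =>
    rw [Finset.sum_Icc_succ_top (by omega), Finset.sum_Icc_succ_top (by omega), ih, Params.wt,
      if_neg (by omega), Nat.add_sub_cancel]
    ring

lemma wt_nonneg_le {i : Comp d} (hi : i ∈ P.comps 1) {j : ℕ} (hj : j ∈ Finset.Icc 1 i.1)
    (x : Euc d) : 0 ≤ P.wt j i x ∧ P.wt j i x ≤ P.q j i x := by
  rw [Finset.mem_Icc] at hj
  simp only [Params.wt]
  split_ifs with h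
  · simp [q_nonneg]
  · exact ⟨sub_nonneg.2 (q_mono (Nat.sub_le j 1) (mem_comps_of_le hi (by omega)) hj.2 x),
      sub_le_self _ (q_nonneg _ _ _)⟩

lemma sum_comps_ite {J : ℕ} (hJ : 1 ≤ J) (g : Comp d → ℝ) :
    ∑ i ∈ P.comps 1, (if J ≤ i.1 then g i else 0) = ∑ i ∈ P.comps J, g i := by
  rw [← Finset.sum_filter]
  refine Finset.sum_congr (Finset.ext fun i => ?_) fun i _ => rfl
  simp only [Finset.mem_filter, mem_comps]
  exact ⟨fun h => ⟨⟨h.2, h.1.1.2⟩, h.1.2⟩, fun h => ⟨⟨⟨by omega, h.1.2⟩, h.2⟩, h.1.1⟩⟩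

lemma sum_comps_one (g : Comp d → ℝ) :
    ∑ i ∈ P.comps 1, g i = ∑ B ∈ Finset.Icc 1 P.N, ∑ c ∈ P.grid B, g ⟨B, c⟩ := by
  rw [Params.comps, Finset.sum_sigma]

/-- Sums over the blocks below the birth of a component, exchanged. -/
lemma sum_comps_blocks (g : ℕ → Comp d → ℝ) :
    ∑ i ∈ P.comps 1, ∑ j ∈ Finset.Icc 1 i.1, g j i =
      ∑ j ∈ Finset.Icc 1 P.N, ∑ i ∈ P.comps j, g j i := by
  rw [Finset.sum_congr rfl fun j hj => (sum_comps_ite (Finset.mem_Icc.1 hj).1 (g j)).symm,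
    Finset.sum_comm]
  refine Finset.sum_congr rfl fun i hi => ?_
  rw [← Finset.sum_filter]
  refine Finset.sum_congr (Finset.ext fun j => ?_) fun j _ => rfl
  have := (mem_comps.1 hi).1
  simp only [Finset.mem_filter, Finset.mem_Icc]
  omega

end Params

open Params

section Pointwise

variable {P : Params d} {f : Euc d → ℝ} {εf Lam C₀ : ℝ} {Bud : ℕ → Euc d → ℝ}
  {E : ℕ → Euc d → ℝ → ℝ} {x : Euc d}

/-- The block of a maximiser, where the budget applies. -/
lemma exists_bud_le (hP : P.Valid) (hB : Budgeted P εf Lam C₀ Bud E)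
    (hf : ContDiff ℝ 1 f) (hfc : HasCompactSupport f) (hv : P.v = ∇ f) {j B : ℕ} (hj : 1 ≤ j)
    (hjB : j ≤ B) (hBN : B ≤ P.N) {r : ℝ} (hr : r ∈ Icc (P.rho (j - 1)) (P.rho B))
    (hmax : ∀ t ∈ Icc (P.rho (j - 1)) (P.rho B), ballAvg f x t ≤ ballAvg f x r) :
    ∃ J ∈ Finset.Icc j B, r ∈ Icc (P.rho (J - 1)) (P.rho J) ∧
      ∀ c ∈ P.grid J, ‖x - P.pt J c‖ ≤ Real.sqrt d * P.rho J → ∀ e, ‖e‖ = 1 →
        ‖P.dir J c - e‖ ≤ εf → -dAvg (∇ f) x r e ≤ Bud J x := by
  rcases eq_or_lt_of_le hr.1 with h1 | h1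
  · refine ⟨j, Finset.mem_Icc.2 ⟨le_rfl, hjB⟩, ⟨h1.le, h1 ▸ hP.rho_mono (Nat.sub_le j 1)⟩,
      fun c hc hxc e he hde => hv ▸ hB.end_le j ?_ x c hc hxc e he hde r (Or.inl h1.symm)⟩
    exact Finset.mem_Icc.2 ⟨hj, hjB.trans hBN⟩
  rcases eq_or_lt_of_le hr.2 with h2 | h2
  · refine ⟨B, Finset.mem_Icc.2 ⟨hjB, le_rfl⟩, ⟨h2 ▸ hP.rho_mono (Nat.sub_le B 1), h2.le⟩,
      fun c hc hxc e he hde => hv ▸ hB.end_le B ?_ x c hc hxc e he hde r (Or.inr h2)⟩
    exact Finset.mem_Icc.2 ⟨hj.trans hjB, hBN⟩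
  classical
  have hex : ∃ J, j ≤ J ∧ r ≤ P.rho J := ⟨B, hjB, h2.le⟩
  set J := Nat.find hex with hJdef
  obtain ⟨hjJ, hrJ⟩ : j ≤ J ∧ r ≤ P.rho J := Nat.find_spec hex
  have hJB : J ≤ B := Nat.find_min' hex ⟨hjB, h2.le⟩
  have hlow : P.rho (J - 1) ≤ r := by
    rcases hjJ.eq_or_lt with h | h
    · exact h ▸ hr.1
    · have := Nat.find_min hex (show J - 1 < Nat.find hex by omega)
      rw [not_and, not_le] at this
      exact (this (by omega)).le
  refine ⟨J, Finset.mem_Icc.2 ⟨hjJ, hJB⟩, ⟨hlow, hrJ⟩, fun c hc hxc e he hde => ?_⟩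
  have h := hB.dir_le J (Finset.mem_Icc.2 ⟨hj.trans hjJ, hJB.trans hBN⟩) x c hc hxc e he hde r
    ⟨hlow, hrJ⟩
  rwa [hv, rAvg_eq_zero hf hfc (hP.rho_pos _) ⟨h1, h2⟩ hmax, abs_zero, mul_zero, add_zero] at h

/-- The calibration at a point of differentiability. -/
lemma calibrate_le (hP : P.Valid) (hB : Budgeted P εf Lam C₀ Bud E)
    (hf : ContDiff ℝ 1 f) (hfc : HasCompactSupport f) (hv : P.v = ∇ f) (hN : 1 ≤ P.N)
    (hε : P.ε = εf / 4) {δ : ℝ} (hδ0 : 0 < δ) (hδ : δ ≤ εf / 4) (hδ1 : δ ≤ 1 / 2)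
    (hx : ‖x‖ < P.Ω)
    (hM : DifferentiableAt ℝ (bandMax f (P.rho 0) (P.rho P.N)) x)
    (hW : ∀ B ∈ Finset.Icc 1 P.N, ∀ j ∈ Finset.Icc 1 (B + 1), DifferentiableAt ℝ (P.W f j B) x)
    (hq : ∀ j ∈ Finset.Icc 1 P.N, ∀ i ∈ P.comps j, DifferentiableAt ℝ (P.q j i) x) :
    δ * ‖∇ (bandMax f (P.rho 0) (P.rho P.N)) x‖ -
        ∑ i ∈ P.comps 1, fderiv ℝ (P.G f i) x (P.compDir i) ≤
      3 * (∑ J ∈ Finset.Icc 1 P.N, Bud J x) +
      (∑ j ∈ Finset.Icc 1 P.N, d * (P.varW (lam0 d) j x / P.rho j) *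
        ∫ r in Icc (P.rho (j - 1)) (P.rho j), |rAvg (∇ f) x r|) +
      ∑ B ∈ Finset.Icc 1 P.N, ∑ c ∈ P.grid B,
        P.q B ⟨B, c⟩ x * |dAvg (∇ f) x (P.rho B) (P.dir B c)| := by
  have hbud := hB.bud_nonneg
  have hxc : ∀ k, |x k| ≤ P.Ω := fun k => (PiLp.norm_apply_le x k).trans hx.le
  set M := bandMax f (P.rho 0) (P.rho P.N) with hMdef
  obtain ⟨rs, hrs, hrsM, hrsmax⟩ := exists_bandMax hf hfc (hP.rho_pos 0) (hP.rho_mono hN |> fun h =>
    (hP.rho_mono (Nat.zero_le 1)).trans h) x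
  obtain ⟨Js, hJs, hrsJ, hJsbud⟩ := exists_bud_le hP hB hf hfc hv le_rfl hN le_rfl hrs hrsmax
  rw [Finset.mem_Icc] at hJs
  have hdM : ∀ e, fderiv ℝ M x e = dAvg (∇ f) x rs e :=
    fderiv_eq_dAvg hf hfc (lt_of_lt_of_le (hP.rho_pos 0) hrs.1) hM
      (fun y => ballAvg_le_bandMax hf hfc (hP.rho_pos 0) hrs y) hrsM
  -- the terms of a single component
  have hcomp : ∀ i ∈ P.comps 1, (if Js ≤ i.1 then P.q Js i x * fderiv ℝ M x (P.compDir i) else 0) -
      ∑ J ∈ Finset.Icc 1 i.1, P.q J i x * Bud J x ≤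
      ∑ j ∈ Finset.Icc 1 i.1, P.wt j i x * fderiv ℝ (P.W f j i.1) x (P.compDir i) := by
    intro i hi
    have hi1 := (mem_comps.1 hi).1
    have hper : ∀ j ∈ Finset.Icc 1 i.1,
        (if j ≤ Js ∧ Js ≤ i.1 then P.wt j i x * fderiv ℝ M x (P.compDir i) else 0) -
          ∑ J ∈ Finset.Icc 1 i.1, (if j ≤ J then P.wt j i x * Bud J x else 0) ≤
        P.wt j i x * fderiv ℝ (P.W f j i.1) x (P.compDir i) := by
      intro j hj
      obtain ⟨hw0, hwq⟩ := wt_nonneg_le hi hj x
      obtain ⟨hj1, hjB⟩ := Finset.mem_Icc.1 hj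
      have hdW := hW i.1 (Finset.mem_Icc.2 hi1) j (Finset.mem_Icc.2 ⟨hj1, by omega⟩)
      have hsum0 : 0 ≤ ∑ J ∈ Finset.Icc 1 i.1, (if j ≤ J then P.wt j i x * Bud J x else 0) :=
        Finset.sum_nonneg fun J _ => by
          split_ifs
          exacts [mul_nonneg hw0 (hbud _ _), le_rfl]
      split_ifs with hcase
      · have hmem : rs ∈ Icc (P.rho (j - 1)) (P.rho i.1) :=
          ⟨(hP.rho_mono (show j - 1 ≤ Js - 1 by omega)).trans hrsJ.1,
            hrsJ.2.trans (hP.rho_mono hcase.2)⟩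
        have he : fderiv ℝ (P.W f j i.1) x (P.compDir i) = fderiv ℝ M x (P.compDir i) := by
          rw [hdM]
          refine fderiv_eq_dAvg hf hfc (lt_of_lt_of_le (hP.rho_pos 0) hrs.1) hdW
            (fun y => ballAvg_le_bandMax hf hfc (hP.rho_pos _) hmem y) (le_antisymm
              (ballAvg_le_bandMax hf hfc (hP.rho_pos _) hmem x) ?_) _
          rw [hrsM]
          exact bandMax_mono hf hfc (hP.rho_pos 0) (hP.rho_mono (Nat.zero_le _))
            (hP.rho_mono (by omega)) (hP.rho_mono hi1.2) x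
        rw [he]
        linarith
      · rcases hw0.eq_or_lt with h0 | h0
        · simp [← h0]
        obtain ⟨r, hr, hrW, hrmax⟩ := exists_bandMax hf hfc (hP.rho_pos (j - 1))
          (hP.rho_mono (show j - 1 ≤ i.1 by omega)) x
        obtain ⟨J, hJ, -, hJbud⟩ := exists_bud_le hP hB hf hfc hv hj1 hjB hi1.2 hr hrmax
        rw [Finset.mem_Icc] at hJ
        have hqJ : P.q J i x ≠ 0 :=
          (lt_of_lt_of_le h0 (hwq.trans (q_mono hJ.1 (mem_comps_of_le hi hjB) hJ.2 x))).ne'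
        obtain ⟨c, hc, hxc', hdir⟩ := hP.exists_near (hJ.2.trans hi1.2)
          (mem_comps_of_le hi hJ.2) hxc hqJ
        have hb := hJbud c hc hxc' _ (hP.norm_compDir i) (by rw [hε] at hdir; linarith)
        rw [fderiv_eq_dAvg hf hfc ((hP.rho_pos (j - 1)).trans_le hr.1) hdW
          (fun y => ballAvg_le_bandMax hf hfc (hP.rho_pos _) hr y) hrW]
        have h1 : P.wt j i x * Bud J x ≤
            ∑ J ∈ Finset.Icc 1 i.1, (if j ≤ J then P.wt j i x * Bud J x else 0) := by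
          refine le_trans (le_of_eq (if_pos hJ.1).symm) (Finset.single_le_sum
            (f := fun J => if j ≤ J then P.wt j i x * Bud J x else 0) (fun J _ => ?_)
            (Finset.mem_Icc.2 ⟨by omega, hJ.2⟩))
          split_ifs
          exacts [mul_nonneg hw0 (hbud _ _), le_rfl]
        have h2 := mul_le_mul_of_nonneg_left hb hw0
        linarith
    refine le_trans (le_of_eq ?_) (Finset.sum_le_sum hper)
    rw [Finset.sum_sub_distrib, Finset.sum_comm]
    congr 1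
    · split_ifs with h
      · rw [← sum_wt i x Js hJs.1, Finset.sum_mul, ← Finset.sum_filter]
        refine Finset.sum_congr (Finset.ext fun j => ?_) fun j _ => rfl
        simp only [Finset.mem_filter, Finset.mem_Icc]
        omega
      · simp [h]
    · refine Finset.sum_congr rfl fun J hJ => ?_
      rw [← sum_wt i x J (Finset.mem_Icc.1 hJ).1, Finset.sum_mul, ← Finset.sum_filter]
      refine Finset.sum_congr (Finset.ext fun j => ?_) fun j _ => rfl
      simp only [Finset.mem_filter, Finset.mem_Icc]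
      have := Finset.mem_Icc.1 hJ
      omega
  -- the derivative of a component
  have hG : ∀ i ∈ P.comps 1,
      (∑ j ∈ Finset.Icc 1 i.1, P.wt j i x * fderiv ℝ (P.W f j i.1) x (P.compDir i)) -
        P.q i.1 i x * |dAvg (∇ f) x (P.rho i.1) (P.compDir i)| -
        ∑ j ∈ Finset.Icc 1 i.1, |fderiv ℝ (P.q j i) x (P.compDir i)| *
          ∫ r in Icc (P.rho (j - 1)) (P.rho j), |rAvg (∇ f) x r| ≤
      fderiv ℝ (P.G f i) x (P.compDir i) := by
    intro i hi
    have hi1 := (mem_comps.1 hi).1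
    have hB' := Finset.mem_Icc.2 hi1
    set e := P.compDir i
    have hqd : ∀ j ∈ Finset.Icc 1 i.1, DifferentiableAt ℝ (P.q j i) x := fun j hj => by
      have := Finset.mem_Icc.1 hj
      exact hq j (Finset.mem_Icc.2 ⟨this.1, this.2.trans hi1.2⟩) i (mem_comps_of_le hi this.2)
    have hWd : ∀ j ∈ Finset.Icc 1 (i.1 + 1), DifferentiableAt ℝ (P.W f j i.1) x := hW i.1 hB'
    have hD : ∀ j ∈ Finset.Icc 1 i.1,
        HasFDerivAt (fun y => P.q j i y * (P.W f j i.1 y - P.W f (j + 1) i.1 y))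
          (P.q j i x • (fderiv ℝ (P.W f j i.1) x - fderiv ℝ (P.W f (j + 1) i.1) x) +
            (P.W f j i.1 x - P.W f (j + 1) i.1 x) • fderiv ℝ (P.q j i) x) x := fun j hj => by
      have := Finset.mem_Icc.1 hj
      exact (hqd j hj).hasFDerivAt.mul
        ((hWd j (Finset.mem_Icc.2 ⟨this.1, by omega⟩)).hasFDerivAt.fun_sub
          (hWd (j + 1) (Finset.mem_Icc.2 ⟨by omega, by omega⟩)).hasFDerivAt)
    have hder : HasFDerivAt (P.G f i) _ x := HasFDerivAt.fun_sum hD
    rw [hder.fderiv]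
    simp only [ContinuousLinearMap.coe_sum', Finset.sum_apply, add_apply, smul_apply,
      sub_apply, smul_eq_mul, Finset.sum_add_distrib]
    rw [sum_by_parts (fun j => fderiv ℝ (P.W f j i.1) x e) i x i.1 hi1.1]
    have hlast : fderiv ℝ (P.W f (i.1 + 1) i.1) x e = dAvg (∇ f) x (P.rho i.1) e := by
      have hmem : P.rho i.1 ∈ Icc (P.rho (i.1 + 1 - 1)) (P.rho i.1) := by simp
      refine fderiv_eq_dAvg hf hfc (hP.rho_pos _) (hWd _ (Finset.mem_Icc.2 ⟨by omega, le_rfl⟩))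
        (fun y => ballAvg_le_bandMax hf hfc (hP.rho_pos _) hmem y) ?_ e
      obtain ⟨r, hr, hr2, -⟩ := exists_bandMax hf hfc (hP.rho_pos (i.1 + 1 - 1))
        (show P.rho (i.1 + 1 - 1) ≤ P.rho i.1 by simp) x
      simp only [Nat.add_sub_cancel, Icc_self, mem_singleton_iff] at hr
      rw [← hr]
      exact hr2
    have hterm : ∀ j ∈ Finset.Icc 1 i.1,
        -(|fderiv ℝ (P.q j i) x e| * ∫ r in Icc (P.rho (j - 1)) (P.rho j), |rAvg (∇ f) x r|) ≤
        (P.W f j i.1 x - P.W f (j + 1) i.1 x) * fderiv ℝ (P.q j i) x e := by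
      intro j hj
      have hj' := Finset.mem_Icc.1 hj
      have h1 := hP.rho_mono (Nat.sub_le j 1)
      have h2 := hP.rho_mono hj'.2
      have hle := bandMax_drop_le hf hfc (hP.rho_pos (j - 1)) h1 h2 x
      have h0 : 0 ≤ P.W f j i.1 x - P.W f (j + 1) i.1 x := by
        rw [sub_nonneg, Params.W, Params.W, Nat.add_sub_cancel]
        exact bandMax_mono hf hfc (hP.rho_pos _) h1 h2 le_rfl x
      have e1 : P.W f j i.1 x - P.W f (j + 1) i.1 x =
          bandMax f (P.rho (j - 1)) (P.rho i.1) x - bandMax f (P.rho j) (P.rho i.1) x := by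
        simp [Params.W]
      have h3 := mul_le_mul_of_nonneg_left hle (abs_nonneg (fderiv ℝ (P.q j i) x e))
      rw [← e1] at h3
      nlinarith [neg_abs_le (fderiv ℝ (P.q j i) x e), abs_nonneg (fderiv ℝ (P.q j i) x e)]
    have hsum := Finset.sum_le_sum hterm
    rw [Finset.sum_neg_distrib] at hsum
    rw [hlast]
    have hab := mul_le_mul_of_nonneg_left (le_abs_self (dAvg (∇ f) x (P.rho i.1) e))
      (q_nonneg (P := P) i.1 i x)
    linarith
  -- the main term
  have hmain : δ * ‖∇ M x‖ ≤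
      (∑ i ∈ P.comps Js, P.q Js i x * fderiv ℝ M x (P.compDir i)) + 2 * Bud Js x := by
    have e2 : δ * ‖∇ M x‖ - 2 * Bud Js x =
        ∑ i ∈ P.comps Js, P.q Js i x * (δ * ‖∇ M x‖ - 2 * Bud Js x) := by
      rw [← Finset.sum_mul, sum_q hJs.2, one_mul]
    suffices δ * ‖∇ M x‖ - 2 * Bud Js x ≤
        ∑ i ∈ P.comps Js, P.q Js i x * fderiv ℝ M x (P.compDir i) by linarith
    rw [e2]
    refine Finset.sum_le_sum fun i hi => ?_
    by_cases h0 : P.q Js i x = 0
    · simp [h0]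
    refine mul_le_mul_of_nonneg_left ?_ (q_nonneg _ _ _)
    set e := P.compDir i
    have he : ‖e‖ = 1 := hP.norm_compDir i
    rcases eq_or_ne (∇ M x) 0 with hg | hg
    · rw [← inner_gradient_left, hg, inner_zero_left, norm_zero, mul_zero, zero_sub]
      linarith [hbud Js x]
    set u := -(‖∇ M x‖⁻¹ • ∇ M x) with hu_def
    have hu : ‖u‖ = 1 := by rw [hu_def, norm_neg]; exact norm_smul_inv_norm hg
    set z := e + δ • u with hz_def
    have hzu : ‖δ • u‖ = δ := by
      rw [norm_smul, hu, mul_one, Real.norm_eq_abs, abs_of_pos hδ0]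
    have hz1 : |‖z‖ - 1| ≤ δ := by
      rw [← he]
      refine (abs_norm_sub_norm_le _ _).trans_eq ?_
      rw [hz_def, add_sub_cancel_left, hzu]
    rw [abs_le] at hz1
    have hzpos : 0 < ‖z‖ := by linarith
    set e' := ‖z‖⁻¹ • z with he'
    have he'1 : ‖e'‖ = 1 := norm_smul_inv_norm (norm_pos_iff.1 hzpos)
    obtain ⟨c, hc, hxc', hdir⟩ := hP.exists_near hJs.2 hi hxc h0
    have hnear : ‖P.dir Js c - e'‖ ≤ εf := by
      have h1 : ‖z - e'‖ ≤ δ := by
        have e3 : z - e' = (1 - ‖z‖⁻¹) • z := by rw [he', sub_smul, one_smul]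
        have e4 : (1 - ‖z‖⁻¹) * ‖z‖ = ‖z‖ - 1 := by field_simp
        rw [e3, norm_smul, Real.norm_eq_abs, ← abs_of_pos hzpos, ← abs_mul, abs_of_pos hzpos, e4]
        exact abs_le.2 hz1
      have h2 : ‖e - z‖ = δ := by rw [hz_def, sub_add_cancel_left, norm_neg, hzu]
      calc ‖P.dir Js c - e'‖ ≤ ‖P.dir Js c - e‖ + ‖e - e'‖ := norm_sub_le_norm_sub_add_norm_sub _ _ _
        _ ≤ ‖P.dir Js c - e‖ + (‖e - z‖ + ‖z - e'‖) :=
            add_le_add le_rfl (norm_sub_le_norm_sub_add_norm_sub _ _ _)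
        _ ≤ _ := by
            rw [hε] at hdir
            change ‖P.dir Js c - e‖ < 2 * (εf / 4) at hdir
            linarith
    have hb := hJsbud c hc hxc' e' he'1 hnear
    rw [← hdM, he', map_smul, smul_eq_mul] at hb
    have hb2 : -fderiv ℝ M x z ≤ ‖z‖ * Bud Js x := by
      have := mul_le_mul_of_nonneg_left hb hzpos.le
      rwa [mul_neg, ← mul_assoc, mul_inv_cancel₀ hzpos.ne', one_mul] at this
    have hz2 : fderiv ℝ M x z = fderiv ℝ M x e - δ * ‖∇ M x‖ := by
      rw [hz_def, map_add, map_smul, smul_eq_mul, ← inner_gradient_left (x := x) (y := u), hu_def,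
        inner_neg_right, real_inner_smul_right, real_inner_self_eq_norm_sq]
      have := norm_ne_zero_iff.2 hg
      field_simp
      ring
    have := mul_le_mul_of_nonneg_right (show ‖z‖ ≤ 2 by linarith) (hbud Js x)
    linarith
  -- summation
  have hsumG := Finset.sum_le_sum hG
  have hsumC := Finset.sum_le_sum hcomp
  simp only [Finset.sum_sub_distrib, sum_comps_ite hJs.1] at hsumC
  simp only [Finset.sum_sub_distrib] at hsumG
  have hBud : ∑ i ∈ P.comps 1, ∑ J ∈ Finset.Icc 1 i.1, P.q J i x * Bud J x =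
      ∑ J ∈ Finset.Icc 1 P.N, Bud J x := by
    rw [sum_comps_blocks fun J i => P.q J i x * Bud J x]
    refine Finset.sum_congr rfl fun J hJ => ?_
    rw [← Finset.sum_mul, sum_q (Finset.mem_Icc.1 hJ).2, one_mul]
  have hJsle : Bud Js x ≤ ∑ J ∈ Finset.Icc 1 P.N, Bud J x :=
    Finset.single_le_sum (f := fun J => Bud J x) (fun J _ => hbud J x) (Finset.mem_Icc.2 hJs)
  have hvar : ∑ i ∈ P.comps 1, ∑ j ∈ Finset.Icc 1 i.1, |fderiv ℝ (P.q j i) x (P.compDir i)| *
      ∫ r in Icc (P.rho (j - 1)) (P.rho j), |rAvg (∇ f) x r| ≤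
      ∑ j ∈ Finset.Icc 1 P.N, d * (P.varW (lam0 d) j x / P.rho j) *
        ∫ r in Icc (P.rho (j - 1)) (P.rho j), |rAvg (∇ f) x r| := by
    rw [sum_comps_blocks fun j i => |fderiv ℝ (P.q j i) x (P.compDir i)| *
      ∫ r in Icc (P.rho (j - 1)) (P.rho j), |rAvg (∇ f) x r|]
    refine Finset.sum_le_sum fun j hj => ?_
    rw [← Finset.sum_mul]
    exact mul_le_mul_of_nonneg_right
      (hP.sum_abs_fderiv_q_dir_le (Finset.mem_Icc.1 hj).2 hx (hq j hj))
      (setIntegral_nonneg measurableSet_Icc fun r _ => abs_nonneg _)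
  rw [sum_comps_one fun i => P.q i.1 i x * |dAvg (∇ f) x (P.rho i.1) (P.compDir i)|] at hsumG
  simp only [Params.compDir] at hsumG hmain hsumC hvar hBud ⊢
  linarith

end Pointwise

/-- A Lipschitz function of compact support has derivatives of mean zero. -/
lemma integral_fderiv_eq_zero {g : Euc d → ℝ} {K : ℝ≥0} (hg : LipschitzWith K g)
    (hgc : HasCompactSupport g) (e : Euc d) :
    Integrable (fun x => fderiv ℝ g x e) ∧ ∫ x, fderiv ℝ g x e = 0 := by
  have hae : ∀ᵐ x, lineDeriv ℝ g x e = fderiv ℝ g x e :=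
    hg.ae_differentiableAt.mono fun x hx => hx.lineDeriv_eq_fderiv
  have hb : ∀ x, ‖fderiv ℝ g x e‖ ≤ (tsupport g).indicator (fun _ => (K : ℝ) * ‖e‖) x := by
    intro x
    by_cases hx : x ∈ tsupport g
    · rw [indicator_of_mem hx]
      exact ((fderiv ℝ g x).le_opNorm e).trans
        (mul_le_mul_of_nonneg_right (norm_fderiv_le_of_lipschitz ℝ hg) (norm_nonneg _))
    · rw [indicator_of_notMem hx, fderiv_of_notMem_tsupport ℝ hx]
      simp
  refine ⟨Integrable.mono' ((integrable_indicator_iff (isClosed_tsupport g).measurableSet).2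
    (integrableOn_const (IsCompact.measure_lt_top hgc).ne))
    (measurable_fderiv_apply_const ℝ g e).aestronglyMeasurable (ae_of_all _ hb), ?_⟩
  have h := (LipschitzWith.const (α := Euc d) (1 : ℝ)).integral_lineDeriv_mul_eq
    (μ := volume) hg hgc (-e)
  have h0 : ∀ x, lineDeriv ℝ (fun _ : Euc d => (1 : ℝ)) x (-e) = 0 := fun x => by
    simp [lineDeriv]
  simp only [h0, zero_mul, integral_zero, neg_neg, mul_one] at h
  rw [← integral_congr_ae hae]
  exact h.symm

/-- The gradient of a Lipschitz function of compact support is integrable. -/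
lemma integrable_norm_gradient {g : Euc d → ℝ} {K : ℝ≥0} (hg : LipschitzWith K g)
    (hgc : HasCompactSupport g) : Integrable fun x => ‖∇ g x‖ := by
  refine Integrable.mono' (g := (tsupport g).indicator fun _ => (K : ℝ))
    ((integrable_indicator_iff (isClosed_tsupport g).measurableSet).2
      (integrableOn_const (IsCompact.measure_lt_top hgc).ne))
    (measurable_gradient g).norm.aestronglyMeasurable (ae_of_all _ fun x => ?_)
  rw [norm_norm]
  by_cases hx : x ∈ tsupport g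
  · rw [indicator_of_mem hx]; exact norm_gradient_le hg x
  · rw [indicator_of_notMem hx, norm_gradient, fderiv_of_notMem_tsupport ℝ hx, norm_zero]

lemma ballAvg_eq_zero_of_far {f : Euc d → ℝ} {R : ℝ} (hR : ∀ y, f y ≠ 0 → ‖y‖ ≤ R) {x : Euc d}
    {r : ℝ} (hx : R + r ≤ ‖x‖) : ballAvg f x r = 0 := by
  rw [ballAvg, setIntegral_eq_zero_of_forall_eq_zero, mul_zero]
  intro y hy
  by_contra h
  have h1 := hR y h
  have h2 := mem_ball_iff_norm'.1 hy
  linarith [norm_le_norm_add_norm_sub' x y]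

section Global

variable {P : Params d} {f : Euc d → ℝ} {R : ℝ}

lemma lipschitz_G (hP : P.Valid) (hf : ContDiff ℝ 1 f) (hfc : HasCompactSupport f)
    (hR : ∀ y, f y ≠ 0 → ‖y‖ ≤ R) {i : Comp d} (hi : i ∈ P.comps 1) :
    ∃ K, LipschitzWith K (P.G f i) := by
  obtain ⟨L, hL⟩ := hf.lipschitzWith_of_hasCompactSupport hfc one_ne_zero
  have hi1 := (mem_comps.1 hi).1
  have hW : ∀ j ∈ Finset.Icc 1 (i.1 + 1), LipschitzWith L (P.W f j i.1) := fun j hj =>
    lipschitz_bandMax hf hfc hL (hP.rho_pos _)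
      (hP.rho_mono (show j - 1 ≤ i.1 by have := Finset.mem_Icc.1 hj; omega))
  obtain ⟨B, hB⟩ := hfc.exists_bound_of_continuous hf.continuous
  have hB0 : 0 ≤ B := (norm_nonneg _).trans (hB 0)
  have hWb : ∀ j ∈ Finset.Icc 1 (i.1 + 1), ∀ x, |P.W f j i.1 x| ≤ B := by
    intro j hj x
    obtain ⟨r, hr, e, -⟩ := exists_bandMax hf hfc (hP.rho_pos (j - 1))
      (hP.rho_mono (show j - 1 ≤ i.1 by have := Finset.mem_Icc.1 hj; omega)) x
    rw [Params.W, ← e, ballAvg_eq_unit f x ((hP.rho_pos _).trans_le hr.1), abs_mul,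
      abs_of_pos (inv_pos.2 ballVol_pos), inv_mul_le_iff₀ ballVol_pos]
    refine abs_integral_le_integral_abs.trans ((integral_mono
      (integrable_unitBall hf.continuous x r).abs (integrable_const B) fun u => hB _).trans_eq ?_)
    rw [integral_const, measureReal_unitBall, smul_eq_mul]
  have hterm : ∀ j ∈ Finset.Icc 1 i.1, ∃ K, LipschitzWith K fun x =>
      P.q j i x * ((P.W f j i.1 x - P.W f (j + 1) i.1 x) / (2 * B + 1)) := by
    intro j hj
    have hj' := Finset.mem_Icc.1 hj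
    have hi' := mem_comps_of_le hi hj'.2
    have m1 : j ∈ Finset.Icc 1 (i.1 + 1) := Finset.mem_Icc.2 ⟨hj'.1, by omega⟩
    have m2 : j + 1 ∈ Finset.Icc 1 (i.1 + 1) := Finset.mem_Icc.2 ⟨by omega, by omega⟩
    refine exists_lipschitz_mul (hP.exists_lipschitz_q (hj'.2.trans hi1.2) i hi')
      ⟨Real.toNNReal (((L : ℝ) + L) / (2 * B + 1)), LipschitzWith.of_dist_le' fun x y => ?_⟩
      (fun x => by
        rw [abs_of_nonneg (q_nonneg _ _ _)]; exact q_le_one (hj'.2.trans hi1.2) hi' x)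
      fun x => ?_
    · rw [Real.dist_eq, ← sub_div, abs_div, abs_of_pos (by linarith : 0 < 2 * B + 1),
        div_mul_eq_mul_div]
      refine div_le_div_of_nonneg_right ?_ (by linarith)
      have h1 := (hW j m1).dist_le_mul x y
      have h2 := (hW (j + 1) m2).dist_le_mul x y
      rw [Real.dist_eq] at h1 h2
      rw [sub_sub_sub_comm, add_mul]
      exact (abs_sub _ _).trans (add_le_add h1 h2)
    · rw [abs_div, abs_of_pos (by linarith : 0 < 2 * B + 1), div_le_one (by linarith)]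
      exact (abs_sub _ _).trans (by linarith [hWb j m1 x, hWb (j + 1) m2 x])
  obtain ⟨K, hK⟩ := exists_lipschitz_sum (Finset.Icc 1 i.1) (fun _ => 2 * B + 1) hterm
  refine ⟨K, ?_⟩
  convert hK using 1
  funext x
  refine Finset.sum_congr rfl fun j _ => ?_
  field_simp

lemma W_eq_zero (hP : P.Valid) (hf : ContDiff ℝ 1 f) (hfc : HasCompactSupport f)
    (hR : ∀ y, f y ≠ 0 → ‖y‖ ≤ R) {j B : ℕ} (hjB : j - 1 ≤ B) (hB : B ≤ P.N) {x : Euc d}
    (hx : R + P.rho P.N ≤ ‖x‖) : P.W f j B x = 0 := by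
  obtain ⟨r, hr, e, -⟩ := exists_bandMax hf hfc (hP.rho_pos (j - 1)) (hP.rho_mono hjB) x
  rw [Params.W, ← e, ballAvg_eq_zero_of_far hR (by linarith [hr.2, hP.rho_mono hB])]

lemma G_compact (hP : P.Valid) (hf : ContDiff ℝ 1 f) (hfc : HasCompactSupport f)
    (hR : ∀ y, f y ≠ 0 → ‖y‖ ≤ R) {i : Comp d} (hi : i ∈ P.comps 1) :
    tsupport (P.G f i) ⊆ closedBall 0 (R + P.rho P.N) := by
  refine closure_minimal (fun x hx => ?_) Metric.isClosed_closedBall
  rw [mem_closedBall_zero_iff]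
  by_contra h
  refine hx (Finset.sum_eq_zero fun j hj => ?_)
  have hj' := Finset.mem_Icc.1 hj
  have hi1 := (mem_comps.1 hi).1
  rw [W_eq_zero hP hf hfc hR (by omega) hi1.2 (not_le.1 h).le,
    W_eq_zero hP hf hfc hR (by omega) hi1.2 (not_le.1 h).le, sub_zero, mul_zero]

lemma band_compact (hP : P.Valid) (hf : ContDiff ℝ 1 f) (hfc : HasCompactSupport f)
    (hR : ∀ y, f y ≠ 0 → ‖y‖ ≤ R) :
    tsupport (bandMax f (P.rho 0) (P.rho P.N)) ⊆ closedBall 0 (R + P.rho P.N) := by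
  refine closure_minimal (fun x hx => ?_) Metric.isClosed_closedBall
  rw [mem_closedBall_zero_iff]
  by_contra h
  exact hx (W_eq_zero (j := 1) hP hf hfc hR (Nat.zero_le _) le_rfl (not_le.1 h).le)

/-- The error at a point. -/
def errFun (P : Params d) (v : Euc d → Euc d) (Bud : ℕ → Euc d → ℝ) (x : Euc d) : ℝ :=
  3 * (∑ J ∈ Finset.Icc 1 P.N, Bud J x) +
    (∑ j ∈ Finset.Icc 1 P.N, d * (P.varW (lam0 d) j x / P.rho j) *
      ∫ r in Icc (P.rho (j - 1)) (P.rho j), |rAvg v x r|) +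
    ∑ B ∈ Finset.Icc 1 P.N, ∑ c ∈ P.grid B,
      P.q B ⟨B, c⟩ x * |dAvg v x (P.rho B) (P.dir B c)|

lemma errFun_nonneg (hP : P.Valid) {v : Euc d → Euc d} {Bud : ℕ → Euc d → ℝ}
    (hb : ∀ J x, 0 ≤ Bud J x) (x : Euc d) : 0 ≤ errFun P v Bud x :=
  add_nonneg (add_nonneg (mul_nonneg (by norm_num) (Finset.sum_nonneg fun J _ => hb J x))
    (Finset.sum_nonneg fun j _ => mul_nonneg (mul_nonneg (Nat.cast_nonneg d)
      (div_nonneg (varW_nonneg _ _ _) (hP.rho_pos j).le))
      (setIntegral_nonneg measurableSet_Icc fun r _ => abs_nonneg _)))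
    (Finset.sum_nonneg fun B _ => Finset.sum_nonneg fun c _ =>
      mul_nonneg (q_nonneg _ _ _) (abs_nonneg _))

/-- The variation of the band maximum against the error. -/
lemma lintegral_gradient_le (hP : P.Valid) (hf : ContDiff ℝ 1 f) (hfc : HasCompactSupport f)
    (hv : P.v = ∇ f) (hN : 1 ≤ P.N) (hBig : P.Big R) (hR : ∀ y, f y ≠ 0 → ‖y‖ ≤ R)
    {εf Lam C₀ : ℝ} {Bud : ℕ → Euc d → ℝ} {E : ℕ → Euc d → ℝ → ℝ}
    (hB : Budgeted P εf Lam C₀ Bud E) (hε : P.ε = εf / 4) {δ : ℝ} (hδ0 : 0 < δ)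
    (hδ : δ ≤ εf / 4) (hδ1 : δ ≤ 1 / 2) :
    ENNReal.ofReal δ * ∫⁻ x, ‖∇ (bandMax f (P.rho 0) (P.rho P.N)) x‖ₑ ≤
      ∫⁻ x in closedBall 0 (R + P.rho P.N), ENNReal.ofReal (errFun P (∇ f) Bud x) := by
  classical
  set M := bandMax f (P.rho 0) (P.rho P.N)
  set U := closedBall (0 : Euc d) (R + P.rho P.N)
  obtain ⟨L, hL⟩ := hf.lipschitzWith_of_hasCompactSupport hfc one_ne_zero
  have hML : LipschitzWith L M :=
    lipschitz_bandMax hf hfc hL (hP.rho_pos 0) (hP.rho_mono (Nat.zero_le _))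
  have hU : IsCompact U := isCompact_closedBall _ _
  have hMc : HasCompactSupport M :=
    hU.of_isClosed_subset (isClosed_tsupport _) (band_compact hP hf hfc hR)
  have hGi : ∀ i ∈ P.comps 1, Integrable (fun x => fderiv ℝ (P.G f i) x (P.compDir i)) ∧
      ∫ x, fderiv ℝ (P.G f i) x (P.compDir i) = 0 := by
    intro i hi
    obtain ⟨K, hK⟩ := lipschitz_G hP hf hfc hR hi
    exact integral_fderiv_eq_zero hK
      (hU.of_isClosed_subset (isClosed_tsupport _) (G_compact hP hf hfc hR hi)) _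
  have hMi := integrable_norm_gradient hML hMc
  set H := fun x => δ * ‖∇ M x‖ - ∑ i ∈ P.comps 1, fderiv ℝ (P.G f i) x (P.compDir i) with hH
  have hHi : Integrable H :=
    (hMi.const_mul δ).sub (integrable_finsetSum _ fun i hi => (hGi i hi).1)
  have e1 : ∫ x, H x = δ * ∫ x, ‖∇ M x‖ := by
    simp only [hH]
    rw [integral_sub (hMi.const_mul δ) (integrable_finsetSum _ fun i hi => (hGi i hi).1),
      integral_finsetSum _ fun i hi => (hGi i hi).1, Finset.sum_eq_zero fun i hi => (hGi i hi).2,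
      sub_zero, integral_const_mul]
  have hle : ENNReal.ofReal (∫ x, H x) ≤ ∫⁻ x, ENNReal.ofReal (H x) := by
    refine (ENNReal.ofReal_le_ofReal (integral_mono hHi (g := fun x => max (H x) 0)
      hHi.pos_part fun x => le_max_left _ _)).trans (le_of_eq ?_)
    rw [ofReal_integral_eq_lintegral_ofReal hHi.pos_part (ae_of_all _ fun x => le_max_right _ _)]
    exact lintegral_congr fun x => by simp [ENNReal.ofReal_max]
  have hq : ∀ᵐ x, ∀ j ∈ Finset.Icc 1 P.N, ∀ i ∈ P.comps j, DifferentiableAt ℝ (P.q j i) x := by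
    simp only [Filter.eventually_all_finset]
    intro j hj i hi
    obtain ⟨K, hK⟩ := hP.exists_lipschitz_q (Finset.mem_Icc.1 hj).2 i hi
    exact hK.ae_differentiableAt
  have hW : ∀ᵐ x, ∀ B ∈ Finset.Icc 1 P.N, ∀ j ∈ Finset.Icc 1 (B + 1),
      DifferentiableAt ℝ (P.W f j B) x := by
    simp only [Filter.eventually_all_finset]
    intro B _ j hj
    exact (lipschitz_bandMax hf hfc hL (hP.rho_pos _) (hP.rho_mono
      (show j - 1 ≤ B by have := Finset.mem_Icc.1 hj; omega))).ae_differentiableAt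
  calc ENNReal.ofReal δ * ∫⁻ x, ‖∇ M x‖ₑ = ENNReal.ofReal (∫ x, H x) := by
        rw [e1, ENNReal.ofReal_mul hδ0.le, ofReal_integral_eq_lintegral_ofReal hMi
          (ae_of_all _ fun x => norm_nonneg _)]
        simp only [ofReal_norm]
    _ ≤ ∫⁻ x, ENNReal.ofReal (H x) := hle
    _ ≤ _ := by
        rw [← lintegral_indicator measurableSet_closedBall]
        refine lintegral_mono_ae ?_
        filter_upwards [hq, hW, hML.ae_differentiableAt] with x hxq hxW hxM
        by_cases hx : x ∈ U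
        · rw [indicator_of_mem hx]
          refine ENNReal.ofReal_le_ofReal (calibrate_le hP hB hf hfc hv hN hε hδ0 hδ hδ1 ?_
            hxM hxW hxq)
          have := mem_closedBall_zero_iff.1 hx
          linarith [hBig.2, hP.rho_pos P.N]
        · rw [indicator_of_notMem hx]
          refine le_of_eq (ENNReal.ofReal_eq_zero.2 (le_of_eq ?_))
          have h0 : ∇ M x = 0 := by
            rw [← norm_eq_zero, norm_gradient,
              fderiv_of_notMem_tsupport ℝ fun h => hx (band_compact hP hf hfc hR h), norm_zero]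
          simp only [hH, h0, norm_zero, mul_zero, zero_sub, neg_eq_zero]
          refine Finset.sum_eq_zero fun i hi => ?_
          rw [fderiv_of_notMem_tsupport ℝ fun h => hx (G_compact hP hf hfc hR hi h)]
          rfl

end Global

end Vale.Agent.P137.Centred
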