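import Vale.Agent.P137.Radius

/-!
# P137, centred operator: the ball averaging operator
-/

open MeasureTheory Filter Set Metric
open scoped ENNReal NNReal Topology RealInnerProductSpace

noncomputable section

namespace Vale.Agent.P137.Centred

variable {d : ℕ} {E : Type*} [NormedAddCommGroup E] [NormedSpace ℝ E]

/-- Average of `g` over the ball of radius `r`, as a function of the centre. -/
def bavg (r : ℝ) (g : Euc d → E) (x : Euc d) : E :=
  (ballVol d)⁻¹ • ∫ u in ball (0 : Euc d) 1, g (x + r • u)

instance unitBallFinite :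
    IsFiniteMeasure ((volume : Measure (Euc d)).restrict (ball (0 : Euc d) 1)) :=
  ⟨by rw [Measure.restrict_apply_univ]; exact measure_ball_lt_top⟩

lemma measureReal_unitBall :
    ((volume : Measure (Euc d)).restrict (ball (0 : Euc d) 1)).real univ = ballVol d := by
  simp [Measure.real, ballVol]

variable {g : Euc d → E} {r : ℝ}

omit [NormedSpace ℝ E] in
lemma integrable_unitBall (hg : Continuous g) (x : Euc d) (r : ℝ) :
    IntegrableOn (fun u => g (x + r • u)) (ball (0 : Euc d) 1) :=
  (((hg.comp (by fun_prop : Continuous fun u : Euc d => x + r • u)).continuousOn).integrableOn_compact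
    (isCompact_closedBall (0 : Euc d) 1)).mono_set ball_subset_closedBall

lemma bavg_const [CompleteSpace E] (c : E) (r : ℝ) (x : Euc d) : bavg r (fun _ => c) x = c := by
  rw [bavg, integral_const, measureReal_unitBall, smul_smul,
    inv_mul_cancel₀ ballVol_pos.ne', one_smul]

lemma bavg_eq_ballAvg {h : Euc d → ℝ} (x : Euc d) (hr : 0 < r) :
    bavg r h x = ballAvg h x r := by
  rw [bavg, ballAvg_eq_unit h x hr, smul_eq_mul]

lemma continuous_bavg (hg : Continuous g) (r : ℝ) : Continuous (bavg r g) := by
  refine Continuous.const_smul ?_ _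
  refine continuous_iff_continuousAt.2 fun x₀ => ?_
  obtain ⟨B, hB⟩ := (isCompact_closedBall x₀ (1 + |r|)).exists_bound_of_continuousOn hg.continuousOn
  refine continuousAt_of_dominated (bound := fun _ => B)
    (Eventually.of_forall fun x => (hg.comp (by fun_prop :
      Continuous fun u : Euc d => x + r • u)).aestronglyMeasurable) ?_ (integrable_const B)
    (ae_of_all _ fun u => (hg.comp (by fun_prop :
      Continuous fun x : Euc d => x + r • u)).continuousAt)
  filter_upwards [ball_mem_nhds x₀ one_pos] with x hx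
  refine (ae_restrict_iff' measurableSet_ball).2 (ae_of_all _ fun u hu => hB _ ?_)
  rw [mem_closedBall, dist_eq_norm, add_sub_right_comm]
  refine (norm_add_le _ _).trans (add_le_add (mem_ball_iff_norm.1 hx).le ?_)
  rw [norm_smul, Real.norm_eq_abs]
  exact mul_le_of_le_one_right (abs_nonneg r) (mem_ball_zero_iff.1 hu).le

lemma hasCompactSupport_bavg (hgc : HasCompactSupport g) (r : ℝ) :
    HasCompactSupport (bavg r g) := by
  refine HasCompactSupport.intro (IsCompact.cthickening (r := |r|) hgc) fun x hx => ?_
  rw [bavg, setIntegral_eq_zero_of_forall_eq_zero, smul_zero]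
  intro u hu
  refine image_eq_zero_of_notMem_tsupport fun h => hx ?_
  refine mem_cthickening_of_dist_le x (x + r • u) |r| _ h ?_
  rw [dist_self_add_right, norm_smul, Real.norm_eq_abs]
  exact mul_le_of_le_one_right (abs_nonneg r) (mem_ball_zero_iff.1 hu).le

lemma integrable_bavg (hg : Continuous g) (hgc : HasCompactSupport g) (r : ℝ) :
    Integrable (bavg r g) :=
  (continuous_bavg hg r).integrable_of_hasCompactSupport (hasCompactSupport_bavg hgc r)

lemma norm_bavg_le (g : Euc d → E) (r : ℝ) (x : Euc d) :
    ‖bavg r g x‖ ≤ bavg r (fun y => ‖g y‖) x := by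
  rw [bavg, bavg, norm_smul, Real.norm_eq_abs, abs_of_pos (inv_pos.2 ballVol_pos), smul_eq_mul]
  exact mul_le_mul_of_nonneg_left (norm_integral_le_integral_norm _) (inv_pos.2 ballVol_pos).le

lemma bavg_inner {F : Type*} [NormedAddCommGroup F] [InnerProductSpace ℝ F] [CompleteSpace F]
    {g : Euc d → F} (hg : Continuous g) (c : F) (r : ℝ) (x : Euc d) :
    bavg r (fun y => ⟪g y, c⟫) x = ⟪bavg r g x, c⟫ := by
  have h := integral_inner (𝕜 := ℝ) (integrable_unitBall hg x r) c
  simp only [bavg, smul_eq_mul, real_inner_smul_left]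
  congr 1
  rw [real_inner_comm, ← h]
  simp only [real_inner_comm]

lemma bavg_sub {h₁ h₂ : Euc d → E} (h1 : Continuous h₁) (h2 : Continuous h₂) (r : ℝ) (x : Euc d) :
    bavg r (fun y => h₁ y - h₂ y) x = bavg r h₁ x - bavg r h₂ x := by
  rw [bavg, bavg, bavg, ← smul_sub,
    integral_sub (integrable_unitBall h1 x r) (integrable_unitBall h2 x r)]

lemma bavg_add {h₁ h₂ : Euc d → E} (h1 : Continuous h₁) (h2 : Continuous h₂) (r : ℝ) (x : Euc d) :
    bavg r (fun y => h₁ y + h₂ y) x = bavg r h₁ x + bavg r h₂ x := by
  rw [bavg, bavg, bavg, ← smul_add,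
    integral_add (integrable_unitBall h1 x r) (integrable_unitBall h2 x r)]

lemma bavg_mono {h₁ h₂ : Euc d → ℝ} (h1 : Continuous h₁) (h2 : Continuous h₂)
    (h : ∀ y, h₁ y ≤ h₂ y) (r : ℝ) (x : Euc d) : bavg r h₁ x ≤ bavg r h₂ x :=
  mul_le_mul_of_nonneg_left
    (integral_mono (integrable_unitBall h1 x r) (integrable_unitBall h2 x r) fun _ => h _)
    (inv_pos.2 ballVol_pos).le

lemma bavg_nonneg {h : Euc d → ℝ} (h0 : ∀ y, 0 ≤ h y) (r : ℝ) (x : Euc d) : 0 ≤ bavg r h x :=
  mul_nonneg (inv_pos.2 ballVol_pos).le (integral_nonneg fun _ => h0 _)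

/-- The averaging operator is self-adjoint. -/
lemma integral_bavg_mul {h φ : Euc d → ℝ} (hh : Continuous h) (hhc : HasCompactSupport h)
    (hφ : Continuous φ) (r : ℝ) :
    ∫ x, bavg r h x * φ x = ∫ x, h x * bavg r φ x := by
  set B := ball (0 : Euc d) 1
  have hint : Integrable (Function.uncurry fun (x : Euc d) (u : Euc d) => h (x + r • u) * φ x)
      ((volume : Measure (Euc d)).prod ((volume : Measure (Euc d)).restrict B)) := by
    obtain ⟨C, hC⟩ := hhc.exists_bound_of_continuous hh
    set S := cthickening |r| (tsupport h)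
    have hS : IsCompact S := IsCompact.cthickening hhc
    obtain ⟨D, hD⟩ := hS.exists_bound_of_continuousOn hφ.continuousOn
    refine Integrable.mono' (g := fun p => S.indicator (fun _ => C * D) p.1)
      ((integrable_indicator_iff hS.measurableSet).2
        (integrableOn_const (hS.measure_lt_top.ne)) |>.comp_fst _)
      (Continuous.aestronglyMeasurable (by unfold Function.uncurry; fun_prop)) ?_
    have hu : ∀ᵐ p : Euc d × Euc d ∂(volume.prod (volume.restrict B)), p.2 ∈ B :=
      Measure.quasiMeasurePreserving_snd.ae (ae_restrict_mem measurableSet_ball)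
    filter_upwards [hu] with p hp
    by_cases hx : p.1 ∈ S
    · rw [indicator_of_mem hx, Function.uncurry, norm_mul]
      exact mul_le_mul (hC _) (hD _ hx) (norm_nonneg _) ((norm_nonneg _).trans (hC 0))
    · rw [indicator_of_notMem hx, Function.uncurry]
      have : h (p.1 + r • p.2) = 0 := image_eq_zero_of_notMem_tsupport fun h' => hx (by
        refine mem_cthickening_of_dist_le p.1 _ |r| _ h' ?_
        rw [dist_self_add_right, norm_smul, Real.norm_eq_abs]
        exact mul_le_of_le_one_right (abs_nonneg r) (mem_ball_zero_iff.1 hp).le)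
      simp [this]
  have key : ∀ u : Euc d, ∫ x, h (x + r • u) * φ x = ∫ x, h x * φ (x + r • (-u)) := fun u => by
    rw [← integral_add_right_eq_self (fun x => h x * φ (x + r • (-u))) (r • u)]
    simp [add_assoc]
  have e1 : ∀ x, bavg r h x * φ x = (ballVol d)⁻¹ * ∫ u in B, h (x + r • u) * φ x := fun x => by
    rw [bavg, smul_eq_mul, integral_mul_const, mul_assoc]
  simp_rw [e1]
  rw [integral_const_mul, integral_integral_swap hint]
  simp_rw [key]
  have e2 : ∫ u in B, ∫ x, h x * φ (x + r • (-u)) = ∫ u in B, ∫ x, h x * φ (x + r • u) := by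
    rw [← integral_indicator measurableSet_ball, ← integral_indicator measurableSet_ball,
      ← integral_neg_eq_self]
    refine integral_congr_ae (ae_of_all _ fun u => ?_)
    by_cases hu : u ∈ B
    · have hu' : -u ∈ B := by simpa [B] using hu
      simp [B] at hu hu'; simp [hu]
    · have hu' : -u ∉ B := by simpa [B] using hu
      simp [B] at hu hu'; simp [hu.not_gt]
  rw [e2]
  have hint2 : Integrable (Function.uncurry fun (x : Euc d) (u : Euc d) => h x * φ (x + r • u))
      ((volume : Measure (Euc d)).prod ((volume : Measure (Euc d)).restrict B)) := by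
    obtain ⟨C, hC⟩ := hhc.exists_bound_of_continuous hh
    set S := tsupport h
    obtain ⟨D, hD⟩ := (IsCompact.cthickening (r := |r|) hhc).exists_bound_of_continuousOn
      hφ.continuousOn
    refine Integrable.mono' (g := fun p => S.indicator (fun _ => C * D) p.1)
      ((integrable_indicator_iff hhc.measurableSet).2
        (integrableOn_const (IsCompact.measure_lt_top hhc).ne) |>.comp_fst _)
      (Continuous.aestronglyMeasurable (by unfold Function.uncurry; fun_prop)) ?_
    have hu : ∀ᵐ p : Euc d × Euc d ∂(volume.prod (volume.restrict B)), p.2 ∈ B :=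
      Measure.quasiMeasurePreserving_snd.ae (ae_restrict_mem measurableSet_ball)
    filter_upwards [hu] with p hp
    by_cases hx : p.1 ∈ S
    · rw [indicator_of_mem hx, Function.uncurry, norm_mul]
      refine mul_le_mul (hC _) (hD _ ?_) (norm_nonneg _) ((norm_nonneg _).trans (hC 0))
      refine mem_cthickening_of_dist_le _ p.1 |r| _ hx ?_
      rw [dist_self_add_left, norm_smul, Real.norm_eq_abs]
      exact mul_le_of_le_one_right (abs_nonneg r) (mem_ball_zero_iff.1 hp).le
    · rw [indicator_of_notMem hx, Function.uncurry]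
      simp [image_eq_zero_of_notMem_tsupport hx]
  rw [← integral_integral_swap hint2, ← integral_const_mul]
  refine integral_congr_ae (ae_of_all _ fun x => ?_)
  simp only [bavg, smul_eq_mul, integral_const_mul]
  ring

lemma integral_bavg {h : Euc d → ℝ} (hh : Continuous h) (hhc : HasCompactSupport h) (r : ℝ) :
    ∫ x, bavg r h x = ∫ x, h x := by
  simpa [bavg_const] using integral_bavg_mul hh hhc (φ := fun _ => 1) continuous_const r

/-- The average of a squared distance grows by at most the squared radius. -/
lemma bavg_sqDist_le (c x : Euc d) (r : ℝ) :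
    bavg r (fun y => ‖y - c‖ ^ 2) x ≤ ‖x - c‖ ^ 2 + r ^ 2 := by
  set B := ball (0 : Euc d) 1
  have hodd : ∫ u in B, ⟪x - c, u⟫ = 0 := by
    have h : ∫ u in B, ⟪x - c, u⟫ = -∫ u in B, ⟪x - c, u⟫ := by
      rw [← integral_neg, ← integral_indicator measurableSet_ball,
        ← integral_indicator measurableSet_ball, ← integral_neg_eq_self]
      refine integral_congr_ae (ae_of_all _ fun u => ?_)
      by_cases hu : u ∈ B
      · have hu' : -u ∈ B := by simpa [B] using hu
        simp [B] at hu hu'; simp [hu]
      · have hu' : -u ∉ B := by simpa [B] using hu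
        simp [B] at hu hu'; simp [hu.not_gt]
    linarith
  have e : ∀ u, ‖x + r • u - c‖ ^ 2 = ‖x - c‖ ^ 2 + 2 * r * ⟪x - c, u⟫ + r ^ 2 * ‖u‖ ^ 2 := by
    intro u
    rw [add_sub_right_comm, norm_add_sq_real, inner_smul_right, norm_smul, Real.norm_eq_abs,
      mul_pow, sq_abs]
    ring
  have hi1 : IntegrableOn (fun u : Euc d => ⟪x - c, u⟫) B := by
    simpa using integrable_unitBall (g := fun u : Euc d => ⟪x - c, u⟫) (by fun_prop) 0 1
  have hi2 : IntegrableOn (fun u : Euc d => ‖u‖ ^ 2) B := by
    simpa using integrable_unitBall (g := fun u : Euc d => ‖u‖ ^ 2) (by fun_prop) 0 1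
  calc bavg r (fun y => ‖y - c‖ ^ 2) x
      ≤ (ballVol d)⁻¹ * ∫ u in B, (‖x - c‖ ^ 2 + r ^ 2 + 2 * r * ⟪x - c, u⟫) := by
        simp only [bavg, smul_eq_mul]
        refine mul_le_mul_of_nonneg_left ?_ (inv_pos.2 ballVol_pos).le
        refine setIntegral_mono_on ?_ ((integrable_const _).add (hi1.const_mul _)) measurableSet_ball
          fun u hu => ?_
        · simp only [e]
          exact ((integrable_const (‖x - c‖ ^ 2)).add (hi1.const_mul (2 * r))).add
            (hi2.const_mul (r ^ 2))
        · rw [e]
          have : ‖u‖ ^ 2 ≤ 1 := pow_le_one₀ (norm_nonneg u) (mem_ball_zero_iff.1 hu).le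
          nlinarith [sq_nonneg r]
    _ = _ := by
        rw [integral_add (integrable_const _) (hi1.const_mul _), integral_const_mul, hodd,
          integral_const, measureReal_unitBall, smul_eq_mul, mul_zero, add_zero, ← mul_assoc,
          inv_mul_cancel₀ ballVol_pos.ne', one_mul]

end Vale.Agent.P137.Centred
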