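import Vale.Agent.P137.Centred.Weights

/-!
# P137, centred operator: the killed mass of the calibrator is bounded by the total mass
-/

open MeasureTheory Filter Set Metric Finset
open scoped ENNReal NNReal Topology RealInnerProductSpace

noncomputable section

namespace Vale.Agent.P137.Centred

variable {d : ℕ} {s : ℝ} {h φ : Euc d → ℝ}

/-- The adjoint of `iter`. -/
def iterR (s : ℝ) (n : ℕ) : ℕ → (Euc d → ℝ) → Euc d → ℝ
  | 0, φ => φ
  | m + 1, φ => iterR s n m (bavg (s * 2 ^ (n + m)) φ)

lemma continuous_iterR (n : ℕ) : ∀ m {φ : Euc d → ℝ}, Continuous φ → Continuous (iterR s n m φ)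
  | 0, _, hφ => hφ
  | m + 1, _, hφ => continuous_iterR n m (continuous_bavg hφ _)

lemma integral_iter_mul (hh : Continuous h) (hhc : HasCompactSupport h) (n : ℕ) :
    ∀ m {φ : Euc d → ℝ}, Continuous φ →
      ∫ y, iter s n m h y * φ y = ∫ y, h y * iterR s n m φ y
  | 0, _, _ => rfl
  | m + 1, _, hφ =>
    (integral_bavg_mul (continuous_iter hh n m) (hasCompactSupport_iter hhc n m) hφ _).trans
      (integral_iter_mul hh hhc n m (continuous_bavg hφ _))

lemma abs_iterR_sub_le (hs : 0 ≤ s) (n : ℕ) : ∀ m {φ : Euc d → ℝ}, Continuous φ → ∀ y a b,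
    (∀ z, ‖z - y‖ ≤ ∑ j ∈ Finset.range m, s * 2 ^ (n + j) → |φ z - a| ≤ b) →
      |iterR s n m φ y - a| ≤ b
  | 0, _, _, y, _, _, hz => hz y (by simp)
  | m + 1, φ, hφ, y, a, b, hz => by
    refine abs_iterR_sub_le hs n m (continuous_bavg hφ _) y a b fun w hw => ?_
    set r := s * 2 ^ (n + m) with hr
    have hr0 : 0 ≤ r := by positivity
    rw [← bavg_const a r w, ← bavg_sub hφ continuous_const]
    refine (norm_bavg_le (fun z => φ z - a) r w).trans ?_
    rw [bavg, smul_eq_mul, inv_mul_le_iff₀ ballVol_pos]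
    refine (setIntegral_mono_on (integrable_unitBall (g := fun z => ‖φ z - a‖) (by fun_prop) w r)
      (integrable_const b) measurableSet_ball fun u hu => hz _ ?_).trans_eq ?_
    · rw [Finset.sum_range_succ, add_sub_right_comm]
      refine (norm_add_le _ _).trans (add_le_add hw ?_)
      rw [norm_smul, Real.norm_eq_abs, abs_of_nonneg hr0]
      exact mul_le_of_le_one_right hr0 (mem_ball_zero_iff.1 hu).le
    · rw [integral_const, measureReal_unitBall, smul_eq_mul]

lemma integrable_mul_bdd (hh : Continuous h) (hhc : HasCompactSupport h) (hφm : Measurable φ)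
    (hφ0 : ∀ y, 0 ≤ φ y) {B : ℝ} (hφB : ∀ y, φ y ≤ B) : Integrable fun y => h y * φ y :=
  (hh.integrable_of_hasCompactSupport hhc).mul_bdd (c := B) hφm.aestronglyMeasurable
    (ae_of_all _ fun y => by rw [Real.norm_eq_abs, abs_of_nonneg (hφ0 y)]; exact hφB y)

/-- Mass is transported to coarser levels. -/
lemma integral_mul_le_iter (hh : Continuous h) (hhc : HasCompactSupport h) (h0 : ∀ y, 0 ≤ h y)
    (hs : 0 < s) (n k : ℕ) {φ' : Euc d → ℝ} (hφm : Measurable φ) (hφ'm : Measurable φ')
    {B : ℝ} (hφ0 : ∀ y, 0 ≤ φ y) (hφB : ∀ y, φ y ≤ B) (hφ'0 : ∀ y, 0 ≤ φ' y)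
    (hφ'B : ∀ y, φ' y ≤ B)
    (hle : ∀ x y, h y ≠ 0 → ‖x - y‖ < s * 2 ^ (n + k) / 2 → φ y ≤ φ' x) :
    ∫ y, h y * φ y ≤ 3 * 2 ^ d * ∫ x, iter s n (k + 1) h x * φ' x := by
  classical
  set r := s * 2 ^ (n + k) / 2 with hr_def
  have hr : 0 < r := by positivity
  set H := fun (x y : Euc d) => (ball x r).indicator (fun y => h y * φ' x) y with hH
  set G := fun (x y : Euc d) => (ball x r).indicator (fun y => h y * φ y) y with hG
  obtain ⟨Bh, hBh⟩ := hhc.exists_bound_of_continuous hh
  set S := cthickening r (tsupport h) with hS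
  have hSc : IsCompact S := IsCompact.cthickening hhc
  have hball : MeasurableSet {p : Euc d × Euc d | dist p.2 p.1 < r} :=
    measurableSet_lt (by fun_prop) measurable_const
  have hdom : ∀ (f : Euc d × Euc d → ℝ), Measurable f → (∀ p, 0 ≤ f p ∧ f p ≤ B) →
      Integrable (fun p : Euc d × Euc d => (ball p.1 r).indicator (fun y => h y * f (p.1, y)) p.2)
        ((volume : Measure (Euc d)).prod volume) := by
    intro f hfm hf
    refine Integrable.mono' (g := fun p => S.indicator (fun _ => (1 : ℝ)) p.1 * (B * |h p.2|))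
      (((integrable_indicator_iff hSc.measurableSet).2
        (integrableOn_const hSc.measure_lt_top.ne)).mul_prod
        ((hh.integrable_of_hasCompactSupport hhc).abs.const_mul B)) ?_ (ae_of_all _ fun p => ?_)
    · refine Measurable.aestronglyMeasurable ?_
      have e : (fun p : Euc d × Euc d => (ball p.1 r).indicator (fun y => h y * f (p.1, y)) p.2)
          = {p : Euc d × Euc d | dist p.2 p.1 < r}.indicator fun p => h p.2 * f p := by
        funext p; simp only [indicator_apply, mem_ball, mem_ofPred_eq]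
      rw [e]
      exact ((hh.measurable.comp measurable_snd).mul hfm).indicator hball
    · have hB0 : 0 ≤ B := (hf p).1.trans (hf p).2
      by_cases hp : p.2 ∈ ball p.1 r
      · rw [indicator_of_mem hp]
        by_cases h2 : h p.2 = 0
        · simp [h2]
        · rw [indicator_of_mem (show p.1 ∈ S from mem_cthickening_of_dist_le p.1 p.2 r _ (subset_closure (Function.mem_support.2 h2))
            (by rw [dist_comm]; exact (mem_ball.1 hp).le)), one_mul, norm_mul, mul_comm B,
            Real.norm_eq_abs, Real.norm_eq_abs, abs_of_nonneg (hf p).1]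
          exact mul_le_mul_of_nonneg_left (hf p).2 (abs_nonneg _)
      · rw [indicator_of_notMem hp, norm_zero]
        exact mul_nonneg (indicator_nonneg (fun _ _ => zero_le_one) _)
          (mul_nonneg hB0 (abs_nonneg _))
  have hGi : Integrable (Function.uncurry G) ((volume : Measure (Euc d)).prod volume) :=
    hdom (fun p => φ p.2) (hφm.comp measurable_snd) fun p => ⟨hφ0 _, hφB _⟩
  have hHi : Integrable (Function.uncurry H) ((volume : Measure (Euc d)).prod volume) :=
    hdom (fun p => φ' p.1) (hφ'm.comp measurable_fst) fun p => ⟨hφ'0 _, hφ'B _⟩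
  have e1 : (r ^ d * ballVol d) * ∫ y, h y * φ y = ∫ x, ∫ y, G x y := by
    rw [integral_integral_swap hGi, ← integral_const_mul]
    refine integral_congr_ae (ae_of_all _ fun y => ?_)
    have e : (fun x => G x y) = (ball y r).indicator fun _ => h y * φ y := by
      funext x; simp only [hG, indicator_apply, mem_ball, dist_comm y x]
    simp only [e, integral_indicator measurableSet_ball, setIntegral_const, measureReal_def,
      volume_ball_toReal y hr, smul_eq_mul]
  have e2 : ∫ x, ∫ y, G x y ≤ ∫ x, ∫ y, H x y := by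
    refine integral_mono_ae hGi.integral_prod_left hHi.integral_prod_left ?_
    filter_upwards [hGi.prod_right_ae, hHi.prod_right_ae] with x hx hx'
    refine integral_mono hx hx' fun y => ?_
    simp only [hG, hH, indicator_apply]
    split_ifs with hy
    · by_cases h2 : h y = 0
      · simp [h2]
      · refine mul_le_mul_of_nonneg_left (hle x y h2 ?_) (h0 y)
        rw [← dist_eq_norm, dist_comm]
        exact mem_ball.1 hy
    · exact le_rfl
  set ρ := s * 2 ^ (n + k) with hρ
  have e3 : ∫ x, ∫ y, H x y ≤ 3 * (ρ ^ d * ballVol d) * ∫ x, iter s n (k + 1) h x * φ' x := by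
    rw [← integral_const_mul]
    refine integral_mono hHi.integral_prod_left
      ((integrable_mul_bdd (continuous_iter hh n (k + 1)) (hasCompactSupport_iter hhc n (k + 1))
        hφ'm hφ'0 hφ'B).const_mul _) fun x => ?_
    simp only [hH, integral_indicator measurableSet_ball, integral_mul_const]
    rw [← mul_assoc]
    exact mul_le_mul_of_nonneg_right (setIntegral_le_iter hh hhc h0 hs n k x) (hφ'0 x)
  have hrd : 0 < r ^ d * ballVol d := mul_pos (pow_pos hr d) ballVol_pos
  refine le_of_mul_le_mul_left ((e1.le.trans (e2.trans e3)).trans (le_of_eq ?_)) hrd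
  rw [hr_def, div_pow]
  field_simp

lemma norm_le_of_hier_ne_zero {v : Euc d → Euc d} {R : ℝ} (hsupp : ∀ x, v x ≠ 0 → ‖x‖ ≤ R)
    (hs : 0 ≤ s) : ∀ n x, hier v s n x ≠ 0 → ‖x‖ ≤ R + s * 2 ^ n
  | 0, x, hx => (hsupp x hx).trans (by simp [hs])
  | n + 1, x, hx => by
    obtain ⟨u, hu, hu'⟩ : ∃ u ∈ ball (0 : Euc d) 1, hier v s n (x + (s * 2 ^ n) • u) ≠ 0 := by
      by_contra hcon
      push Not at hcon
      exact hx (by rw [hier, bavg, setIntegral_eq_zero_of_forall_eq_zero hcon, smul_zero])
    have h1 := norm_le_of_hier_ne_zero hsupp hs n _ hu'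
    have h2 : ‖x‖ ≤ ‖x + (s * 2 ^ n) • u‖ + ‖(s * 2 ^ n) • u‖ := by
      simpa using norm_sub_le (x + (s * 2 ^ n) • u) ((s * 2 ^ n) • u)
    have h3 : ‖(s * 2 ^ n) • u‖ ≤ s * 2 ^ n := by
      rw [norm_smul, Real.norm_eq_abs, abs_of_nonneg (by positivity)]
      exact mul_le_of_le_one_right (by positivity) (mem_ball_zero_iff.1 hu).le
    rw [pow_succ]
    linarith

namespace Params

variable {P : Params d}

/-- Mass of block `K` against the killing of block `J`. -/
def cross (P : Params d) (K J : ℕ) : ℝ := ∫ y, ‖P.F K y‖ * P.S (lam0 d) J y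

/-- Mass killed in block `J`. -/
def killMass (P : Params d) (lam : ℝ) (J : ℕ) : ℝ := ∫ y, ‖P.F J y‖ * P.S lam J y

/-- The drop of the potential in block `J`. -/
def drop (P : Params d) (J : ℕ) : ℝ :=
  ∫ y, (⟪P.F J y, P.Qv J y⟫ - ⟪P.F J y, P.Qv (J + 1) y⟫)

/-- The ratio of two scales. -/
def decay (P : Params d) (j : ℕ) : ℝ := ((2 : ℝ) ^ P.M)⁻¹ ^ j

/-- Mass of block `K` against older killings. -/
def older (P : Params d) (K : ℕ) : ℝ :=
  ∑ I ∈ Finset.Ico (K + 2) P.N, P.decay (I - K - 1) * P.cross K I

/-- The support is well inside the cube. -/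
def Big (P : Params d) (R : ℝ) : Prop :=
  (∀ x, P.v x ≠ 0 → ‖x‖ ≤ R) ∧ R + 2 * P.rho P.N ≤ P.Ω

lemma decay_nonneg (j : ℕ) : 0 ≤ P.decay j := by unfold Params.decay; positivity

lemma decay_succ (j : ℕ) : P.decay (j + 1) = ((2 : ℝ) ^ P.M)⁻¹ * P.decay j := by
  rw [Params.decay, pow_succ', Params.decay]

lemma Valid.rho_div (hP : P.Valid) {J I : ℕ} (h : J ≤ I) :
    P.rho J / P.rho I = P.decay (I - J) := by
  obtain ⟨j, rfl⟩ := Nat.exists_eq_add_of_le h
  rw [Nat.add_sub_cancel_left, Params.decay, Params.rho, Params.rho, mul_add, pow_add, inv_pow,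
    ← pow_mul]
  have := hP.hs.ne'
  field_simp

lemma Valid.sum_decay_le (hP : P.Valid) {n : ℕ} : ∑ j ∈ Finset.range n, P.decay j ≤ 2 := by
  have h2 : ((2 : ℝ) ^ P.M)⁻¹ ≤ 1 / 2 := by
    rw [one_div]
    exact inv_anti₀ two_pos (by
      simpa using pow_le_pow_right₀ (one_le_two : (1:ℝ) ≤ 2) (hP.hm.trans hP.hmM))
  induction n with
  | zero => simp
  | succ n ih =>
    rw [sum_range_succ']
    simp only [decay_succ, ← mul_sum]
    have : 0 ≤ ∑ j ∈ Finset.range n, P.decay j := sum_nonneg fun j _ => decay_nonneg j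
    have h3 : P.decay 0 = 1 := pow_zero _
    nlinarith [mul_le_mul_of_nonneg_right h2 this]

lemma measurable_S (lam : ℝ) (J : ℕ) : Measurable (P.S lam J) := by
  classical
  unfold Params.S
  simp only [indicator_apply]
  refine Finset.measurable_sum _ fun c _ => ?_
  exact Measurable.ite measurableSet_closedBall
    (continuous_finsetSum _ fun i _ => (continuous_q _ i).mul continuous_const).measurable
    measurable_const

lemma Valid.S_le (hP : P.Valid) {J : ℕ} (hJ : J < P.N) (lam : ℝ) (y : Euc d) :
    P.S lam J y ≤ cnt d lam := by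
  refine (hP.sum_indicator_near_le lam J y zero_le_one fun c => killed_le_one hJ c y).trans_eq ?_
  rw [mul_one]

lemma cnt_nonneg (lam : ℝ) : 0 ≤ cnt d lam := by unfold cnt; positivity

lemma continuous_Qv (K : ℕ) : Continuous (P.Qv K) := by
  unfold Params.Qv
  exact continuous_finsetSum _ fun i _ => (continuous_q K i).smul continuous_const

lemma Valid.integrable_inner_Qv (hP : P.Valid) (K J : ℕ) :
    Integrable fun y => ⟪P.F K y, P.Qv J y⟫ := by
  refine ((hP.continuous_F K).inner (continuous_Qv J)).integrable_of_hasCompactSupport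
    ((hP.compact_F K).mono' fun y hy => subset_closure fun h0 => hy ?_)
  simp [h0]

lemma Valid.integrable_norm_mul_S (hP : P.Valid) (K : ℕ) {J : ℕ} (hJ : J < P.N) (lam : ℝ) :
    Integrable fun y => ‖P.F K y‖ * P.S lam J y :=
  integrable_mul_bdd (hP.continuous_F K).norm (hP.compact_F K).norm (measurable_S lam J)
    (S_nonneg lam J) (hP.S_le hJ lam)

lemma cross_nonneg (K J : ℕ) : 0 ≤ P.cross K J :=
  integral_nonneg fun _ => mul_nonneg (norm_nonneg _) (S_nonneg _ _ _)

lemma killMass_nonneg (lam : ℝ) (J : ℕ) : 0 ≤ P.killMass lam J :=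
  integral_nonneg fun _ => mul_nonneg (norm_nonneg _) (S_nonneg _ _ _)

lemma older_nonneg (K : ℕ) : 0 ≤ P.older K :=
  sum_nonneg fun _ _ => mul_nonneg (decay_nonneg _) (cross_nonneg _ _)

lemma Valid.integral_F_le (hP : P.Valid) (K : ℕ) : ∫ y, ‖P.F K y‖ ≤ ∫ y, ‖P.v y‖ :=
  by
  have h := antitone_integral_hier (s := P.s) hP.hv hP.hvc (Nat.zero_le (P.M * K))
  simpa only [Params.F, hier] using h

lemma Valid.abs_coord_le (hP : P.Valid) {R : ℝ} (hR : P.Big R) {K : ℕ} (hK : K ≤ P.N) {x y : Euc d}
    (hy : P.F K y ≠ 0) (hxy : ‖x - y‖ ≤ P.rho P.N) : ∀ j, |x j| ≤ P.Ω := by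
  intro j
  refine (PiLp.norm_apply_le x j).trans ?_
  have h1 : ‖y‖ ≤ R + P.rho K := norm_le_of_hier_ne_zero hR.1 hP.hs.le _ y hy
  have h2 := hP.rho_mono hK
  linarith [hR.2, norm_le_norm_add_norm_sub' x y]

/-- Killed mass may be moved by a distance of the scale of its block. -/
lemma Valid.S_le_add (hP : P.Valid) {J : ℕ} {lam t : ℝ} {x y : Euc d}
    (hxy : ‖x - y‖ ≤ t * P.rho J) :
    P.S lam J y ≤ P.S (lam + t) J x + cnt d lam * P.V (J + 1) x y := by
  have hV0 : 0 ≤ P.V (J + 1) x y := sum_nonneg fun i _ => abs_nonneg _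
  calc P.S lam J y
      ≤ ∑ c ∈ P.grid J, ((closedBall (P.pt J c) ((lam + t) * P.rho J)).indicator
          (fun _ => P.killed J c x) x +
        (closedBall (P.pt J c) (lam * P.rho J)).indicator (fun _ => P.V (J + 1) x y) y) := by
        refine Finset.sum_le_sum fun c _ => ?_
        by_cases hc : y ∈ closedBall (P.pt J c) (lam * P.rho J)
        · rw [indicator_of_mem hc, indicator_of_mem hc, indicator_of_mem
            (mem_closedBall_iff_norm.2 ?_)]
          · simp only [Params.killed, Params.V, ← sum_add_distrib]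
            refine Finset.sum_le_sum fun i _ => ?_
            have h1 := neg_abs_le (P.q (J + 1) i x - P.q (J + 1) i y)
            have h2 := rate_nonneg (P := P) J c i
            have h3 := rate_le_one (P := P) J c i
            nlinarith [abs_nonneg (P.q (J + 1) i x - P.q (J + 1) i y),
              mul_le_mul_of_nonneg_right h1 h2]
          · refine (norm_sub_le_norm_sub_add_norm_sub x y _).trans ?_
            rw [add_mul, add_comm]
            exact add_le_add (mem_closedBall_iff_norm.1 hc) hxy
        · rw [indicator_of_notMem hc, indicator_of_notMem hc, add_zero]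
          exact indicator_nonneg (fun _ _ => killed_nonneg _ _ _) _
    _ ≤ _ := by
        rw [sum_add_distrib]
        exact add_le_add le_rfl (hP.sum_indicator_near_le lam J y hV0 fun _ => le_rfl)

/-- Mass of block `K` against the killing of block `J` within the distance `lam`. -/
def crossL (P : Params d) (lam : ℝ) (K J : ℕ) : ℝ := ∫ y, ‖P.F K y‖ * P.S lam J y

/-- Mass of a finer block against a killing is controlled at the block of the killing. -/
lemma Valid.crossL_le (hP : P.Valid) {R : ℝ} (hR : P.Big R) {K J : ℕ} (hKJ : K < J) (hJ : J < P.N)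
    (lam : ℝ) :
    P.crossL lam K J ≤ 3 * 2 ^ d * (P.killMass (lam + 1) J +
      cnt d lam * (2 * d * ∑ I ∈ Finset.Ico (J + 1) P.N, P.decay (I - J) * P.cross J I) +
      d * cnt d lam * cnt d (lam0 d) * P.decay (P.N - J) * ∫ y, ‖P.v y‖) +
      3 * 2 ^ d * (cnt d (lam + 1) + 5 * d * cnt d lam * cnt d (lam0 d)) *
        ∫ x, gapW P.v P.s (P.M * K) (P.M * (J - K)) x := by
  set cl := cnt d lam with hcl_def
  have hcl : 0 ≤ cl := cnt_nonneg _
  set c0 := cnt d (lam0 d) with hc0_def
  have hc0 : 0 ≤ c0 := cnt_nonneg _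
  set ψ := fun x => P.S (lam + 1) J x + cl * (d * c0 * P.decay (P.N - J) +
    2 * d * ∑ I ∈ Finset.Ico (J + 1) P.N, P.decay (I - J) * P.S (lam0 d) I x) with hψ
  set B := cnt d (lam + 1) + 5 * d * cl * c0 + cl with hB
  have hd0 : (0 : ℝ) ≤ d := Nat.cast_nonneg d
  have hψ0 : ∀ x, 0 ≤ ψ x := by
    intro x
    have := S_nonneg (P := P) (lam + 1) J x
    have := decay_nonneg (P := P) (P.N - J)
    have : 0 ≤ ∑ I ∈ Finset.Ico (J + 1) P.N, P.decay (I - J) * P.S (lam0 d) I x :=
      sum_nonneg fun I _ => mul_nonneg (decay_nonneg _) (S_nonneg _ _ _)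
    positivity
  have hψB : ∀ x, ψ x ≤ cnt d (lam + 1) + 5 * d * cl * c0 := by
    intro x
    have h1 := hP.S_le hJ (lam + 1) x
    have h2 : P.decay (P.N - J) ≤ 1 := pow_le_one₀ (by positivity)
      (inv_le_one_of_one_le₀ (one_le_pow₀ one_le_two))
    have h3 : ∑ I ∈ Finset.Ico (J + 1) P.N, P.decay (I - J) * P.S (lam0 d) I x ≤ 2 * c0 := by
      refine (Finset.sum_le_sum fun I hI => mul_le_mul_of_nonneg_left
        (hP.S_le (Finset.mem_Ico.1 hI).2 _ x) (decay_nonneg _)).trans ?_
      rw [← sum_mul]
      refine mul_le_mul_of_nonneg_right ?_ hc0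
      rw [sum_Ico_eq_sum_range]
      refine le_trans (le_of_eq ?_) ((mul_le_of_le_one_left (sum_nonneg fun j _ => decay_nonneg j)
        (show ((2 : ℝ) ^ P.M)⁻¹ ≤ 1 from inv_le_one_of_one_le₀ (one_le_pow₀ one_le_two))).trans
          (hP.sum_decay_le (n := P.N - (J + 1))))
      rw [mul_sum]
      refine Finset.sum_congr rfl fun j _ => ?_
      rw [← decay_succ]; congr 1; omega
    have h4 := mul_le_mul_of_nonneg_left (add_le_add
      (mul_le_mul_of_nonneg_left h2 (mul_nonneg hd0 hc0))
      (mul_le_mul_of_nonneg_left h3 (by positivity : (0:ℝ) ≤ 2 * d))) hcl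
    simp only [hψ]
    nlinarith
  have hψm : Measurable ψ := (measurable_S _ _).add (measurable_const.mul (measurable_const.add
    (measurable_const.mul (Finset.measurable_sum _ fun I _ =>
      measurable_const.mul (measurable_S _ _)))))
  obtain ⟨k, hk⟩ : ∃ k, P.M * (J - K) = k + 1 := ⟨P.M * (J - K) - 1, by
    have : 0 < P.M * (J - K) := Nat.mul_pos (hP.hm.trans hP.hmM) (by omega)
    omega⟩
  have hn : P.M * K + (k + 1) = P.M * J := by
    rw [← hk, ← mul_add]; congr 1; omega
  have hrad : P.s * 2 ^ (P.M * K + k) / 2 ≤ P.rho J := by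
    rw [Params.rho, ← hn, ← add_assoc, pow_succ]
    have : 0 < P.s * 2 ^ (P.M * K + k) := mul_pos hP.hs (by positivity)
    linarith
  have hFc := hP.continuous_F K
  have hFs := hP.compact_F K
  have hrJ := hP.rho_pos J
  have key := integral_mul_le_iter (h := fun y => ‖P.F K y‖) (φ := P.S lam J) hFc.norm
    hFs.norm (fun y => norm_nonneg _) hP.hs (P.M * K) k (measurable_S _ _) hψm (B := B)
    (S_nonneg _ _) (fun y => (hP.S_le hJ _ y).trans (by
      rw [hB]; have := cnt_nonneg (d := d) (lam + 1); have : 0 ≤ (d:ℝ) * cl * c0 := by positivity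
      linarith))
    hψ0 (fun x => (hψB x).trans (by rw [hB]; linarith)) ?_
  · refine key.trans ?_
    rw [mul_assoc (3 * 2 ^ d) (cnt d (lam + 1) + _), ← mul_add]
    refine mul_le_mul_of_nonneg_left ?_ (by positivity)
    have e : ∀ x, iter P.s (P.M * K) (k + 1) (fun y => ‖P.F K y‖) x * ψ x =
        ‖P.F J x‖ * ψ x + gapW P.v P.s (P.M * K) (k + 1) x * ψ x := by
      intro x
      simp only [gapW, Params.F, hn]
      ring
    have hg := integrable_gapW (s := P.s) hP.hv hP.hvc (P.M * K) (k + 1)
    have i1 : Integrable fun x => ‖P.F J x‖ * ψ x :=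
      integrable_mul_bdd (hP.continuous_F J).norm (hP.compact_F J).norm hψm hψ0 hψB
    have i2 : Integrable fun x => gapW P.v P.s (P.M * K) (k + 1) x * ψ x :=
      hg.mul_bdd (c := cnt d (lam + 1) + 5 * d * cl * c0) hψm.aestronglyMeasurable
        (ae_of_all _ fun y => by rw [Real.norm_eq_abs, abs_of_nonneg (hψ0 y)]; exact hψB y)
    rw [integral_congr_ae (ae_of_all _ e), integral_add i1 i2]
    refine add_le_add ?_ ?_
    · have iS : ∀ I ∈ Finset.Ico (J + 1) P.N,
          Integrable fun x => P.decay (I - J) * (‖P.F J x‖ * P.S (lam0 d) I x) := fun I hI =>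
        (hP.integrable_norm_mul_S J (Finset.mem_Ico.1 hI).2 _).const_mul _
      have iF : Integrable fun x => ‖P.F J x‖ :=
        integrable_norm_hier hP.hv hP.hvc _
      have e2 : (fun x => ‖P.F J x‖ * ψ x) = fun x => ‖P.F J x‖ * P.S (lam + 1) J x +
          cl * (d * c0 * P.decay (P.N - J)) * ‖P.F J x‖ + cl * (2 * d) *
            ∑ I ∈ Finset.Ico (J + 1) P.N, P.decay (I - J) * (‖P.F J x‖ * P.S (lam0 d) I x) := by
        funext x
        simp only [hψ, mul_add, mul_sum, add_assoc]
        congr 1
        congr 1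
        · ring
        · exact Finset.sum_congr rfl fun I _ => by ring
      have i3 : Integrable fun x => ‖P.F J x‖ * P.S (lam + 1) J x :=
        hP.integrable_norm_mul_S J hJ _
      have i4 : Integrable fun x => cl * (d * c0 * P.decay (P.N - J)) * ‖P.F J x‖ :=
        iF.const_mul _
      have i5 : Integrable fun x => cl * (2 * d) *
          ∑ I ∈ Finset.Ico (J + 1) P.N, P.decay (I - J) * (‖P.F J x‖ * P.S (lam0 d) I x) :=
        (integrable_finsetSum _ iS).const_mul _
      have h34 : Integrable fun x => ‖P.F J x‖ * P.S (lam + 1) J x +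
          cl * (d * c0 * P.decay (P.N - J)) * ‖P.F J x‖ := i3.add i4
      rw [e2, integral_add h34 i5, integral_add i3 i4, integral_const_mul, integral_const_mul,
        integral_finsetSum _ iS]
      simp only [integral_const_mul, Params.killMass, Params.cross]
      have h1 := mul_le_mul_of_nonneg_left (hP.integral_F_le J)
        (by have := decay_nonneg (P := P) (P.N - J); positivity :
          0 ≤ cl * (d * c0 * P.decay (P.N - J)))
      linarith
    · rw [hk, ← integral_const_mul]
      refine integral_mono i2 (hg.const_mul _) fun x => ?_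
      rw [mul_comm]
      exact mul_le_mul_of_nonneg_right (hψB x) (gapW_nonneg hP.hv _ _ _)
  · intro x y hy hxy
    have hy' : P.F K y ≠ 0 := by simpa using hy
    have hxy' : ‖x - y‖ ≤ P.rho J := (hxy.trans_le hrad).le
    have hΩx := hP.abs_coord_le hR (hKJ.trans hJ).le hy' (hxy'.trans (hP.rho_mono hJ.le))
    have hΩy := hP.abs_coord_le hR (hKJ.trans hJ).le hy' (x := y)
      (by simp [(hP.rho_pos P.N).le])
    have hVb : P.V (J + 1) x y ≤ d * c0 * P.decay (P.N - J) +
        2 * d * ∑ I ∈ Finset.Ico (J + 1) P.N, P.decay (I - J) * P.S (lam0 d) I x := by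
      refine (hP.V_le hJ hΩx hΩy (hxy'.trans (by
        linarith [hP.rho_mono (show J ≤ J + 1 by omega), hP.rho_pos (J + 1)]))).trans
          (add_le_add ?_ (mul_le_mul_of_nonneg_left ?_ (by positivity)))
      · rw [← hP.rho_div hJ.le]
        exact mul_le_mul_of_nonneg_left
          (div_le_div_of_nonneg_right hxy' (hP.rho_pos _).le) (by positivity)
      · refine Finset.sum_le_sum fun I hI => mul_le_mul_of_nonneg_right ?_ (S_nonneg _ _ _)
        rw [← hP.rho_div (by have := Finset.mem_Ico.1 hI; omega)]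
        exact div_le_div_of_nonneg_right hxy' (hP.rho_pos _).le
    refine (hP.S_le_add (lam := lam) (t := 1) (by rwa [one_mul])).trans ?_
    exact add_le_add le_rfl (mul_le_mul_of_nonneg_left hVb hcl)

/-- The case of the basic distance. -/
lemma Valid.cross_le (hP : P.Valid) {R : ℝ} (hR : P.Big R) {K J : ℕ} (hKJ : K < J) (hJ : J < P.N) :
    P.cross K J ≤ 3 * 2 ^ d * (P.killMass (lam0 d + 1) J +
      cnt d (lam0 d) * (2 * d * ∑ I ∈ Finset.Ico (J + 1) P.N, P.decay (I - J) * P.cross J I) +
      d * cnt d (lam0 d) ^ 2 * P.decay (P.N - J) * ∫ y, ‖P.v y‖) +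
      3 * 2 ^ d * (cnt d (lam0 d + 1) + 5 * d * cnt d (lam0 d) ^ 2) *
        ∫ x, gapW P.v P.s (P.M * K) (P.M * (J - K)) x :=
  (hP.crossL_le hR hKJ hJ (lam0 d)).trans (le_of_eq (by ring))

lemma Valid.integrable_excN (hP : P.Valid) (J : ℕ) (u : Euc d) :
    Integrable fun y => excN (P.F J y) u :=
  (((hP.continuous_F J).norm).sub ((hP.continuous_F J).inner continuous_const)
    ).integrable_of_hasCompactSupport
    ((hP.compact_F J).mono' fun y hy => subset_closure fun h0 => hy (by simp [h0]))

lemma Valid.integrable_nearExc (hP : P.Valid) (lam : ℝ) (K J : ℕ) :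
    Integrable fun y => P.nearExc lam J (P.F K y) y := by
  refine integrable_finsetSum _ fun c _ => ?_
  have e : (fun y => (closedBall (P.pt J c) (lam * P.rho J)).indicator
      (fun _ => excN (P.F K y) (P.dir J c)) y) =
      (closedBall (P.pt J c) (lam * P.rho J)).indicator fun y => excN (P.F K y) (P.dir J c) := by
    funext y; classical simp [indicator_apply]
  rw [e]
  exact (hP.integrable_excN K _).indicator measurableSet_closedBall

/-- The constant of coherence. -/
def coh (P : Params d) : ℝ := 3 * ballVol d * (2 ^ (P.m - 1)) ^ d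

lemma coh_nonneg : 0 ≤ P.coh := by
  unfold Params.coh; have := ballVol_pos (d := d); positivity

lemma Valid.integral_nearExc_self_le (hP : P.Valid) {lam : ℝ}
    (hlam : 4 * (lam + 2) ≤ 2 ^ P.m) (J : ℕ) :
    ∫ y, P.nearExc lam J (P.F J y) y ≤ P.coh * ∑ c ∈ P.grid J, P.cellGap J c := by
  simp only [Params.nearExc]
  have hc : ∀ c, Integrable fun y => (closedBall (P.pt J c) (lam * P.rho J)).indicator
      (fun y => excN (P.F J y) (P.dir J c)) y := fun c =>
    (hP.integrable_excN J _).indicator measurableSet_closedBall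
  have e : ∀ c y, (closedBall (P.pt J c) (lam * P.rho J)).indicator
      (fun _ => excN (P.F J y) (P.dir J c)) y = (closedBall (P.pt J c) (lam * P.rho J)).indicator
      (fun y => excN (P.F J y) (P.dir J c)) y := fun c y => by classical simp [indicator_apply]
  simp only [e]
  rw [integral_finsetSum _ fun c _ => hc c, mul_sum]
  refine Finset.sum_le_sum fun c _ => ?_
  rw [integral_indicator measurableSet_closedBall]
  refine le_trans ?_ (hP.setIntegral_excN_le J c (Λ := lam + 1) (by linarith))
  exact setIntegral_mono_set (hP.integrable_excN J _).integrableOn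
    (ae_of_all _ fun y => excN_nonneg _ (hP.norm_dir _ _))
    (Eventually.of_forall (closedBall_subset_ball (by nlinarith [hP.rho_pos J])))

lemma Valid.integral_nearExc_next_le (hP : P.Valid) (hm : 4 * (lam0 d + 3) ≤ 2 ^ P.m) (K : ℕ) :
    ∫ y, P.nearExc (lam0 d) (K + 1) (P.F K y) y ≤
      3 * 2 ^ d * (P.coh * ∑ c ∈ P.grid (K + 1), P.cellGap (K + 1) c +
        cnt d (lam0 d + 1) * ∫ x, gapW P.v P.s (P.M * K) P.M x) := by
  set J := K + 1
  have hrJ := hP.rho_pos J
  obtain ⟨k, hk⟩ : ∃ k, P.M = k + 1 := ⟨P.M - 1, by have := hP.hm; have := hP.hmM; omega⟩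
  have hn : P.M * K + (k + 1) = P.M * J := by simp only [J, ← hk, mul_add, mul_one]
  have hrad : P.s * 2 ^ (P.M * K + k) / 2 ≤ P.rho J := by
    rw [Params.rho, ← hn, ← add_assoc, pow_succ]
    have : 0 < P.s * 2 ^ (P.M * K + k) := mul_pos hP.hs (by positivity)
    linarith
  set lam' := lam0 d + 1
  have hg := integrable_gapW (s := P.s) hP.hv hP.hvc (P.M * K) (k + 1)
  set A := fun c => closedBall (P.pt J c) (lam' * P.rho J) with hA
  have hstep : ∀ c, ∫ y, (closedBall (P.pt J c) (lam0 d * P.rho J)).indicator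
      (fun _ => excN (P.F K y) (P.dir J c)) y ≤ 3 * 2 ^ d * (P.coh * P.cellGap J c +
        ∫ x, (A c).indicator (gapW P.v P.s (P.M * K) (k + 1)) x) := by
    intro c
    set h := fun y => excN (P.F K y) (P.dir J c) with hh
    have hhc : HasCompactSupport h :=
      (hP.compact_F K).mono' fun y hy => subset_closure fun h0 => hy (by simp [hh, excN, h0])
    have hhcont : Continuous h :=
      (hP.continuous_F K).norm.sub ((hP.continuous_F K).inner continuous_const)
    have e1 : ∀ y, (closedBall (P.pt J c) (lam0 d * P.rho J)).indicator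
        (fun _ => excN (P.F K y) (P.dir J c)) y =
        h y * (closedBall (P.pt J c) (lam0 d * P.rho J)).indicator (fun _ => (1:ℝ)) y := fun y => by
      classical simp [indicator_apply, hh]
    simp only [e1]
    refine (integral_mul_le_iter (φ' := (A c).indicator fun _ => (1:ℝ)) hhcont hhc
      (fun y => excN_nonneg _ (hP.norm_dir _ _)) hP.hs (P.M * K) k
      (measurable_const.indicator measurableSet_closedBall)
      (measurable_const.indicator measurableSet_closedBall) (B := 1)
      (fun y => indicator_nonneg (fun _ _ => zero_le_one) _)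
      (fun y => indicator_le_self' (fun _ _ => zero_le_one) y)
      (fun y => indicator_nonneg (fun _ _ => zero_le_one) _)
      (fun y => indicator_le_self' (fun _ _ => zero_le_one) y) ?_).trans ?_
    · intro x y _ hxy
      by_cases hy : y ∈ closedBall (P.pt J c) (lam0 d * P.rho J)
      · rw [indicator_of_mem hy, indicator_of_mem (mem_closedBall_iff_norm.2 ?_)]
        refine (norm_sub_le_norm_sub_add_norm_sub x y _).trans ?_
        rw [add_mul, one_mul, add_comm]
        exact add_le_add (mem_closedBall_iff_norm.1 hy) (hxy.trans_le hrad).le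
      · rw [indicator_of_notMem hy]
        exact indicator_nonneg (fun _ _ => zero_le_one) _
    · refine mul_le_mul_of_nonneg_left ?_ (by positivity)
      have e2 : (fun x => iter P.s (P.M * K) (k + 1) h x * (A c).indicator (fun _ => (1:ℝ)) x) =
          fun x => (A c).indicator (gapW P.v P.s (P.M * K) (k + 1)) x +
            (A c).indicator (fun x => excN (P.F J x) (P.dir J c)) x := by
        funext x
        simp only [hh, Params.F, iter_excN hP.hv, hn]
        by_cases hx : x ∈ A c <;> simp [hx]
      rw [e2, integral_add (hg.indicator measurableSet_closedBall)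
        ((hP.integrable_excN J _).indicator measurableSet_closedBall), add_comm]
      refine add_le_add ?_ le_rfl
      rw [integral_indicator measurableSet_closedBall]
      refine le_trans ?_ (hP.setIntegral_excN_le J c (Λ := lam0 d + 2) (by linarith))
      exact setIntegral_mono_set (hP.integrable_excN J _).integrableOn
        (ae_of_all _ fun y => excN_nonneg _ (hP.norm_dir _ _))
        (Eventually.of_forall (closedBall_subset_ball (by nlinarith [hP.rho_pos J])))
  have hci : ∀ c, Integrable fun y => (closedBall (P.pt J c) (lam0 d * P.rho J)).indicator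
      (fun _ => excN (P.F K y) (P.dir J c)) y := by
    intro c
    have e : (fun y => (closedBall (P.pt J c) (lam0 d * P.rho J)).indicator
        (fun _ => excN (P.F K y) (P.dir J c)) y) = (closedBall (P.pt J c)
          (lam0 d * P.rho J)).indicator fun y => excN (P.F K y) (P.dir J c) := by
      funext y; classical simp [indicator_apply]
    rw [e]
    exact (hP.integrable_excN K _).indicator measurableSet_closedBall
  simp only [Params.nearExc]
  rw [integral_finsetSum _ fun c _ => hci c]
  refine (Finset.sum_le_sum fun c _ => hstep c).trans ?_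
  rw [← mul_sum, sum_add_distrib, ← mul_sum]
  refine mul_le_mul_of_nonneg_left (add_le_add le_rfl ?_) (by positivity)
  rw [← integral_finsetSum _ fun c _ => hg.indicator measurableSet_closedBall, ← integral_const_mul]
  conv_rhs => enter [2, x]; rw [show gapW P.v P.s (P.M * K) P.M x =
    gapW P.v P.s (P.M * K) (k + 1) x by rw [← hk]]
  refine integral_mono (integrable_finsetSum _ fun c _ => hg.indicator measurableSet_closedBall)
    (hg.const_mul _) fun x => ?_
  refine le_trans (le_of_eq (Finset.sum_congr rfl fun c _ => ?_))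
    (hP.sum_indicator_near_le lam' J x (gapW_nonneg hP.hv _ _ x) fun _ => le_rfl)
  classical simp [hA, indicator_apply]

lemma Valid.killMass_le (hP : P.Valid) {R : ℝ} (hR : P.Big R) {J : ℕ} (hJ : J < P.N) {lam : ℝ}
    (hlam : Real.sqrt d ≤ lam) (hlm : 4 * (lam + 2) ≤ 2 ^ P.m) :
    P.killMass lam J ≤ cnt d lam * (8 / P.ε ^ 2 * P.drop J +
      32 / P.ε ^ 2 * (P.coh * ∑ c ∈ P.grid J, P.cellGap J c)) := by
  classical
  have hi : Integrable fun y => ⟪P.F J y, P.Qv J y⟫ - ⟪P.F J y, P.Qv (J + 1) y⟫ :=
    (hP.integrable_inner_Qv J J).sub (hP.integrable_inner_Qv J (J + 1))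
  have hn := hP.integrable_nearExc lam J J
  calc P.killMass lam J ≤ ∫ y, cnt d lam * (8 / P.ε ^ 2 *
        (⟪P.F J y, P.Qv J y⟫ - ⟪P.F J y, P.Qv (J + 1) y⟫) +
        32 / P.ε ^ 2 * P.nearExc lam J (P.F J y) y) := by
        refine integral_mono (hP.integrable_norm_mul_S J hJ lam)
          (((hi.const_mul _).add (hn.const_mul _)).const_mul _) fun y => ?_
        by_cases h0 : P.F J y = 0
        · simp [h0, Params.nearExc, excN]
        have hΩ := hP.abs_coord_le hR hJ.le h0 (x := y) (by simp [(hP.rho_pos P.N).le])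
        set w := P.F J y
        set D := ⟪w, P.Qv J y⟫ - ⟪w, P.Qv (J + 1) y⟫
        set E := P.nearExc lam J w y with hE
        have hmem : ∀ c ∈ P.grid J, y ∈ closedBall (P.pt J c) (lam * P.rho J) →
            ‖w‖ * P.killed J c y ≤ 8 / P.ε ^ 2 * D + 32 / P.ε ^ 2 * E := by
          intro c hc hyc
          refine (hP.mul_killed_le hJ hlam w hΩ).trans ?_
          have h1 : excN w (P.dir J c) ≤ E := by
            refine le_trans (le_of_eq (indicator_of_mem hyc (fun _ => excN w (P.dir J c))).symm) ?_
            exact single_le_sum (f := fun c => (closedBall (P.pt J c) (lam * P.rho J)).indicator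
              (fun _ => excN w (P.dir J c)) y)
              (fun _ _ => indicator_nonneg (fun _ _ => excN_nonneg _ (hP.norm_dir _ _)) _) hc
          have h2 : 8 / P.ε ^ 2 * excN w (P.dir J c) ≤ 8 / P.ε ^ 2 * E :=
            mul_le_mul_of_nonneg_left h1 (by positivity)
          have e : 32 / P.ε ^ 2 * E = 24 / P.ε ^ 2 * E + 8 / P.ε ^ 2 * E := by ring
          linarith
        obtain ⟨c₀, hc₀, hphi⟩ : ∃ c₀ ∈ P.grid J, P.phi J c₀ y ≠ 0 := by
          by_contra h
          push Not at h
          have := sum_phi (P := P) J y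
          rw [sum_eq_zero h] at this
          exact zero_ne_one this
        have hX : 0 ≤ 8 / P.ε ^ 2 * D + 32 / P.ε ^ 2 * E := (mul_nonneg (norm_nonneg _)
          (killed_nonneg _ _ _)).trans (hmem c₀ hc₀ (mem_closedBall_iff_norm.2
            ((hP.dist_pt_le hΩ hphi).trans (mul_le_mul_of_nonneg_right hlam (hP.rho_pos J).le))))
        rw [Params.S, mul_sum]
        refine (Finset.sum_le_sum fun c hc => ?_).trans (hP.sum_indicator_near_le lam J y hX
          (f := fun _ => 8 / P.ε ^ 2 * D + 32 / P.ε ^ 2 * E) fun _ => le_rfl)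
        by_cases hyc : y ∈ closedBall (P.pt J c) (lam * P.rho J)
        · rw [indicator_of_mem hyc, indicator_of_mem hyc]
          exact hmem c hc hyc
        · rw [indicator_of_notMem hyc, indicator_of_notMem hyc, mul_zero]
    _ ≤ _ := by
        rw [integral_const_mul, integral_add (hi.const_mul _) (hn.const_mul _),
          integral_const_mul, integral_const_mul]
        exact mul_le_mul_of_nonneg_left (add_le_add le_rfl
          (mul_le_mul_of_nonneg_left (hP.integral_nearExc_self_le hlm J) (by positivity)))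
          (cnt_nonneg _)

end Params

end Vale.Agent.P137.Centred
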