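import Vale.Agent.P137.Centred.Hierarchy

/-!
# P137, centred operator: lattice cells and their directions
-/

open MeasureTheory Filter Set Metric Finset
open scoped ENNReal NNReal Topology RealInnerProductSpace

noncomputable section

namespace Vale.Agent.P137.Centred

variable {d : ℕ}

/-- The parameters of the calibrator. -/
structure Params (d : ℕ) where
  /-- The vector field. -/
  v : Euc d → Euc d
  /-- The smallest radius. -/
  s : ℝ
  /-- Number of dyadic steps per block. -/
  M : ℕ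
  /-- Width of the window that determines the directions. -/
  m : ℕ
  /-- The top block. -/
  N : ℕ
  /-- Half side of the cube in which everything happens. -/
  Ω : ℝ
  /-- The angular threshold. -/
  ε : ℝ
  /-- A fallback direction. -/
  e₀ : Euc d

namespace Params

variable (P : Params d)

/-- The scale of block `K`. -/
def rho (K : ℕ) : ℝ := P.s * 2 ^ (P.M * K)

/-- The field at the scale of block `K`. -/
def F (K : ℕ) : Euc d → Euc d := hier P.v P.s (P.M * K)

/-- Number of cells per half side. -/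
def half (K : ℕ) : ℕ := ⌈P.Ω / P.rho K⌉₊ + 1

/-- Indices of the cells of block `K`. -/
def grid (K : ℕ) : Finset (Fin d → ℤ) :=
  Fintype.piFinset fun _ => Finset.Icc (-(P.half K : ℤ)) (P.half K)

/-- The centre of a cell. -/
def pt (K : ℕ) (z : Fin d → ℤ) : Euc d := P.rho K • WithLp.toLp 2 fun i => (z i : ℝ)

/-- Coordinates of a point in units of the cells, clamped to the grid. -/
def coord (K : ℕ) (x : Euc d) (i : Fin d) : ℝ :=
  max (-(P.half K : ℝ)) (min (P.half K : ℝ) (x i / P.rho K))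

/-- The hat function. -/
def tent (t : ℝ) : ℝ := max 0 (1 - |t|)

/-- The partition of unity of block `K`. -/
def phi (K : ℕ) (z : Fin d → ℤ) (x : Euc d) : ℝ := ∏ i, tent (P.coord K x i - z i)

/-- The gap of the window that determines the directions of block `K`. -/
def winGap (K : ℕ) : Euc d → ℝ := gapW P.v P.s (P.M * K) P.m

/-- A point of the cell at which the window gap is at most its average over the cell. -/
def star (K : ℕ) (z : Fin d → ℤ) : Euc d :=
  Classical.epsilon fun c =>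
    c ∈ closedBall (P.pt K z) (P.rho K / 2) ∧
      ∀ y ∈ closedBall (P.pt K z) (P.rho K / 2), P.winGap K c ≤ P.winGap K y

/-- The direction of a cell. -/
def dir (K : ℕ) (z : Fin d → ℤ) : Euc d :=
  if hier P.v P.s (P.M * K + P.m) (P.star K z) = 0 then P.e₀
  else ‖hier P.v P.s (P.M * K + P.m) (P.star K z)‖⁻¹ •
    hier P.v P.s (P.M * K + P.m) (P.star K z)

/-- The defect of coherence of a cell. -/
def cellGap (K : ℕ) (z : Fin d → ℤ) : ℝ := P.rho K ^ d * P.winGap K (P.star K z)

/-- Standing assumptions. -/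
structure Valid : Prop where
  hv : Continuous P.v
  hvc : HasCompactSupport P.v
  hs : 0 < P.s
  hm : 1 ≤ P.m
  hmM : P.m ≤ P.M
  hε : 0 < P.ε
  he₀ : ‖P.e₀‖ = 1

variable {P}

lemma Valid.rho_pos (hP : P.Valid) (K : ℕ) : 0 < P.rho K := mul_pos hP.hs (by positivity)

lemma tent_nonneg (t : ℝ) : 0 ≤ tent t := le_max_left _ _

lemma tent_le_one (t : ℝ) : tent t ≤ 1 := max_le zero_le_one (by linarith [abs_nonneg t])

lemma abs_tent_sub_le (a b : ℝ) : |tent a - tent b| ≤ |a - b| := by
  refine (abs_max_sub_max_le_max _ _ _ _).trans (max_le (by simp) ?_)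
  rw [sub_sub_sub_cancel_left, abs_sub_comm a b]
  exact abs_abs_sub_abs_le_abs_sub b a

lemma phi_nonneg (K : ℕ) (z : Fin d → ℤ) (x : Euc d) : 0 ≤ P.phi K z x :=
  prod_nonneg fun _ _ => tent_nonneg _

lemma phi_le_one (K : ℕ) (z : Fin d → ℤ) (x : Euc d) : P.phi K z x ≤ 1 :=
  prod_le_one (fun _ _ => tent_nonneg _) fun _ _ => tent_le_one _

lemma continuous_phi (K : ℕ) (z : Fin d → ℤ) : Continuous (P.phi K z) := by
  unfold Params.phi coord tent
  fun_prop

lemma sum_tent {B : ℕ} {t : ℝ} (h1 : -(B : ℝ) ≤ t) (h2 : t ≤ B) :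
    ∑ z ∈ Finset.Icc (-(B : ℤ)) B, tent (t - z) = 1 := by
  have hf1 : (⌊t⌋ : ℝ) ≤ t := Int.floor_le t
  have hf2 : t < ⌊t⌋ + 1 := Int.lt_floor_add_one t
  have hlo : -(B : ℤ) ≤ ⌊t⌋ := Int.le_floor.2 (by push_cast; exact h1)
  have hhi : ⌊t⌋ ≤ (B : ℤ) := by
    have : (⌊t⌋ : ℝ) ≤ ((B : ℤ) : ℝ) := by push_cast; linarith
    exact_mod_cast this
  have hzero : ∀ z : ℤ, z ≠ ⌊t⌋ → z ≠ ⌊t⌋ + 1 → tent (t - z) = 0 := by
    intro z hz hz'
    refine max_eq_left ?_
    rcases lt_or_gt_of_ne hz with h | h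
    · have : (z : ℝ) + 1 ≤ ⌊t⌋ := by exact_mod_cast h
      linarith [le_abs_self (t - z)]
    · have : (⌊t⌋ : ℝ) + 2 ≤ z := by exact_mod_cast (show ⌊t⌋ + 2 ≤ z by omega)
      linarith [neg_abs_le (t - z)]
  have e1 : tent (t - ⌊t⌋) = 1 - (t - ⌊t⌋) := by
    rw [tent, abs_of_nonneg (by linarith), max_eq_right (by linarith)]
  rcases hhi.lt_or_eq with h | h
  · rw [sum_eq_add_of_mem ⌊t⌋ (⌊t⌋ + 1) (Finset.mem_Icc.2 ⟨hlo, h.le⟩)
      (Finset.mem_Icc.2 ⟨by omega, by omega⟩) (by omega) fun z _ hz => hzero z hz.1 hz.2, e1]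
    have e2 : tent (t - ((⌊t⌋ + 1 : ℤ) : ℝ)) = t - ⌊t⌋ := by
      rw [tent, abs_of_nonpos (by push_cast; linarith)]
      push_cast
      rw [max_eq_right (by linarith)]
      ring
    rw [e2]; ring
  · have ht : t = ⌊t⌋ := le_antisymm (by rw [h]; push_cast; exact h2) hf1
    rw [sum_eq_single_of_mem ⌊t⌋ (Finset.mem_Icc.2 ⟨hlo, hhi⟩) fun z hz hzf => hzero z hzf (by
      have := (Finset.mem_Icc.1 hz).2; omega), e1]
    linarith

lemma sum_phi (K : ℕ) (x : Euc d) : ∑ z ∈ P.grid K, P.phi K z x = 1 := by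
  unfold Params.phi Params.grid
  rw [← prod_univ_sum (t := fun _ => Finset.Icc (-(P.half K : ℤ)) (P.half K))
    (f := fun i z => tent (P.coord K x i - z))]
  refine prod_eq_one fun i _ => sum_tent (le_max_left _ _) (max_le ?_ (min_le_left _ _))
  linarith [(Nat.cast_nonneg (P.half K) : (0:ℝ) ≤ _)]

lemma Valid.abs_phi_sub_le (hP : P.Valid) (K : ℕ) (z : Fin d → ℤ) (x y : Euc d) :
    |P.phi K z x - P.phi K z y| ≤ d * (‖x - y‖ / P.rho K) := by
  have hr := hP.rho_pos K
  have hone : ∀ (S : Finset (Fin d)) (f g : Fin d → ℝ), (∀ i, 0 ≤ f i ∧ f i ≤ 1) →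
      (∀ i, 0 ≤ g i ∧ g i ≤ 1) → |∏ i ∈ S, f i - ∏ i ∈ S, g i| ≤ ∑ i ∈ S, |f i - g i| := by
    intro S f g hf hg
    induction S using Finset.induction_on with
    | empty => simp
    | insert a S ha ih =>
      rw [prod_insert ha, prod_insert ha, sum_insert ha]
      have h1 : 0 ≤ ∏ i ∈ S, f i := prod_nonneg fun i _ => (hf i).1
      have h2 : ∏ i ∈ S, f i ≤ 1 := prod_le_one (fun i _ => (hf i).1) fun i _ => (hf i).2
      calc |f a * ∏ i ∈ S, f i - g a * ∏ i ∈ S, g i|
          = |(f a - g a) * ∏ i ∈ S, f i + g a * (∏ i ∈ S, f i - ∏ i ∈ S, g i)| := by ring_nf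
        _ ≤ |f a - g a| * (∏ i ∈ S, f i) + g a * |∏ i ∈ S, f i - ∏ i ∈ S, g i| := by
            refine (abs_add_le _ _).trans (le_of_eq ?_)
            rw [abs_mul, abs_mul, abs_of_nonneg h1, abs_of_nonneg (hg a).1]
        _ ≤ _ := add_le_add (mul_le_of_le_one_right (abs_nonneg _) h2)
            ((mul_le_of_le_one_left (abs_nonneg _) (hg a).2).trans ih)
  refine (hone univ _ _ (fun i => ⟨tent_nonneg _, tent_le_one _⟩)
    (fun i => ⟨tent_nonneg _, tent_le_one _⟩)).trans ?_
  refine (sum_le_card_nsmul univ _ (‖x - y‖ / P.rho K) fun i _ => ?_).trans_eq (by simp)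
  refine (abs_tent_sub_le _ _).trans ?_
  rw [sub_sub_sub_cancel_right]
  refine (abs_max_sub_max_le_max _ _ _ _).trans (max_le (by simp; positivity) ?_)
  refine (abs_min_sub_min_le_max _ _ _ _).trans (max_le (by simp; positivity) ?_)
  rw [← sub_div, abs_div, abs_of_pos hr]
  refine div_le_div_of_nonneg_right ?_ hr.le
  have := PiLp.norm_apply_le (x - y) i
  simpa [Real.norm_eq_abs] using this

/-- A cell whose weight is positive at a point of the cube is near that point. -/
lemma Valid.dist_pt_le (hP : P.Valid) {K : ℕ} {z : Fin d → ℤ} {x : Euc d}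
    (hx : ∀ i, |x i| ≤ P.Ω) (hpos : P.phi K z x ≠ 0) :
    ‖x - P.pt K z‖ ≤ Real.sqrt d * P.rho K := by
  have hr := hP.rho_pos K
  refine norm_le_sqrt_mul hr.le fun i => ?_
  have hi : tent (P.coord K x i - z i) ≠ 0 := prod_ne_zero_iff.1 hpos i (mem_univ i)
  have hb : |x i / P.rho K| ≤ P.half K := by
    rw [abs_div, abs_of_pos hr, Params.half]
    push_cast
    linarith [div_le_div_of_nonneg_right (hx i) hr.le, Nat.le_ceil (P.Ω / P.rho K)]
  rw [abs_le] at hb
  rw [Params.coord, min_eq_right hb.2, max_eq_right hb.1] at hi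
  have h1 : |x i / P.rho K - z i| ≤ 1 := by
    by_contra h
    exact hi (max_eq_left (by linarith [not_le.1 h]))
  have e : (x - P.pt K z) i = P.rho K * (x i / P.rho K - z i) := by
    simp [Params.pt, mul_sub, mul_div_cancel₀ _ hr.ne']
  rw [e, abs_mul, abs_of_pos hr]
  exact mul_le_of_le_one_right hr.le h1

lemma Valid.continuous_F (hP : P.Valid) (K : ℕ) : Continuous (P.F K) := continuous_hier hP.hv _

lemma Valid.compact_F (hP : P.Valid) (K : ℕ) : HasCompactSupport (P.F K) :=
  hasCompactSupport_hier hP.hvc _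

lemma Valid.star_spec (hP : P.Valid) (K : ℕ) (z : Fin d → ℤ) :
    P.star K z ∈ closedBall (P.pt K z) (P.rho K / 2) ∧
      ∀ y ∈ closedBall (P.pt K z) (P.rho K / 2), P.winGap K (P.star K z) ≤ P.winGap K y := by
  obtain ⟨c, hc, hmin⟩ := (isCompact_closedBall (P.pt K z) (P.rho K / 2)).exists_isMinOn
    ⟨P.pt K z, mem_closedBall_self (by linarith [hP.rho_pos K])⟩
    (continuous_gapW (s := P.s) hP.hv (P.M * K) P.m).continuousOn
  exact Classical.epsilon_spec
    (p := fun c => c ∈ closedBall (P.pt K z) (P.rho K / 2) ∧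
      ∀ y ∈ closedBall (P.pt K z) (P.rho K / 2), P.winGap K c ≤ P.winGap K y)
    ⟨c, hc, fun y hy => hmin hy⟩

lemma Valid.norm_dir (hP : P.Valid) (K : ℕ) (z : Fin d → ℤ) : ‖P.dir K z‖ = 1 := by
  rw [Params.dir]
  split_ifs with h
  · exact hP.he₀
  · exact norm_smul_inv_norm (𝕜 := ℝ) h

lemma excN_star_dir (K : ℕ) (z : Fin d → ℤ) :
    excN (hier P.v P.s (P.M * K + P.m) (P.star K z)) (P.dir K z) = 0 := by
  rw [excN, Params.dir]
  split_ifs with h
  · simp [h]
  · rw [inner_smul_right, real_inner_self_eq_norm_sq]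
    field_simp
    ring

lemma Valid.cellGap_nonneg (hP : P.Valid) (K : ℕ) (z : Fin d → ℤ) : 0 ≤ P.cellGap K z :=
  mul_nonneg (pow_nonneg (hP.rho_pos K).le d) (gapW_nonneg hP.hv _ _ _)

lemma Valid.norm_pt_sub_ge (hP : P.Valid) {K : ℕ} {z z' : Fin d → ℤ} (h : z ≠ z') :
    P.rho K ≤ ‖P.pt K z - P.pt K z'‖ := by
  obtain ⟨i, hi⟩ := Function.ne_iff.1 h
  refine le_trans ?_ (PiLp.norm_apply_le _ i)
  have : (1 : ℝ) ≤ |(z i : ℝ) - z' i| := by
    rw [← Int.cast_sub, ← Int.cast_abs]
    exact_mod_cast Int.one_le_abs (sub_ne_zero.2 hi)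
  simpa [Params.pt, ← mul_sub, abs_mul, abs_of_pos (hP.rho_pos K)] using
    le_mul_of_one_le_right (hP.rho_pos K).le this

/-- The cell gaps add up to the integral of the window gap. -/
lemma Valid.sum_cellGap_le (hP : P.Valid) (K : ℕ) :
    ∑ z ∈ P.grid K, P.cellGap K z ≤ 2 ^ d / ballVol d * ∫ x, P.winGap K x := by
  have hr := hP.rho_pos K
  have hg : Integrable (P.winGap K) := integrable_gapW hP.hv hP.hvc _ _
  calc ∑ z ∈ P.grid K, P.cellGap K z
      ≤ ∑ z ∈ P.grid K, 2 ^ d / ballVol d * ∫ x in ball (P.pt K z) (P.rho K / 2), P.winGap K x := by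
        refine Finset.sum_le_sum fun z _ => ?_
        have h1 := setIntegral_mono_on (integrableOn_const (C := P.winGap K (P.star K z))
          (s := ball (P.pt K z) (P.rho K / 2)) measure_ball_lt_top.ne) hg.integrableOn
          measurableSet_ball fun y hy => (hP.star_spec K z).2 y (ball_subset_closedBall hy)
        rw [setIntegral_const, smul_eq_mul, measureReal_def,
          volume_ball_toReal _ (half_pos hr), div_pow] at h1
        rw [Params.cellGap, div_mul_eq_mul_div, le_div_iff₀ ballVol_pos]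
        have h2 : P.rho K ^ d * P.winGap K (P.star K z) * ballVol d
            = 2 ^ d * (P.rho K ^ d / 2 ^ d * ballVol d * P.winGap K (P.star K z)) := by
          field_simp
        rw [h2]
        exact mul_le_mul_of_nonneg_left h1 (by positivity)
    _ ≤ _ := by
        rw [← mul_sum]
        refine mul_le_mul_of_nonneg_left ?_ (div_nonneg (by positivity) ballVol_pos.le)
        rw [← integral_biUnion_finset _ (fun z _ => measurableSet_ball) ?_
          fun z _ => hg.integrableOn]
        · exact setIntegral_le_integral hg (ae_of_all _ fun x => gapW_nonneg hP.hv _ _ _)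
        · intro z _ z' _ hne
          refine ball_disjoint_ball ?_
          rw [add_halves, dist_eq_norm]
          exact hP.norm_pt_sub_ge hne

/-- The excess relative to the direction of a cell is small on a big ball around it. -/
lemma Valid.setIntegral_excN_le (hP : P.Valid) (K : ℕ) (z : Fin d → ℤ) {Λ : ℝ}
    (hΛ : 4 * (Λ + 1) ≤ 2 ^ P.m) :
    ∫ y in ball (P.pt K z) (Λ * P.rho K), excN (P.F K y) (P.dir K z)
      ≤ 3 * ballVol d * (2 ^ (P.m - 1)) ^ d * P.cellGap K z := by
  obtain ⟨k, hk⟩ : ∃ k, P.m = k + 1 := ⟨P.m - 1, by have := hP.hm; omega⟩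
  have hr := hP.rho_pos K
  set h := fun y => excN (P.F K y) (P.dir K z) with hh_def
  have hh : Continuous h :=
    (hP.continuous_F K).norm.sub ((hP.continuous_F K).inner continuous_const)
  have hhc : HasCompactSupport h := by
    refine (hP.compact_F K).mono' fun y hy => ?_
    refine subset_closure fun h0 => hy ?_
    simp [hh_def, excN, h0]
  have h0 : ∀ y, 0 ≤ h y := fun y => excN_nonneg _ (hP.norm_dir K z)
  have e : P.s * 2 ^ (P.M * K + k) = 2 ^ k * P.rho K := by rw [Params.rho, pow_add]; ring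
  have hsub : ball (P.pt K z) (Λ * P.rho K) ⊆
      ball (P.star K z) (P.s * 2 ^ (P.M * K + k) / 2) := by
    refine ball_subset_ball' ?_
    have h1 := mem_closedBall'.1 (hP.star_spec K z).1
    rw [e]
    rw [hk, pow_succ] at hΛ
    nlinarith
  calc ∫ y in ball (P.pt K z) (Λ * P.rho K), h y
      ≤ ∫ y in ball (P.star K z) (P.s * 2 ^ (P.M * K + k) / 2), h y :=
        setIntegral_mono_set (hh.integrable_of_hasCompactSupport hhc).integrableOn
          (ae_of_all _ h0) hsub.eventuallyLE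
    _ ≤ _ := setIntegral_le_iter hh hhc h0 hP.hs _ k _
    _ = _ := by
        have e0 : iter P.s (P.M * K) (k + 1) h (P.star K z) = P.winGap K (P.star K z) := by
          rw [hh_def]
          unfold Params.F
          rw [iter_excN hP.hv, ← hk, excN_star_dir, add_zero]
          rfl
        rw [e0, e, Params.cellGap, hk, Nat.add_sub_cancel, mul_pow]
        ring

end Params

end Vale.Agent.P137.Centred
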