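import Vale.Agent.P137.Centred.Core
import Vale.Agent.P137.Centred.Grid

/-!
# P137, centred operator: the budget which the calibration consumes

The analysis of a single ball (field identity, selection, rays) produces a `Budgeted` pair of
functions; the calibration turns such a pair into a bound for the variation of the band maximal
function.
-/

open MeasureTheory Filter Set Metric
open scoped ENNReal NNReal Topology RealInnerProductSpace Gradient

noncomputable section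

namespace Vale.Agent.P137.Centred

variable {d : ℕ}

/-- The derivative of `ballAvg f x r` in the centre, in terms of the gradient `v` of `f`. -/
def dAvg (v : Euc d → Euc d) (x : Euc d) (r : ℝ) (e : Euc d) : ℝ :=
  ballAvg (fun y => ⟪v y, e⟫) x r

/-- The derivative of `ballAvg f x r` in the radius, in terms of the gradient `v` of `f`. -/
def rAvg (v : Euc d → Euc d) (x : Euc d) (r : ℝ) : ℝ :=
  ballAvg (fun y => ⟪v y, r⁻¹ • (y - x)⟫) x r

/-- `Bud` controls the derivatives against the coherent directions, `E` the remaining crude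
errors; `Lam` is the radius of the crude bound. Radii of block `J ≥ 1` are those in `[rho (J - 1), rho J]`. -/
structure Budgeted (P : Params d) (εf Lam C₀ : ℝ) (Bud : ℕ → Euc d → ℝ)
    (E : ℕ → Euc d → ℝ → ℝ) : Prop where
  bud_nonneg : ∀ J x, 0 ≤ Bud J x
  bud_meas : ∀ J, Measurable (Bud J)
  E_nonneg : ∀ J x r, 0 ≤ E J x r
  E_meas : ∀ J, Measurable (Function.uncurry (E J))
  /-- A direction close to the direction of a nearby cell. -/
  dir_le : ∀ J ∈ Finset.Icc 1 P.N, ∀ x, ∀ c ∈ P.grid J,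
    ‖x - P.pt J c‖ ≤ Real.sqrt d * P.rho J → ∀ e, ‖e‖ = 1 → ‖P.dir J c - e‖ ≤ εf →
      ∀ r ∈ Icc (P.rho (J - 1)) (P.rho J),
        -dAvg P.v x r e ≤ Bud J x + C₀ * |rAvg P.v x r|
  /-- At the two fixed radii no stationarity is needed. -/
  end_le : ∀ J ∈ Finset.Icc 1 P.N, ∀ x, ∀ c ∈ P.grid J,
    ‖x - P.pt J c‖ ≤ Real.sqrt d * P.rho J → ∀ e, ‖e‖ = 1 → ‖P.dir J c - e‖ ≤ εf →
      ∀ r, r = P.rho (J - 1) ∨ r = P.rho J → -dAvg P.v x r e ≤ Bud J x
  /-- The crude bound for both derivatives. -/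
  crude : ∀ J ∈ Finset.Icc 1 P.N, ∀ x, ∀ r ∈ Icc (P.rho (J - 1)) (P.rho J),
    ∀ e, ‖e‖ ≤ 1 → |dAvg P.v x r e| + |rAvg P.v x r| ≤
      C₀ * (P.rho J ^ d)⁻¹ * (∫ y in closedBall x (Lam * P.rho J), ‖P.F J y‖) + E J x r
  bud_int : ∑ J ∈ Finset.Icc 1 P.N, ∫⁻ x, ENNReal.ofReal (Bud J x) ≤
    ENNReal.ofReal C₀ * ∫⁻ y, ‖P.v y‖ₑ
  E_int_end : ∑ J ∈ Finset.Icc 1 P.N, ∫⁻ x, ENNReal.ofReal (E J x (P.rho J)) ≤
    ENNReal.ofReal C₀ * ∫⁻ y, ‖P.v y‖ₑ
  E_int_avg : ∑ J ∈ Finset.Icc 1 P.N, (ENNReal.ofReal (P.rho J))⁻¹ *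
      ∫⁻ x, ∫⁻ r in Icc (P.rho (J - 1)) (P.rho J), ENNReal.ofReal (E J x r) ≤
    ENNReal.ofReal C₀ * ∫⁻ y, ‖P.v y‖ₑ

end Vale.Agent.P137.Centred
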