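import Vale.Agent.P137.Centred.Resolution
import Vale.Agent.P137.Centred.Calibrator
import Vale.Agent.P137.Centred.Interface

/-!
# P137, centred operator: volumes, measurability and continuity for the budget of one block

The coherent error of a ball of a block is paid by the gap of a nearby cell and by gaps with
geometrically decreasing weights; both, and the gaps in the shells, integrate to the mass of `v`.
-/

open MeasureTheory Filter Set Metric
open scoped ENNReal NNReal Topology RealInnerProductSpace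

noncomputable section

namespace Vale.Agent.P137.Centred

variable {d : ℕ}

namespace Params

/-- The gaps below block `J` near `x`, with geometric weights. -/
def blockGeo (P : Params d) (J : ℕ) (x : Euc d) : ℝ :=
  ∑ l ∈ Finset.range (P.M * J),
    stp P.s l / P.rho J * ∫ y in closedBall x (16 * P.rho J), gap P.v P.s l y

/-- The gaps of the cells near `x`. -/
def nearGap (P : Params d) (J : ℕ) (x : Euc d) : ℝ :=
  ∑ c ∈ P.grid J,
    (closedBall (P.pt J c) (Real.sqrt d * P.rho J)).indicator (fun _ => P.cellGap J c) x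

/-- The gaps in the shells at the two end radii. -/
def endMass (P : Params d) (A : ℝ) (J : ℕ) (x : Euc d) : ℝ :=
  shellMass P.v P.s A x (P.rho (J - 1)) (P.M * J) + shellMass P.v P.s A x (P.rho J) (P.M * J)

/-- All gaps below block `J`, with geometric weights. -/
def blockSum (P : Params d) (J : ℕ) : ℝ :=
  ∑ l ∈ Finset.range (P.M * J), stp P.s l / P.rho J * ∫ y, gap P.v P.s l y

end Params

section Geometry

lemma volume_closedBall_eq (x : Euc d) {r : ℝ} (hr : 0 ≤ r) :
    volume (closedBall x r) = ENNReal.ofReal (r ^ d * ballVol d) := by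
  rw [Measure.addHaar_closedBall _ _ hr, finrank_euclideanSpace_fin,
    ENNReal.ofReal_mul (pow_nonneg hr d), ballVol, ENNReal.ofReal_toReal measure_ball_lt_top.ne]

lemma volume_ball_eq (x : Euc d) {r : ℝ} (hr : 0 < r) :
    volume (ball x r) = ENNReal.ofReal (r ^ d * ballVol d) := by
  rw [Measure.addHaar_ball_of_pos _ _ hr, finrank_euclideanSpace_fin,
    ENNReal.ofReal_mul (pow_nonneg hr.le d), ballVol,
    ENNReal.ofReal_toReal measure_ball_lt_top.ne]

/-- The centres of the shells through `y` fill little space. -/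
lemma volume_shell_le (y : Euc d) {r₀ r w R : ℝ} (hr₀ : 0 < r₀) (hr : r₀ ≤ r) (hw : 0 ≤ w)
    (hR : r + w ≤ R) :
    volume {x : Euc d | y ∈ shell x r w} ≤
      ENNReal.ofReal ((2 * d + 1) * R ^ d * (w / r₀) * ballVol d) := by
  have hV : 0 < ballVol d := ballVol_pos
  have hR0 : 0 < R := by linarith
  have hwr : 0 ≤ w / r₀ := by positivity
  have hd0 : (0 : ℝ) ≤ d := Nat.cast_nonneg d
  have hsub : {x : Euc d | y ∈ shell x r w} ⊆ closedBall y (r + w) := by
    intro x hx
    simp only [shell, mem_ofPred_eq, abs_le] at hx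
    rw [mem_closedBall_iff_norm, norm_sub_rev]
    linarith [hx.2]
  rcases le_or_gt r w with h | h
  · refine (measure_mono hsub).trans ?_
    rw [volume_closedBall_eq y (by linarith)]
    refine ENNReal.ofReal_le_ofReal (mul_le_mul_of_nonneg_right ?_ hV.le)
    have h1 : 1 ≤ w / r₀ := by rw [le_div_iff₀ hr₀]; linarith
    calc (r + w) ^ d ≤ R ^ d := pow_le_pow_left₀ (by linarith) hR d
      _ = 1 * R ^ d * 1 := by ring
      _ ≤ _ := mul_le_mul (mul_le_mul_of_nonneg_right (by linarith) (by positivity)) h1 zero_le_one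
          (by positivity)
  · have hsub' : {x : Euc d | y ∈ shell x r w} ⊆ closedBall y (r + w) \ ball y (r - w) := by
      intro x hx
      refine ⟨hsub hx, fun hb => ?_⟩
      simp only [shell, mem_ofPred_eq, abs_le] at hx
      rw [mem_ball_iff_norm, norm_sub_rev] at hb
      linarith [hx.1]
    refine (measure_mono hsub').trans ?_
    rw [measure_sdiff (ball_subset_closedBall.trans (closedBall_subset_closedBall (by linarith)))
      measurableSet_ball.nullMeasurableSet measure_ball_lt_top.ne,
      volume_closedBall_eq y (by linarith), volume_ball_eq y (by linarith),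
      ← ENNReal.ofReal_sub _ (mul_nonneg (pow_nonneg (by linarith) d) hV.le)]
    refine ENNReal.ofReal_le_ofReal ?_
    rw [← sub_mul]
    refine mul_le_mul_of_nonneg_right ((le_abs_self _).trans ((abs_pow_sub_pow_le _ _ _).trans ?_)) hV.le
    rw [abs_of_nonneg (by linarith : 0 ≤ r + w - (r - w)), abs_of_nonneg (by linarith : 0 ≤ r + w),
      abs_of_nonneg (by linarith : 0 ≤ r - w), max_eq_left (by linarith)]
    rcases Nat.eq_zero_or_pos d with rfl | hd
    · simp only [Nat.cast_zero, mul_zero, zero_mul]; positivity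
    · have h1 : (r + w) ^ (d - 1) ≤ R ^ d / r₀ := by
        rw [le_div_iff₀ hr₀]
        refine (mul_le_mul (pow_le_pow_left₀ (by linarith) hR (d - 1)) (show r₀ ≤ R by linarith)
          hr₀.le (by positivity)).trans_eq ?_
        rw [← pow_succ, Nat.sub_add_cancel hd]
      calc (r + w - (r - w)) * d * (r + w) ^ (d - 1) ≤ (2 * w) * d * (R ^ d / r₀) := by
            rw [show r + w - (r - w) = 2 * w by ring]
            exact mul_le_mul_of_nonneg_left h1 (by positivity)
        _ = 2 * d * R ^ d * (w / r₀) := by ring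
        _ ≤ _ := mul_le_mul_of_nonneg_right
            (mul_le_mul_of_nonneg_right (by linarith) (by positivity)) hwr

private lemma measurableSet_shell (x : Euc d) (r w : ℝ) : MeasurableSet (shell x r w) :=
  (isClosed_le (by fun_prop) continuous_const).measurableSet

/-- Averaging a set integral over the translates of the set. -/
lemma lintegral_setIntegral_le {g : Euc d → ℝ} (hg : Continuous g) (hgc : HasCompactSupport g)
    (g0 : ∀ y, 0 ≤ g y) {S : Euc d → Set (Euc d)}
    (hS : MeasurableSet {p : Euc d × Euc d | p.2 ∈ S p.1}) {B : ℝ} (hB : 0 ≤ B)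
    (hvol : ∀ y, volume {x | y ∈ S x} ≤ ENNReal.ofReal B) :
    ∫⁻ x, ENNReal.ofReal (∫ y in S x, g y) ≤ ENNReal.ofReal (B * ∫ y, g y) := by
  classical
  have hgi : Integrable g := hg.integrable_of_hasCompactSupport hgc
  have hSx : ∀ x, MeasurableSet (S x) := fun x => measurable_prodMk_left hS
  have e1 : ∀ x, ENNReal.ofReal (∫ y in S x, g y) =
      ∫⁻ y, (S x).indicator (fun y => ENNReal.ofReal (g y)) y := fun x => by
    rw [ofReal_integral_eq_lintegral_ofReal hgi.integrableOn (ae_of_all _ g0),
      lintegral_indicator (hSx x)]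
  simp only [e1]
  rw [lintegral_lintegral_swap (by
    have : (Function.uncurry fun x y => (S x).indicator (fun y => ENNReal.ofReal (g y)) y) =
        {p : Euc d × Euc d | p.2 ∈ S p.1}.indicator fun p => ENNReal.ofReal (g p.2) := by
      funext p; simp [Function.uncurry, Set.indicator_apply]
    rw [this]
    exact ((hg.measurable.comp measurable_snd).ennreal_ofReal.indicator hS).aemeasurable)]
  rw [ENNReal.ofReal_mul hB, ofReal_integral_eq_lintegral_ofReal hgi (ae_of_all _ g0),
    ← lintegral_const_mul' _ _ ENNReal.ofReal_ne_top]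
  refine lintegral_mono fun y => ?_
  have hy : MeasurableSet {x | y ∈ S x} := measurable_prodMk_right hS
  have : (fun x => (S x).indicator (fun y => ENNReal.ofReal (g y)) y) =
      {x | y ∈ S x}.indicator fun _ => ENNReal.ofReal (g y) := by
    funext x; simp [Set.indicator_apply]
  rw [this, lintegral_indicator_const hy, mul_comm]
  exact mul_le_mul_left (hvol y) _

lemma lintegral_closedBall_integral_le {g : Euc d → ℝ} (hg : Continuous g)
    (hgc : HasCompactSupport g) (g0 : ∀ y, 0 ≤ g y) {r : ℝ} (hr : 0 ≤ r) :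
    ∫⁻ x, ENNReal.ofReal (∫ y in closedBall x r, g y) ≤
      ENNReal.ofReal (r ^ d * ballVol d * ∫ y, g y) := by
  refine lintegral_setIntegral_le (S := fun x => closedBall x r) hg hgc g0
    (measurableSet_le (f := fun p : Euc d × Euc d => dist p.2 p.1) (g := fun _ => r) (by fun_prop)
      measurable_const) (mul_nonneg (pow_nonneg hr d) ballVol_pos.le) fun y => ?_
  rw [← volume_closedBall_eq y hr]
  exact measure_mono fun x hx => mem_closedBall_comm.1 hx

end Geometry

section Transfer

variable {v : Euc d → Euc d} {s : ℝ}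

/-- An average is supported in a slightly larger ball. -/
lemma setIntegral_bavg_le {g : Euc d → ℝ} (hg : Continuous g) (hgc : HasCompactSupport g)
    (g0 : ∀ y, 0 ≤ g y) (x : Euc d) (r h : ℝ) :
    ∫ y in closedBall x r, bavg h g y ≤ ∫ y in closedBall x (r + |h|), g y := by
  set φ : Euc d → ℝ := (closedBall x r).indicator fun _ => 1 with hφ
  have hb : BM φ := (BM.const (1 : ℝ)).indicator measurableSet_closedBall
  have e : ∫ y in closedBall x r, bavg h g y = ∫ y, bavg h g y * φ y := by
    rw [← integral_indicator measurableSet_closedBall]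
    refine integral_congr_ae (ae_of_all _ fun y => ?_)
    by_cases hy : y ∈ closedBall x r <;> simp [hφ, hy]
  rw [e, integral_bavg_mul_bdd hg hgc hb, ← integral_indicator measurableSet_closedBall]
  refine integral_mono (((hb.bavg h).integrable_mul' hg hgc).congr
    (ae_of_all _ fun y => mul_comm _ _))
    ((hg.integrable_of_hasCompactSupport hgc).indicator measurableSet_closedBall) fun y => ?_
  by_cases hy : y ∈ closedBall x (r + |h|)
  · rw [indicator_of_mem hy]
    refine mul_le_of_le_one_right (g0 y) ?_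
    rw [← bavg_const (1 : ℝ) h y]
    exact bavg_le_bavg hb (BM.const 1) fun z _ =>
      indicator_le' (fun _ _ => le_rfl) (fun _ _ => zero_le_one) z
  · rw [indicator_of_notMem hy]
    refine le_of_eq ?_
    have h0 : bavg h φ y = 0 := by
      rw [← bavg_const (0 : ℝ) h y]
      refine bavg_congr_on fun z hz => indicator_of_notMem ?_ _
      rw [mem_closedBall_iff_norm] at hy ⊢
      intro hzx
      exact hy (by linarith [norm_sub_le_norm_sub_add_norm_sub y z x, norm_sub_rev y z])
    rw [h0, mul_zero]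

lemma gapW_zero (n : ℕ) (x : Euc d) : gapW v s n 0 x = 0 := by
  simp [gapW, iter]

lemma gapW_succ (hv : Continuous v) (n k : ℕ) (x : Euc d) :
    gapW v s n (k + 1) x = bavg (stp s (n + k)) (gapW v s n k) x + gap v s (n + k) x := by
  have e : gapW v s n k = fun y =>
      iter s n k (fun y => ‖hier v s n y‖) y - ‖hier v s (n + k) y‖ := rfl
  rw [e, bavg_sub (continuous_iter (continuous_hier hv n).norm n k) (continuous_hier hv _).norm]
  simp only [gap, gapW, iter, stp, add_zero, ← add_assoc]
  ring

lemma hasCompactSupport_gapW (hvc : HasCompactSupport v) (n k : ℕ) :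
    HasCompactSupport (gapW v s n k) :=
  (hasCompactSupport_iter (hasCompactSupport_hier hvc n).norm n k).sub
    (hasCompactSupport_hier hvc _).norm

/-- The gap of a window is dominated by the gaps of its levels nearby. -/
lemma setIntegral_gapW_le (hv : Continuous v) (hvc : HasCompactSupport v) (hs : 0 < s) (n : ℕ) :
    ∀ k (x : Euc d) r, ∫ y in closedBall x r, gapW v s n k y ≤
      ∑ j ∈ Finset.range k, ∫ y in closedBall x (r + stp s (n + k)), gap v s (n + j) y
  | 0, x, r => by simp [gapW_zero]
  | k + 1, x, r => by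
    have hW := continuous_gapW (s := s) hv n k
    have hWc := hasCompactSupport_gapW (s := s) hvc n k
    have hp := stp_pos hs (n + k)
    have hgi : ∀ l, Integrable (gap v s l) := fun l => integrable_gapW hv hvc l 1
    simp only [gapW_succ hv]
    rw [integral_add (integrable_bavg hW hWc _).integrableOn (hgi _).integrableOn,
      Finset.sum_range_succ]
    refine add_le_add ?_ (setIntegral_mono_set (hgi _).integrableOn
      (ae_of_all _ (gap_nonneg hv _))
      (closedBall_subset_closedBall (by linarith [stp_pos hs (n + (k + 1))])).eventuallyLE)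
    refine (setIntegral_bavg_le hW hWc (gapW_nonneg hv n k) x r _).trans ?_
    refine (setIntegral_gapW_le hv hvc hs n k x _).trans_eq ?_
    rw [abs_of_pos hp, add_assoc, ← add_assoc n k 1, stp_succ, two_mul]

variable {E : ℕ → Euc d → ℝ}

lemma Energy.iter_eq (hE : Energy v s E) (hv : Continuous v) (n : ℕ) :
    ∀ k y, iter s n k (E n) y = E (n + k) y + gapW v s n k y
  | 0, y => by simp [iter, gapW_zero]
  | k + 1, y => by
    rw [iter, funext (hE.iter_eq hv n k), bavg_add (hE.cont _) (continuous_gapW hv n k)]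
    have e : s * 2 ^ (n + k) = stp s (n + k) := rfl
    rw [e, hE.step, gapW_succ hv, ← add_assoc n k 1]
    ring

/-- Mass near a point is transported to a coarser level, up to the gaps in between. -/
lemma Energy.setIntegral_le (hE : Energy v s E) (hv : Continuous v) (hvc : HasCompactSupport v)
    (hs : 0 < s) {n L : ℕ} (hnL : n ≤ L) (x : Euc d) (r : ℝ) :
    ∫ y in closedBall x r, E n y ≤ 3 * 2 ^ d *
      ((∫ y in closedBall x (r + stp s L), E L y) +
        ∑ l ∈ Finset.Ico n L, ∫ y in closedBall x (r + 2 * stp s L), gap v s l y) := by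
  have hEi : ∀ l, Integrable (E l) := fun l =>
    (hE.cont l).integrable_of_hasCompactSupport (hE.supp l)
  have h32 : (1 : ℝ) ≤ 3 * 2 ^ d := by
    have : (1 : ℝ) ≤ 2 ^ d := one_le_pow₀ one_le_two
    linarith
  rcases hnL.lt_or_eq with h | rfl
  swap
  · rw [Finset.Ico_self, Finset.sum_empty, add_zero]
    exact (setIntegral_mono_set (hEi _).integrableOn (ae_of_all _ (hE.nonneg _))
      (closedBall_subset_closedBall (by linarith [stp_pos hs n])).eventuallyLE).trans
        (le_mul_of_one_le_left (integral_nonneg fun y => hE.nonneg _ y) h32)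
  obtain ⟨k, rfl⟩ : ∃ k, L = n + (k + 1) := ⟨L - n - 1, by omega⟩
  set L := n + (k + 1) with hL
  set φ : Euc d → ℝ := (closedBall x r).indicator fun _ => 1
  set φ' : Euc d → ℝ := (closedBall x (r + stp s L)).indicator fun _ => 1
  have hφ0 : ∀ (R : ℝ) y, 0 ≤ (closedBall x R).indicator (fun _ => (1 : ℝ)) y :=
    fun R y => indicator_nonneg (fun _ _ => zero_le_one) y
  have hφ1 : ∀ (R : ℝ) y, (closedBall x R).indicator (fun _ => (1 : ℝ)) y ≤ 1 :=
    fun R y => indicator_le' (fun _ _ => le_rfl) (fun _ _ => zero_le_one) y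
  have hrad : s * 2 ^ (n + k) / 2 ≤ stp s L := by
    rw [hL, ← add_assoc, stp_succ]
    have := stp_pos hs (n + k)
    unfold stp at this ⊢
    linarith
  have key := integral_mul_le_iter (hE.cont n) (hE.supp n) (hE.nonneg n) hs n k
    (φ := φ) (φ' := φ') (measurable_const.indicator measurableSet_closedBall)
    (measurable_const.indicator measurableSet_closedBall) (hφ0 r) (hφ1 r) (hφ0 _) (hφ1 _)
    (fun z y _ hzy => by
      by_cases hy : y ∈ closedBall x r
      · simp only [φ, φ', indicator_of_mem hy]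
        rw [indicator_of_mem]
        rw [mem_closedBall_iff_norm] at hy ⊢
        linarith [norm_sub_le_norm_sub_add_norm_sub z y x]
      · simp only [φ, indicator_of_notMem hy]; exact hφ0 _ z)
  have e1 : ∀ (g : Euc d → ℝ) (R : ℝ), ∫ y, g y * (closedBall x R).indicator (fun _ => 1) y =
      ∫ y in closedBall x R, g y := by
    intro g R
    rw [← integral_indicator measurableSet_closedBall]
    refine integral_congr_ae (ae_of_all _ fun y => ?_)
    by_cases hy : y ∈ closedBall x R <;> simp [hy]
  rw [e1, e1] at key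
  refine key.trans (mul_le_mul_of_nonneg_left ?_ (by positivity))
  rw [funext (hE.iter_eq hv n (k + 1)), integral_add (hEi _).integrableOn
    (integrable_gapW hv hvc _ _).integrableOn]
  refine add_le_add le_rfl ((setIntegral_gapW_le hv hvc hs n (k + 1) x _).trans_eq ?_)
  rw [Finset.sum_Ico_eq_sum_range, show n + (k + 1) - n = k + 1 by omega, two_mul, ← add_assoc r]

private lemma shellMass_nonneg (hv : Continuous v) (A : ℝ) (x : Euc d) (r : ℝ) (N : ℕ) :
    0 ≤ shellMass v s A x r N :=
  Finset.sum_nonneg fun _ _ => integral_nonneg (gap_nonneg hv _)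

lemma shellMass_mono (hv : Continuous v) {N N' : ℕ} (h : N ≤ N') (A : ℝ) (x : Euc d) (r : ℝ) :
    shellMass v s A x r N ≤ shellMass v s A x r N' :=
  Finset.sum_le_sum_of_subset_of_nonneg (Finset.range_mono h)
    fun _ _ _ => integral_nonneg (gap_nonneg hv _)

lemma shellMass_mono_width (hv : Continuous v) (hvc : HasCompactSupport v) (hs : 0 < s) {A A' : ℝ}
    (h : A ≤ A') (x : Euc d) (r : ℝ) (N : ℕ) :
    shellMass v s A x r N ≤ shellMass v s A' x r N :=
  Finset.sum_le_sum fun l _ => setIntegral_mono_set (integrable_gapW hv hvc l 1).integrableOn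
    (ae_of_all _ (gap_nonneg hv l)) (Eventually.of_forall fun _ hy =>
      le_trans hy (mul_le_mul_of_nonneg_right h (stp_pos hs l).le))

lemma selMass_mono (hv : Continuous v) {N N' : ℕ} (h : N ≤ N') (A : ℝ) (x : Euc d) (r : ℝ)
    (q : Euc d) (R : ℝ) : selMass v s A x r N q R ≤ selMass v s A x r N' q R :=
  Finset.sum_le_sum_of_subset_of_nonneg (Finset.range_mono h)
    fun _ _ _ => integral_nonneg fun y => mul_nonneg (Real.sqrt_nonneg _) (gap_nonneg hv _ y)

end Transfer

section Measurability

variable {v : Euc d → Euc d} {s : ℝ}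

lemma measurable_shellGap' (hv : Continuous v) (A : ℝ) (l : ℕ) :
    Measurable fun p : Euc d × ℝ => ∫ y in shell p.1 p.2 (A * stp s l), gap v s l y := by
  classical
  set w := A * stp s l
  have hS : MeasurableSet {q : (Euc d × ℝ) × Euc d | |‖q.2 - q.1.1‖ - q.1.2| ≤ w} :=
    measurableSet_le (by fun_prop) measurable_const
  have hm : StronglyMeasurable ({q : (Euc d × ℝ) × Euc d | |‖q.2 - q.1.1‖ - q.1.2| ≤ w}.indicator
      fun q => gap v s l q.2) :=
    ((continuous_gapW (s := s) hv l 1).measurable.comp measurable_snd).stronglyMeasurable.indicator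
      hS
  convert (hm.integral_prod_right' (ν := volume)).measurable using 1
  funext p
  rw [← integral_indicator (measurableSet_shell _ _ _)]
  exact integral_congr_ae (ae_of_all _ fun y => by simp [Set.indicator_apply, shell, w])

lemma measurable_shellMass (hv : Continuous v) (A : ℝ) (N : ℕ) :
    Measurable fun p : Euc d × ℝ => shellMass v s A p.1 p.2 N :=
  Finset.measurable_sum _ fun l _ => measurable_shellGap' hv A l

lemma measurable_shellGap (hv : Continuous v) (A r : ℝ) (l : ℕ) :
    Measurable fun x => ∫ y in shell x r (A * stp s l), gap v s l y :=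
  Measurable.comp (g := fun p : Euc d × ℝ => ∫ y in shell p.1 p.2 (A * stp s l), gap v s l y)
    (f := fun x => (x, r)) (measurable_shellGap' hv A l) (measurable_id.prodMk measurable_const)

lemma measurable_nearGap (P : Params d) (J : ℕ) : Measurable (P.nearGap J) :=
  Finset.measurable_sum _ fun _ _ => measurable_const.indicator measurableSet_closedBall

lemma measurable_shellMass_fix (hv : Continuous v) (A r : ℝ) (N : ℕ) :
    Measurable fun x => shellMass v s A x r N :=
  Measurable.comp (g := fun p : Euc d × ℝ => shellMass v s A p.1 p.2 N) (f := fun x => (x, r))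
    (measurable_shellMass hv A N) (measurable_id.prodMk measurable_const)

lemma measurable_endMass {P : Params d} (hP : P.Valid) (A : ℝ) (J : ℕ) :
    Measurable (P.endMass A J) :=
  Measurable.add (f := fun x => shellMass P.v P.s A x (P.rho (J - 1)) (P.M * J))
    (g := fun x => shellMass P.v P.s A x (P.rho J) (P.M * J))
    (measurable_shellMass_fix hP.hv A _ _) (measurable_shellMass_fix hP.hv A _ _)

end Measurability

section Continuity

variable {E : Type*} [NormedAddCommGroup E] [NormedSpace ℝ E] {g : Euc d → E}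

lemma setIntegral_ball_eq_unit (g : Euc d → E) (c : Euc d) {R : ℝ} (hR : 0 < R) :
    ∫ y in ball c R, g y = R ^ d • ∫ u in ball (0 : Euc d) 1, g (c + R • u) := by
  have e := Measure.setIntegral_comp_smul_of_pos (μ := volume) (fun z : Euc d => g (c + z))
    (ball (0 : Euc d) 1) hR
  rw [smul_unitBall_of_pos hR, finrank_euclideanSpace_fin] at e
  have e2 : ∫ z in ball (0 : Euc d) R, g (c + z) = ∫ y in ball c R, g y := by
    rw [← integral_indicator measurableSet_ball, ← integral_indicator measurableSet_ball,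
      ← integral_add_left_eq_self ((ball c R).indicator g) c]
    refine integral_congr_ae (ae_of_all _ fun z => ?_)
    simp [Set.indicator, mem_ball, dist_eq_norm]
  rw [e, e2, smul_smul, mul_inv_cancel₀ (pow_ne_zero d hR.ne'), one_smul]

lemma setIntegral_closedBall_eq_ball (g : Euc d → E) (c : Euc d) {R : ℝ} (hR : R ≠ 0) :
    ∫ y in closedBall c R, g y = ∫ y in ball c R, g y := by
  refine setIntegral_congr_set ?_
  rw [← ball_union_sphere]
  exact union_ae_eq_left_of_ae_eq_empty
    (ae_eq_empty.2 (Measure.addHaar_sphere_of_ne_zero _ _ hR))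

lemma continuous_unitBall_integral (hg : Continuous g) :
    Continuous fun p : Euc d × ℝ => ∫ u in ball (0 : Euc d) 1, g (p.1 + p.2 • u) := by
  have e : (fun p : Euc d × ℝ => ∫ u in ball (0 : Euc d) 1, g (p.1 + p.2 • u)) =
      fun p => ∫ u in closedBall (0 : Euc d) 1, g (p.1 + p.2 • u) :=
    funext fun p => (setIntegral_closedBall_eq_ball (fun u => g (p.1 + p.2 • u)) 0 one_ne_zero).symm
  rw [e]
  exact continuous_parametric_integral_of_continuous
    (f := fun (p : Euc d × ℝ) (u : Euc d) => g (p.1 + p.2 • u))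
    (hg.comp (by fun_prop : Continuous fun q : (Euc d × ℝ) × Euc d => q.1.1 + q.1.2 • q.2))
    (isCompact_closedBall 0 1)

/-- Integrals over balls depend continuously on the ball. -/
lemma continuousOn_ball_integral (hg : Continuous g) :
    ContinuousOn (fun p : Euc d × ℝ => ∫ y in ball p.1 p.2, g y) {p | 0 < p.2} :=
  ((continuous_snd.pow d).smul (continuous_unitBall_integral hg)).continuousOn.congr
    fun p hp => setIntegral_ball_eq_unit g p.1 hp

lemma continuousOn_closedBall_integral (hg : Continuous g) :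
    ContinuousOn (fun p : Euc d × ℝ => ∫ y in closedBall p.1 p.2, g y) {p | 0 < p.2} :=
  (continuousOn_ball_integral hg).congr
    fun p (hp : 0 < p.2) => setIntegral_closedBall_eq_ball g p.1 hp.ne'

/-- In positive dimension the continuity holds down to radius zero. -/
lemma continuous_ball_integral (hd : d ≠ 0) (hg : Continuous g) :
    Continuous fun p : Euc d × ℝ => ∫ y in ball p.1 p.2, g y := by
  have hc : Continuous fun p : Euc d × ℝ => (p.1, max p.2 0) := by fun_prop
  refine (((continuous_snd.pow d).smul (continuous_unitBall_integral hg)).comp hc).congr fun p => ?_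
  rcases le_or_gt p.2 0 with h | h
  · simp [ball_eq_empty.2 h, max_eq_right h, zero_pow hd]
  · simp [max_eq_left h.le, setIntegral_ball_eq_unit g p.1 h]

lemma continuous_closedBall_integral (hg : Continuous g) {R : ℝ} (hR : 0 < R) :
    Continuous fun x => ∫ y in closedBall x R, g y :=
  ContinuousOn.comp_continuous (s := {p : Euc d × ℝ | 0 < p.2}) (f := fun x => (x, R))
    (continuousOn_closedBall_integral hg) (continuous_id.prodMk continuous_const) fun _ => hR

variable {v : Euc d → Euc d} {s : ℝ}

lemma setIntegral_ball_inner (hv : Continuous v) (x : Euc d) (r : ℝ) (e : Euc d) :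
    ∫ y in ball x r, ⟪v y, e⟫ = ⟪∫ y in ball x r, v y, e⟫ := by
  have hi : IntegrableOn v (ball x r) :=
    (hv.continuousOn.integrableOn_compact (isCompact_closedBall x r)).mono_set
      ball_subset_closedBall
  rw [real_inner_comm, ← integral_inner hi e]
  simp only [real_inner_comm]

lemma continuousOn_ball_inner (hv : Continuous v) :
    ContinuousOn (fun q : (Euc d × ℝ) × Euc d => ∫ y in ball q.1.1 q.1.2, ⟪v y, q.2⟫)
      {q | 0 < q.1.2} := by
  simp only [setIntegral_ball_inner hv]
  exact ContinuousOn.inner (ContinuousOn.comp (t := {p : Euc d × ℝ | 0 < p.2}) (f := Prod.fst)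
    (continuousOn_ball_integral hv) continuousOn_fst fun q hq => hq) continuousOn_snd

lemma continuous_ball_inner (hd : d ≠ 0) (hv : Continuous v) :
    Continuous fun q : (Euc d × ℝ) × Euc d => ∫ y in ball q.1.1 q.1.2, ⟪v y, q.2⟫ := by
  simp only [setIntegral_ball_inner hv]
  have h1 : Continuous fun p : Euc d × ℝ => ∫ y in ball p.1 p.2, v y :=
    continuous_ball_integral hd hv
  exact Continuous.inner (Continuous.comp (g := fun p : Euc d × ℝ => ∫ y in ball p.1 p.2, v y)
    (f := fun q : (Euc d × ℝ) × Euc d => q.1) h1 continuous_fst) continuous_snd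

lemma continuousOn_ball_inner_radial (hv : Continuous v) :
    ContinuousOn (fun p : Euc d × ℝ => ∫ y in ball p.1 p.2, ⟪v y, p.2⁻¹ • (y - p.1)⟫)
      {p | 0 < p.2} := by
  have e : ∀ (x : Euc d) (r : ℝ), ∫ y in ball x r, ⟪v y, r⁻¹ • (y - x)⟫ =
      r⁻¹ * ((∫ y in ball x r, ⟪v y, y⟫) - ∫ y in ball x r, ⟪v y, x⟫) := by
    intro x r
    rw [← integral_sub
      ((((hv.inner continuous_id).continuousOn).integrableOn_compact
        (isCompact_closedBall x r)).mono_set ball_subset_closedBall)
      ((((hv.inner continuous_const).continuousOn).integrableOn_compact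
        (isCompact_closedBall x r)).mono_set ball_subset_closedBall), ← integral_const_mul]
    simp [inner_smul_right, inner_sub_right]
  simp only [e]
  have h1 : ContinuousOn (fun p : Euc d × ℝ => p.2⁻¹) {p | 0 < p.2} :=
    continuousOn_snd.inv₀ fun p (hp : 0 < p.2) => hp.ne'
  have h2 : ContinuousOn (fun p : Euc d × ℝ => ∫ y in ball p.1 p.2, ⟪v y, y⟫) {p | 0 < p.2} :=
    continuousOn_ball_integral (g := fun y => ⟪v y, y⟫) (hv.inner continuous_id)
  have h3 : ContinuousOn (fun p : Euc d × ℝ => ∫ y in ball p.1 p.2, ⟪v y, p.1⟫) {p | 0 < p.2} :=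
    ContinuousOn.comp (t := {q : (Euc d × ℝ) × Euc d | 0 < q.1.2})
      (g := fun q : (Euc d × ℝ) × Euc d => ∫ y in ball q.1.1 q.1.2, ⟪v y, q.2⟫)
      (f := fun p : Euc d × ℝ => (p, p.1))
      (continuousOn_ball_inner hv) (continuousOn_id.prodMk continuousOn_fst) fun p hp => hp
  exact h1.mul (h2.sub h3)

lemma continuous_cohMass (hv : Continuous v) {R : ℝ} (hR : 0 < R) (N : ℕ)
    (n : Euc d) : Continuous fun x => cohMass v s x R N n := by
  unfold cohMass geoMass
  have h4 : 0 < 4 * R := by linarith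
  refine (continuous_closedBall_integral ?_ h4).add (continuous_finsetSum _ fun l _ =>
    continuous_const.mul (continuous_closedBall_integral (continuous_gapW hv l 1) h4))
  exact (continuous_hier hv N).norm.sub ((continuous_hier hv N).inner continuous_const)

lemma continuous_topMass (hv : Continuous v) {R : ℝ} (hR : 0 < R) (N : ℕ) :
    Continuous fun x => topMass v s x R N := by
  unfold topMass geoMass
  have h4 : 0 < 4 * R := by linarith
  exact (continuous_closedBall_integral (continuous_hier hv N).norm h4).add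
    (continuous_finsetSum _ fun l _ =>
      continuous_const.mul (continuous_closedBall_integral (continuous_gapW hv l 1) h4))

lemma continuous_blockGeo {P : Params d} (hP : P.Valid) (J : ℕ) : Continuous (P.blockGeo J) :=
  continuous_finsetSum _ fun l _ => continuous_const.mul
    (continuous_closedBall_integral (continuous_gapW hP.hv l 1)
      (by linarith [hP.rho_pos J]))

end Continuity

section Bounds

variable {P : Params d}

lemma Params.Valid.blockGeo_nonneg (hP : P.Valid) (J : ℕ) (x : Euc d) : 0 ≤ P.blockGeo J x :=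
  Finset.sum_nonneg fun l _ => mul_nonneg (div_nonneg (stp_pos hP.hs l).le (hP.rho_pos J).le)
    (integral_nonneg (gap_nonneg hP.hv l))

lemma Params.Valid.nearGap_nonneg (hP : P.Valid) (J : ℕ) (x : Euc d) : 0 ≤ P.nearGap J x :=
  Finset.sum_nonneg fun c _ => indicator_nonneg (fun _ _ => hP.cellGap_nonneg J c) x

lemma Params.Valid.endMass_nonneg (hP : P.Valid) (A : ℝ) (J : ℕ) (x : Euc d) :
    0 ≤ P.endMass A J x :=
  add_nonneg (shellMass_nonneg hP.hv _ _ _ _) (shellMass_nonneg hP.hv _ _ _ _)

lemma Params.Valid.blockSum_nonneg (hP : P.Valid) (J : ℕ) : 0 ≤ P.blockSum J :=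
  Finset.sum_nonneg fun l _ => mul_nonneg (div_nonneg (stp_pos hP.hs l).le (hP.rho_pos J).le)
    (integral_nonneg (gap_nonneg hP.hv l))

lemma Params.rho_eq_mul_pred (P : Params d) {J : ℕ} (hJ : 1 ≤ J) :
    P.rho J = 2 ^ P.M * P.rho (J - 1) := by
  obtain ⟨j, rfl⟩ := Nat.exists_eq_add_of_le hJ
  rw [Params.rho, Params.rho, Nat.add_sub_cancel_left, mul_add, mul_one, pow_add]
  ring

/-- The coherent and the crude error of a ball of block `J`. -/
theorem exists_cohMass_le (d : ℕ) : ∃ m₀ : ℕ, ∀ m M : ℕ, m₀ ≤ m → m ≤ M →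
    ∀ C : ℝ, ∃ K : ℝ, 0 ≤ K ∧
    ∀ P : Params d, P.Valid → P.m = m → P.M = M → ∀ J, 1 ≤ J → ∀ (x : Euc d) (R r : ℝ) (N : ℕ),
      Scaled P.s C R r N → P.rho (J - 1) ≤ R → R ≤ P.rho J →
      (∀ c ∈ P.grid J, ‖x - P.pt J c‖ ≤ Real.sqrt d * P.rho J →
        cohMass P.v P.s x R N (P.dir J c) ≤ K * (P.cellGap J c + P.blockGeo J x)) ∧
      topMass P.v P.s x R N ≤
        K * ((∫ y in closedBall x (16 * P.rho J), ‖P.F J y‖) + P.blockGeo J x) := by
  obtain ⟨m₀, hm₀⟩ := pow_unbounded_of_one_lt (4 * (Real.sqrt d + 7)) (one_lt_two : (1 : ℝ) < 2)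
  refine ⟨m₀, fun m M hm hmM C => ?_⟩
  set c₁ : ℝ := 3 * ballVol d * (2 ^ (m - 1)) ^ d
  have hc₁ : 0 ≤ c₁ := by have := ballVol_pos (d := d); positivity
  refine ⟨3 * 2 ^ d * (c₁ + |C| * 2 ^ M + 1) + 2 ^ M, by positivity, ?_⟩
  intro P hP hPm hPM J hJ x R r N hsc hR1 hR2
  have hρ := hP.rho_pos J
  have hR0 : 0 < R := hsc.hs.trans_le hsc.hsR
  have hρR : P.rho J ≤ 2 ^ M * R := by
    rw [P.rho_eq_mul_pred hJ, hPM]
    exact mul_le_mul_of_nonneg_left hR1 (by positivity)
  have hN : N ≤ P.M * J := by
    have h := hsc.low.trans hR2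
    rw [stp, Params.rho] at h
    exact (pow_le_pow_iff_right₀ (one_lt_two : (1 : ℝ) < 2)).1 (le_of_mul_le_mul_left h hP.hs)
  have hL : stp P.s (P.M * J) = P.rho J := rfl
  have hgi : ∀ l, Integrable (gap P.v P.s l) := fun l => integrable_gapW hP.hv hP.hvc l 1
  have hbig : ∀ r' : ℝ, r' ≤ 16 * P.rho J → ∀ l,
      ∫ y in closedBall x r', gap P.v P.s l y ≤
        ∫ y in closedBall x (16 * P.rho J), gap P.v P.s l y := fun r' hr' l =>
    setIntegral_mono_set (hgi l).integrableOn (ae_of_all _ (gap_nonneg hP.hv l))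
      (closedBall_subset_closedBall hr').eventuallyLE
  have hgeo : geoMass P.v P.s x R N ≤ 2 ^ M * P.blockGeo J x := by
    rw [Params.blockGeo, Finset.mul_sum]
    refine (Finset.sum_le_sum fun l _ => ?_).trans (Finset.sum_le_sum_of_subset_of_nonneg
      (Finset.range_mono hN) fun l _ _ => ?_)
    · rw [← mul_assoc]
      refine mul_le_mul ?_ (hbig _ (by linarith) l) (integral_nonneg (gap_nonneg hP.hv l))
        (mul_nonneg (by positivity) (div_nonneg (stp_pos hP.hs l).le hρ.le))
      rw [← mul_div_assoc, div_le_div_iff₀ hR0 hρ]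
      nlinarith [mul_le_mul_of_nonneg_left hρR (stp_pos hP.hs l).le]
    · exact mul_nonneg (by positivity) (mul_nonneg (div_nonneg (stp_pos hP.hs l).le hρ.le)
        (integral_nonneg (gap_nonneg hP.hv l)))
  have hmid : ∀ r' : ℝ, r' ≤ 16 * P.rho J →
      ∑ l ∈ Finset.Ico N (P.M * J), ∫ y in closedBall x r', gap P.v P.s l y ≤
        |C| * 2 ^ M * P.blockGeo J x := by
    intro r' hr'
    rw [Params.blockGeo, Finset.mul_sum]
    refine (Finset.sum_le_sum fun l hl => ?_).trans (Finset.sum_le_sum_of_subset_of_nonneg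
      (fun l hl => Finset.mem_range.2 (Finset.mem_Ico.1 hl).2) fun l _ _ => ?_)
    · refine (hbig r' hr' l).trans ?_
      rw [← mul_assoc]
      refine le_mul_of_one_le_left (integral_nonneg (gap_nonneg hP.hv l)) ?_
      have h1 : stp P.s N ≤ stp P.s l := mul_le_mul_of_nonneg_left
        (pow_le_pow_right₀ one_le_two (Finset.mem_Ico.1 hl).1) hP.hs.le
      have h2 : 40 * R ≤ |C| * stp P.s l :=
        hsc.reach.trans ((mul_le_mul_of_nonneg_right (le_abs_self C) (stp_pos hP.hs N).le).trans
          (mul_le_mul_of_nonneg_left h1 (abs_nonneg C)))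
      rw [← mul_div_assoc, one_le_div hρ]
      nlinarith [mul_le_mul_of_nonneg_left h2 (by positivity : (0 : ℝ) ≤ 2 ^ M)]
    · exact mul_nonneg (by positivity) (mul_nonneg (div_nonneg (stp_pos hP.hs l).le hρ.le)
        (integral_nonneg (gap_nonneg hP.hv l)))
  have hb0 := hP.blockGeo_nonneg J x
  have h3 : (0 : ℝ) ≤ 3 * 2 ^ d := by positivity
  have hCM : 0 ≤ |C| * (2 : ℝ) ^ M := by positivity
  refine ⟨fun c _ hxc => ?_, ?_⟩
  · have hn := hP.norm_dir J c
    have hE := energy_excN (s := P.s) hP.hv hP.hvc hn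
    have h1 := hE.setIntegral_le hP.hv hP.hvc hP.hs hN x (4 * R)
    rw [hL] at h1
    have h2 : ∫ y in closedBall x (4 * R + P.rho J), excN (hier P.v P.s (P.M * J) y) (P.dir J c) ≤
        c₁ * P.cellGap J c := by
      have hΛ : 4 * ((Real.sqrt d + 6) + 1) ≤ (2 : ℝ) ^ P.m := by
        rw [hPm]
        linarith [pow_le_pow_right₀ (one_le_two : (1 : ℝ) ≤ 2) hm]
      refine le_trans ?_ ((hP.setIntegral_excN_le J c hΛ).trans_eq (by rw [hPm]))
      refine setIntegral_mono_set
        ((hE.cont _).integrable_of_hasCompactSupport (hE.supp _)).integrableOn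
        (ae_of_all _ fun y => hE.nonneg _ y)
        (Eventually.of_forall (closedBall_subset_ball' ?_))
      rw [dist_eq_norm]
      nlinarith
    have h4 := hmid (4 * R + 2 * P.rho J) (by linarith)
    have hc0 := hP.cellGap_nonneg J c
    unfold cohMass
    nlinarith [mul_le_mul_of_nonneg_left (add_le_add h2 h4) h3,
      mul_nonneg (mul_nonneg h3 hc₁) hb0, mul_nonneg (mul_nonneg h3 hCM) hc0,
      mul_nonneg h3 hc0, mul_nonneg h3 hb0, mul_nonneg (pow_nonneg two_pos.le M : (0:ℝ) ≤ 2 ^ M) hc0]
  · have hE := energy_norm (s := P.s) hP.hv hP.hvc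
    have h1 := hE.setIntegral_le hP.hv hP.hvc hP.hs hN x (4 * R)
    rw [hL] at h1
    set T := ∫ y in closedBall x (16 * P.rho J), ‖P.F J y‖ with hT
    have h2 : ∫ y in closedBall x (4 * R + P.rho J), ‖hier P.v P.s (P.M * J) y‖ ≤ T :=
      setIntegral_mono_set
        ((hE.cont _).integrable_of_hasCompactSupport (hE.supp _)).integrableOn
        (ae_of_all _ fun y => hE.nonneg _ y)
        (closedBall_subset_closedBall (by linarith)).eventuallyLE
    have hT0 : 0 ≤ T := integral_nonneg fun y => norm_nonneg _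
    have h4 := hmid (4 * R + 2 * P.rho J) (by linarith)
    unfold topMass
    nlinarith [mul_le_mul_of_nonneg_left (add_le_add h2 h4) h3,
      mul_nonneg (mul_nonneg h3 hc₁) hb0, mul_nonneg (mul_nonneg h3 hCM) hT0,
      mul_nonneg (mul_nonneg h3 hc₁) hT0,
      mul_nonneg h3 hT0, mul_nonneg h3 hb0, mul_nonneg (pow_nonneg two_pos.le M : (0:ℝ) ≤ 2 ^ M) hT0]

lemma Params.Valid.lintegral_blockGeo_le (hP : P.Valid) (J : ℕ) :
    ∫⁻ x, ENNReal.ofReal (P.blockGeo J x) ≤
      ENNReal.ofReal ((16 * P.rho J) ^ d * ballVol d * P.blockSum J) := by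
  have hρ := hP.rho_pos J
  have hw : ∀ l, 0 ≤ stp P.s l / P.rho J := fun l => div_nonneg (stp_pos hP.hs l).le hρ.le
  have e : ∀ x, ENNReal.ofReal (P.blockGeo J x) = ∑ l ∈ Finset.range (P.M * J),
      ENNReal.ofReal (stp P.s l / P.rho J) *
        ENNReal.ofReal (∫ y in closedBall x (16 * P.rho J), gap P.v P.s l y) := fun x => by
    rw [Params.blockGeo, ENNReal.ofReal_sum_of_nonneg fun l _ =>
      mul_nonneg (hw l) (integral_nonneg (gap_nonneg hP.hv l))]
    exact Finset.sum_congr rfl fun l _ => ENNReal.ofReal_mul (hw l)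
  simp only [e]
  rw [lintegral_finsetSum _ fun l _ => ((continuous_closedBall_integral
    (show Continuous (gap P.v P.s l) from continuous_gapW hP.hv l 1)
    (show 0 < 16 * P.rho J by linarith)).measurable.ennreal_ofReal.const_mul _)]
  have hV := ballVol_pos (d := d)
  rw [Params.blockSum, Finset.mul_sum, ENNReal.ofReal_sum_of_nonneg fun l _ => mul_nonneg
    (by positivity) (mul_nonneg (hw l) (integral_nonneg (gap_nonneg hP.hv l)))]
  refine Finset.sum_le_sum fun l _ => ?_
  rw [lintegral_const_mul' _ _ ENNReal.ofReal_ne_top, ← mul_left_comm (stp P.s l / P.rho J),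
    ENNReal.ofReal_mul (hw l)]
  exact mul_le_mul_right (lintegral_closedBall_integral_le (continuous_gapW hP.hv l 1)
    (hasCompactSupport_gap hP.hvc l) (gap_nonneg hP.hv l) (by linarith)) _

lemma Params.Valid.lintegral_shellMass_le (hP : P.Valid) {A : ℝ} (hA : 0 ≤ A) {J : ℕ}
    (hJ : 1 ≤ J) {r : ℝ} (hr : r ∈ Icc (P.rho (J - 1)) (P.rho J)) :
    ∫⁻ x, ENNReal.ofReal (shellMass P.v P.s A x r (P.M * J)) ≤
      ENNReal.ofReal ((2 * d + 1) * (1 + A) ^ d * A * 2 ^ P.M * ballVol d *
        (P.rho J ^ d * P.blockSum J)) := by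
  have hρ := hP.rho_pos J
  have hρ' := hP.rho_pos (J - 1)
  have hV := ballVol_pos (d := d)
  have e : ∀ x, ENNReal.ofReal (shellMass P.v P.s A x r (P.M * J)) =
      ∑ l ∈ Finset.range (P.M * J),
        ENNReal.ofReal (∫ y in shell x r (A * stp P.s l), gap P.v P.s l y) := fun x =>
    ENNReal.ofReal_sum_of_nonneg fun l _ => integral_nonneg (gap_nonneg hP.hv l)
  simp only [e]
  rw [lintegral_finsetSum _ fun l _ => ?_]
  swap
  · exact (measurable_shellGap hP.hv A r l).ennreal_ofReal
  rw [Params.blockSum, Finset.mul_sum, Finset.mul_sum, ENNReal.ofReal_sum_of_nonneg fun l _ =>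
    mul_nonneg (by positivity) (mul_nonneg (by positivity) (mul_nonneg
      (div_nonneg (stp_pos hP.hs l).le hρ.le) (integral_nonneg (gap_nonneg hP.hv l))))]
  refine Finset.sum_le_sum fun l hl => ?_
  have hp := stp_pos hP.hs l
  have hle : stp P.s l ≤ P.rho J := mul_le_mul_of_nonneg_left
    (pow_le_pow_right₀ one_le_two (Finset.mem_range.1 hl).le) hP.hs.le
  refine (lintegral_setIntegral_le (S := fun x => shell x r (A * stp P.s l))
    (continuous_gapW hP.hv l 1) (hasCompactSupport_gap hP.hvc l) (gap_nonneg hP.hv l)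
    (measurableSet_le (f := fun p : Euc d × Euc d => |‖p.2 - p.1‖ - r|)
      (g := fun _ => A * stp P.s l) (by fun_prop) measurable_const)
    (B := (2 * d + 1) * ((1 + A) * P.rho J) ^ d * (A * stp P.s l / P.rho (J - 1)) * ballVol d)
    (by positivity) fun y => volume_shell_le y hρ' hr.1 (by positivity)
      (by nlinarith [hr.2, mul_le_mul_of_nonneg_left hle hA])).trans_eq ?_
  congr 1
  rw [P.rho_eq_mul_pred hJ]
  simp only [mul_pow]
  field_simp
  rfl

lemma Params.Valid.lintegral_nearGap_le (hP : P.Valid) (J : ℕ) :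
    ∫⁻ x, ENNReal.ofReal (P.nearGap J x) ≤
      ENNReal.ofReal ((Real.sqrt d * P.rho J) ^ d * (2 ^ d * ∫ x, P.winGap J x)) := by
  have hρ := hP.rho_pos J
  have hV := ballVol_pos (d := d)
  have hrad : 0 ≤ Real.sqrt d * P.rho J := by positivity
  have e : ∀ x, ENNReal.ofReal (P.nearGap J x) = ∑ c ∈ P.grid J,
      (closedBall (P.pt J c) (Real.sqrt d * P.rho J)).indicator
        (fun _ => ENNReal.ofReal (P.cellGap J c)) x := fun x => by
    rw [Params.nearGap, ENNReal.ofReal_sum_of_nonneg fun c _ =>
      indicator_nonneg (fun _ _ => hP.cellGap_nonneg J c) x]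
    refine Finset.sum_congr rfl fun c _ => ?_
    by_cases hx : x ∈ closedBall (P.pt J c) (Real.sqrt d * P.rho J) <;> simp [hx]
  simp only [e]
  rw [lintegral_finsetSum _ fun c _ => measurable_const.indicator measurableSet_closedBall]
  simp only [lintegral_indicator_const measurableSet_closedBall, volume_closedBall_eq _ hrad]
  rw [← Finset.sum_mul, ← ENNReal.ofReal_sum_of_nonneg fun c _ => hP.cellGap_nonneg J c,
    ← ENNReal.ofReal_mul (Finset.sum_nonneg fun c _ => hP.cellGap_nonneg J c)]
  refine ENNReal.ofReal_le_ofReal ((mul_le_mul_of_nonneg_right (hP.sum_cellGap_le J)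
    (mul_nonneg (pow_nonneg hrad d) hV.le)).trans_eq ?_)
  field_simp

lemma sum_inv_two_pow_le {l : ℕ} {S : Finset ℕ} (h : ∀ j ∈ S, l < j) :
    ∑ j ∈ S, (2 : ℝ) ^ l / 2 ^ j ≤ 1 := by
  obtain ⟨B, hB⟩ : ∃ B, ∀ j ∈ S, j < l + 1 + B :=
    ⟨S.sup id + 1, fun j hj => by have := Finset.le_sup (f := id) hj; simp only [id] at this; omega⟩
  refine (Finset.sum_le_sum_of_subset_of_nonneg (fun j hj => Finset.mem_Ico.2 ⟨h j hj, hB j hj⟩)
    fun j _ _ => by positivity).trans ?_
  rw [Finset.sum_Ico_eq_sum_range, Nat.add_sub_cancel_left]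
  have : ∀ n, ∑ i ∈ Finset.range n, (2 : ℝ) ^ l / 2 ^ (l + 1 + i) = 1 - (1 / 2) ^ n := by
    intro n
    induction n with
    | zero => simp
    | succ n ih =>
      rw [Finset.sum_range_succ, ih, pow_add, pow_add, pow_succ (1 / 2 : ℝ), div_pow, one_pow]
      field_simp
      ring
  rw [this]
  linarith [pow_nonneg (by norm_num : (0 : ℝ) ≤ 1 / 2) B]

lemma Params.Valid.sum_blockSum_le (hP : P.Valid) (N : ℕ) :
    ∑ J ∈ Finset.Icc 1 N, P.blockSum J ≤ ∫ y, ‖P.v y‖ := by
  have hM : 1 ≤ P.M := hP.hm.trans hP.hmM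
  have hI : ∀ l, 0 ≤ ∫ y, gap P.v P.s l y := fun l => integral_nonneg (gap_nonneg hP.hv l)
  unfold Params.blockSum
  rw [Finset.sum_comm' (t' := Finset.range (P.M * N))
    (s' := fun l => (Finset.Icc 1 N).filter fun J => l < P.M * J) (fun J l => ?_)]
  · refine (Finset.sum_le_sum (g := fun l => ∫ y, gap P.v P.s l y) fun l _ => ?_).trans ?_
    · rw [← Finset.sum_mul]
      refine mul_le_of_le_one_left (hI l) ?_
      have e : ∀ J, stp P.s l / P.rho J = 2 ^ l / 2 ^ (P.M * J) := fun J => by
        rw [stp, Params.rho, mul_div_mul_left _ _ hP.hs.ne']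
      simp only [e]
      rw [← Finset.sum_image (f := fun j => (2 : ℝ) ^ l / 2 ^ j) (g := fun J => P.M * J)
        fun a _ b _ hab => Nat.eq_of_mul_eq_mul_left (by omega) hab]
      exact sum_inv_two_pow_le fun j hj => by
        obtain ⟨J, hJ, rfl⟩ := Finset.mem_image.1 hj
        exact (Finset.mem_filter.1 hJ).2
    · simpa [gap] using sum_integral_gapW_le (s := P.s) hP.hv hP.hvc (m := 1) (M := 1) le_rfl 0
        (P.M * N)
  · simp only [Finset.mem_Icc, Finset.mem_range, Finset.mem_filter]
    constructor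
    · rintro ⟨h1, h2⟩
      exact ⟨⟨h1, h2⟩, h2.trans_le (Nat.mul_le_mul_left _ h1.2)⟩
    · rintro ⟨⟨h1, h2⟩, _⟩
      exact ⟨h1, h2⟩

lemma Params.Valid.sum_winGap_le (hP : P.Valid) (N : ℕ) :
    ∑ J ∈ Finset.Icc 1 N, ∫ x, P.winGap J x ≤ ∫ y, ‖P.v y‖ := by
  refine (Finset.sum_le_sum_of_subset_of_nonneg (t := Finset.range (N + 1))
    (fun J hJ => Finset.mem_range.2 (by have := (Finset.mem_Icc.1 hJ).2; omega))
    fun J _ _ => integral_nonneg fun x => gapW_nonneg hP.hv _ _ x).trans ?_
  simpa [Params.winGap] using sum_integral_gapW_le (s := P.s) hP.hv hP.hvc hP.hmM 0 (N + 1)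

lemma sum_ofReal_le {ι : Type*} (S : Finset ι) {a : ι → ℝ≥0∞} {b : ι → ℝ} {K : ℝ} (hK : 0 ≤ K)
    (hb : ∀ i ∈ S, 0 ≤ b i) (hab : ∀ i ∈ S, a i ≤ ENNReal.ofReal (b i)) {v : Euc d → Euc d}
    (hv : Continuous v) (hvc : HasCompactSupport v) (hsum : ∑ i ∈ S, b i ≤ K * ∫ y, ‖v y‖) :
    ∑ i ∈ S, a i ≤ ENNReal.ofReal K * ∫⁻ y, ‖v y‖ₑ := by
  refine (Finset.sum_le_sum hab).trans ?_
  rw [← ENNReal.ofReal_sum_of_nonneg hb]
  refine (ENNReal.ofReal_le_ofReal hsum).trans_eq ?_
  rw [ENNReal.ofReal_mul hK, ← ofReal_integral_norm_eq_lintegral_enorm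
    (hv.integrable_of_hasCompactSupport hvc)]

lemma inv_ofReal_mul_le {a b : ℝ} {t : ℝ≥0∞} (ha : 0 < a) (h : t ≤ ENNReal.ofReal (a * b)) :
    (ENNReal.ofReal a)⁻¹ * t ≤ ENNReal.ofReal b := by
  refine (mul_le_mul_right h _).trans_eq ?_
  rw [ENNReal.ofReal_mul ha.le, ← mul_assoc, ENNReal.inv_mul_cancel
    (ne_of_gt (ENNReal.ofReal_pos.2 ha)) ENNReal.ofReal_ne_top, one_mul]

/-- The block quantities integrate to the mass of the field. -/
theorem exists_block_integrals (d m M : ℕ) (_hm : 1 ≤ m) (_hM : m ≤ M) (A : ℝ) (hA : 0 ≤ A) :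
    ∃ K : ℝ, 0 ≤ K ∧ ∀ P : Params d, P.Valid → P.m = m → P.M = M →
      (∑ J ∈ Finset.Icc 1 P.N, (ENNReal.ofReal (P.rho J ^ d))⁻¹ *
          ∫⁻ x, ENNReal.ofReal (P.nearGap J x + P.blockGeo J x + P.endMass A J x)) ≤
        ENNReal.ofReal K * ∫⁻ y, ‖P.v y‖ₑ ∧
      (∑ J ∈ Finset.Icc 1 P.N, (ENNReal.ofReal (P.rho J ^ d * P.rho J))⁻¹ *
          ∫⁻ x, ∫⁻ r in Icc (P.rho (J - 1)) (P.rho J),
            ENNReal.ofReal (shellMass P.v P.s A x r (P.M * J) + P.blockGeo J x)) ≤
        ENNReal.ofReal K * ∫⁻ y, ‖P.v y‖ₑ := by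
  set a : ℝ := Real.sqrt d ^ d * 2 ^ d with ha
  set g : ℝ := 16 ^ d * ballVol d with hg
  set b : ℝ := (2 * d + 1) * (1 + A) ^ d * A * 2 ^ M * ballVol d with hb
  have hV := ballVol_pos (d := d)
  have ha0 : 0 ≤ a := by positivity
  have hg0 : 0 ≤ g := by positivity
  have hb0 : 0 ≤ b := by positivity
  refine ⟨a + g + 2 * b, by positivity, fun P hP _ hPM => ?_⟩
  have hI : 0 ≤ ∫ y, ‖P.v y‖ := integral_nonneg fun y => norm_nonneg _
  have hW0 : ∀ J, 0 ≤ ∫ x, P.winGap J x := fun J =>
    integral_nonneg fun x => gapW_nonneg hP.hv _ _ x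
  have hsW := hP.sum_winGap_le P.N
  have hsB := hP.sum_blockSum_le P.N
  constructor
  · refine sum_ofReal_le _ (by positivity)
      (b := fun J => a * (∫ x, P.winGap J x) + (g + 2 * b) * P.blockSum J)
      (fun J _ => by have := hW0 J; have := hP.blockSum_nonneg J; positivity)
      (fun J hJ => ?_) hP.hv hP.hvc ?_
    · have hJ1 := (Finset.mem_Icc.1 hJ).1
      have hρ := hP.rho_pos J
      have hρd : 0 < P.rho J ^ d := pow_pos hρ d
      refine inv_ofReal_mul_le hρd ?_
      have hle : P.rho (J - 1) ≤ P.rho J := hP.rho_mono (by omega)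
      have m1 : Measurable fun x => ENNReal.ofReal (P.nearGap J x) :=
        (measurable_nearGap P J).ennreal_ofReal
      have m2 : Measurable fun x => ENNReal.ofReal (P.blockGeo J x) :=
        (continuous_blockGeo hP J).measurable.ennreal_ofReal
      have m3 : Measurable fun x =>
          ENNReal.ofReal (shellMass P.v P.s A x (P.rho (J - 1)) (P.M * J)) :=
        (measurable_shellMass_fix hP.hv A _ _).ennreal_ofReal
      have e : ∀ x, ENNReal.ofReal (P.nearGap J x + P.blockGeo J x + P.endMass A J x) =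
          ENNReal.ofReal (P.nearGap J x) + ENNReal.ofReal (P.blockGeo J x) +
            (ENNReal.ofReal (shellMass P.v P.s A x (P.rho (J - 1)) (P.M * J)) +
              ENNReal.ofReal (shellMass P.v P.s A x (P.rho J) (P.M * J))) := fun x => by
        rw [ENNReal.ofReal_add (add_nonneg (hP.nearGap_nonneg J x) (hP.blockGeo_nonneg J x))
          (hP.endMass_nonneg A J x), ENNReal.ofReal_add (hP.nearGap_nonneg J x)
          (hP.blockGeo_nonneg J x), Params.endMass, ENNReal.ofReal_add
          (shellMass_nonneg hP.hv _ _ _ _) (shellMass_nonneg hP.hv _ _ _ _)]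
      simp only [e]
      rw [lintegral_add_left (m1.fun_add m2), lintegral_add_left m1, lintegral_add_left m3]
      refine (add_le_add (add_le_add (hP.lintegral_nearGap_le J) (hP.lintegral_blockGeo_le J))
        (add_le_add (hP.lintegral_shellMass_le hA hJ1 ⟨le_rfl, hle⟩)
          (hP.lintegral_shellMass_le hA hJ1 ⟨hle, le_rfl⟩))).trans_eq ?_
      have := hW0 J
      have := hP.blockSum_nonneg J
      rw [hPM, ← ENNReal.ofReal_add (by positivity) (by positivity),
        ← ENNReal.ofReal_add (by positivity) (by positivity),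
        ← ENNReal.ofReal_add (by positivity) (by positivity)]
      congr 1
      simp only [ha, hg, hb, mul_pow]
      ring
    · rw [Finset.sum_add_distrib, ← Finset.mul_sum, ← Finset.mul_sum]
      nlinarith
  · refine sum_ofReal_le _ (by positivity) (b := fun J => (g + b) * P.blockSum J)
      (fun J _ => by have := hP.blockSum_nonneg J; positivity) (fun J hJ => ?_) hP.hv hP.hvc ?_
    · have hJ1 := (Finset.mem_Icc.1 hJ).1
      have hρ := hP.rho_pos J
      have hρd : 0 < P.rho J ^ d := pow_pos hρ d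
      have hB0 := hP.blockSum_nonneg J
      refine inv_ofReal_mul_le (mul_pos hρd hρ) ?_
      rw [lintegral_lintegral_swap (((measurable_shellMass hP.hv A _).add
        ((continuous_blockGeo hP J).measurable.comp measurable_fst)).ennreal_ofReal.aemeasurable)]
      refine (setLIntegral_mono' (g := fun _ => ENNReal.ofReal
        (P.rho J ^ d * ((g + b) * P.blockSum J))) measurableSet_Icc fun r hr => ?_).trans ?_
      · simp only [ENNReal.ofReal_add (shellMass_nonneg hP.hv _ _ _ _) (hP.blockGeo_nonneg J _)]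
        rw [lintegral_add_right _ (continuous_blockGeo hP J).measurable.ennreal_ofReal]
        refine (add_le_add (hP.lintegral_shellMass_le hA hJ1 hr)
          (hP.lintegral_blockGeo_le J)).trans_eq ?_
        rw [hPM, ← ENNReal.ofReal_add (by positivity) (by positivity)]
        congr 1
        simp only [hg, hb, mul_pow]
        ring
      · rw [setLIntegral_const, Real.volume_Icc, ← ENNReal.ofReal_mul (by positivity)]
        refine ENNReal.ofReal_le_ofReal ?_
        calc P.rho J ^ d * ((g + b) * P.blockSum J) * (P.rho J - P.rho (J - 1))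
            ≤ P.rho J ^ d * ((g + b) * P.blockSum J) * P.rho J :=
              mul_le_mul_of_nonneg_left (by linarith [hP.rho_pos (J - 1)]) (by positivity)
          _ = _ := by ring
    · rw [← Finset.mul_sum]
      nlinarith

end Bounds

end Vale.Agent.P137.Centred
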