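import Vale.Agent.P137.Centred.Calibrator

/-!
# P137, centred operator: the calibrator bound
-/

open MeasureTheory Filter Set Metric Finset
open scoped ENNReal NNReal Topology RealInnerProductSpace

noncomputable section

namespace Vale.Agent.P137.Centred

variable {d : ℕ} {s : ℝ} {v : Euc d → Euc d}

lemma iter_inner (hv : Continuous v) (u : Euc d) (n : ℕ) : ∀ m x,
    iter s n m (fun y => ⟪hier v s n y, u⟫) x = ⟪hier v s (n + m) x, u⟫ := by
  intro m
  induction m with
  | zero => exact fun x => rfl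
  | succ m ih =>
    intro x
    simp only [iter, funext ih]
    rw [bavg_inner (continuous_hier hv _)]
    rfl

lemma bavg_sum_smul {ι : Type*} (S : Finset ι) (c : ι → ℝ) {g : ι → Euc d → ℝ}
    (hg : ∀ i, Continuous (g i)) (r : ℝ) :
    bavg r (fun z => ∑ i ∈ S, c i * g i z) = fun x => ∑ i ∈ S, c i * bavg r (g i) x := by
  funext x
  simp only [bavg, smul_eq_mul]
  rw [integral_finsetSum _ fun i _ => (integrable_unitBall (hg i) x r).const_mul (c i), mul_sum]
  refine Finset.sum_congr rfl fun i _ => ?_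
  rw [integral_const_mul]
  ring

lemma iterR_sum_smul {ι : Type*} (S : Finset ι) (c : ι → ℝ) (n : ℕ) : ∀ m {g : ι → Euc d → ℝ},
    (∀ i, Continuous (g i)) → ∀ x,
      iterR s n m (fun z => ∑ i ∈ S, c i * g i z) x = ∑ i ∈ S, c i * iterR s n m (g i) x
  | 0, _, _, _ => rfl
  | m + 1, g, hg, x => by
    simp only [iterR, bavg_sum_smul S c hg]
    exact iterR_sum_smul S c n m (fun i => continuous_bavg (hg i) _) x

lemma sum_steps_le (hs : 0 ≤ s) (n m : ℕ) :
    ∑ j ∈ Finset.range m, s * 2 ^ (n + j) ≤ s * 2 ^ (n + m) := by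
  induction m with
  | zero => simp; positivity
  | succ m ih => rw [sum_range_succ, ← add_assoc n m 1, pow_succ 2]; linarith

/-- The shifted windows of an antitone sequence add up. -/
lemma sum_window_le {a : ℕ → ℝ} (ha : Antitone a) (ha0 : ∀ n, 0 ≤ a n) (n : ℕ) : ∀ c,
    ∑ K ∈ Finset.range n, (a K - a (K + c)) ≤ c * a 0
  | 0 => by simp
  | c + 1 => by
    have h := sum_window_le ha ha0 n c
    have h2 : ∑ K ∈ Finset.range n, (a (K + c) - a (K + 1 + c)) = a c - a (n + c) := by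
      rw [sum_range_sub' fun K => a (K + c)]
      simp
    have h3 : ∑ K ∈ Finset.range n, (a K - a (K + (c + 1))) =
        ∑ K ∈ Finset.range n, (a K - a (K + c)) +
          ∑ K ∈ Finset.range n, (a (K + c) - a (K + 1 + c)) := by
      rw [← sum_add_distrib]
      refine Finset.sum_congr rfl fun K _ => ?_
      rw [show K + 1 + c = K + (c + 1) by ring]
      ring
    have h4 := ha (Nat.zero_le c)
    have h5 := ha0 (n + c)
    push_cast
    linarith

/-- A shift of a nonnegative finite sum only loses. -/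
lemma sum_shift_le {f : ℕ → ℝ} (hf : ∀ n, 0 ≤ f n) (N c : ℕ) :
    ∑ K ∈ Finset.range N, (if K + c < N then f (K + c) else 0) ≤ ∑ J ∈ Finset.range N, f J := by
  rw [← sum_filter]
  refine le_trans (le_of_eq ?_) (sum_le_sum_of_subset_of_nonneg (s := Finset.Ico c N) ?_
    fun J _ _ => hf J)
  · refine (sum_bij' (fun J _ => J - c) (fun K _ => K + c) ?_ ?_ ?_ ?_ ?_).symm
    · intro J hJ
      have := Finset.mem_Ico.1 hJ
      rw [Finset.mem_filter, Finset.mem_range]
      omega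
    · intro K hK
      rw [Finset.mem_filter, Finset.mem_range] at hK
      rw [Finset.mem_Ico]
      omega
    · intro J hJ
      have := Finset.mem_Ico.1 hJ
      omega
    · intro K _
      omega
    · intro J hJ
      have := Finset.mem_Ico.1 hJ
      congr 1
      omega
  · intro J hJ
    exact Finset.mem_range.2 (Finset.mem_Ico.1 hJ).2

lemma sum_geom_weight_le (n : ℕ) : ∑ j ∈ Finset.range n, (1 / 2 : ℝ) ^ j * (j + 2) ≤ 6 := by
  have h : ∀ n : ℕ, ∑ j ∈ Finset.range n, (1 / 2 : ℝ) ^ j * (j + 2) =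
      6 - (1 / 2 : ℝ) ^ n * (2 * n + 6) := by
    intro n
    induction n with
    | zero => norm_num
    | succ n ih => rw [sum_range_succ, ih]; push_cast; rw [pow_succ]; ring
  rw [h]
  have : (0 : ℝ) ≤ (1 / 2) ^ n * (2 * n + 6) := by positivity
  linarith

namespace Params

variable {P : Params d}

/-- Mass of block `J` against the killing of the next block. -/
def adjCross (P : Params d) (J : ℕ) : ℝ := if J + 1 < P.N then P.cross J (J + 1) else 0

/-- The reciprocal of the ratio of consecutive scales. -/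
def invL (P : Params d) : ℝ := ((2 : ℝ) ^ P.M)⁻¹

lemma invL_nonneg : 0 ≤ P.invL := by unfold Params.invL; positivity

lemma Valid.invL_le_half (hP : P.Valid) : P.invL ≤ 1 / 2 := by
  rw [one_div, Params.invL]
  exact inv_anti₀ two_pos (by
    simpa using pow_le_pow_right₀ (one_le_two : (1:ℝ) ≤ 2) (hP.hm.trans hP.hmM))

lemma Valid.decay_succ_le (hP : P.Valid) (j : ℕ) : P.decay (j + 1) ≤ P.invL * (1 / 2) ^ j := by
  rw [decay_succ]
  exact mul_le_mul_of_nonneg_left (pow_le_pow_left₀ invL_nonneg hP.invL_le_half j) invL_nonneg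

lemma Valid.norm_Qv_le (hP : P.Valid) {K : ℕ} (hK : K ≤ P.N) (x : Euc d) : ‖P.Qv K x‖ ≤ 1 := by
  refine (norm_sum_le _ _).trans ?_
  rw [← sum_q (P := P) hK x]
  refine Finset.sum_le_sum fun i _ => ?_
  rw [norm_smul, hP.norm_compDir, mul_one, Real.norm_eq_abs, abs_of_nonneg (q_nonneg _ _ _)]

lemma Valid.abs_pot_le (hP : P.Valid) {K : ℕ} (hK : K ≤ P.N) :
    |∫ y, ⟪P.F K y, P.Qv K y⟫| ≤ ∫ y, ‖P.v y‖ := by
  refine abs_integral_le_integral_abs.trans ((integral_mono (hP.integrable_inner_Qv K K).abs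
    (integrable_norm_hier hP.hv hP.hvc _) fun y => ?_).trans (hP.integral_F_le K))
  exact (abs_real_inner_le_norm _ _).trans
    (mul_le_of_le_one_right (norm_nonneg _) (hP.norm_Qv_le hK y))

/-- The error of transporting the calibrating field by one block. -/
def transportErr (P : Params d) (J : ℕ) : ℝ :=
  |(∫ y, ⟪P.F (J + 1) y, P.Qv (J + 1) y⟫) - ∫ y, ⟪P.F J y, P.Qv (J + 1) y⟫|

lemma Valid.sum_drop_le (hP : P.Valid) :
    ∑ J ∈ Finset.range P.N, P.drop J ≤
      2 * (∫ y, ‖P.v y‖) + ∑ J ∈ Finset.range P.N, P.transportErr J := by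
  set p := fun K => ∫ y, ⟪P.F K y, P.Qv K y⟫
  have h1 : ∀ J ∈ Finset.range P.N, P.drop J ≤ (p J - p (J + 1)) + P.transportErr J := by
    intro J _
    rw [Params.drop, integral_sub (hP.integrable_inner_Qv J J) (hP.integrable_inner_Qv J (J + 1))]
    have := le_abs_self ((∫ y, ⟪P.F (J + 1) y, P.Qv (J + 1) y⟫) -
      ∫ y, ⟪P.F J y, P.Qv (J + 1) y⟫)
    simp only [p, Params.transportErr]
    linarith
  refine (Finset.sum_le_sum h1).trans ?_
  rw [sum_add_distrib, sum_range_sub' p]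
  have h2 := abs_le.1 (hP.abs_pot_le (Nat.zero_le P.N))
  have h3 := abs_le.1 (hP.abs_pot_le (le_refl P.N))
  simp only [p]
  linarith

/-- The transport error is controlled by the variation of the calibrating field. -/
lemma Valid.transportErr_le (hP : P.Valid) {R : ℝ} (hR : P.Big R) {J : ℕ} (hJ : J < P.N)
    {g : Euc d → ℝ} (hg : Integrable g) (hg0 : ∀ y, 0 ≤ g y)
    (hb : ∀ y z, (∀ j, |y j| ≤ P.Ω) → (∀ j, |z j| ≤ P.Ω) → ‖y - z‖ ≤ P.rho (J + 1) →
      |⟪P.F J y, P.Qv (J + 1) z⟫ - ⟪P.F J y, P.Qv (J + 1) y⟫| ≤ g y) :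
    P.transportErr J ≤ ∫ y, g y := by
  classical
  set Ψ := fun y => ∑ i ∈ P.comps (J + 1),
    ⟪P.F J y, P.compDir i⟫ * iterR P.s (P.M * J) P.M (P.q (J + 1) i) y with hΨ
  have hn : P.M * J + P.M = P.M * (J + 1) := by ring
  have hi : ∀ i : Comp d, Continuous fun y => ⟪P.F J y, P.compDir i⟫ := fun i =>
    (hP.continuous_F J).inner continuous_const
  have hic : ∀ i : Comp d, HasCompactSupport fun y => ⟪P.F J y, P.compDir i⟫ := fun i =>
    (hP.compact_F J).mono' fun y hy => subset_closure fun h0 => hy (by simp [h0])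
  have hR' : ∀ i : Comp d, Integrable fun y =>
      ⟪P.F J y, P.compDir i⟫ * iterR P.s (P.M * J) P.M (P.q (J + 1) i) y := fun i =>
    ((hi i).mul (continuous_iterR _ _ (continuous_q _ i))).integrable_of_hasCompactSupport
      (hic i).mul_right
  have hΨi : Integrable Ψ := integrable_finsetSum _ fun i _ => hR' i
  have e1 : ∫ y, ⟪P.F (J + 1) y, P.Qv (J + 1) y⟫ = ∫ y, Ψ y := by
    have hi' : ∀ i : Comp d, Integrable fun y => P.q (J + 1) i y * ⟪P.F (J + 1) y, P.compDir i⟫ :=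
      fun i => ((continuous_q _ i).mul
        ((hP.continuous_F (J + 1)).inner continuous_const)).integrable_of_hasCompactSupport
        ((hP.compact_F (J + 1)).mono' fun y hy => subset_closure fun h0 => hy (by simp [h0]))
    simp only [Qv_inner]
    rw [integral_finsetSum _ fun i _ => hi' i, hΨ, integral_finsetSum _ fun i _ => hR' i]
    refine Finset.sum_congr rfl fun i _ => ?_
    rw [← integral_iter_mul (hi i) (hic i) _ _ (continuous_q _ i)]
    refine integral_congr_ae (ae_of_all _ fun y => ?_)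
    show P.q (J + 1) i y * _ = iter P.s (P.M * J) P.M (fun y => ⟪hier P.v P.s (P.M * J) y,
      P.compDir i⟫) y * _
    rw [iter_inner hP.hv, hn, mul_comm]
    rfl
  rw [Params.transportErr, e1, ← integral_sub hΨi (hP.integrable_inner_Qv J (J + 1))]
  refine abs_integral_le_integral_abs.trans (integral_mono (hΨi.sub
    (hP.integrable_inner_Qv J (J + 1))).abs hg fun y => ?_)
  by_cases h0 : P.F J y = 0
  · simp only [hΨ, h0, inner_zero_left, zero_mul, sum_const_zero, sub_self, abs_zero]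
    exact hg0 y
  have hlin : Ψ y = iterR P.s (P.M * J) P.M (fun z => ⟪P.F J y, P.Qv (J + 1) z⟫) y := by
    simp only [Qv_inner]
    rw [show (fun z => ∑ i ∈ P.comps (J + 1), P.q (J + 1) i z * ⟪P.F J y, P.compDir i⟫) =
      fun z => ∑ i ∈ P.comps (J + 1), ⟪P.F J y, P.compDir i⟫ * P.q (J + 1) i z from
      funext fun z => Finset.sum_congr rfl fun i _ => mul_comm _ _,
      iterR_sum_smul _ _ _ _ fun i => continuous_q (J + 1) i]
  show |Ψ y - _| ≤ g y
  rw [hlin]
  refine abs_iterR_sub_le hP.hs.le _ _ (continuous_const.inner (continuous_Qv _)) y _ _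
    fun z hz => ?_
  have hz' : ‖z - y‖ ≤ P.rho (J + 1) :=
    hz.trans ((sum_steps_le hP.hs.le _ _).trans_eq (by rw [Params.rho, hn]))
  have hΩy := hP.abs_coord_le hR hJ.le h0 (x := y) (by simp [(hP.rho_pos P.N).le])
  have hΩz := hP.abs_coord_le hR hJ.le h0 (hz'.trans (hP.rho_mono hJ))
  exact hb y z hΩy hΩz (by rwa [norm_sub_rev])

lemma Valid.abs_inner_Qv_sub_le_V (hP : P.Valid) (K : ℕ) (w y z : Euc d) :
    |⟪w, P.Qv K z⟫ - ⟪w, P.Qv K y⟫| ≤ ‖w‖ * P.V K y z := by
  rw [Qv_inner, Qv_inner, ← sum_sub_distrib, Params.V, mul_sum]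
  refine (abs_sum_le_sum_abs _ _).trans (Finset.sum_le_sum fun i _ => ?_)
  rw [← sub_mul, abs_mul, abs_sub_comm, mul_comm ‖w‖]
  refine mul_le_mul_of_nonneg_left ?_ (abs_nonneg _)
  exact (abs_real_inner_le_norm _ _).trans_eq (by rw [hP.norm_compDir, mul_one])

/-- One step of transport, away from the top. -/
lemma Valid.transportErr_le_inner (hP : P.Valid) {R : ℝ} (hR : P.Big R) {J : ℕ} (hJ : J + 1 < P.N)
    {θ : ℝ} (hθ : 0 < θ) (hθ1 : θ ≤ 1) :
    P.transportErr J ≤ 3 * (d * cnt d (lam0 d) * P.decay (P.N - (J + 1)) * (∫ y, ‖P.v y‖) +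
        2 * d * P.older J) + 6 * d * cnt d (lam0 d) * θ * P.adjCross J +
      2 * d * cnt d (lam0 d) * (50 / (θ * P.ε ^ 2)) * (1 + P.ε ^ 2) *
        ∫ y, P.nearExc (lam0 d) (J + 1) (P.F J y) y := by
  set c0 := cnt d (lam0 d) with hc0_def
  have hc0 : 0 ≤ c0 := cnt_nonneg _
  set A0 := d * c0 * P.decay (P.N - (J + 1))
  set k2 := 2 * d * c0 * (50 / (θ * P.ε ^ 2)) * (1 + P.ε ^ 2)
  have hA0 : 0 ≤ A0 := mul_nonneg (by positivity) (decay_nonneg _)
  have hk2 : 0 ≤ k2 := by have := hP.hε; positivity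
  set O := fun y => ∑ I ∈ Finset.Ico (J + 2) P.N,
    P.decay (I - J - 1) * (‖P.F J y‖ * P.S (lam0 d) I y) with hO
  have iS : ∀ I ∈ Finset.Ico (J + 2) P.N,
      Integrable fun y => P.decay (I - J - 1) * (‖P.F J y‖ * P.S (lam0 d) I y) := fun I hI =>
    (hP.integrable_norm_mul_S J (Finset.mem_Ico.1 hI).2 _).const_mul _
  have iO : Integrable O := integrable_finsetSum _ iS
  have hO0 : ∀ y, 0 ≤ O y := fun y => sum_nonneg fun I _ =>
    mul_nonneg (decay_nonneg _) (mul_nonneg (norm_nonneg _) (S_nonneg _ _ _))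
  have iF : Integrable fun y => ‖P.F J y‖ := integrable_norm_hier hP.hv hP.hvc _
  have i1 : Integrable fun y => 3 * (A0 * ‖P.F J y‖ + 2 * d * O y) :=
    ((iF.const_mul A0).add (iO.const_mul _)).const_mul 3
  have i2 : Integrable fun y => 6 * d * c0 * θ * (‖P.F J y‖ * P.S (lam0 d) (J + 1) y) :=
    (hP.integrable_norm_mul_S J hJ _).const_mul _
  have i3 : Integrable fun y => k2 * P.nearExc (lam0 d) (J + 1) (P.F J y) y :=
    (hP.integrable_nearExc _ _ _).const_mul _
  have i12 : Integrable fun y => 3 * (A0 * ‖P.F J y‖ + 2 * d * O y) +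
      6 * d * c0 * θ * (‖P.F J y‖ * P.S (lam0 d) (J + 1) y) := i1.add i2
  refine (hP.transportErr_le hR (by omega) (g := fun y => 3 * (A0 * ‖P.F J y‖ + 2 * d * O y) +
    6 * d * c0 * θ * (‖P.F J y‖ * P.S (lam0 d) (J + 1) y) +
    k2 * P.nearExc (lam0 d) (J + 1) (P.F J y) y) (i12.add i3) (fun y => ?_) ?_).trans ?_
  · have := hP.nearExc_nonneg (lam0 d) (J + 1) (P.F J y) y
    have := S_nonneg (P := P) (lam0 d) (J + 1) y
    have := hO0 y
    positivity
  · intro y z hy hz hyz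
    have hyz2 : ‖y - z‖ ≤ 2 * P.rho (J + 1) := hyz.trans (by linarith [hP.rho_pos (J + 1)])
    refine (hP.abs_inner_Qv_var_le hJ (P.F J y) hy hz hyz2 hθ hθ1).trans ?_
    refine add_le_add (add_le_add ?_ (le_of_eq (by ring))) (le_of_eq rfl)
    rw [mul_assoc]
    refine mul_le_mul_of_nonneg_left ?_ (by norm_num)
    have hV := hP.V_le (show J + 2 ≤ P.N by omega) hy hz (hyz.trans (by
      linarith [hP.rho_mono (show J + 1 ≤ J + 2 by omega), hP.rho_pos (J + 2)]))
    refine (mul_le_mul_of_nonneg_left hV (norm_nonneg _)).trans ?_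
    rw [mul_add, hO, mul_sum, mul_sum, mul_sum]
    refine add_le_add ?_ (Finset.sum_le_sum fun I hI => ?_)
    · rw [mul_comm A0]
      refine mul_le_mul_of_nonneg_left (mul_le_mul_of_nonneg_left ?_ (by positivity)) (norm_nonneg _)
      rw [← hP.rho_div hJ.le]
      exact div_le_div_of_nonneg_right hyz (hP.rho_pos _).le
    · have hI' := Finset.mem_Ico.1 hI
      rw [show ‖P.F J y‖ * (2 * d * (‖y - z‖ / P.rho I * P.S (lam0 d) I y)) =
        2 * d * (‖y - z‖ / P.rho I * (‖P.F J y‖ * P.S (lam0 d) I y)) by ring]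
      refine mul_le_mul_of_nonneg_left (mul_le_mul_of_nonneg_right ?_
        (mul_nonneg (norm_nonneg _) (S_nonneg _ _ _))) (by positivity)
      rw [show I - J - 1 = I - (J + 1) by omega, ← hP.rho_div (by omega : J + 1 ≤ I)]
      exact div_le_div_of_nonneg_right hyz (hP.rho_pos _).le
  · rw [integral_add i12 i3, integral_add i1 i2, integral_const_mul, integral_const_mul,
      integral_const_mul, integral_add (iF.const_mul A0)
        (iO.const_mul _), integral_const_mul, integral_const_mul]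
    refine add_le_add (add_le_add (mul_le_mul_of_nonneg_left (add_le_add
      (mul_le_mul_of_nonneg_left (hP.integral_F_le J) hA0) (le_of_eq ?_)) (by norm_num))
      (le_of_eq ?_)) le_rfl
    · rw [hO, integral_finsetSum _ iS]
      simp only [integral_const_mul]
      rfl
    · rw [Params.adjCross, if_pos hJ]
      rfl

/-- The last step of transport. -/
lemma Valid.transportErr_le_top (hP : P.Valid) {R : ℝ} (hR : P.Big R) {J : ℕ} (hJ : J + 1 = P.N) :
    P.transportErr J ≤ d * cnt d (lam0 d) * ∫ y, ‖P.v y‖ := by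
  have hc0 := cnt_nonneg (d := d) (lam0 d)
  refine (hP.transportErr_le hR (by omega) (g := fun y => d * cnt d (lam0 d) * ‖P.F J y‖)
    ((integrable_norm_hier hP.hv hP.hvc _).const_mul _) (fun y => by positivity) ?_).trans ?_
  · intro y z hy hz hyz
    rw [hJ] at hyz ⊢
    refine (hP.abs_inner_Qv_sub_le_V P.N (P.F J y) y z).trans ?_
    rw [mul_comm]
    refine mul_le_mul_of_nonneg_right ((hP.V_top_le hy hz (hyz.trans (by
      linarith [hP.rho_pos P.N]))).trans (mul_le_of_le_one_right (by positivity) ?_)) (norm_nonneg _)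
    rw [div_le_one (hP.rho_pos _)]
    exact hyz
  · rw [integral_const_mul]
    exact mul_le_mul_of_nonneg_left (hP.integral_F_le J) (by positivity)

lemma Valid.sum_decay_succ_le (hP : P.Valid) (n : ℕ) :
    ∑ j ∈ Finset.range n, P.decay (j + 1) * (j + 2) ≤ 6 * P.invL := by
  refine (Finset.sum_le_sum fun j _ => mul_le_mul_of_nonneg_right (hP.decay_succ_le j)
    (by positivity)).trans ?_
  simp only [mul_assoc]
  rw [← mul_sum, mul_comm 6]
  exact mul_le_mul_of_nonneg_left (sum_geom_weight_le n) invL_nonneg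

/-- The integral of the field of a block. -/
def mass (P : Params d) (K : ℕ) : ℝ := ∫ y, ‖P.F K y‖

lemma Valid.antitone_mass (hP : P.Valid) : Antitone P.mass := fun _ _ h =>
  antitone_integral_hier (s := P.s) hP.hv hP.hvc (Nat.mul_le_mul_left _ h)

lemma mass_nonneg (K : ℕ) : 0 ≤ P.mass K := integral_nonneg fun _ => norm_nonneg _

lemma Valid.integral_gapW_block (hP : P.Valid) {K J : ℕ} (h : K ≤ J) :
    ∫ x, gapW P.v P.s (P.M * K) (P.M * (J - K)) x = P.mass K - P.mass J := by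
  rw [integral_gapW hP.hv hP.hvc, show P.M * K + P.M * (J - K) = P.M * J by
    rw [← mul_add]; congr 1; omega]
  rfl

lemma Valid.sum_older_step (hP : P.Valid) (J : ℕ) :
    ∑ I ∈ Finset.Ico (J + 1) P.N, P.decay (I - J) * P.cross J I
      ≤ P.invL * (P.adjCross J + P.older J) := by
  by_cases h : J + 1 < P.N
  · rw [sum_eq_sum_Ico_succ_bot h, Params.adjCross, if_pos h, Params.older, mul_add, mul_sum,
      show J + 1 - J = 0 + 1 by omega, decay_succ]
    refine add_le_add (le_of_eq ?_) (le_of_eq (Finset.sum_congr rfl fun I hI => ?_))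
    · simp [Params.decay, Params.invL]
    · have := Finset.mem_Ico.1 hI
      obtain ⟨j, hj⟩ : ∃ j, I - J = j + 1 := ⟨I - J - 1, by omega⟩
      rw [hj, decay_succ, Nat.add_sub_cancel, Params.invL, mul_assoc]
  · rw [Finset.Ico_eq_empty (by omega), sum_empty]
    refine mul_nonneg invL_nonneg (add_nonneg ?_ (older_nonneg J))
    unfold Params.adjCross
    split_ifs
    exact le_rfl

lemma adjCross_nonneg (J : ℕ) : 0 ≤ P.adjCross J := by
  unfold Params.adjCross
  split_ifs
  · exact cross_nonneg _ _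
  · exact le_rfl

/-- Older killings and those of the next block, in terms of a bound that depends on the killing
block only. -/
lemma Valid.sum_adjCross_older_le (hP : P.Valid) {b : ℕ → ℝ} (hb : ∀ J, 0 ≤ b J) {k : ℝ}
    (hk : 0 ≤ k)
    (hcr : ∀ K J, K < J → J < P.N → P.cross K J ≤ b J + k * (P.mass K - P.mass J)) :
    (∑ J ∈ Finset.range P.N, P.adjCross J ≤
      (∑ J ∈ Finset.range P.N, b J) + k * ∫ y, ‖P.v y‖) ∧
    ∑ K ∈ Finset.range P.N, P.older K ≤
      6 * P.invL * ((∑ J ∈ Finset.range P.N, b J) + k * ∫ y, ‖P.v y‖) := by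
  set B := ∑ J ∈ Finset.range P.N, b J
  set T := ∫ y, ‖P.v y‖
  have hT : 0 ≤ T := integral_nonneg fun _ => norm_nonneg _
  have hB : 0 ≤ B := sum_nonneg fun J _ => hb J
  have ha := hP.antitone_mass
  have hm0 : P.mass 0 ≤ T := hP.integral_F_le 0
  have hwin : ∀ c : ℕ, ∑ K ∈ Finset.range P.N,
      (if K + c < P.N then (if 0 < c then P.cross K (K + c) else 0) else 0) ≤ B + k * (c * T) := by
    intro c
    calc ∑ K ∈ Finset.range P.N,
          (if K + c < P.N then (if 0 < c then P.cross K (K + c) else 0) else 0)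
        ≤ ∑ K ∈ Finset.range P.N, ((if K + c < P.N then b (K + c) else 0) +
            k * (P.mass K - P.mass (K + c))) := by
          refine Finset.sum_le_sum fun K _ => ?_
          have h0 : 0 ≤ k * (P.mass K - P.mass (K + c)) :=
            mul_nonneg hk (sub_nonneg.2 (ha (Nat.le_add_right K c)))
          split_ifs with h hc
          · exact hcr K (K + c) (by omega) h
          · linarith [hb (K + c)]
          · linarith
      _ ≤ _ := by
          rw [sum_add_distrib, ← mul_sum]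
          refine add_le_add (sum_shift_le hb _ _) (mul_le_mul_of_nonneg_left ?_ hk)
          exact (sum_window_le ha mass_nonneg _ _).trans
            (mul_le_mul_of_nonneg_left hm0 (Nat.cast_nonneg c))
  constructor
  · refine le_trans (le_of_eq (Finset.sum_congr rfl fun K _ => ?_)) ((hwin 1).trans (le_of_eq ?_))
    · simp [Params.adjCross]
    · simp
  · have e : ∀ K ∈ Finset.range P.N, P.older K = ∑ j ∈ Finset.range P.N, P.decay (j + 1) *
        (if K + (j + 2) < P.N then (if 0 < j + 2 then P.cross K (K + (j + 2)) else 0) else 0) := by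
      intro K _
      simp only [if_pos (Nat.succ_pos _), mul_ite, mul_zero]
      rw [← sum_filter, Params.older]
      refine sum_bij' (fun I _ => I - (K + 2)) (fun j _ => K + (j + 2)) ?_ ?_ ?_ ?_ ?_
      · intro I hI
        have := Finset.mem_Ico.1 hI
        rw [Finset.mem_filter, Finset.mem_range]
        omega
      · intro j hj
        rw [Finset.mem_filter, Finset.mem_range] at hj
        rw [Finset.mem_Ico]
        omega
      · intro I hI
        have := Finset.mem_Ico.1 hI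
        omega
      · intro j _
        omega
      · intro I hI
        have := Finset.mem_Ico.1 hI
        congr 2 <;> omega
    rw [Finset.sum_congr rfl e, sum_comm]
    simp only [← mul_sum]
    refine (Finset.sum_le_sum (g := fun j => P.decay (j + 1) * ((j : ℝ) + 2) * (B + k * T))
      fun j _ => ?_).trans ?_
    · rw [mul_assoc]
      refine mul_le_mul_of_nonneg_left ((hwin (j + 2)).trans ?_) (decay_nonneg _)
      push_cast
      have : (0 : ℝ) ≤ j := Nat.cast_nonneg j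
      nlinarith
    · rw [← sum_mul]
      exact mul_le_mul_of_nonneg_right (hP.sum_decay_succ_le _) (by positivity)

lemma Valid.sum_cellGap_windows_le (hP : P.Valid) (N : ℕ) :
    ∑ J ∈ Finset.range N, ∑ c ∈ P.grid J, P.cellGap J c ≤
      2 ^ d / ballVol d * ∫ y, ‖P.v y‖ := by
  refine (Finset.sum_le_sum fun J _ => hP.sum_cellGap_le J).trans ?_
  rw [← mul_sum]
  refine mul_le_mul_of_nonneg_left ?_ (div_nonneg (by positivity) ballVol_pos.le)
  simpa [Params.winGap] using sum_integral_gapW_le (s := P.s) hP.hv hP.hvc hP.hmM 0 N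

lemma Valid.sum_nearExc_next_le (hP : P.Valid) (hm : 4 * (lam0 d + 3) ≤ 2 ^ P.m) :
    ∑ J ∈ Finset.range P.N, ∫ y, P.nearExc (lam0 d) (J + 1) (P.F J y) y ≤
      3 * 2 ^ d * (P.coh * (2 ^ d / ballVol d) + cnt d (lam0 d + 1)) * ∫ y, ‖P.v y‖ := by
  refine (Finset.sum_le_sum fun J _ => hP.integral_nearExc_next_le hm J).trans ?_
  rw [← mul_sum, mul_assoc (3 * 2 ^ d)]
  refine mul_le_mul_of_nonneg_left ?_ (by positivity)
  rw [sum_add_distrib, ← mul_sum, ← mul_sum, add_mul, mul_assoc]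
  refine add_le_add (mul_le_mul_of_nonneg_left ?_ coh_nonneg)
    (mul_le_mul_of_nonneg_left ?_ (cnt_nonneg _))
  · refine le_trans ?_ (hP.sum_cellGap_windows_le (P.N + 1))
    rw [sum_range_succ' fun J => ∑ c ∈ P.grid J, P.cellGap J c]
    exact le_add_of_nonneg_right (sum_nonneg fun c _ => hP.cellGap_nonneg 0 c)
  · simpa using sum_integral_gapW_le (s := P.s) hP.hv hP.hvc (le_refl P.M) 0 P.N

lemma Valid.sum_transportErr_le (hP : P.Valid) {R : ℝ} (hR : P.Big R)
    (hm : 4 * (lam0 d + 3) ≤ 2 ^ P.m) {θ : ℝ} (hθ : 0 < θ) (hθ1 : θ ≤ 1) :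
    ∑ J ∈ Finset.range P.N, P.transportErr J ≤
      6 * d * (∑ J ∈ Finset.range P.N, P.older J) +
      6 * d * cnt d (lam0 d) * θ * (∑ J ∈ Finset.range P.N, P.adjCross J) +
      10 * d * cnt d (lam0 d) * (∫ y, ‖P.v y‖) +
      2 * d * cnt d (lam0 d) * (50 / (θ * P.ε ^ 2)) * (1 + P.ε ^ 2) *
        (3 * 2 ^ d * (P.coh * (2 ^ d / ballVol d) + cnt d (lam0 d + 1)) * ∫ y, ‖P.v y‖) := by
  set c0 := cnt d (lam0 d)
  set T := ∫ y, ‖P.v y‖
  set k2 := 2 * d * c0 * (50 / (θ * P.ε ^ 2)) * (1 + P.ε ^ 2)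
  have hc0 : 0 ≤ c0 := cnt_nonneg _
  have hT : 0 ≤ T := integral_nonneg fun _ => norm_nonneg _
  have hk2 : 0 ≤ k2 := by have := hP.hε; positivity
  have hstep : ∀ J ∈ Finset.range P.N, P.transportErr J ≤ 6 * d * P.older J +
      6 * d * c0 * θ * P.adjCross J + 3 * d * c0 * T * P.decay (P.N - (J + 1)) +
      k2 * ∫ y, P.nearExc (lam0 d) (J + 1) (P.F J y) y := by
    intro J hJ
    have hJN := Finset.mem_range.1 hJ
    rcases (show J + 1 ≤ P.N from hJN).lt_or_eq with h | h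
    · exact (hP.transportErr_le_inner hR h hθ hθ1).trans (le_of_eq (by ring))
    · have h1 := older_nonneg (P := P) J
      have h2 := adjCross_nonneg (P := P) J
      have h3 : 0 ≤ ∫ y, P.nearExc (lam0 d) (J + 1) (P.F J y) y :=
        integral_nonneg fun y => hP.nearExc_nonneg _ _ _ _
      refine (hP.transportErr_le_top hR h).trans ?_
      rw [h, Nat.sub_self, show P.decay 0 = 1 from pow_zero _, ← h]
      have h4 : 0 ≤ 6 * d * P.older J + 6 * d * c0 * θ * P.adjCross J +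
          k2 * ∫ y, P.nearExc (lam0 d) (J + 1) (P.F J y) y := by positivity
      have h5 : 0 ≤ d * c0 * T := by positivity
      linarith
  refine (Finset.sum_le_sum hstep).trans ?_
  simp only [sum_add_distrib, ← mul_sum]
  have hdec : ∑ J ∈ Finset.range P.N, P.decay (P.N - (J + 1)) ≤ 2 := by
    refine le_trans (le_of_eq ?_) (hP.sum_decay_le (n := P.N))
    rw [← sum_range_reflect (fun j => P.decay j) P.N]
    exact Finset.sum_congr rfl fun J _ => by congr 1; omega
  have h6 := mul_le_mul_of_nonneg_left hdec (by positivity : (0 : ℝ) ≤ 3 * d * c0 * T)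
  have h7 := mul_le_mul_of_nonneg_left (hP.sum_nearExc_next_le hm) hk2
  have h8 : 0 ≤ d * c0 * T := by positivity
  linarith

end Params

open Params

/-- Two steps of absorption. -/
lemma absorb_BZ {k Z B T : ℝ} (hk : 1 ≤ k) (hT : 0 ≤ T) (hB2 : B ≤ 2 * k * Z + 6 * k * T)
    (hZ2 : Z ≤ 1 / (8 * k) * B + 18 * k ^ 3 * T) :
    Z ≤ 30 * k ^ 3 * T ∧ B ≤ 70 * k ^ 4 * T := by
  have hk0 : 0 < k := by linarith
  have h3 : (1 : ℝ) ≤ k ^ 3 := one_le_pow₀ hk
  have hB3 : 1 / (8 * k) * B ≤ Z / 4 + T := by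
    refine (mul_le_mul_of_nonneg_left hB2 (by positivity)).trans ?_
    have e : 1 / (8 * k) * (2 * k * Z + 6 * k * T) = Z / 4 + 3 / 4 * T := by field_simp; ring
    linarith
  have hT3 : T ≤ k ^ 3 * T := le_mul_of_one_le_left hT h3
  have hZ3 : Z ≤ 30 * k ^ 3 * T := by linarith
  refine ⟨hZ3, ?_⟩
  have h1 := mul_le_mul_of_nonneg_left hZ3 (by linarith : 0 ≤ 2 * k)
  have h2 : k * T ≤ k ^ 4 * T := mul_le_mul_of_nonneg_right (le_self_pow₀ hk (by norm_num)) hT
  have e : 2 * k * (30 * k ^ 3 * T) = 60 * (k ^ 4 * T) := by ring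
  have : 0 ≤ k ^ 4 * T := mul_nonneg (by positivity) hT
  linarith

/-- Absorption of the quantities of the calibrator. -/
lemma absorb {k : ℝ} (hk : 1 ≤ k) : ∃ θ u₀ C : ℝ, 0 < θ ∧ θ ≤ 1 ∧ 0 < u₀ ∧ 0 ≤ C ∧
    ∀ Z A E B T u : ℝ, 0 ≤ Z → 0 ≤ A → 0 ≤ E → 0 ≤ B → 0 ≤ T → 0 ≤ u → u ≤ u₀ →
      B ≤ k * (Z + u * A + u * E + T) → A ≤ B + k * T → E ≤ k * u * (B + T) →
      Z ≤ k * (E + θ * A + T + T / θ) → Z + A + E ≤ C * T := by
  set θ := 1 / (16 * k ^ 2) with hθ
  have hk0 : 0 < k := by linarith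
  have hk2 : k ≤ k ^ 2 := le_self_pow₀ hk (by norm_num)
  have hk23 : k ^ 2 ≤ k ^ 3 := pow_le_pow_right₀ hk (by norm_num)
  have hk34 : k ^ 3 ≤ k ^ 4 := pow_le_pow_right₀ hk (by norm_num)
  have hθ1 : θ ≤ 1 := by
    rw [hθ, div_le_one (by positivity)]
    linarith
  refine ⟨θ, 1 / (16 * k ^ 3), 200 * k ^ 4, by positivity, hθ1, by positivity, by positivity, ?_⟩
  intro Z A E B T u hZ hA hE hB hT hu hu0 hBle hAle hEle hZle
  have hu3 : u * (16 * k ^ 3) ≤ 1 := (le_div_iff₀ (by positivity)).1 hu0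
  have huk : k * u ≤ 1 / 16 := by
    have := mul_le_mul_of_nonneg_right (hk2.trans hk23) hu
    linarith
  have hBT : 0 ≤ B + T := add_nonneg hB hT
  have hT1 : T ≤ k * T := le_mul_of_one_le_left hT hk
  have hEsimple : E ≤ B + T := hEle.trans (mul_le_of_le_one_left hBT (by linarith))
  have hB2 : B ≤ 2 * k * Z + 6 * k * T := by
    have h1 : k * u * A ≤ 1 / 16 * (B + k * T) := mul_le_mul huk hAle hA (by norm_num)
    have h2 : k * u * E ≤ 1 / 16 * (B + T) := mul_le_mul huk hEsimple hE (by norm_num)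
    have h3 : 0 ≤ k * Z := mul_nonneg hk0.le hZ
    linarith
  have hZ2 : Z ≤ 1 / (8 * k) * B + 18 * k ^ 3 * T := by
    have hkθ : k * θ = 1 / (16 * k) := by rw [hθ]; field_simp
    have hTθ : k * (T / θ) = 16 * k ^ 3 * T := by rw [hθ]; field_simp
    have hkE : k * E ≤ 1 / (16 * k) * (B + T) := by
      refine (mul_le_mul_of_nonneg_left hEle hk0.le).trans ?_
      rw [← mul_assoc]
      refine mul_le_mul_of_nonneg_right ?_ hBT
      rw [le_div_iff₀ (by positivity)]
      linarith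
    have h1 : k * θ * A ≤ 1 / (16 * k) * (B + k * T) := by
      rw [hkθ]
      exact mul_le_mul_of_nonneg_left hAle (by positivity)
    have h2 : 1 / (16 * k) * (k * T) = T / 16 := by field_simp
    have h3 : 1 / (16 * k) * T ≤ T / 16 := by
      have h : 1 / (16 * k) ≤ 1 / 16 := one_div_le_one_div_of_le (by norm_num) (by linarith)
      exact (mul_le_mul_of_nonneg_right h hT).trans_eq (by ring)
    have h4 : k * T ≤ k ^ 3 * T := mul_le_mul_of_nonneg_right (hk2.trans hk23) hT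
    have h6 : 1 / (8 * k) * B = 1 / (16 * k) * B + 1 / (16 * k) * B := by ring
    linarith
  obtain ⟨hZ3, hB4⟩ := absorb_BZ hk hT hB2 hZ2
  have := mul_le_mul_of_nonneg_right hk34 hT
  have := mul_le_mul_of_nonneg_right (hk2.trans (hk23.trans hk34)) hT
  linarith

namespace Params

variable {P : Params d}

/-- The coefficient of the transported killings. -/
def bcoef (d : ℕ) : ℝ :=
  3 * 2 ^ d * (1 + cnt d (lam0 d) * (2 * d) + 3 * (d * cnt d (lam0 d) ^ 2))

/-- The coefficient of the gaps. -/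
def gcoef (d : ℕ) : ℝ := 3 * 2 ^ d * (cnt d (lam0 d + 1) + 5 * d * cnt d (lam0 d) ^ 2)

/-- The coherence constant per unit of mass. -/
def cohCoef (d m : ℕ) : ℝ := 3 * ballVol d * (2 ^ (m - 1)) ^ d * (2 ^ d / ballVol d)

/-- The coefficient of the killed mass. -/
def kcoef (d m : ℕ) (ε : ℝ) : ℝ :=
  8 / ε ^ 2 * (6 * d + 6 * d * cnt d (lam0 d) + (2 + 10 * d * cnt d (lam0 d)) +
    2 * d * cnt d (lam0 d) * (50 / ε ^ 2) * (1 + ε ^ 2) *
      (3 * 2 ^ d * (cohCoef d m + cnt d (lam0 d + 1)))) + 32 / ε ^ 2 * cohCoef d m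

lemma bcoef_nonneg (d : ℕ) : 0 ≤ bcoef d := by
  have := cnt_nonneg (d := d) (lam0 d); unfold bcoef; positivity

lemma gcoef_nonneg (d : ℕ) : 0 ≤ gcoef d := by
  have := cnt_nonneg (d := d) (lam0 d + 1); unfold gcoef; positivity

lemma cohCoef_nonneg (d m : ℕ) : 0 ≤ cohCoef d m := by
  have := ballVol_pos (d := d); unfold cohCoef; positivity

lemma kcoef_nonneg (d m : ℕ) {ε : ℝ} (hε : 0 < ε) : 0 ≤ kcoef d m ε := by
  have := cnt_nonneg (d := d) (lam0 d)
  have := cnt_nonneg (d := d) (lam0 d + 1)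
  have := cohCoef_nonneg d m
  unfold kcoef; positivity

lemma Valid.sum_decay_rev_le (hP : P.Valid) :
    ∑ J ∈ Finset.range P.N, P.decay (P.N - J) ≤ 3 := by
  refine le_trans (le_of_eq ?_) (le_trans (Finset.sum_le_sum fun j _ =>
    le_mul_of_one_le_right (decay_nonneg (P := P) (j + 1))
      (by linarith [(Nat.cast_nonneg j : (0:ℝ) ≤ j)] : (1:ℝ) ≤ j + 2))
    ((hP.sum_decay_succ_le P.N).trans (by linarith [hP.invL_le_half])))
  rw [← sum_range_reflect (fun j => P.decay (j + 1)) P.N]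
  exact Finset.sum_congr rfl fun J hJ => by
    have := Finset.mem_range.1 hJ
    congr 1; omega

/-- The system of inequalities between the killings. -/
lemma Valid.cross_system (hP : P.Valid) {R : ℝ} (hR : P.Big R) :
    ∃ B, 0 ≤ B ∧ B ≤ bcoef d * ((∑ J ∈ Finset.range P.N, P.killMass (lam0 d + 1) J) +
        P.invL * (∑ J ∈ Finset.range P.N, P.adjCross J) +
        P.invL * (∑ J ∈ Finset.range P.N, P.older J) + ∫ y, ‖P.v y‖) ∧
      (∑ J ∈ Finset.range P.N, P.adjCross J) ≤ B + gcoef d * ∫ y, ‖P.v y‖ ∧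
      (∑ J ∈ Finset.range P.N, P.older J) ≤ 6 * P.invL * (B + gcoef d * ∫ y, ‖P.v y‖) := by
  set c0 := cnt d (lam0 d) with hc0_def
  set T := ∫ y, ‖P.v y‖
  have hc0 : 0 ≤ c0 := cnt_nonneg _
  have hT : 0 ≤ T := integral_nonneg fun _ => norm_nonneg _
  have hu := invL_nonneg (P := P)
  set b : ℕ → ℝ := fun J => 3 * 2 ^ d * (P.killMass (lam0 d + 1) J +
    c0 * (2 * d * (P.invL * (P.adjCross J + P.older J))) + d * c0 ^ 2 * P.decay (P.N - J) * T)
    with hb
  have hb0 : ∀ J, 0 ≤ b J := fun J => by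
    have := killMass_nonneg (P := P) (lam0 d + 1) J
    have := adjCross_nonneg (P := P) J
    have := older_nonneg (P := P) J
    have := decay_nonneg (P := P) (P.N - J)
    simp only [hb]; positivity
  have hcr : ∀ K J, K < J → J < P.N → P.cross K J ≤ b J + gcoef d * (P.mass K - P.mass J) := by
    intro K J hKJ hJ
    refine (hP.cross_le hR hKJ hJ).trans ?_
    rw [hP.integral_gapW_block hKJ.le]
    refine add_le_add (mul_le_mul_of_nonneg_left (add_le_add (add_le_add le_rfl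
      (mul_le_mul_of_nonneg_left (mul_le_mul_of_nonneg_left (hP.sum_older_step J)
        (by positivity)) hc0)) le_rfl) (by positivity)) le_rfl
  obtain ⟨hAle, hEle⟩ := hP.sum_adjCross_older_le hb0 (gcoef_nonneg d) hcr
  refine ⟨∑ J ∈ Finset.range P.N, b J, sum_nonneg fun J _ => hb0 J, ?_, hAle, hEle⟩
  simp only [hb, ← mul_sum, sum_add_distrib, ← sum_mul]
  set A := ∑ J ∈ Finset.range P.N, P.adjCross J
  set E := ∑ J ∈ Finset.range P.N, P.older J
  set Z := ∑ J ∈ Finset.range P.N, P.killMass (lam0 d + 1) J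
  have hA : 0 ≤ A := sum_nonneg fun J _ => adjCross_nonneg J
  have hE : 0 ≤ E := sum_nonneg fun J _ => older_nonneg J
  have hZ : 0 ≤ Z := sum_nonneg fun J _ => killMass_nonneg _ J
  rw [bcoef, ← hc0_def, mul_assoc (3 * 2 ^ d)]
  refine mul_le_mul_of_nonneg_left ?_ (by positivity)
  have h1 := mul_le_mul_of_nonneg_left hP.sum_decay_rev_le
    (by positivity : (0:ℝ) ≤ d * c0 ^ 2 * T)
  have h2 : 0 ≤ c0 * (2 * d) * (Z + T) := by positivity
  have h3 : 0 ≤ 3 * (d * c0 ^ 2) * (Z + P.invL * A + P.invL * E) := by positivity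
  have h4 : 0 ≤ P.invL * A + P.invL * E := by positivity
  linarith

/-- The killed mass, after transporting the potential. -/
lemma Valid.sum_killMass_le (hP : P.Valid) {R : ℝ} (hR : P.Big R)
    (hm : 4 * (lam0 d + 3) ≤ 2 ^ P.m) {lam : ℝ} (hlam : Real.sqrt d ≤ lam)
    (hlm : 4 * (lam + 2) ≤ 2 ^ P.m) {θ : ℝ} (hθ : 0 < θ) (hθ1 : θ ≤ 1) :
    ∑ J ∈ Finset.range P.N, P.killMass lam J ≤ cnt d lam * kcoef d P.m P.ε *
      ((∑ J ∈ Finset.range P.N, P.older J) + θ * (∑ J ∈ Finset.range P.N, P.adjCross J) +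
        (∫ y, ‖P.v y‖) + (∫ y, ‖P.v y‖) / θ) := by
  have hε := hP.hε
  have hcoh : P.coh * (2 ^ d / ballVol d) = cohCoef d P.m := rfl
  refine (Finset.sum_le_sum fun J hJ =>
    hP.killMass_le hR (Finset.mem_range.1 hJ) hlam hlm).trans ?_
  rw [← mul_sum, mul_assoc]
  refine mul_le_mul_of_nonneg_left ?_ (cnt_nonneg _)
  rw [sum_add_distrib, ← mul_sum, ← mul_sum, ← mul_sum]
  have h1 := hP.sum_drop_le.trans
    (add_le_add le_rfl (hP.sum_transportErr_le hR hm hθ hθ1))
  have h2 := mul_le_mul_of_nonneg_left (hP.sum_cellGap_windows_le P.N) (coh_nonneg (P := P))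
  rw [hcoh] at h1
  rw [← mul_assoc P.coh, hcoh] at h2
  refine (add_le_add (mul_le_mul_of_nonneg_left h1 (by positivity))
    (mul_le_mul_of_nonneg_left h2 (by positivity))).trans ?_
  set A := ∑ J ∈ Finset.range P.N, P.adjCross J
  set E := ∑ J ∈ Finset.range P.N, P.older J
  set T := ∫ y, ‖P.v y‖
  have hT : 0 ≤ T := integral_nonneg fun _ => norm_nonneg _
  have hA : 0 ≤ A := sum_nonneg fun J _ => adjCross_nonneg J
  have hE : 0 ≤ E := sum_nonneg fun J _ => older_nonneg J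
  have hc0 := cnt_nonneg (d := d) (lam0 d)
  have hc1 := cnt_nonneg (d := d) (lam0 d + 1)
  have hco := cohCoef_nonneg d P.m
  set q := 2 * d * cnt d (lam0 d) * (50 / P.ε ^ 2) * (1 + P.ε ^ 2) *
      (3 * 2 ^ d * (cohCoef d P.m + cnt d (lam0 d + 1))) with hq
  have e : 2 * d * cnt d (lam0 d) * (50 / (θ * P.ε ^ 2)) * (1 + P.ε ^ 2) *
      (3 * 2 ^ d * (cohCoef d P.m + cnt d (lam0 d + 1)) * T) = q * (T / θ) := by
    rw [hq]; field_simp
  rw [e, kcoef, ← hq]
  have hq0 : 0 ≤ q := by rw [hq]; positivity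
  have hTθ : 0 ≤ T / θ := div_nonneg hT hθ.le
  have hθA : 0 ≤ θ * A := mul_nonneg hθ.le hA
  set e8 := 8 / P.ε ^ 2
  set e32 := 32 / P.ε ^ 2
  have he8 : 0 ≤ e8 := by positivity
  have he32 : 0 ≤ e32 := by positivity
  have p1 : 0 ≤ e8 * (6 * d + q) * T := by positivity
  have p2 : 0 ≤ e8 * (6 * d * cnt d (lam0 d)) * (E + T + T / θ) := by positivity
  have p3 : 0 ≤ e8 * (2 + 10 * d * cnt d (lam0 d) + q) * (E + θ * A) := by positivity
  have p4 : 0 ≤ e8 * (6 * d) * (θ * A + T / θ) := by positivity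
  have p5 : 0 ≤ e8 * (2 + 10 * d * cnt d (lam0 d)) * (T / θ) := by positivity
  have p6 : 0 ≤ e32 * cohCoef d P.m * (E + θ * A + T / θ) := by positivity
  linarith

end Params

/-- The killed mass of the calibrator is bounded by the total mass. -/
theorem calibrator_bound (d m : ℕ) {ε : ℝ} (hε : 0 < ε) {lam : ℝ} (hlam : Real.sqrt d ≤ lam)
    (hlm : 4 * (lam + 2) ≤ 2 ^ m) (hm : 4 * (lam0 d + 3) ≤ 2 ^ m) :
    ∃ (M₀ : ℕ) (C : ℝ), 0 ≤ C ∧ ∀ P : Params d, P.Valid → P.m = m → P.ε = ε → M₀ ≤ P.M →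
      ∀ R : ℝ, P.Big R →
        ((∑ J ∈ Finset.range P.N, P.killMass lam J) ≤ C * ∫ y, ‖P.v y‖) ∧
        ((∑ J ∈ Finset.range P.N, P.adjCross J) ≤ C * ∫ y, ‖P.v y‖) ∧
        ((∑ J ∈ Finset.range P.N, P.older J) ≤ C * ∫ y, ‖P.v y‖) := by
  have hd : (0 : ℝ) ≤ d := Nat.cast_nonneg d
  have hc := cnt_nonneg (d := d) (lam0 d)
  obtain ⟨C1, hC10, hC1⟩ : ∃ x, 0 ≤ x ∧ x = bcoef d := ⟨_, bcoef_nonneg d, rfl⟩
  obtain ⟨C2, hC20, hC2⟩ : ∃ x, 0 ≤ x ∧ x = gcoef d := ⟨_, gcoef_nonneg d, rfl⟩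
  obtain ⟨κ, hκ0, hκ⟩ : ∃ x, 0 ≤ x ∧ x = kcoef d m ε := ⟨_, kcoef_nonneg d m hε, rfl⟩
  have hcl := cnt_nonneg (d := d) lam
  have hcz := cnt_nonneg (d := d) (lam0 d + 1)
  obtain ⟨Lz, hLz0, hLz⟩ : ∃ x, 0 ≤ x ∧ x = cnt d (lam0 d + 1) * κ :=
    ⟨_, mul_nonneg hcz hκ0, rfl⟩
  have hk : 1 ≤ 1 + C1 + C2 + 6 + 6 * C2 + Lz := by linarith
  obtain ⟨θ, u₀, C, hθ, hθ1, hu₀, hC, habs⟩ := absorb hk
  obtain ⟨M₀, hM₀⟩ := exists_pow_lt_of_lt_one hu₀ (by norm_num : (1:ℝ) / 2 < 1)
  refine ⟨M₀, C + cnt d lam * κ * (2 * C + 1 + 1 / θ), by positivity,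
    fun P hP hPm hPε hM R hR => ?_⟩
  have hm' : 4 * (lam0 d + 3) ≤ 2 ^ P.m := by rw [hPm]; exact hm
  obtain ⟨B, hB, hBle, hAle, hEle⟩ := hP.cross_system hR
  have hkill := fun l hl hl2 => hP.sum_killMass_le hR hm' (lam := l) hl hl2 hθ hθ1
  simp only [hPm, hPε, ← hC1, ← hC2, ← hκ] at hBle hAle hEle hkill
  have hu : P.invL ≤ u₀ := by
    refine le_trans ?_ hM₀.le
    rw [Params.invL, ← inv_pow, one_div]
    exact pow_le_pow_of_le_one (by norm_num) (by norm_num) hM
  have hu0 := invL_nonneg (P := P)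
  set T := ∫ y, ‖P.v y‖
  set A := ∑ J ∈ Finset.range P.N, P.adjCross J
  set E := ∑ J ∈ Finset.range P.N, P.older J
  set Z := ∑ J ∈ Finset.range P.N, P.killMass (lam0 d + 1) J
  set u := P.invL
  set k := 1 + C1 + C2 + 6 + 6 * C2 + Lz with hk_def
  have hT : 0 ≤ T := integral_nonneg fun _ => norm_nonneg _
  have hA : 0 ≤ A := sum_nonneg fun J _ => Params.adjCross_nonneg J
  have hE : 0 ≤ E := sum_nonneg fun J _ => Params.older_nonneg J
  have hZ : 0 ≤ Z := sum_nonneg fun J _ => Params.killMass_nonneg _ J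
  have h1 : B ≤ k * (Z + u * A + u * E + T) :=
    hBle.trans (mul_le_mul_of_nonneg_right (by linarith) (by positivity))
  have h2 : A ≤ B + k * T :=
    hAle.trans (add_le_add le_rfl (mul_le_mul_of_nonneg_right (by linarith) hT))
  have h3 : E ≤ k * u * (B + T) := by
    refine hEle.trans ?_
    have a1 := mul_le_mul_of_nonneg_right (show 6 ≤ k by linarith) (mul_nonneg hu0 hB)
    have a2 := mul_le_mul_of_nonneg_right (show 6 * C2 ≤ k by linarith) (mul_nonneg hu0 hT)
    linarith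
  have h4 : Z ≤ k * (E + θ * A + T + T / θ) := by
    refine (hkill _ (by rw [lam0]; linarith) (by linarith)).trans ?_
    rw [← hLz]
    exact mul_le_mul_of_nonneg_right (by linarith) (by positivity)
  have hmain := habs Z A E B T u hZ hA hE hB hT hu0 hu h1 h2 h3 h4
  have hX : 0 ≤ cnt d lam * κ * (2 * C + 1 + 1 / θ) := by positivity
  have hmono : C * T ≤ (C + cnt d lam * κ * (2 * C + 1 + 1 / θ)) * T :=
    mul_le_mul_of_nonneg_right (by linarith) hT
  refine ⟨?_, le_trans (by linarith) hmono, le_trans (by linarith) hmono⟩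
  refine (hkill lam hlam hlm).trans ?_
  have h5 : E + θ * A + T + T / θ ≤ (2 * C + 1 + 1 / θ) * T := by
    have a1 : θ * A ≤ A := mul_le_of_le_one_left hA hθ1
    have e : (2 * C + 1 + 1 / θ) * T = C * T + C * T + T + T / θ := by ring
    linarith [mul_nonneg hC hT]
  have h6 := mul_le_mul_of_nonneg_left h5 (mul_nonneg hcl hκ0)
  have h7 : 0 ≤ C * T := mul_nonneg hC hT
  linarith

end Vale.Agent.P137.Centred
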