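import Vale.Agent.P137.Centred.Grid

/-!
# P137, centred operator: the calibrating weights and their pointwise properties
-/

open MeasureTheory Filter Set Metric Finset
open scoped ENNReal NNReal Topology RealInnerProductSpace

noncomputable section

namespace Vale.Agent.P137.Centred

variable {d : ℕ}

/-- An index of a component: the block of its birth and a cell. -/
abbrev Comp (d : ℕ) := Σ _ : ℕ, Fin d → ℤ

/-- Square root of the killing rate. -/
def rampSqrt (ε : ℝ) (n e : Euc d) : ℝ := min 1 (max 0 ((‖n - e‖ - ε) / ε))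

/-- The killing rate. -/
def chi (ε : ℝ) (n e : Euc d) : ℝ := rampSqrt ε n e ^ 2

lemma rampSqrt_nonneg (ε : ℝ) (n e : Euc d) : 0 ≤ rampSqrt ε n e :=
  le_min zero_le_one (le_max_left _ _)

lemma chi_nonneg (ε : ℝ) (n e : Euc d) : 0 ≤ chi ε n e := sq_nonneg _

lemma chi_le_one (ε : ℝ) (n e : Euc d) : chi ε n e ≤ 1 :=
  pow_le_one₀ (rampSqrt_nonneg _ _ _) (min_le_left _ _)

lemma abs_rampSqrt_sub_le {ε : ℝ} (hε : 0 < ε) (n n' e : Euc d) :
    |rampSqrt ε n e - rampSqrt ε n' e| ≤ ‖n - n'‖ / ε := by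
  refine (abs_min_sub_min_le_max _ _ _ _).trans (max_le (by simp; positivity) ?_)
  refine (abs_max_sub_max_le_max _ _ _ _).trans (max_le (by simp; positivity) ?_)
  rw [← sub_div, abs_div, abs_of_pos hε]
  refine div_le_div_of_nonneg_right ?_ hε.le
  rw [sub_sub_sub_cancel_right]
  exact (abs_norm_sub_norm_le _ _).trans_eq (by rw [sub_sub_sub_cancel_right])

lemma chi_eq_one {ε : ℝ} (hε : 0 < ε) {n e : Euc d} (h : 2 * ε ≤ ‖n - e‖) : chi ε n e = 1 := by
  have : 1 ≤ (‖n - e‖ - ε) / ε := by rw [le_div_iff₀ hε]; linarith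
  rw [chi, rampSqrt, min_eq_left (le_max_of_le_right this), one_pow]

lemma lt_norm_of_chi_ne_zero {ε : ℝ} (hε : 0 < ε) {n e : Euc d} (h : chi ε n e ≠ 0) :
    ε < ‖n - e‖ := by
  by_contra hle
  refine h ?_
  have : (‖n - e‖ - ε) / ε ≤ 0 := div_nonpos_of_nonpos_of_nonneg (by linarith) hε.le
  rw [chi, rampSqrt, max_eq_left this, min_eq_right zero_le_one]
  norm_num

lemma chi_le_two_mul {ε : ℝ} (hε : 0 < ε) (n n' e : Euc d) :
    chi ε n e ≤ 2 * chi ε n' e + 2 * (‖n - n'‖ / ε) ^ 2 := by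
  have h := abs_le.1 (abs_rampSqrt_sub_le hε n n' e)
  simp only [chi]
  nlinarith [sq_nonneg (rampSqrt ε n' e - ‖n - n'‖ / ε), rampSqrt_nonneg ε n e,
    rampSqrt_nonneg ε n' e]

lemma abs_chi_sub_le {ε θ : ℝ} (hε : 0 < ε) (hθ : 0 < θ) (n n' e : Euc d) :
    |chi ε n e - chi ε n' e| ≤ θ * chi ε n' e + (1 + 1 / θ) * (‖n - n'‖ / ε) ^ 2 := by
  have h := abs_rampSqrt_sub_le hε n n' e
  set a := rampSqrt ε n e
  set b := rampSqrt ε n' e with hb
  set D := ‖n - n'‖ / ε
  have hb0 : 0 ≤ b := rampSqrt_nonneg _ _ _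
  have h1 : |a ^ 2 - b ^ 2| ≤ D * (D + 2 * b) := by
    rw [show a ^ 2 - b ^ 2 = (a - b) * ((a - b) + 2 * b) by ring, abs_mul]
    refine mul_le_mul h ((abs_add_le _ _).trans ?_) (abs_nonneg _) (by positivity)
    rw [abs_of_nonneg (by positivity : 0 ≤ 2 * b)]
    linarith
  have h2 : 2 * D * b ≤ θ * b ^ 2 + D ^ 2 / θ := by
    rw [← sub_nonneg, show θ * b ^ 2 + D ^ 2 / θ - 2 * D * b = (θ * b - D) ^ 2 / θ by
      field_simp; ring]
    positivity
  have e1 : (1 + 1 / θ) * D ^ 2 = D ^ 2 + D ^ 2 / θ := by ring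
  simp only [chi]
  nlinarith

lemma sq_norm_sub_smul (w : Euc d) {n : Euc d} (hn : ‖n‖ = 1) :
    ‖w - ‖w‖ • n‖ ^ 2 = 2 * ‖w‖ * excN w n := by
  rw [norm_sub_sq_real, inner_smul_right, norm_smul, hn, mul_one, Real.norm_eq_abs, sq_abs,
    excN]
  ring

lemma norm_mul_sq_dir_sub_le (w : Euc d) {n n' : Euc d} (hn : ‖n‖ = 1) (hn' : ‖n'‖ = 1) :
    ‖w‖ * ‖n - n'‖ ^ 2 ≤ 4 * (excN w n + excN w n') := by
  rcases eq_or_ne w 0 with h | h
  · simp [h, excN]
  refine le_of_mul_le_mul_left ?_ (norm_pos_iff.2 h)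
  calc ‖w‖ * (‖w‖ * ‖n - n'‖ ^ 2) = ‖‖w‖ • n - ‖w‖ • n'‖ ^ 2 := by
        rw [← smul_sub, norm_smul, Real.norm_eq_abs, mul_pow, sq_abs]; ring
    _ ≤ (‖w - ‖w‖ • n‖ + ‖w - ‖w‖ • n'‖) ^ 2 := by
        refine pow_le_pow_left₀ (norm_nonneg _) ?_ 2
        rw [← norm_neg (w - ‖w‖ • n)]
        refine le_trans (le_of_eq ?_) (norm_add_le _ _)
        congr 1; abel
    _ ≤ 2 * ‖w - ‖w‖ • n‖ ^ 2 + 2 * ‖w - ‖w‖ • n'‖ ^ 2 := by
        nlinarith [sq_nonneg (‖w - ‖w‖ • n‖ - ‖w - ‖w‖ • n'‖)]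
    _ = _ := by rw [sq_norm_sub_smul w hn, sq_norm_sub_smul w hn']; ring

/-- Moving a direction towards that of the field increases the pairing. -/
lemma inner_sub_ge (w : Euc d) {n e : Euc d} (hn : ‖n‖ = 1) (he : ‖e‖ = 1) :
    ‖w‖ * ‖n - e‖ ^ 2 / 4 - 2 * excN w n ≤ ⟪w, n - e⟫ := by
  rcases eq_or_ne w 0 with h | h
  · simp [h, excN]
  have hw := norm_pos_iff.2 h
  set A := ‖n - e‖
  have h1 : ⟪w, n - e⟫ = ‖w‖ * (A ^ 2 / 2) + ⟪w - ‖w‖ • n, n - e⟫ := by
    rw [inner_sub_left, real_inner_smul_left, inner_sub_right n n e, real_inner_self_eq_norm_sq,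
      hn, norm_sub_sq_real, hn, he]
    ring
  have h2 := (abs_le.1 (abs_real_inner_le_norm (w - ‖w‖ • n) (n - e))).1
  have h3 := sq_norm_sub_smul w hn
  set B := ‖w - ‖w‖ • n‖
  have h4 : B * A ≤ ‖w‖ * A ^ 2 / 4 + 2 * excN w n := by
    refine le_of_mul_le_mul_left ?_ hw
    nlinarith [sq_nonneg (‖w‖ * A / 2 - B)]
  linarith

namespace Params

variable (P : Params d)

/-- The direction of a component. -/
def compDir (i : Comp d) : Euc d := P.dir i.1 i.2

/-- The components present in block `K`. -/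
def comps (K : ℕ) : Finset (Comp d) := (Finset.Icc K P.N).sigma P.grid

/-- The rate at which a cell of block `K` kills a component. -/
def rate (K : ℕ) (c : Fin d → ℤ) (i : Comp d) : ℝ := chi P.ε (P.dir K c) (P.compDir i)

/-- The total rate at a point. -/
def killAt (K : ℕ) (i : Comp d) (x : Euc d) : ℝ := ∑ c ∈ P.grid K, P.phi K c x * P.rate K c i

/-- The weights, by recursion downwards from the top block. -/
def wAux : ℕ → Comp d → Euc d → ℝ
  | 0, i, x => if i.1 = P.N then P.phi P.N i.2 x else 0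
  | k + 1, i, x =>
    if i.1 = P.N - (k + 1) then
      P.phi (P.N - (k + 1)) i.2 x *
        ∑ j ∈ P.comps (P.N - (k + 1) + 1), wAux k j x * P.rate (P.N - (k + 1)) i.2 j
    else wAux k i x * (1 - P.killAt (P.N - (k + 1)) i x)

/-- The weight of a component in block `K`. -/
def q (K : ℕ) (i : Comp d) (x : Euc d) : ℝ := P.wAux (P.N - K) i x

/-- The calibrating field. -/
def Qv (K : ℕ) (x : Euc d) : Euc d := ∑ i ∈ P.comps K, P.q K i x • P.compDir i

/-- The variation of the weights between two points. -/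
def V (K : ℕ) (y z : Euc d) : ℝ := ∑ i ∈ P.comps K, |P.q K i y - P.q K i z|

/-- The killed mass seen from a cell. -/
def killed (J : ℕ) (c : Fin d → ℤ) (y : Euc d) : ℝ :=
  ∑ i ∈ P.comps (J + 1), P.q (J + 1) i y * P.rate J c i

/-- The killed mass near a point. -/
def S (lam : ℝ) (J : ℕ) (y : Euc d) : ℝ :=
  ∑ c ∈ P.grid J, (closedBall (P.pt J c) (lam * P.rho J)).indicator (fun _ => P.killed J c y) y

/-- The incoherence near a point. -/
def nearExc (lam : ℝ) (J : ℕ) (w y : Euc d) : ℝ :=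
  ∑ c ∈ P.grid J, (closedBall (P.pt J c) (lam * P.rho J)).indicator
    (fun _ => excN w (P.dir J c)) y

variable {P}

lemma Valid.norm_compDir (hP : P.Valid) (i : Comp d) : ‖P.compDir i‖ = 1 := hP.norm_dir _ _

lemma rate_nonneg (K : ℕ) (c : Fin d → ℤ) (i : Comp d) : 0 ≤ P.rate K c i := chi_nonneg _ _ _

lemma rate_le_one (K : ℕ) (c : Fin d → ℤ) (i : Comp d) : P.rate K c i ≤ 1 := chi_le_one _ _ _

lemma sum_comps_succ {K : ℕ} (hK : K ≤ P.N) (f : Comp d → ℝ) :
    ∑ i ∈ P.comps K, f i = (∑ c ∈ P.grid K, f ⟨K, c⟩) + ∑ i ∈ P.comps (K + 1), f i := by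
  rw [Params.comps, Params.comps, sum_sigma, sum_sigma,
    ← Finset.insert_Icc_succ_left_eq_Icc hK, sum_insert (by simp), Order.succ_eq_add_one]

lemma mem_comps {K : ℕ} {i : Comp d} :
    i ∈ P.comps K ↔ (K ≤ i.1 ∧ i.1 ≤ P.N) ∧ i.2 ∈ P.grid i.1 := by
  simp [Params.comps]

lemma q_top (i : Comp d) (x : Euc d) :
    P.q P.N i x = if i.1 = P.N then P.phi P.N i.2 x else 0 := by
  simp [Params.q, wAux]

lemma q_succ {K : ℕ} (hK : K < P.N) (i : Comp d) (x : Euc d) :
    P.q K i x = if i.1 = K then P.phi K i.2 x * P.killed K i.2 x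
      else P.q (K + 1) i x * (1 - P.killAt K i x) := by
  obtain ⟨k, hk⟩ : ∃ k, P.N - K = k + 1 := ⟨P.N - K - 1, by omega⟩
  have e1 : P.N - (k + 1) = K := by omega
  have e2 : P.N - (K + 1) = k := by omega
  simp only [Params.q, Params.killed, hk, wAux, e1, e2]

lemma q_new {K : ℕ} (hK : K < P.N) (c : Fin d → ℤ) (x : Euc d) :
    P.q K ⟨K, c⟩ x = P.phi K c x * P.killed K c x := by
  rw [q_succ hK, if_pos rfl]

lemma q_old {K : ℕ} (hK : K < P.N) {i : Comp d} (hi : i ∈ P.comps (K + 1)) (x : Euc d) :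
    P.q K i x = P.q (K + 1) i x * (1 - P.killAt K i x) := by
  rw [q_succ hK, if_neg]
  have := (mem_comps.1 hi).1.1
  omega

lemma killAt_nonneg (K : ℕ) (i : Comp d) (x : Euc d) : 0 ≤ P.killAt K i x :=
  sum_nonneg fun _ _ => mul_nonneg (phi_nonneg _ _ _) (chi_nonneg _ _ _)

lemma killAt_le_one (K : ℕ) (i : Comp d) (x : Euc d) : P.killAt K i x ≤ 1 :=
  (Finset.sum_le_sum fun _ _ =>
    mul_le_of_le_one_right (phi_nonneg _ _ _) (chi_le_one _ _ _)).trans_eq (sum_phi K x)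

lemma wAux_nonneg : ∀ k (i : Comp d) x, 0 ≤ P.wAux k i x
  | 0, i, x => by simp only [wAux]; split_ifs <;> simp [phi_nonneg]
  | k + 1, i, x => by
    simp only [wAux]
    split_ifs
    · exact mul_nonneg (phi_nonneg _ _ _)
        (sum_nonneg fun j _ => mul_nonneg (wAux_nonneg k j x) (chi_nonneg _ _ _))
    · exact mul_nonneg (wAux_nonneg k i x) (sub_nonneg.2 (killAt_le_one _ _ _))

lemma q_nonneg (K : ℕ) (i : Comp d) (x : Euc d) : 0 ≤ P.q K i x := wAux_nonneg _ i x

lemma continuous_wAux : ∀ k (i : Comp d), Continuous (P.wAux k i)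
  | 0, i => by
    show Continuous fun x => if i.1 = P.N then P.phi P.N i.2 x else 0
    split_ifs
    · exact continuous_phi _ _
    · exact continuous_const
  | k + 1, i => by
    have hk := fun j => continuous_wAux k j
    show Continuous fun x => if i.1 = P.N - (k + 1) then P.phi (P.N - (k + 1)) i.2 x *
      ∑ j ∈ P.comps (P.N - (k + 1) + 1), P.wAux k j x * P.rate (P.N - (k + 1)) i.2 j
      else P.wAux k i x * (1 - P.killAt (P.N - (k + 1)) i x)
    split_ifs
    · exact (continuous_phi _ _).mul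
        (continuous_finsetSum _ fun j _ => (hk j).mul continuous_const)
    · exact (hk i).mul (continuous_const.sub
        (continuous_finsetSum _ fun c _ => (continuous_phi _ c).mul continuous_const))

lemma continuous_q (K : ℕ) (i : Comp d) : Continuous (P.q K i) := continuous_wAux _ i

/-- Sums of weights times any function of the direction evolve by the killed mass. -/
lemma sum_q_mul {K : ℕ} (hK : K < P.N) (f : Comp d → ℝ) (x : Euc d) :
    ∑ i ∈ P.comps K, P.q K i x * f i = ∑ i ∈ P.comps (K + 1), P.q (K + 1) i x *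
      (f i + ∑ c ∈ P.grid K, P.phi K c x * P.rate K c i * (f ⟨K, c⟩ - f i)) := by
  rw [sum_comps_succ hK.le]
  have e1 : ∑ c ∈ P.grid K, P.q K ⟨K, c⟩ x * f ⟨K, c⟩ = ∑ i ∈ P.comps (K + 1),
      ∑ c ∈ P.grid K, P.q (K + 1) i x * (P.phi K c x * P.rate K c i * f ⟨K, c⟩) := by
    rw [sum_comm]
    refine Finset.sum_congr rfl fun c _ => ?_
    rw [q_new hK, Params.killed, mul_sum, sum_mul]
    exact Finset.sum_congr rfl fun i _ => by ring
  rw [e1, ← sum_add_distrib]
  refine Finset.sum_congr rfl fun i hi => ?_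
  rw [q_old hK hi, Params.killAt, ← mul_sum]
  simp only [mul_sub, sum_sub_distrib, ← sum_mul]
  ring

lemma sum_q {K : ℕ} (hK : K ≤ P.N) (x : Euc d) : ∑ i ∈ P.comps K, P.q K i x = 1 := by
  induction hK using Nat.decreasingInduction with
  | self =>
    have e : P.comps P.N = (Finset.Icc P.N P.N).sigma P.grid := rfl
    rw [e, Finset.Icc_self, sum_sigma, sum_singleton]
    simp [q_top, sum_phi]
  | of_succ k hk ih => simpa [ih] using sum_q_mul hk (fun _ => 1) x

lemma killed_nonneg (J : ℕ) (c : Fin d → ℤ) (y : Euc d) : 0 ≤ P.killed J c y :=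
  sum_nonneg fun _ _ => mul_nonneg (q_nonneg _ _ _) (chi_nonneg _ _ _)

lemma killed_le_one {J : ℕ} (hJ : J < P.N) (c : Fin d → ℤ) (y : Euc d) : P.killed J c y ≤ 1 :=
  (Finset.sum_le_sum fun _ _ =>
    mul_le_of_le_one_right (q_nonneg _ _ _) (chi_le_one _ _ _)).trans_eq (sum_q hJ y)

lemma S_nonneg (lam : ℝ) (J : ℕ) (y : Euc d) : 0 ≤ P.S lam J y :=
  sum_nonneg fun _ _ => indicator_nonneg (fun _ _ => killed_nonneg _ _ _) _

lemma Valid.nearExc_nonneg (hP : P.Valid) (lam : ℝ) (J : ℕ) (w y : Euc d) :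
    0 ≤ P.nearExc lam J w y :=
  sum_nonneg fun _ _ => indicator_nonneg (fun _ _ => excN_nonneg _ (hP.norm_dir _ _)) _

/-- A component that survives at a point has a direction close to that of a nearby cell. -/
lemma Valid.exists_near (hP : P.Valid) {K : ℕ} (hK : K ≤ P.N) {i : Comp d} (hi : i ∈ P.comps K)
    {x : Euc d} (hx : ∀ j, |x j| ≤ P.Ω) (hq : P.q K i x ≠ 0) :
    ∃ c ∈ P.grid K, ‖x - P.pt K c‖ ≤ Real.sqrt d * P.rho K ∧
      ‖P.dir K c - P.compDir i‖ < 2 * P.ε := by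
  by_cases h : i.1 = K
  · obtain ⟨J, c⟩ := i
    obtain rfl : J = K := h
    refine ⟨c, (mem_comps.1 hi).2, hP.dist_pt_le hx fun h0 => hq ?_, by
      simp [Params.compDir, hP.hε]⟩
    rcases hK.lt_or_eq with h' | h'
    · rw [q_new h', h0, zero_mul]
    · subst h'
      rw [q_top, if_pos rfl, h0]
  · have hK' : K < P.N := by
      rcases hK.lt_or_eq with h' | h'
      · exact h'
      · have := (mem_comps.1 hi).1; omega
    by_contra hcon
    push Not at hcon
    refine hq ?_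
    rw [q_succ hK', if_neg h]
    have : P.killAt K i x = 1 := by
      rw [Params.killAt, ← sum_phi (P := P) K x]
      refine Finset.sum_congr rfl fun c hc => ?_
      by_cases h0 : P.phi K c x = 0
      · simp [h0]
      · rw [Params.rate, chi_eq_one hP.hε (hcon c hc (hP.dist_pt_le hx h0)), mul_one]
    rw [this, sub_self, mul_zero]

/-- One step of the variation recursion. -/
lemma V_le_succ {K : ℕ} (hK : K < P.N) (y z : Euc d) :
    P.V K y z ≤ P.V (K + 1) y z +
      2 * ∑ c ∈ P.grid K, |P.phi K c y - P.phi K c z| * P.killed K c y := by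
  rw [Params.V, sum_comps_succ hK.le]
  have h1 : ∑ c ∈ P.grid K, |P.q K ⟨K, c⟩ y - P.q K ⟨K, c⟩ z|
      ≤ (∑ c ∈ P.grid K, |P.phi K c y - P.phi K c z| * P.killed K c y) +
        ∑ i ∈ P.comps (K + 1), |P.q (K + 1) i y - P.q (K + 1) i z| * P.killAt K i z := by
    have e : ∑ i ∈ P.comps (K + 1), |P.q (K + 1) i y - P.q (K + 1) i z| * P.killAt K i z
        = ∑ c ∈ P.grid K, P.phi K c z *
          ∑ i ∈ P.comps (K + 1), |P.q (K + 1) i y - P.q (K + 1) i z| * P.rate K c i := by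
      simp only [Params.killAt, mul_sum]
      rw [sum_comm]
      exact Finset.sum_congr rfl fun c _ => Finset.sum_congr rfl fun i _ => by ring
    rw [e, ← sum_add_distrib]
    refine Finset.sum_le_sum fun c _ => ?_
    rw [q_new hK, q_new hK, show P.phi K c y * P.killed K c y - P.phi K c z * P.killed K c z
      = (P.phi K c y - P.phi K c z) * P.killed K c y +
        P.phi K c z * (P.killed K c y - P.killed K c z) by ring]
    refine (abs_add_le _ _).trans ?_
    rw [abs_mul, abs_mul, abs_of_nonneg (killed_nonneg K c y), abs_of_nonneg (phi_nonneg K c z),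
      Params.killed, Params.killed, ← sum_sub_distrib]
    refine add_le_add le_rfl (mul_le_mul_of_nonneg_left ((abs_sum_le_sum_abs _ _).trans
      (Finset.sum_le_sum fun i _ => ?_)) (phi_nonneg _ _ _))
    rw [← sub_mul, abs_mul, abs_of_nonneg (rate_nonneg (P := P) K c i)]
  have h2 : ∑ i ∈ P.comps (K + 1), |P.q K i y - P.q K i z|
      ≤ (∑ i ∈ P.comps (K + 1), |P.q (K + 1) i y - P.q (K + 1) i z| * (1 - P.killAt K i z)) +
        ∑ c ∈ P.grid K, |P.phi K c y - P.phi K c z| * P.killed K c y := by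
    have e : ∑ c ∈ P.grid K, |P.phi K c y - P.phi K c z| * P.killed K c y
        = ∑ i ∈ P.comps (K + 1), P.q (K + 1) i y *
          ∑ c ∈ P.grid K, |P.phi K c y - P.phi K c z| * P.rate K c i := by
      simp only [Params.killed, mul_sum]
      rw [sum_comm]
      exact Finset.sum_congr rfl fun c _ => Finset.sum_congr rfl fun i _ => by ring
    rw [e, ← sum_add_distrib]
    refine Finset.sum_le_sum fun i hi => ?_
    rw [q_old hK hi, q_old hK hi,
      show P.q (K + 1) i y * (1 - P.killAt K i y) - P.q (K + 1) i z * (1 - P.killAt K i z)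
        = (P.q (K + 1) i y - P.q (K + 1) i z) * (1 - P.killAt K i z) +
          P.q (K + 1) i y * (P.killAt K i z - P.killAt K i y) by ring]
    refine (abs_add_le _ _).trans ?_
    rw [abs_mul, abs_mul, abs_of_nonneg (sub_nonneg.2 (killAt_le_one K i z)),
      abs_of_nonneg (q_nonneg (K + 1) i y), Params.killAt, Params.killAt, ← sum_sub_distrib]
    refine add_le_add le_rfl (mul_le_mul_of_nonneg_left ((abs_sum_le_sum_abs _ _).trans
      (Finset.sum_le_sum fun c _ => ?_)) (q_nonneg _ _ _))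
    rw [← sub_mul, abs_mul, abs_of_nonneg (rate_nonneg (P := P) K c i), abs_sub_comm]
  have h3 : P.V (K + 1) y z =
      (∑ i ∈ P.comps (K + 1), |P.q (K + 1) i y - P.q (K + 1) i z| * P.killAt K i z) +
      ∑ i ∈ P.comps (K + 1), |P.q (K + 1) i y - P.q (K + 1) i z| * (1 - P.killAt K i z) := by
    rw [Params.V, ← sum_add_distrib]
    exact Finset.sum_congr rfl fun i _ => by ring
  linarith

open Classical in
/-- Few cells are near a point. -/
lemma Valid.card_near_le (hP : P.Valid) (lam : ℝ) (K : ℕ) (y : Euc d) :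
    ((P.grid K).filter fun c => y ∈ closedBall (P.pt K c) (lam * P.rho K)).card
      ≤ (2 * ⌈lam⌉₊ + 2) ^ d := by
  classical
  have hr := hP.rho_pos K
  refine (card_le_card (t := Fintype.piFinset fun i =>
    Finset.Icc (⌊y i / P.rho K⌋ - ⌈lam⌉₊) (⌊y i / P.rho K⌋ + ⌈lam⌉₊ + 1)) fun c hc => ?_).trans ?_
  · obtain ⟨-, hc⟩ := Finset.mem_filter.1 hc
    refine Fintype.mem_piFinset.2 fun i => ?_
    have h1 : |y i / P.rho K - c i| ≤ ⌈lam⌉₊ := by
      have h2 := (PiLp.norm_apply_le (y - P.pt K c) i).trans (mem_closedBall_iff_norm.1 hc)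
      have e : (y - P.pt K c) i = P.rho K * (y i / P.rho K - c i) := by
        simp [Params.pt, mul_sub, mul_div_cancel₀ _ hr.ne']
      rw [Real.norm_eq_abs, e, abs_mul, abs_of_pos hr, mul_comm lam] at h2
      exact (le_of_mul_le_mul_left h2 hr).trans (Nat.le_ceil _)
    rw [abs_le] at h1
    have h3 := Int.floor_le (y i / P.rho K)
    have h4 := Int.lt_floor_add_one (y i / P.rho K)
    rw [Finset.mem_Icc]
    constructor <;>
    · rify
      linarith
  · rw [Fintype.card_piFinset]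
    refine (prod_le_prod' (g := fun _ => 2 * ⌈lam⌉₊ + 2) fun i _ => ?_).trans_eq (by simp)
    rw [Int.card_Icc]
    omega

/-- The number of nearby cells, as a real number. -/
def cnt (d : ℕ) (lam : ℝ) : ℝ := (2 * ⌈lam⌉₊ + 2) ^ d

lemma Valid.sum_indicator_near_le (hP : P.Valid) (lam : ℝ) (K : ℕ) (y : Euc d) {B : ℝ}
    (hB : 0 ≤ B) {f : (Fin d → ℤ) → ℝ} (hf : ∀ c, f c ≤ B) :
    ∑ c ∈ P.grid K, (closedBall (P.pt K c) (lam * P.rho K)).indicator (fun _ => f c) y
      ≤ cnt d lam * B := by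
  classical
  simp only [indicator_apply]
  rw [← sum_filter]
  refine (sum_le_card_nsmul _ _ B fun c _ => hf c).trans ?_
  rw [nsmul_eq_mul]
  refine mul_le_mul_of_nonneg_right ?_ hB
  rw [cnt]
  exact_mod_cast hP.card_near_le lam K y

/-- The base radius. -/
def lam0 (d : ℕ) : ℝ := Real.sqrt d + 2

lemma Valid.abs_phi_sub_le_indicator (hP : P.Valid) {K : ℕ} (c : Fin d → ℤ) {y z : Euc d}
    (hy : ∀ j, |y j| ≤ P.Ω) (hz : ∀ j, |z j| ≤ P.Ω) (hyz : ‖y - z‖ ≤ 2 * P.rho K) :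
    |P.phi K c y - P.phi K c z| ≤ (closedBall (P.pt K c) (lam0 d * P.rho K)).indicator
      (fun _ => d * (‖y - z‖ / P.rho K)) y := by
  by_cases hy' : y ∈ closedBall (P.pt K c) (lam0 d * P.rho K)
  · rw [indicator_of_mem hy']
    exact hP.abs_phi_sub_le K c y z
  · rw [indicator_of_notMem hy', abs_nonpos_iff]
    have h1 : P.phi K c y = 0 := by
      by_contra h
      refine hy' (mem_closedBall_iff_norm.2 ((hP.dist_pt_le hy h).trans ?_))
      rw [lam0]; nlinarith [hP.rho_pos K]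
    have h2 : P.phi K c z = 0 := by
      by_contra h
      refine hy' (mem_closedBall_iff_norm.2 ?_)
      calc ‖y - P.pt K c‖ ≤ ‖y - z‖ + ‖z - P.pt K c‖ := norm_sub_le_norm_sub_add_norm_sub _ _ _
        _ ≤ _ := by
            rw [lam0, add_mul, add_comm]
            exact add_le_add (hP.dist_pt_le hz h) hyz
    rw [h1, h2, sub_self]

lemma Valid.V_top_le (hP : P.Valid) {y z : Euc d} (hy : ∀ j, |y j| ≤ P.Ω)
    (hz : ∀ j, |z j| ≤ P.Ω) (hyz : ‖y - z‖ ≤ 2 * P.rho P.N) :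
    P.V P.N y z ≤ d * cnt d (lam0 d) * (‖y - z‖ / P.rho P.N) := by
  have e : P.comps P.N = (Finset.Icc P.N P.N).sigma P.grid := rfl
  rw [Params.V, e, Finset.Icc_self, sum_sigma, sum_singleton]
  simp only [q_top, if_pos]
  refine (Finset.sum_le_sum fun c _ => hP.abs_phi_sub_le_indicator c hy hz hyz).trans ?_
  refine (hP.sum_indicator_near_le _ _ _ (B := d * (‖y - z‖ / P.rho P.N))
    (mul_nonneg (Nat.cast_nonneg d) (div_nonneg (norm_nonneg _) (hP.rho_pos _).le))
    fun _ => le_rfl).trans_eq (by ring)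

lemma Valid.sum_abs_phi_mul_killed_le (hP : P.Valid) {K : ℕ} {y z : Euc d}
    (hy : ∀ j, |y j| ≤ P.Ω) (hz : ∀ j, |z j| ≤ P.Ω) (hyz : ‖y - z‖ ≤ 2 * P.rho K) :
    ∑ c ∈ P.grid K, |P.phi K c y - P.phi K c z| * P.killed K c y
      ≤ d * (‖y - z‖ / P.rho K) * P.S (lam0 d) K y := by
  rw [Params.S, mul_sum]
  refine Finset.sum_le_sum fun c _ => ?_
  refine (mul_le_mul_of_nonneg_right (hP.abs_phi_sub_le_indicator c hy hz hyz)
    (killed_nonneg _ _ _)).trans (le_of_eq ?_)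
  by_cases h : y ∈ closedBall (P.pt K c) (lam0 d * P.rho K)
  · rw [indicator_of_mem h, indicator_of_mem h]
  · rw [indicator_of_notMem h, indicator_of_notMem h, zero_mul, mul_zero]

lemma Valid.rho_mono (hP : P.Valid) {K J : ℕ} (h : K ≤ J) : P.rho K ≤ P.rho J :=
  mul_le_mul_of_nonneg_left (pow_le_pow_right₀ one_le_two (Nat.mul_le_mul_left _ h)) hP.hs.le

/-- The variation of the weights over short distances. -/
lemma Valid.V_le (hP : P.Valid) {K : ℕ} (hK : K ≤ P.N) {y z : Euc d} (hy : ∀ j, |y j| ≤ P.Ω)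
    (hz : ∀ j, |z j| ≤ P.Ω) (hyz : ‖y - z‖ ≤ 2 * P.rho K) :
    P.V K y z ≤ d * cnt d (lam0 d) * (‖y - z‖ / P.rho P.N) +
      2 * d * ∑ J ∈ Finset.Ico K P.N, ‖y - z‖ / P.rho J * P.S (lam0 d) J y := by
  induction hK using Nat.decreasingInduction with
  | self => simpa using hP.V_top_le hy hz hyz
  | of_succ k hk ih =>
    have h1 := ih (hyz.trans (by linarith [hP.rho_mono (show k ≤ k + 1 by omega)]))
    have h2 := hP.sum_abs_phi_mul_killed_le hy hz hyz
    rw [← Finset.insert_Ico_succ_left_eq_Ico hk, sum_insert (by simp), mul_add,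
      Order.succ_eq_add_one]
    have h3 := V_le_succ (P := P) hk y z
    linarith

lemma Qv_inner (K : ℕ) (w x : Euc d) :
    ⟪w, P.Qv K x⟫ = ∑ i ∈ P.comps K, P.q K i x * ⟪w, P.compDir i⟫ := by
  rw [Params.Qv, inner_sum]
  simp [inner_smul_right]

/-- The change of the calibrating field in one step. -/
lemma inner_Qv_sub {J : ℕ} (hJ : J < P.N) (w x : Euc d) :
    ⟪w, P.Qv J x⟫ - ⟪w, P.Qv (J + 1) x⟫ = ∑ i ∈ P.comps (J + 1), P.q (J + 1) i x *
      ∑ c ∈ P.grid J, P.phi J c x * P.rate J c i * ⟪w, P.dir J c - P.compDir i⟫ := by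
  rw [Qv_inner, Qv_inner, sum_q_mul hJ, ← sum_sub_distrib]
  refine Finset.sum_congr rfl fun i _ => ?_
  rw [mul_add, add_sub_cancel_left]
  simp [inner_sub_right, Params.compDir]

/-- The killed mass is paid for by the drop of the potential. -/
lemma Valid.mul_killed_le (hP : P.Valid) {J : ℕ} (hJ : J < P.N) {lam : ℝ}
    (hlam : Real.sqrt d ≤ lam) {c : Fin d → ℤ} (w : Euc d) {y : Euc d}
    (hy : ∀ j, |y j| ≤ P.Ω) :
    ‖w‖ * P.killed J c y ≤ 8 / P.ε ^ 2 * (⟪w, P.Qv J y⟫ - ⟪w, P.Qv (J + 1) y⟫) +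
      24 / P.ε ^ 2 * P.nearExc lam J w y + 8 / P.ε ^ 2 * excN w (P.dir J c) := by
  classical
  set n := P.dir J c with hn_def
  have hn : ‖n‖ = 1 := hP.norm_dir J c
  have hε := hP.hε
  have hne : ∑ c' ∈ P.grid J, P.phi J c' y * excN w (P.dir J c') ≤ P.nearExc lam J w y := by
    refine Finset.sum_le_sum fun c' _ => ?_
    by_cases h : P.phi J c' y = 0
    · rw [h, zero_mul]
      exact indicator_nonneg (fun _ _ => excN_nonneg _ (hP.norm_dir _ _)) _
    · rw [indicator_of_mem (mem_closedBall_iff_norm.2 ((hP.dist_pt_le hy h).trans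
        (mul_le_mul_of_nonneg_right hlam (hP.rho_pos J).le)))]
      exact mul_le_of_le_one_left (excN_nonneg _ (hP.norm_dir _ _)) (phi_le_one _ _ _)
  have key : ∀ i ∈ P.comps (J + 1), ‖w‖ * P.rate J c i ≤
      8 / P.ε ^ 2 * (∑ c' ∈ P.grid J, P.phi J c' y * P.rate J c' i *
        ⟪w, P.dir J c' - P.compDir i⟫) +
      24 / P.ε ^ 2 * (∑ c' ∈ P.grid J, P.phi J c' y * excN w (P.dir J c')) +
      8 / P.ε ^ 2 * excN w n := by
    intro i _
    have hsum := sum_phi (P := P) J y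
    have e : ‖w‖ * P.rate J c i = ∑ c' ∈ P.grid J, P.phi J c' y * (‖w‖ * P.rate J c i) := by
      rw [← sum_mul, hsum, one_mul]
    rw [e, mul_sum, mul_sum]
    have e2 : 8 / P.ε ^ 2 * excN w n = ∑ c' ∈ P.grid J, P.phi J c' y * (8 / P.ε ^ 2 * excN w n) := by
      rw [← sum_mul, hsum, one_mul]
    rw [e2, ← sum_add_distrib, ← sum_add_distrib]
    refine Finset.sum_le_sum fun c' _ => ?_
    set n' := P.dir J c'
    have hn' : ‖n'‖ = 1 := hP.norm_dir J c'
    have he := hP.norm_compDir i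
    have h1 : ‖w‖ * P.rate J c i ≤
        2 * (‖w‖ * P.rate J c' i) + 8 / P.ε ^ 2 * (excN w n + excN w n') := by
      refine (mul_le_mul_of_nonneg_left (chi_le_two_mul hε n n' _) (norm_nonneg w)).trans ?_
      rw [mul_add, Params.rate, mul_left_comm]
      refine add_le_add le_rfl ?_
      rw [div_pow, ← mul_div_assoc, ← mul_div_assoc, div_mul_eq_mul_div]
      refine div_le_div_of_nonneg_right ?_ (sq_nonneg _)
      nlinarith [norm_mul_sq_dir_sub_le w hn hn']
    have h2 : 2 * (‖w‖ * P.rate J c' i) ≤ 8 / P.ε ^ 2 * (P.rate J c' i * ⟪w, n' - P.compDir i⟫) +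
        16 / P.ε ^ 2 * excN w n' := by
      have hex := excN_nonneg w hn'
      by_cases h0 : P.rate J c' i = 0
      · rw [h0]; simp; positivity
      have hlt := lt_norm_of_chi_ne_zero hε h0
      have h3 := inner_sub_ge w hn' he
      have hr0 : 0 ≤ P.rate J c' i := chi_nonneg _ _ _
      have hr1 : P.rate J c' i ≤ 1 := chi_le_one _ _ _
      have h4 : ‖w‖ * P.ε ^ 2 / 4 ≤ ⟪w, n' - P.compDir i⟫ + 2 * excN w n' := by
        nlinarith [mul_le_mul_of_nonneg_left (pow_le_pow_left₀ hε.le hlt.le 2) (norm_nonneg w)]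
      rw [div_mul_eq_mul_div, div_mul_eq_mul_div, ← add_div, le_div_iff₀ (by positivity)]
      nlinarith [mul_le_mul_of_nonneg_left h4 hr0]
    have hφ := phi_nonneg (P := P) J c' y
    calc P.phi J c' y * (‖w‖ * P.rate J c i)
        ≤ P.phi J c' y * (8 / P.ε ^ 2 * (P.rate J c' i * ⟪w, n' - P.compDir i⟫) +
            16 / P.ε ^ 2 * excN w n' + 8 / P.ε ^ 2 * (excN w n + excN w n')) :=
          mul_le_mul_of_nonneg_left (h1.trans (add_le_add h2 le_rfl)) hφ
      _ = _ := by ring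
  rw [inner_Qv_sub hJ, Params.killed, mul_sum]
  have e : 24 / P.ε ^ 2 * P.nearExc lam J w y + 8 / P.ε ^ 2 * excN w n =
      ∑ i ∈ P.comps (J + 1), P.q (J + 1) i y *
        (24 / P.ε ^ 2 * P.nearExc lam J w y + 8 / P.ε ^ 2 * excN w n) := by
    rw [← sum_mul, sum_q hJ, one_mul]
  rw [add_assoc, e, mul_sum, ← sum_add_distrib]
  refine Finset.sum_le_sum fun i hi => ?_
  calc ‖w‖ * (P.q (J + 1) i y * P.rate J c i) = P.q (J + 1) i y * (‖w‖ * P.rate J c i) := by ring
    _ ≤ P.q (J + 1) i y * (8 / P.ε ^ 2 * (∑ c' ∈ P.grid J, P.phi J c' y * P.rate J c' i *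
          ⟪w, P.dir J c' - P.compDir i⟫) + 24 / P.ε ^ 2 * P.nearExc lam J w y +
          8 / P.ε ^ 2 * excN w n) := by
        refine mul_le_mul_of_nonneg_left ((key i hi).trans ?_) (q_nonneg _ _ _)
        gcongr
    _ = _ := by ring

/-- The newest change of the calibrating field varies only to first order in the small parameter. -/
lemma Valid.abs_inner_Qv_var_le (hP : P.Valid) {J : ℕ} (hJ : J < P.N) (w : Euc d) {y z : Euc d}
    (hy : ∀ j, |y j| ≤ P.Ω) (hz : ∀ j, |z j| ≤ P.Ω) (hyz : ‖y - z‖ ≤ 2 * P.rho J)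
    {θ : ℝ} (hθ : 0 < θ) (hθ1 : θ ≤ 1) :
    |⟪w, P.Qv J z⟫ - ⟪w, P.Qv J y⟫| ≤ 3 * ‖w‖ * P.V (J + 1) y z +
      2 * d * cnt d (lam0 d) * (3 * θ * (‖w‖ * P.S (lam0 d) J y)) +
      2 * d * cnt d (lam0 d) * (50 / (θ * P.ε ^ 2)) * (1 + P.ε ^ 2) *
        P.nearExc (lam0 d) J w y := by
  classical
  have hε := hP.hε
  have hrJ := hP.rho_pos J
  have e1 : ∀ x, ⟪w, P.Qv J x⟫ = ∑ i ∈ P.comps (J + 1), P.q (J + 1) i x * (⟪w, P.compDir i⟫ +
      ∑ c ∈ P.grid J, P.phi J c x * P.rate J c i * ⟪w, P.dir J c - P.compDir i⟫) := by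
    intro x
    rw [Qv_inner, sum_q_mul hJ]
    refine Finset.sum_congr rfl fun i _ => ?_
    simp [inner_sub_right, Params.compDir]
  set g := fun (x : Euc d) (i : Comp d) => ⟪w, P.compDir i⟫ +
      ∑ c ∈ P.grid J, P.phi J c x * P.rate J c i * ⟪w, P.dir J c - P.compDir i⟫ with hg
  have e2 : ⟪w, P.Qv J z⟫ - ⟪w, P.Qv J y⟫ =
      (∑ i ∈ P.comps (J + 1), (P.q (J + 1) i z - P.q (J + 1) i y) * g z i) +
      ∑ i ∈ P.comps (J + 1), P.q (J + 1) i y * (g z i - g y i) := by
    rw [e1, e1, ← sum_add_distrib, ← sum_sub_distrib]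
    exact Finset.sum_congr rfl fun i _ => by simp only [hg]; ring
  have hinner : ∀ (n : Euc d) (i : Comp d), ‖n‖ = 1 → |⟪w, n - P.compDir i⟫| ≤ 2 * ‖w‖ := by
    intro n i hn
    refine (abs_real_inner_le_norm _ _).trans ?_
    rw [mul_comm 2]
    refine mul_le_mul_of_nonneg_left ((norm_sub_le _ _).trans ?_) (norm_nonneg _)
    rw [hn, hP.norm_compDir]; norm_num
  have hA : |∑ i ∈ P.comps (J + 1), (P.q (J + 1) i z - P.q (J + 1) i y) * g z i|
      ≤ 3 * ‖w‖ * P.V (J + 1) y z := by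
    rw [Params.V, mul_sum]
    refine (abs_sum_le_sum_abs _ _).trans (Finset.sum_le_sum fun i _ => ?_)
    rw [abs_mul, abs_sub_comm (P.q (J + 1) i y), mul_comm (3 * ‖w‖)]
    refine mul_le_mul_of_nonneg_left ((abs_add_le _ _).trans ?_) (abs_nonneg _)
    have h1 : |⟪w, P.compDir i⟫| ≤ ‖w‖ :=
      (abs_real_inner_le_norm _ _).trans_eq (by rw [hP.norm_compDir, mul_one])
    have h2 : |∑ c ∈ P.grid J, P.phi J c z * P.rate J c i * ⟪w, P.dir J c - P.compDir i⟫|
        ≤ 2 * ‖w‖ := by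
      refine (abs_sum_le_sum_abs _ _).trans ((Finset.sum_le_sum fun c _ => ?_).trans_eq
        (show ∑ c ∈ P.grid J, P.phi J c z * (2 * ‖w‖) = _ by rw [← sum_mul, sum_phi, one_mul]))
      rw [abs_mul, abs_mul, abs_of_nonneg (phi_nonneg J c z),
        abs_of_nonneg (rate_nonneg (P := P) J c i), mul_assoc]
      exact mul_le_mul_of_nonneg_left ((mul_le_of_le_one_left (abs_nonneg _)
        (chi_le_one _ _ _)).trans (hinner _ i (hP.norm_dir _ _))) (phi_nonneg _ _ _)
    linarith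
  obtain ⟨c₀, hc₀, hphi₀⟩ : ∃ c₀ ∈ P.grid J, P.phi J c₀ y ≠ 0 := by
    by_contra h
    push Not at h
    have := sum_phi (P := P) J y
    rw [sum_eq_zero h] at this
    exact zero_ne_one this
  have hc₀y : y ∈ closedBall (P.pt J c₀) (lam0 d * P.rho J) := by
    refine mem_closedBall_iff_norm.2 ((hP.dist_pt_le hy hphi₀).trans ?_)
    rw [lam0]; nlinarith
  set n₀ := P.dir J c₀ with hn₀_def
  have hn₀ : ‖n₀‖ = 1 := hP.norm_dir J c₀
  have hne : ∀ c ∈ P.grid J, y ∈ closedBall (P.pt J c) (lam0 d * P.rho J) →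
      excN w (P.dir J c) ≤ P.nearExc (lam0 d) J w y := by
    intro c hc hyc
    refine le_trans (le_of_eq (indicator_of_mem hyc (fun _ => excN w (P.dir J c))).symm) ?_
    exact single_le_sum (f := fun c => (closedBall (P.pt J c) (lam0 d * P.rho J)).indicator
      (fun _ => excN w (P.dir J c)) y)
      (fun _ _ => indicator_nonneg (fun _ _ => excN_nonneg _ (hP.norm_dir _ _)) _) hc
  have hk₀ : ‖w‖ * P.killed J c₀ y ≤ ‖w‖ * P.S (lam0 d) J y := by
    refine mul_le_mul_of_nonneg_left ?_ (norm_nonneg _)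
    refine le_trans (le_of_eq (indicator_of_mem hc₀y (fun _ => P.killed J c₀ y)).symm) ?_
    exact single_le_sum (f := fun c => (closedBall (P.pt J c) (lam0 d * P.rho J)).indicator
      (fun _ => P.killed J c y) y)
      (fun _ _ => indicator_nonneg (fun _ _ => killed_nonneg _ _ _) _) hc₀
  set E := P.nearExc (lam0 d) J w y with hE
  have hE0 : 0 ≤ E := hP.nearExc_nonneg _ _ _ _
  set Θ := 50 / (θ * P.ε ^ 2) * (1 + P.ε ^ 2) with hΘ
  have hdiff : ∀ (i : Comp d), ∀ c ∈ P.grid J, y ∈ closedBall (P.pt J c) (lam0 d * P.rho J) →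
      |P.rate J c i * ⟪w, P.dir J c - P.compDir i⟫ -
        P.rate J c₀ i * ⟪w, n₀ - P.compDir i⟫| ≤ 3 * θ * (‖w‖ * P.rate J c₀ i) + Θ * E := by
    intro i c hc hyc
    set n := P.dir J c
    have hn : ‖n‖ = 1 := hP.norm_dir J c
    set D := ‖n - n₀‖
    have hD : ‖w‖ * D ^ 2 ≤ 8 * E := by
      have := norm_mul_sq_dir_sub_le w hn hn₀
      linarith [hne c hc hyc, hne c₀ hc₀ hc₀y]
    have h1 := abs_chi_sub_le hε hθ n n₀ (P.compDir i)
    rw [show P.rate J c i * ⟪w, n - P.compDir i⟫ - P.rate J c₀ i * ⟪w, n₀ - P.compDir i⟫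
        = (P.rate J c i - P.rate J c₀ i) * ⟪w, n - P.compDir i⟫ +
          P.rate J c₀ i * ⟪w, n - n₀⟫ by simp only [inner_sub_right]; ring]
    refine (abs_add_le _ _).trans ?_
    rw [abs_mul, abs_mul, abs_of_nonneg (rate_nonneg (P := P) J c₀ i)]
    have hr0 : 0 ≤ P.rate J c₀ i := chi_nonneg _ _ _
    have hr1 : P.rate J c₀ i ≤ 1 := chi_le_one _ _ _
    have h3 : P.rate J c₀ i * |⟪w, n - n₀⟫| ≤ θ * (‖w‖ * P.rate J c₀ i) + 2 * E / θ := by
      have h4 : |⟪w, n - n₀⟫| ≤ θ * ‖w‖ + ‖w‖ * D ^ 2 / (4 * θ) := by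
        refine (abs_real_inner_le_norm _ _).trans ?_
        have : ‖w‖ * D * θ ≤ θ ^ 2 * ‖w‖ + ‖w‖ * D ^ 2 / 4 := by
          nlinarith [mul_nonneg (norm_nonneg w) (sq_nonneg (θ - D / 2))]
        rw [show θ * ‖w‖ + ‖w‖ * D ^ 2 / (4 * θ) = (θ ^ 2 * ‖w‖ + ‖w‖ * D ^ 2 / 4) / θ by
          field_simp, le_div_iff₀ hθ]
        exact this
      have h5 : ‖w‖ * D ^ 2 / (4 * θ) ≤ 2 * E / θ := by
        rw [show 2 * E / θ = 8 * E / (4 * θ) by field_simp; ring]
        exact div_le_div_of_nonneg_right hD (by positivity)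
      nlinarith [mul_le_mul_of_nonneg_left h4 hr0,
        mul_le_of_le_one_left (by positivity : 0 ≤ ‖w‖ * D ^ 2 / (4 * θ)) hr1]
    have h6 : |P.rate J c i - P.rate J c₀ i| * |⟪w, n - P.compDir i⟫| ≤
        2 * θ * (‖w‖ * P.rate J c₀ i) + (1 + 1 / θ) * (16 * E / P.ε ^ 2) := by
      refine (mul_le_mul h1 (hinner n i hn) (abs_nonneg _) (by positivity)).trans ?_
      have h7 : (D / P.ε) ^ 2 * (2 * ‖w‖) ≤ 16 * E / P.ε ^ 2 := by
        rw [div_pow, div_mul_eq_mul_div]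
        exact div_le_div_of_nonneg_right (by linarith) (sq_nonneg _)
      have h8 := mul_le_mul_of_nonneg_left h7 (by positivity : (0:ℝ) ≤ 1 + 1 / θ)
      have e : chi P.ε n₀ (P.compDir i) = P.rate J c₀ i := rfl
      rw [e]
      linarith
    have h9 : (1 + 1 / θ) * (16 * E / P.ε ^ 2) + 2 * E / θ ≤ Θ * E := by
      have hθ' : (1 + 1 / θ) ≤ 2 / θ := by
        rw [le_div_iff₀ hθ, add_mul, div_mul_cancel₀ _ hθ.ne']
        linarith
      refine (add_le_add (mul_le_mul_of_nonneg_right hθ' (by positivity)) le_rfl).trans ?_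
      rw [hΘ, show 2 / θ * (16 * E / P.ε ^ 2) + 2 * E / θ = (32 + 2 * P.ε ^ 2) * E / (θ * P.ε ^ 2)
        by field_simp; ring, show 50 / (θ * P.ε ^ 2) * (1 + P.ε ^ 2) * E
          = (50 + 50 * P.ε ^ 2) * E / (θ * P.ε ^ 2) by ring]
      refine div_le_div_of_nonneg_right (mul_le_mul_of_nonneg_right ?_ hE0) (by positivity)
      nlinarith
    linarith
  have hB : |∑ i ∈ P.comps (J + 1), P.q (J + 1) i y * (g z i - g y i)| ≤
      2 * d * cnt d (lam0 d) * (3 * θ * (‖w‖ * P.S (lam0 d) J y) + Θ * E) := by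
    refine (abs_sum_le_sum_abs _ _).trans ?_
    have hi : ∀ i ∈ P.comps (J + 1), |P.q (J + 1) i y * (g z i - g y i)| ≤
        P.q (J + 1) i y * (2 * d * cnt d (lam0 d) * (3 * θ * (‖w‖ * P.rate J c₀ i) + Θ * E)) := by
      intro i _
      rw [abs_mul, abs_of_nonneg (q_nonneg _ _ _)]
      refine mul_le_mul_of_nonneg_left ?_ (q_nonneg _ _ _)
      have e : g z i - g y i = ∑ c ∈ P.grid J, (P.phi J c z - P.phi J c y) *
          (P.rate J c i * ⟪w, P.dir J c - P.compDir i⟫ -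
            P.rate J c₀ i * ⟪w, n₀ - P.compDir i⟫) := by
        simp only [hg, mul_sub, sum_sub_distrib, sub_mul, sum_sub_distrib, ← sum_mul, sum_phi]
        simp only [sub_self, sub_zero, add_sub_add_left_eq_sub, ← mul_assoc]
      rw [e]
      have hb0 : 0 ≤ 3 * θ * (‖w‖ * P.rate J c₀ i) + Θ * E := by
        have : 0 ≤ P.rate J c₀ i := chi_nonneg _ _ _
        positivity
      refine (abs_sum_le_sum_abs _ _).trans ?_
      refine (Finset.sum_le_sum (g := fun c => (closedBall (P.pt J c) (lam0 d * P.rho J)).indicator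
        (fun _ => 2 * d * (3 * θ * (‖w‖ * P.rate J c₀ i) + Θ * E)) y) fun c hc => ?_).trans
        ((hP.sum_indicator_near_le _ _ _ (B := 2 * d * (3 * θ * (‖w‖ * P.rate J c₀ i) + Θ * E))
          (by positivity) fun _ => le_rfl).trans_eq (by ring))
      rw [abs_mul, abs_sub_comm]
      by_cases hyc : y ∈ closedBall (P.pt J c) (lam0 d * P.rho J)
      · rw [indicator_of_mem hyc]
        refine mul_le_mul ?_ (hdiff i c hc hyc) (abs_nonneg _) (by positivity)
        refine (hP.abs_phi_sub_le J c y z).trans ?_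
        rw [mul_comm (2 : ℝ)]
        exact mul_le_mul_of_nonneg_left ((div_le_iff₀ hrJ).2 hyz) (Nat.cast_nonneg d)
      · have := hP.abs_phi_sub_le_indicator c hy hz hyz
        rw [indicator_of_notMem hyc] at this ⊢
        rw [le_antisymm this (abs_nonneg _), zero_mul]
    refine (Finset.sum_le_sum hi).trans ?_
    have e : ∑ i ∈ P.comps (J + 1), P.q (J + 1) i y *
        (2 * d * cnt d (lam0 d) * (3 * θ * (‖w‖ * P.rate J c₀ i) + Θ * E))
        = 2 * d * cnt d (lam0 d) * (3 * θ * (‖w‖ * P.killed J c₀ y) + Θ * E) := by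
      have hs := sum_q (P := P) hJ y
      calc _ = 2 * d * cnt d (lam0 d) * (3 * θ * (‖w‖ * ∑ i ∈ P.comps (J + 1),
              P.q (J + 1) i y * P.rate J c₀ i) + Θ * E * ∑ i ∈ P.comps (J + 1), P.q (J + 1) i y) := by
            simp only [mul_add, mul_sum, ← sum_add_distrib]
            exact Finset.sum_congr rfl fun i _ => by ring
        _ = _ := by rw [hs, mul_one]; rfl
    rw [e]
    have : 0 ≤ cnt d (lam0 d) := by unfold cnt; positivity
    gcongr
  rw [e2]
  refine (abs_add_le _ _).trans ((add_le_add hA hB).trans (le_of_eq ?_))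
  rw [hΘ]
  ring

end Params

end Vale.Agent.P137.Centred
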