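import Vale.Agent.P137.Centred.Selected
import Vale.Agent.P137.Centred.Blocks
import Vale.Agent.P137.Centred.Weights

/-!
# P137, centred operator: the budget

The single-ball bounds, the selection and the rays give a budget for all blocks.
-/

open MeasureTheory Filter Set Metric
open scoped ENNReal NNReal Topology RealInnerProductSpace Gradient

noncomputable section

namespace Vale.Agent.P137.Centred

variable {d : ℕ}

/-- What the coherent error and `g` do not pay for, at one radius and one direction. -/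
def slack (v : Euc d → Euc d) (s K R : ℝ) (N : ℕ) (n : Euc d) (g : Euc d → ℝ) (x : Euc d)
    (p : ℝ × Euc d) : ℝ :=
  max 0 (-(∫ y in ball x p.1, ⟪v y, p.2⟫) -
    K * |∫ y in ball x (max R p.1), ⟪v y, (max R p.1)⁻¹ • (y - x)⟫| -
    K * (cohMass v s x R N n + g x))

/-- The radii of scale `R` and the directions near `n`. -/
def slackSet (ε R : ℝ) (n : Euc d) : Set (ℝ × Euc d) :=
  Icc R (2 * R) ×ˢ (sphere (0 : Euc d) 1 ∩ closedBall n ε)

/-- The largest slack. -/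
def excess (v : Euc d → Euc d) (s K ε R : ℝ) (N : ℕ) (n : Euc d) (g : Euc d → ℝ) (x : Euc d) : ℝ :=
  sSup (slack v s K R N n g x '' slackSet ε R n)

section Excess

variable {v : Euc d → Euc d} {s K ε R : ℝ} {N : ℕ} {n : Euc d} {g : Euc d → ℝ}

lemma isCompact_slackSet : IsCompact (slackSet ε R n) :=
  isCompact_Icc.prod ((isCompact_sphere _ _).inter_right isClosed_closedBall)

lemma continuous_slack (hd : d ≠ 0) (hv : Continuous v) (hR : 0 < R) (hg : Continuous g) :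
    Continuous fun q : Euc d × (ℝ × Euc d) => slack v s K R N n g q.1 q.2 := by
  refine continuous_const.max ((Continuous.sub (Continuous.neg ?_) (continuous_const.mul
    (Continuous.abs ?_))).sub (continuous_const.mul ?_))
  · exact Continuous.comp
      (g := fun q : (Euc d × ℝ) × Euc d => ∫ y in ball q.1.1 q.1.2, ⟪v y, q.2⟫)
      (f := fun q : Euc d × (ℝ × Euc d) => ((q.1, q.2.1), q.2.2))
      (continuous_ball_inner hd hv) (by fun_prop)
  · exact ContinuousOn.comp_continuous (s := {p : Euc d × ℝ | 0 < p.2})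
      (g := fun p : Euc d × ℝ => ∫ y in ball p.1 p.2, ⟪v y, p.2⁻¹ • (y - p.1)⟫)
      (f := fun q : Euc d × (ℝ × Euc d) => (q.1, max R q.2.1))
      (continuousOn_ball_inner_radial hv) (by fun_prop) fun q => lt_max_of_lt_left hR
  · exact ((continuous_cohMass hv hR N n).comp continuous_fst).add (hg.comp continuous_fst)

lemma continuous_excess (hd : d ≠ 0) (hv : Continuous v) (hR : 0 < R) (hg : Continuous g) :
    Continuous (excess v s K ε R N n g) :=
  isCompact_slackSet.continuous_sSup (f := slack v s K R N n g) (continuous_slack hd hv hR hg)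

lemma excess_nonneg (x : Euc d) : 0 ≤ excess v s K ε R N n g x := by
  refine Real.sSup_nonneg ?_
  rintro _ ⟨p, -, rfl⟩
  exact le_max_left _ _

lemma slack_le_excess (hd : d ≠ 0) (hv : Continuous v) (hR : 0 < R) (hg : Continuous g)
    {x : Euc d} {p : ℝ × Euc d} (hp : p ∈ slackSet ε R n) :
    slack v s K R N n g x p ≤ excess v s K ε R N n g x :=
  le_csSup (isCompact_slackSet.image ((continuous_slack hd hv hR hg).comp
    (continuous_const.prodMk continuous_id))).bddAbove (mem_image_of_mem _ hp)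

lemma exists_excess_le (hR : 0 ≤ R) (hε : 0 ≤ ε) (hn : ‖n‖ = 1) (x : Euc d)
    (h : 0 < excess v s K ε R N n g x) :
    ∃ p ∈ slackSet ε R n, 0 < slack v s K R N n g x p ∧
      excess v s K ε R N n g x ≤ 2 * slack v s K R N n g x p := by
  have hne : (slack v s K R N n g x '' slackSet ε R n).Nonempty :=
    ⟨_, (R, n), ⟨⟨le_rfl, by linarith⟩, by simp [hn], mem_closedBall_self hε⟩, rfl⟩
  obtain ⟨_, ⟨p, hp, rfl⟩, hlt⟩ := exists_lt_of_lt_csSup hne (half_lt_self h)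
  exact ⟨p, hp, (half_pos h).trans hlt, le_of_lt ((div_lt_iff₀' two_pos).1 hlt)⟩

end Excess

lemma exists_scale (s : ℝ) {r : ℝ} (a : ℕ) :
    ∀ n, stp s a ≤ r → r ≤ stp s (a + (n + 1)) →
      ∃ k, a ≤ k ∧ k ≤ a + n ∧ r ∈ Icc (stp s k) (2 * stp s k)
  | 0, h1, h2 => ⟨a, le_rfl, le_rfl, h1, by rwa [stp_succ] at h2⟩
  | n + 1, h1, h2 => by
    rcases le_or_gt r (stp s (a + (n + 1))) with h | h
    · obtain ⟨k, hk1, hk2, hk3⟩ := exists_scale s a n h1 h
      exact ⟨k, hk1, by omega, hk3⟩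
    · exact ⟨a + (n + 1), by omega, le_rfl, h.le, by
        rw [← add_assoc a (n + 1) 1, stp_succ] at h2; exact h2⟩

lemma Params.rho_eq_stp (P : Params d) (J : ℕ) : P.rho J = stp P.s (P.M * J) := rfl

/-- A radius of a block has a dyadic scale inside the block. -/
lemma exists_scale_block {P : Params d} (hP : P.Valid) {M : ℕ} (hPM : P.M = M) (hM : 1 ≤ M)
    {J : ℕ} (hJ : 1 ≤ J) {r : ℝ} (hr : r ∈ Icc (P.rho (J - 1)) (P.rho J)) :
    ∃ k, M * (J - 1) ≤ k ∧ k < M * J ∧ r ∈ Icc (stp P.s k) (2 * stp P.s k) ∧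
      P.rho (J - 1) ≤ stp P.s k ∧ stp P.s k ≤ P.rho J ∧
      0 ≤ (r ^ d * ballVol d)⁻¹ ∧
      (r ^ d * ballVol d)⁻¹ ≤ (2 ^ M) ^ d / ballVol d * (P.rho J ^ d)⁻¹ := by
  subst hPM
  have e : P.M * (J - 1) + ((P.M - 1) + 1) = P.M * J := by
    rw [show P.M - 1 + 1 = P.M by omega, ← Nat.mul_succ, show (J - 1).succ = J by omega]
  obtain ⟨k, hk1, hk2, hk3⟩ := exists_scale P.s (P.M * (J - 1)) (P.M - 1) hr.1
    (by rw [e]; exact hr.2)
  have hmono : ∀ a b : ℕ, a ≤ b → stp P.s a ≤ stp P.s b := fun a b h =>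
    mul_le_mul_of_nonneg_left (pow_le_pow_right₀ one_le_two h) hP.hs.le
  have hρ := hP.rho_pos J
  have hρ' := hP.rho_pos (J - 1)
  have hω : 0 < ballVol d := ballVol_pos
  have hr0 : 0 < r := hρ'.trans_le hr.1
  refine ⟨k, hk1, by omega, hk3, hmono _ _ hk1, hmono _ _ (by omega), by positivity, ?_⟩
  calc (r ^ d * ballVol d)⁻¹ ≤ (P.rho (J - 1) ^ d * ballVol d)⁻¹ :=
        inv_anti₀ (by positivity) (mul_le_mul_of_nonneg_right
          (pow_le_pow_left₀ hρ'.le hr.1 d) hω.le)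
    _ = (2 ^ P.M) ^ d / ballVol d * (P.rho J ^ d)⁻¹ := by
        rw [P.rho_eq_mul_pred hJ, mul_pow]; field_simp

/-- A bound for the radius of the region seen by the cells. -/
def Params.cellRadius (P : Params d) : ℝ :=
  ∑ J ∈ Finset.Icc 1 P.N, ∑ e ∈ P.grid J, (‖P.pt J e‖ + Real.sqrt d * P.rho J)

/-- The cubes near the cells, at all scales below the top block. -/
def Params.nearCubes (P : Params d) : Finset (ℕ × (Fin d → ℤ)) :=
  (Finset.range (P.M * P.N)).biUnion fun k =>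
    (Fintype.piFinset fun _ : Fin d => Finset.Icc ⌊-P.cellRadius / stp P.s k⌋
      ⌊P.cellRadius / stp P.s k⌋).image (Prod.mk k)

/-- The excess of a scale, summed over the cells near a point. -/
def Params.cubeExcess (P : Params d) (K ε : ℝ) (c : ℕ) (p : ℕ × (Fin d → ℤ)) (g : Euc d → ℝ)
    (x : Euc d) : ℝ :=
  ∑ e ∈ P.grid (p.1 / P.M + 1),
    (closedBall (P.pt (p.1 / P.M + 1) e) (Real.sqrt d * P.rho (p.1 / P.M + 1))).indicator
      (excess P.v P.s K ε (stp P.s p.1) (nLev c p.1) (P.dir (p.1 / P.M + 1) e) g) x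

lemma Params.lt_of_mem_nearCubes {P : Params d} {p : ℕ × (Fin d → ℤ)} (hp : p ∈ P.nearCubes) :
    p.1 < P.M * P.N := by
  simp only [Params.nearCubes, Finset.mem_biUnion, Finset.mem_image, Finset.mem_range] at hp
  obtain ⟨k, hk, n, -, rfl⟩ := hp
  exact hk

lemma Params.Valid.mem_nearCubes {P : Params d} (hP : P.Valid) {J : ℕ}
    (hJ : J ∈ Finset.Icc 1 P.N) {x : Euc d} {e : Fin d → ℤ} (he : e ∈ P.grid J)
    (hxe : ‖x - P.pt J e‖ ≤ Real.sqrt d * P.rho J) {k : ℕ} (hk1 : P.M * (J - 1) ≤ k)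
    (hk2 : k < P.M * J) :
    (k, cubeIdx (stp P.s k) x) ∈ P.nearCubes.filter (fun p => p.1 / P.M + 1 = J) := by
  obtain ⟨hJ1, hJN⟩ := Finset.mem_Icc.1 hJ
  have hkJ : k / P.M = J - 1 := Nat.div_eq_of_lt_le (by rwa [mul_comm]) (by
    rw [show J - 1 + 1 = J by omega, mul_comm]; exact hk2)
  refine Finset.mem_filter.2 ⟨?_, by simp only; omega⟩
  have hx : ‖x‖ ≤ P.cellRadius := by
    refine le_trans ?_ (Finset.single_le_sum (fun J _ => Finset.sum_nonneg fun e _ =>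
      add_nonneg (norm_nonneg _) (mul_nonneg (Real.sqrt_nonneg _) (hP.rho_pos J).le)) hJ)
    refine le_trans ?_ (Finset.single_le_sum (fun e _ =>
      add_nonneg (norm_nonneg _) (mul_nonneg (Real.sqrt_nonneg _) (hP.rho_pos J).le)) he)
    linarith [norm_le_insert' x (P.pt J e)]
  simp only [Params.nearCubes, Finset.mem_biUnion, Finset.mem_range, Finset.mem_image]
  refine ⟨k, lt_of_lt_of_le hk2 (Nat.mul_le_mul_left _ hJN), _, ?_, rfl⟩
  refine Fintype.mem_piFinset.2 fun i => Finset.mem_Icc.2 ?_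
  have hi := abs_le.1 (((Real.norm_eq_abs _).symm.trans_le (PiLp.norm_apply_le x i)).trans hx)
  exact ⟨Int.floor_mono (div_le_div_of_nonneg_right hi.1 (stp_pos hP.hs k).le),
    Int.floor_mono (div_le_div_of_nonneg_right hi.2 (stp_pos hP.hs k).le)⟩

lemma Params.cubeExcess_nonneg (P : Params d) (K ε : ℝ) (c : ℕ) (p : ℕ × (Fin d → ℤ))
    (g : Euc d → ℝ) (x : Euc d) : 0 ≤ P.cubeExcess K ε c p g x :=
  Finset.sum_nonneg fun e _ => indicator_nonneg (fun y _ => excess_nonneg y) x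

lemma Params.Valid.measurable_cubeExcess {P : Params d} (hP : P.Valid) (hd : d ≠ 0) (K ε : ℝ)
    (c : ℕ) (p : ℕ × (Fin d → ℤ)) {g : Euc d → ℝ} (hg : Continuous g) :
    Measurable (P.cubeExcess K ε c p g) :=
  Finset.measurable_sum _ fun e _ =>
    (continuous_excess hd hP.hv (stp_pos hP.hs _) hg).measurable.indicator measurableSet_closedBall

/-- If the excess does not vanish, it is paid by the polar mass at one radius. -/
lemma cubeExcess_le_polMass {c : ℕ} (hc : 7 ≤ c) {K εf : ℝ} (hK : 0 ≤ K) (hεf : 0 ≤ εf)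
    {P : Params d} (hP : P.Valid)
    (hpw : ∀ (R r : ℝ) (N : ℕ) (x n u : Euc d), Scaled P.s (2 ^ c) R r N → ‖u‖ = 1 → ‖n‖ = 1 →
      ‖n - u‖ ≤ εf → ∀ q : Euc d,
      -∫ y in ball x r, ⟪P.v y, u⟫ ≤ K * |∫ y in ball x r, ⟪P.v y, r⁻¹ • (y - x)⟫| +
          K * (cohMass P.v P.s x R N n + selMass P.v P.s (2 * 2 ^ c) x r N q R) ∨
      (|‖x - q‖ - r| ≤ 1 / 4 * R ∧
        allMass P.v P.s (2 ^ c) x r N ≤ K * shellMass P.v P.s (2 * 2 ^ c) x r N ∧
        allMass P.v P.s (2 ^ c / 2) x r N ≤ K * shellMass P.v P.s (2 * 2 ^ c) x r N ∧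
        -∫ y in ball x r, ⟪P.v y, u⟫ ≤ K * |∫ y in ball x r, ⟪P.v y, r⁻¹ • (y - x)⟫| +
          K * (cohMass P.v P.s x R N n + selMass P.v P.s (2 * 2 ^ c) x r N q R) +
          K * polMass P.v P.s (2 ^ c) x r N q R))
    {p : ℕ × (Fin d → ℤ)} {q : Euc d} {g : Euc d → ℝ} {x : Euc d}
    (hne : P.cubeExcess K εf c p g x ≠ 0)
    (hg : ∀ r ∈ Icc (stp P.s p.1) (2 * stp P.s p.1),
      selMass P.v P.s (2 * 2 ^ c) x r (nLev c p.1) q (stp P.s p.1) ≤ g x) :
    ∃ r ∈ Icc (stp P.s p.1) (2 * stp P.s p.1),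
      |‖x - q‖ - r| ≤ 1 / 4 * stp P.s p.1 ∧
      allMass P.v P.s (2 ^ c) x r (nLev c p.1) ≤
        (K + 2 * Params.cnt d (Real.sqrt d) * K) * shellMass P.v P.s (2 * 2 ^ c) x r (nLev c p.1) ∧
      allMass P.v P.s (2 ^ c / 2) x r (nLev c p.1) ≤
        (K + 2 * Params.cnt d (Real.sqrt d) * K) * shellMass P.v P.s (2 * 2 ^ c) x r (nLev c p.1) ∧
      P.cubeExcess K εf c p g x ≤ (K + 2 * Params.cnt d (Real.sqrt d) * K) *
        polMass P.v P.s (2 ^ c) x r (nLev c p.1) q (stp P.s p.1) := by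
  classical
  have hs := hP.hs
  set nc : ℝ := Params.cnt d (Real.sqrt d) with hnc
  have hnc0 : 0 ≤ nc := Params.cnt_nonneg _
  set J := p.1 / P.M + 1 with hJ
  set R := stp P.s p.1 with hR
  set N := nLev c p.1
  have hRpos : 0 < R := stp_pos hs _
  set F := (P.grid J).filter fun e => x ∈ closedBall (P.pt J e) (Real.sqrt d * P.rho J) with hF
  set val := fun e => excess P.v P.s K εf R N (P.dir J e) g x with hval
  have hsum : P.cubeExcess K εf c p g x = ∑ e ∈ F, val e := by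
    rw [hF, Finset.sum_filter]
    exact Finset.sum_congr rfl fun e _ => Set.indicator_apply _ _ _
  rw [hsum] at hne ⊢
  obtain ⟨e₁, he₁, hmax⟩ := Finset.exists_max_image F val (Finset.nonempty_of_sum_ne_zero hne)
  have hpos : 0 < val e₁ := by
    refine lt_of_le_of_ne (excess_nonneg x) fun h => hne (Finset.sum_eq_zero fun e he => ?_)
    exact le_antisymm ((hmax e he).trans h.ge) (excess_nonneg x)
  obtain ⟨⟨r, u⟩, ⟨hr, hu1, hu2⟩, hspos, hsle⟩ :=
    exists_excess_le hRpos.le hεf (hP.norm_dir J e₁) x hpos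
  have hu1' : ‖u‖ = 1 := by simpa using hu1
  have hu2' : ‖P.dir J e₁ - u‖ ≤ εf := by
    rw [norm_sub_rev]; exact mem_closedBall_iff_norm.1 hu2
  have hKg := mul_le_mul_of_nonneg_left (hg r hr) hK
  simp only [slack, max_eq_right hr.1, lt_max_iff, lt_irrefl, false_or] at hspos
  rcases hpw R r N x (P.dir J e₁) u (scaled_nLev hc hs hr) hu1' (hP.norm_dir J e₁) hu2' q with
    h | ⟨hD, hA1, hA2, h⟩
  · linarith
  have hS0 : 0 ≤ shellMass P.v P.s (2 * 2 ^ c) x r N := shellMass_nonneg hP.hv _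
  have hKle : K ≤ K + 2 * nc * K := by linarith [mul_nonneg (mul_nonneg zero_le_two hnc0) hK]
  refine ⟨r, hr, hD, hA1.trans (mul_le_mul_of_nonneg_right hKle hS0),
    hA2.trans (mul_le_mul_of_nonneg_right hKle hS0), ?_⟩
  set pol := polMass P.v P.s (2 ^ c) x r N q R
  have hle : slack P.v P.s K R N (P.dir J e₁) g x (r, u) ≤ K * pol := by
    simp only [slack, max_eq_right hr.1]
    exact max_le (by linarith) (by linarith)
  have h0 : 0 ≤ K * pol := le_trans (le_max_left _ _) hle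
  have hcard : (F.card : ℝ) ≤ nc := by
    rw [hnc, Params.cnt]
    exact_mod_cast hP.card_near_le (Real.sqrt d) J x
  calc ∑ e ∈ F, val e ≤ F.card • val e₁ := Finset.sum_le_card_nsmul _ _ _ hmax
    _ = F.card * val e₁ := nsmul_eq_mul _ _
    _ ≤ nc * (2 * (K * pol)) := mul_le_mul hcard (hsle.trans (by linarith)) hpos.le hnc0
    _ ≤ (K + 2 * nc * K) * pol := by linarith

/-- The selected gaps and the excesses, block by block. -/
theorem exists_blockSel (hd : 0 < d) {c : ℕ} (hc : 7 ≤ c) {K εf : ℝ} (hK : 0 ≤ K) (hεf : 0 ≤ εf)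
    (hptK : ∀ f : Euc d → ℝ, ContDiff ℝ 1 f → HasCompactSupport f → ∀ (s R r : ℝ) (N : ℕ)
      (x n u : Euc d), Scaled s (2 ^ c) R r N → ‖u‖ = 1 → ‖n‖ = 1 → ‖n - u‖ ≤ εf → ∀ q : Euc d,
      -∫ y in ball x r, ⟪∇ f y, u⟫ ≤ K * |∫ y in ball x r, ⟪∇ f y, r⁻¹ • (y - x)⟫| +
          K * (cohMass (∇ f) s x R N n + selMass (∇ f) s (2 * 2 ^ c) x r N q R) ∨
      (|‖x - q‖ - r| ≤ 1 / 4 * R ∧
        allMass (∇ f) s (2 ^ c) x r N ≤ K * shellMass (∇ f) s (2 * 2 ^ c) x r N ∧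
        allMass (∇ f) s (2 ^ c / 2) x r N ≤ K * shellMass (∇ f) s (2 * 2 ^ c) x r N ∧
        -∫ y in ball x r, ⟪∇ f y, u⟫ ≤ K * |∫ y in ball x r, ⟪∇ f y, r⁻¹ • (y - x)⟫| +
          K * (cohMass (∇ f) s x R N n + selMass (∇ f) s (2 * 2 ^ c) x r N q R) +
          K * polMass (∇ f) s (2 ^ c) x r N q R)) :
    ∃ Cs : ℝ, 0 ≤ Cs ∧ ∀ f : Euc d → ℝ, ContDiff ℝ 1 f → HasCompactSupport f →
      ∀ P : Params d, P.Valid → P.v = ∇ f → (∃ z : ℤ, P.s = 2 ^ z) →
      ∃ sel : ℕ → Euc d → ℝ, (∀ J, Measurable (sel J)) ∧ (∀ J x, 0 ≤ sel J x) ∧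
        (∑ J ∈ Finset.Icc 1 P.N, (ENNReal.ofReal (P.rho J ^ d))⁻¹ *
            ∫⁻ x, ENNReal.ofReal (sel J x)) ≤ ENNReal.ofReal Cs * ∫⁻ y, ‖P.v y‖ₑ ∧
        ∀ J ∈ Finset.Icc 1 P.N, ∀ x, ∀ e ∈ P.grid J, ‖x - P.pt J e‖ ≤ Real.sqrt d * P.rho J →
          ∀ k, P.M * (J - 1) ≤ k → k < P.M * J →
          ∀ r ∈ Icc (stp P.s k) (2 * stp P.s k), ∀ u, ‖u‖ = 1 → ‖P.dir J e - u‖ ≤ εf →
            -∫ y in ball x r, ⟪P.v y, u⟫ ≤
              K * |∫ y in ball x r, ⟪P.v y, r⁻¹ • (y - x)⟫| +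
              K * cohMass P.v P.s x (stp P.s k) (nLev c k) (P.dir J e) + (K + 1) * sel J x := by
  classical
  have hnc0 : 0 ≤ Params.cnt d (Real.sqrt d) := Params.cnt_nonneg _
  obtain ⟨Cs, hCs, hselect⟩ := exists_selected hd hc
    (show 0 ≤ K + 2 * Params.cnt d (Real.sqrt d) * K by positivity)
  refine ⟨Cs, hCs, fun f hf hfc P hP hv ⟨z, hz⟩ => ?_⟩
  have hd0 : d ≠ 0 := hd.ne'
  have hpw := hptK f hf hfc P.s
  rw [← hv] at hpw
  have hselect' := hselect P.v hP.hv hP.hvc z (P.M * P.N) P.nearCubes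
    (fun p hp => Params.lt_of_mem_nearCubes hp) (fun p _ g x => P.cubeExcess K εf c p g x)
    (fun p q g x => P.cubeExcess_nonneg K εf c p g x)
    (fun p q g hg => hP.measurable_cubeExcess hd0 K εf c p hg)
  rw [← hz] at hselect'
  obtain ⟨ys, G, hG, -, hGi, hGs⟩ := id (hselect' fun p _ q g x _ hne hg =>
    cubeExcess_le_polMass hc hK hεf hP hpw hne hg)
  have hGH0 : ∀ p y, 0 ≤ G p y + P.cubeExcess K εf c p (G p) y := fun p y =>
    add_nonneg ((hG p).2 y) (P.cubeExcess_nonneg K εf c p (G p) y)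
  set W : ℕ × (Fin d → ℤ) → Euc d → ℝ := fun p =>
    (cubeSet P.s p).indicator fun y => G p y + P.cubeExcess K εf c p (G p) y with hW
  have hW0 : ∀ p x, 0 ≤ W p x := fun p x => indicator_nonneg (fun y _ => hGH0 p y) x
  have hWm : ∀ p, Measurable (W p) := fun p =>
    ((hG p).1.measurable.add (hP.measurable_cubeExcess hd0 K εf c p (hG p).1)).indicator
      (measurableSet_cube _ _)
  refine ⟨fun J x => ∑ p ∈ P.nearCubes.filter (fun p => p.1 / P.M + 1 = J), W p x,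
    fun J => Finset.measurable_sum _ fun p _ => hWm p,
    fun J x => Finset.sum_nonneg fun p _ => hW0 p x, ?_, ?_⟩
  · have hWi : ∀ p ∈ P.nearCubes, Integrable (W p) := fun p hp =>
      (integrable_indicator_iff (measurableSet_cube _ _)).2 (hGi p hp)
    have hWint : ∀ p, ∫ x, W p x = ∫ x in cubeSet P.s p,
        G p x + P.cubeExcess K εf c p (G p) x := fun p => integral_indicator (measurableSet_cube _ _)
    set blk : ℕ → Finset (ℕ × (Fin d → ℤ)) := fun J =>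
      P.nearCubes.filter fun p => p.1 / P.M + 1 = J with hblk
    have hI : ∀ J, Integrable fun x => ∑ p ∈ blk J, W p x := fun J =>
      integrable_finsetSum _ fun p hp => hWi p (Finset.mem_filter.1 hp).1
    have hρd : ∀ J, 0 < P.rho J ^ d := fun J => pow_pos (hP.rho_pos J) d
    have e : ∀ J, (ENNReal.ofReal (P.rho J ^ d))⁻¹ * ∫⁻ x, ENNReal.ofReal (∑ p ∈ blk J, W p x) =
        ENNReal.ofReal ((P.rho J ^ d)⁻¹ * ∑ p ∈ blk J, ∫ x, W p x) := fun J => by
      rw [← ofReal_integral_eq_lintegral_ofReal (hI J)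
        (ae_of_all _ fun x => Finset.sum_nonneg fun p _ => hW0 p x),
        integral_finsetSum _ fun p hp => hWi p (Finset.mem_filter.1 hp).1,
        ENNReal.ofReal_mul (inv_nonneg.2 (hρd J).le), ENNReal.ofReal_inv_of_pos (hρd J)]
    have hle : ∑ J ∈ Finset.Icc 1 P.N, (P.rho J ^ d)⁻¹ * ∑ p ∈ blk J, ∫ x, W p x ≤
        Cs * ∫ y, ‖P.v y‖ := by
      refine le_trans ?_ hGs
      rw [← Finset.sum_fiberwise_of_maps_to (g := fun p : ℕ × (Fin d → ℤ) => p.1 / P.M + 1)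
        (s := P.nearCubes) (t := Finset.Icc 1 P.N)]
      · refine Finset.sum_le_sum fun J _ => ?_
        rw [Finset.mul_sum]
        refine Finset.sum_le_sum fun p hp => ?_
        have hpJ := (Finset.mem_filter.1 hp).2
        have hM0 : 0 < P.M := lt_of_lt_of_le (lt_of_lt_of_le zero_lt_one hP.hm) hP.hmM
        rw [← hWint]
        refine mul_le_mul_of_nonneg_right (inv_anti₀ (pow_pos (stp_pos hP.hs _) d) ?_)
          (integral_nonneg (hW0 p))
        refine pow_le_pow_left₀ (stp_pos hP.hs _).le (mul_le_mul_of_nonneg_left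
          (pow_le_pow_right₀ one_le_two ?_) hP.hs.le) d
        rw [← hpJ]
        exact (Nat.lt_mul_div_succ p.1 hM0).le
      · intro p hp
        have h := Params.lt_of_mem_nearCubes hp
        exact Finset.mem_Icc.2 ⟨Nat.le_add_left _ _, Nat.div_lt_of_lt_mul h⟩
    simp only [hblk] at e hle
    simp only [e]
    rw [← ENNReal.ofReal_sum_of_nonneg fun J _ => mul_nonneg (inv_nonneg.2 (hρd J).le)
      (Finset.sum_nonneg fun p _ => integral_nonneg (hW0 p)),
      ← ofReal_integral_norm_eq_lintegral_enorm (hP.hv.integrable_of_hasCompactSupport hP.hvc),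
      ← ENNReal.ofReal_mul hCs]
    exact ENNReal.ofReal_le_ofReal hle
  · intro J hJ x e he hxe k hk1 hk2 r hr u hu hdu
    set p : ℕ × (Fin d → ℤ) := (k, cubeIdx (stp P.s k) x) with hp_def
    have hp : p ∈ P.nearCubes.filter (fun p => p.1 / P.M + 1 = J) :=
      hP.mem_nearCubes hJ he hxe hk1 hk2
    obtain ⟨-, hpJ⟩ := Finset.mem_filter.1 hp
    have hxc : x ∈ cubeSet P.s p := rfl
    have h1 := slack_le_excess (s := P.s) (K := K) (N := nLev c k) hd0 hP.hv (stp_pos hP.hs k)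
      (hG p).1 (x := x) (p := (r, u)) (n := P.dir J e) (ε := εf)
      ⟨hr, by simpa using hu, by rw [mem_closedBall_iff_norm, norm_sub_rev]; exact hdu⟩
    have h2 : excess P.v P.s K εf (stp P.s k) (nLev c k) (P.dir J e) (G p) x ≤
        P.cubeExcess K εf c p (G p) x := by
      rw [Params.cubeExcess, hpJ]
      refine le_trans (le_of_eq ?_) (Finset.single_le_sum
        (fun e _ => indicator_nonneg (fun y _ => excess_nonneg y) x) he)
      rw [indicator_of_mem (mem_closedBall_iff_norm.2 hxe)]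
    have h3 : G p x + P.cubeExcess K εf c p (G p) x ≤
        ∑ p ∈ P.nearCubes.filter (fun p => p.1 / P.M + 1 = J), W p x :=
      le_trans (le_of_eq (indicator_of_mem hxc fun y => G p y + P.cubeExcess K εf c p (G p) y).symm)
        (Finset.single_le_sum (fun p _ => hW0 p x) hp)
    simp only [slack, max_eq_right hr.1] at h1
    have h6 := (le_max_right _ _).trans (h1.trans h2)
    have h7 := mul_le_mul_of_nonneg_left h3 hK
    have h8 := mul_nonneg hK (P.cubeExcess_nonneg K εf c p (G p) x)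
    have h9 := (hG p).2 x
    linarith

/-- A bound for an integral gives a bound for an average. -/
lemma avg_le {i w ρi A K C P S Kb : ℝ} (hi : 0 ≤ i) (hiw : i ≤ w * ρi) (hKb : 0 ≤ Kb) (hS : 0 ≤ S)
    (hP : 0 ≤ P) (hKC : K ≤ C) (hA : A ≤ K * P + Kb * S) :
    i * A ≤ w * Kb * ρi * S + C * (i * P) := by
  have h1 := mul_le_mul_of_nonneg_left hA hi
  have h2 := mul_le_mul_of_nonneg_right hiw (mul_nonneg hKb hS)
  have h3 := mul_le_mul_of_nonneg_right hKC (mul_nonneg hi hP)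
  linarith

/-- Sums of scaled nonnegative functions, as lower integrals. -/
lemma sum_lintegral_le {N : ℕ} {a : ℕ → ℝ} {g h : ℕ → Euc d → ℝ} {C : ℝ} (hC : 0 ≤ C)
    (ha : ∀ J, 0 < a J) (hgh : ∀ J x, g J x ≤ h J x) {B : ℝ≥0∞}
    (hB : ∑ J ∈ Finset.Icc 1 N, (ENNReal.ofReal (a J))⁻¹ * ∫⁻ x, ENNReal.ofReal (h J x) ≤ B) :
    ∑ J ∈ Finset.Icc 1 N, ∫⁻ x, ENNReal.ofReal (C * (a J)⁻¹ * g J x) ≤ ENNReal.ofReal C * B := by
  refine le_trans ?_ (mul_le_mul' le_rfl hB)
  rw [Finset.mul_sum]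
  refine Finset.sum_le_sum fun J _ => ?_
  rw [← mul_assoc, ← ENNReal.ofReal_inv_of_pos (ha J), ← ENNReal.ofReal_mul hC]
  have h0 : 0 ≤ C * (a J)⁻¹ := mul_nonneg hC (inv_nonneg.2 (ha J).le)
  simp only [ENNReal.ofReal_mul h0]
  rw [lintegral_const_mul' _ _ ENNReal.ofReal_ne_top]
  exact mul_le_mul' le_rfl (lintegral_mono fun x => ENNReal.ofReal_le_ofReal (hgh J x))

/-- A budget exists for every dyadic family of blocks. -/
theorem exists_budget (d : ℕ) (hd : 0 < d) :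
    ∃ εf : ℝ, 0 < εf ∧ ∃ m₀ : ℕ, ∀ m M : ℕ, m₀ ≤ m → m ≤ M → ∃ C₀ : ℝ,
      ∀ f : Euc d → ℝ, ContDiff ℝ 1 f → HasCompactSupport f →
        ∀ P : Params d, P.Valid → P.v = ∇ f → P.m = m → P.M = M → (∃ z : ℤ, P.s = 2 ^ z) →
          ∃ (Bud : ℕ → Euc d → ℝ) (E : ℕ → Euc d → ℝ → ℝ), Budgeted P εf 16 C₀ Bud E := by
  classical
  obtain ⟨εf, hεf, c, hc, hpt⟩ := exists_pointwise d
  obtain ⟨K, hK, hptK⟩ := hpt (1 / 4) (by norm_num)
  obtain ⟨Kcr, hKcr, hcr⟩ := exists_crude d c hc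
  obtain ⟨m₁, hcoh⟩ := exists_cohMass_le d
  obtain ⟨Cs, hCs, hblock⟩ := exists_blockSel hd hc hK hεf.le
    fun f hf hfc s R r N x n u hS hu hn hnu => (hptK f hf hfc s R r N x n u hS hu hn hnu).1
  refine ⟨εf, hεf, max m₁ 1, fun m M hm hmM => ?_⟩
  have hm1 : 1 ≤ m := (le_max_right _ _).trans hm
  have hM : 1 ≤ M := hm1.trans hmM
  obtain ⟨Kc, hKc, hcohK⟩ := hcoh m M ((le_max_left _ _).trans hm) hmM (2 ^ c)
  obtain ⟨Ki, hKi, hint⟩ := exists_block_integrals d m M hm1 hmM ((2 : ℝ) * 2 ^ c) (by positivity)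
  have hω : 0 < ballVol d := ballVol_pos
  set w : ℝ := (2 ^ M) ^ d / ballVol d with hw_def
  have hw : 0 ≤ w := by positivity
  set Kb : ℝ := K * Kc + K + 1 with hKb_def
  have hKb : 0 ≤ Kb := by positivity
  set Ke : ℝ := Kcr * (Kc + 1) with hKe_def
  have hKe : 0 ≤ Ke := by positivity
  set C₀ : ℝ := K + w * (Kcr * Kc) + w * Kb * (Ki + Cs) + w * Ke * Ki with hC₀
  have q1 : 0 ≤ w * (Kcr * Kc) := by positivity
  have q2 : 0 ≤ w * Kb * (Ki + Cs) := by positivity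
  have q3 : 0 ≤ w * Ke * Ki := by positivity
  refine ⟨C₀, fun f hf hfc P hP hv hPm hPM hz => ?_⟩
  obtain ⟨sel, hselm, hsel0, hselint, hselle⟩ := hblock f hf hfc P hP hv hz
  obtain ⟨hint1, hint2⟩ := hint P hP hPm hPM
  have hd0 : d ≠ 0 := hd.ne'
  set Bud : ℕ → Euc d → ℝ := fun J x => w * Kb * (P.rho J ^ d)⁻¹ *
    (P.nearGap J x + P.blockGeo J x + P.endMass (2 * 2 ^ c) J x + sel J x) with hBud
  set E : ℕ → Euc d → ℝ → ℝ := fun J x r => w * Ke * (P.rho J ^ d)⁻¹ *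
    (shellMass P.v P.s (2 * 2 ^ c) x r (P.M * J) + P.blockGeo J x) with hE
  have hρd : ∀ J, 0 < P.rho J ^ d := fun J => pow_pos (hP.rho_pos J) d
  have hgeo := hP.blockGeo_nonneg
  have hnear := hP.nearGap_nonneg
  have hend := hP.endMass_nonneg (2 * 2 ^ c)
  have hsh : ∀ J x r, 0 ≤ shellMass P.v P.s (2 * 2 ^ c) x r (P.M * J) := fun J x r =>
    shellMass_nonneg hP.hv _
  have hsum0 : ∀ J x,
      0 ≤ P.nearGap J x + P.blockGeo J x + P.endMass (2 * 2 ^ c) J x + sel J x := fun J x => by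
    linarith [hnear J x, hgeo J x, hend J x, hsel0 J x]
  -- the coherent error near a cell
  have hcohB : ∀ J ∈ Finset.Icc 1 P.N, ∀ x, ∀ e ∈ P.grid J,
      ‖x - P.pt J e‖ ≤ Real.sqrt d * P.rho J → ∀ (R r : ℝ) (N : ℕ), Scaled P.s (2 ^ c) R r N →
      P.rho (J - 1) ≤ R → R ≤ P.rho J →
      cohMass P.v P.s x R N (P.dir J e) ≤ Kc * (P.nearGap J x + P.blockGeo J x) := by
    intro J hJ x e he hxe R r N hS h1 h2
    refine ((hcohK P hP hPm hPM J (Finset.mem_Icc.1 hJ).1 x R r N hS h1 h2).1 e he hxe).trans ?_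
    refine mul_le_mul_of_nonneg_left (add_le_add ?_ le_rfl) hKc
    refine le_trans (le_of_eq ?_) (Finset.single_le_sum
      (fun e _ => indicator_nonneg (fun _ _ => hP.cellGap_nonneg J e) x) he)
    rw [indicator_of_mem (mem_closedBall_iff_norm.2 hxe)]
  have hscale : ∀ J ∈ Finset.Icc 1 P.N, ∀ r ∈ Icc (P.rho (J - 1)) (P.rho J), ∃ k,
      P.M * (J - 1) ≤ k ∧ k < P.M * J ∧ r ∈ Icc (stp P.s k) (2 * stp P.s k) ∧
      P.rho (J - 1) ≤ stp P.s k ∧ stp P.s k ≤ P.rho J ∧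
      0 ≤ (r ^ d * ballVol d)⁻¹ ∧ (r ^ d * ballVol d)⁻¹ ≤ w * (P.rho J ^ d)⁻¹ := by
    intro J hJ r hr
    rw [hw_def, ← hPM]
    exact exists_scale_block hP rfl (hPM ▸ hM) (Finset.mem_Icc.1 hJ).1 hr
  refine ⟨Bud, E, fun J x => ?_, fun J => ?_, fun J x r => ?_, fun J => ?_, ?_, ?_, ?_, ?_, ?_, ?_⟩
  · exact mul_nonneg (mul_nonneg (mul_nonneg hw hKb) (inv_nonneg.2 (hρd J).le)) (hsum0 J x)
  · exact measurable_const.mul ((((measurable_nearGap P J).add
      (continuous_blockGeo hP J).measurable).add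
      (measurable_endMass hP (2 * 2 ^ c) J)).add (hselm J))
  · exact mul_nonneg (mul_nonneg (mul_nonneg hw hKe) (inv_nonneg.2 (hρd J).le))
      (add_nonneg (hsh J x r) (hgeo J x))
  · exact measurable_const.mul ((measurable_shellMass hP.hv _ _).add
      ((continuous_blockGeo hP J).measurable.comp measurable_fst))
  · intro J hJ x e he hxe u hu hdu r hr
    obtain ⟨k, hk1, hk2, hk3, hk4, hk5, hi, hiw⟩ := hscale J hJ r hr
    have h1 := hselle J hJ x e he hxe k hk1 hk2 r hk3 u hu hdu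
    have h2 := mul_le_mul_of_nonneg_left
      (hcohB J hJ x e he hxe _ r _ (scaled_nLev hc hP.hs hk3) hk4 hk5) hK
    have e1 : |rAvg P.v x r| =
        (r ^ d * ballVol d)⁻¹ * |∫ y in ball x r, ⟪P.v y, r⁻¹ • (y - x)⟫| := by
      rw [rAvg, ballAvg, abs_mul, abs_of_nonneg hi]
    have e2 : -dAvg P.v x r u = (r ^ d * ballVol d)⁻¹ * -∫ y in ball x r, ⟪P.v y, u⟫ := by
      rw [dAvg, ballAvg, mul_neg]
    rw [e1, e2]
    refine avg_le hi hiw hKb (hsum0 J x) (abs_nonneg _) (K := K) ?_ ?_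
    · rw [hC₀]; linarith
    · rw [hKb_def]
      linarith [mul_nonneg hK (hnear J x), mul_nonneg hK (hgeo J x), mul_nonneg hK (hend J x),
        mul_nonneg (mul_nonneg hK hKc) (hend J x), mul_nonneg (mul_nonneg hK hKc) (hsel0 J x),
        hnear J x, hgeo J x, hend J x]
  · intro J hJ x e he hxe u hu hdu r hr
    have hrI : r ∈ Icc (P.rho (J - 1)) (P.rho J) := by
      have := hP.rho_mono (Nat.sub_le J 1)
      rcases hr with rfl | rfl
      exacts [⟨le_rfl, this⟩, ⟨this, le_rfl⟩]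
    obtain ⟨k, hk1, hk2, hk3, hk4, hk5, hi, hiw⟩ := hscale J hJ r hrI
    have hS := scaled_nLev hc hP.hs hk3
    have h1 := (hptK f hf hfc P.s _ r _ x (P.dir J e) u hS hu (hP.norm_dir J e) hdu).2
    rw [← hv] at h1
    have h2 := mul_le_mul_of_nonneg_left (hcohB J hJ x e he hxe _ r _ hS hk4 hk5) hK
    have hN : nLev c k ≤ P.M * J := (Nat.sub_le _ _).trans hk2.le
    have h3 : shellMass P.v P.s (2 * 2 ^ c) x r (nLev c k) ≤ P.endMass (2 * 2 ^ c) J x := by
      refine (shellMass_mono hP.hv hN _ x r).trans ?_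
      rw [Params.endMass]
      rcases hr with rfl | rfl <;> linarith [hsh J x (P.rho (J - 1)), hsh J x (P.rho J)]
    have h4 := mul_le_mul_of_nonneg_left h3 hK
    have e2 : -dAvg P.v x r u = (r ^ d * ballVol d)⁻¹ * -∫ y in ball x r, ⟪P.v y, u⟫ := by
      rw [dAvg, ballAvg, mul_neg]
    rw [e2]
    refine (avg_le (K := 0) (P := 0) (C := 0) hi hiw hKb (hsum0 J x) le_rfl le_rfl ?_).trans
      (le_of_eq ?_)
    · rw [hKb_def]
      linarith [mul_nonneg hK (hnear J x), mul_nonneg hK (hgeo J x), mul_nonneg hK (hsel0 J x),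
        mul_nonneg (mul_nonneg hK hKc) (hend J x), mul_nonneg (mul_nonneg hK hKc) (hsel0 J x),
        hnear J x, hgeo J x, hend J x, hsel0 J x]
    · simp [hBud]
  · intro J hJ x r hr u hu
    obtain ⟨k, hk1, hk2, hk3, hk4, hk5, hi, hiw⟩ := hscale J hJ r hr
    have hS := scaled_nLev hc hP.hs hk3
    have h1 := hcr P.v hP.hv hP.hvc P.s _ r _ x hS u hu
    have h2 := mul_le_mul_of_nonneg_left
      (hcohK P hP hPm hPM J (Finset.mem_Icc.1 hJ).1 x _ r _ hS hk4 hk5).2 hKcr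
    have h3 := mul_le_mul_of_nonneg_left (shellMass_mono (s := P.s) hP.hv
      (show nLev c k ≤ P.M * J from (Nat.sub_le _ _).trans hk2.le) (2 * 2 ^ c) x r) hKcr
    set I := ∫ y in closedBall x (16 * P.rho J), ‖P.F J y‖
    have hI : 0 ≤ I := integral_nonneg fun y => norm_nonneg _
    have e1 : |dAvg P.v x r u| + |rAvg P.v x r| = (r ^ d * ballVol d)⁻¹ *
        (|∫ y in ball x r, ⟪P.v y, u⟫| + |∫ y in ball x r, ⟪P.v y, r⁻¹ • (y - x)⟫|) := by
      rw [dAvg, rAvg, ballAvg, ballAvg, abs_mul, abs_mul, abs_of_nonneg hi, mul_add]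
    rw [e1]
    refine (avg_le (K := 0) (P := 0) (C := 0) (S := Kcr * Kc * I +
      Ke * (shellMass P.v P.s (2 * 2 ^ c) x r (P.M * J) + P.blockGeo J x)) (Kb := 1) hi hiw
      zero_le_one (by have := hsh J x r; have := hgeo J x; positivity) le_rfl le_rfl ?_).trans ?_
    · rw [hKe_def]
      linarith [mul_nonneg (mul_nonneg hKcr hKc) (hsh J x r), mul_nonneg hKcr (hgeo J x)]
    · have h10 : w * (Kcr * Kc) * ((P.rho J ^ d)⁻¹ * I) ≤ C₀ * ((P.rho J ^ d)⁻¹ * I) :=
        mul_le_mul_of_nonneg_right (by rw [hC₀]; linarith)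
          (mul_nonneg (inv_nonneg.2 (hρd J).le) hI)
      simp only [hE]
      linarith
  · have h : ∑ J ∈ Finset.Icc 1 P.N, (ENNReal.ofReal (P.rho J ^ d))⁻¹ * ∫⁻ x, ENNReal.ofReal
        (P.nearGap J x + P.blockGeo J x + P.endMass (2 * 2 ^ c) J x + sel J x) ≤
        ENNReal.ofReal (Ki + Cs) * ∫⁻ y, ‖P.v y‖ₑ := by
      rw [ENNReal.ofReal_add hKi hCs, add_mul]
      refine le_trans (le_of_eq ?_) (add_le_add hint1 hselint)
      rw [← Finset.sum_add_distrib]
      refine Finset.sum_congr rfl fun J _ => ?_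
      rw [← mul_add, ← lintegral_add_right _ (hselm J).ennreal_ofReal]
      congr 1
      exact lintegral_congr fun x => ENNReal.ofReal_add
        (by linarith [hnear J x, hgeo J x, hend J x]) (hsel0 J x)
    refine (sum_lintegral_le (mul_nonneg hw hKb) hρd (fun J x => le_rfl) h).trans ?_
    rw [← mul_assoc, ← ENNReal.ofReal_mul (mul_nonneg hw hKb)]
    exact mul_le_mul' (ENNReal.ofReal_le_ofReal (by rw [hC₀]; linarith)) le_rfl
  · refine (sum_lintegral_le (mul_nonneg hw hKe) hρd (h := fun J x =>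
      P.nearGap J x + P.blockGeo J x + P.endMass (2 * 2 ^ c) J x) (fun J x => ?_) hint1).trans ?_
    · rw [Params.endMass]
      linarith [hnear J x, hsh J x (P.rho (J - 1))]
    rw [← mul_assoc, ← ENNReal.ofReal_mul (mul_nonneg hw hKe)]
    exact mul_le_mul' (ENNReal.ofReal_le_ofReal (by rw [hC₀]; linarith)) le_rfl
  · refine le_trans (le_of_eq ?_) ((mul_le_mul' (le_refl (ENNReal.ofReal (w * Ke))) hint2).trans ?_)
    · rw [Finset.mul_sum]
      refine Finset.sum_congr rfl fun J _ => ?_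
      have hc0 : 0 ≤ w * Ke * (P.rho J ^ d)⁻¹ :=
        mul_nonneg (mul_nonneg hw hKe) (inv_nonneg.2 (hρd J).le)
      simp only [hE, ENNReal.ofReal_mul hc0, lintegral_const_mul' _ _ ENNReal.ofReal_ne_top]
      rw [← ENNReal.ofReal_inv_of_pos (hP.rho_pos J),
        ← ENNReal.ofReal_inv_of_pos (mul_pos (hρd J) (hP.rho_pos J))]
      simp only [← mul_assoc]
      congr 1
      rw [← ENNReal.ofReal_mul (inv_nonneg.2 (hP.rho_pos J).le),
        ← ENNReal.ofReal_mul (mul_nonneg hw hKe), mul_inv]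
      congr 1
      ring
    rw [← mul_assoc, ← ENNReal.ofReal_mul (mul_nonneg hw hKe)]
    exact mul_le_mul' (ENNReal.ofReal_le_ofReal (by rw [hC₀]; linarith)) le_rfl

end Vale.Agent.P137.Centred
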