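import Vale.Agent.P137.Centred.Assembly

/-!
# P137, centred operator: the budget bounds the variation of the band maximum
-/

open MeasureTheory Filter Set Metric
open scoped ENNReal NNReal Topology RealInnerProductSpace Gradient

noncomputable section

namespace Vale.Agent.P137.Centred

variable {d : ℕ}

open Params

/-- The mass born in a block. -/
def born (P : Params d) (B : ℕ) (x : Euc d) : ℝ := ∑ c ∈ P.grid B, P.q B ⟨B, c⟩ x

/-- The weight paired with the mass of a block. -/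
def pairW (P : Params d) (B : ℕ) (x : Euc d) : ℝ := d * P.varW (lam0 d) B x + born P B x

lemma born_nonneg (P : Params d) (B : ℕ) (x : Euc d) : 0 ≤ born P B x :=
  Finset.sum_nonneg fun _ _ => q_nonneg _ _ _

lemma measurable_pairW (P : Params d) (B : ℕ) : Measurable (pairW P B) :=
  (measurable_const.mul (measurable_varW _ _)).add
    (continuous_finsetSum _ fun c _ => continuous_q _ _).measurable

lemma one_le_cnt (d : ℕ) (lam : ℝ) : 1 ≤ cnt d lam := by
  refine one_le_pow₀ ?_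
  have : (0 : ℝ) ≤ (⌈lam⌉₊ : ℝ) := Nat.cast_nonneg _
  linarith

section

variable {P : Params d} {f : Euc d → ℝ} {R εf Lam C₀ : ℝ} {Bud : ℕ → Euc d → ℝ}
  {E : ℕ → Euc d → ℝ → ℝ}

/-- The weights at a nearby point. -/
lemma pairW_le (hP : P.Valid) (hd : 0 < d) {B : ℕ} (hB : B ≤ P.N) {Λ : ℝ} (hΛ : 0 ≤ Λ)
    (hΛM : Λ ≤ (2 : ℝ) ^ P.M) {x y : Euc d} (hx : ∀ i, |x i| ≤ P.Ω) (hy : ∀ i, |y i| ≤ P.Ω)
    (hxy : ‖x - y‖ ≤ Λ * P.rho B) :
    pairW P B x ≤ (d * (1 + 4 * d * cnt d (lam0 d) * Λ) + (1 + cnt d (lam0 d) * Λ)) *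
      P.varW (lam0 d + Λ) B y := by
  have hd1 : (1 : ℝ) ≤ d := by exact_mod_cast hd
  have hc1 := one_le_cnt d (lam0 d)
  have hW := varW_nonneg (P := P) (lam0 d + Λ) B y
  have hmono : P.varW (lam0 d) B y ≤ P.varW (lam0 d + Λ) B y :=
    add_le_add le_rfl (mul_le_mul_of_nonneg_left (Finset.sum_le_sum fun l _ =>
      mul_le_mul_of_nonneg_left (hP.S_mono (by linarith) l y) (decay_nonneg _)) (by positivity))
  rw [pairW, add_mul, mul_assoc]
  refine add_le_add (mul_le_mul_of_nonneg_left (hP.varW_transfer hΛ hΛM hx hy hxy)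
    (Nat.cast_nonneg d)) ?_
  rcases hB.lt_or_eq with h | h
  · refine ((hP.sum_born_le h hx).trans (hP.S_le_varW le_rfl h hΛ hΛM hx hy hxy)).trans ?_
    rw [add_mul (1 : ℝ), one_mul, mul_assoc]
    refine add_le_add ?_ (mul_le_mul_of_nonneg_left (mul_le_mul_of_nonneg_left hmono hΛ)
      (cnt_nonneg _))
    have h1 : P.decay (B - B) * P.S (lam0 d + Λ) B y ≤
        ∑ l ∈ Finset.Ico B P.N, P.decay (l - B) * P.S (lam0 d + Λ) l y :=
      Finset.single_le_sum (f := fun l => P.decay (l - B) * P.S (lam0 d + Λ) l y)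
        (fun l _ => mul_nonneg (decay_nonneg _) (S_nonneg _ _ _))
        (Finset.mem_Ico.2 ⟨le_rfl, h⟩)
    rw [Nat.sub_self, show P.decay 0 = 1 from pow_zero _, one_mul] at h1
    have h2 := S_nonneg (P := P) (lam0 d + Λ) B y
    have h3 : 0 ≤ d * cnt d (lam0 d) * P.decay (P.N - B) :=
      mul_nonneg (by positivity) (decay_nonneg _)
    have h4 := mul_le_mul_of_nonneg_left h1 (by linarith : (0 : ℝ) ≤ 2 * d)
    rw [Params.varW]
    nlinarith
  · refine (sum_born_le_one hB x).trans ?_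
    subst h
    refine one_le_mul_of_one_le_of_one_le (by nlinarith) ?_
    rw [Params.varW, Nat.sub_self, show P.decay 0 = 1 from pow_zero _, Finset.Ico_self,
      Finset.sum_empty]
    nlinarith

/-- The pointwise error in terms of the budget. -/
lemma errFun_le (hP : P.Valid) (hf : ContDiff ℝ 1 f) (hfc : HasCompactSupport f)
    (hv : P.v = ∇ f) (hB : Budgeted P εf Lam C₀ Bud E) (x : Euc d) :
    ENNReal.ofReal (errFun P (∇ f) Bud x) ≤
      ENNReal.ofReal 3 * (∑ J ∈ Finset.Icc 1 P.N, ENNReal.ofReal (Bud J x)) +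
      (∑ j ∈ Finset.Icc 1 P.N, ENNReal.ofReal (pairW P j x) *
        (ENNReal.ofReal (C₀ * (P.rho j ^ d)⁻¹) *
          ∫⁻ y in closedBall x (Lam * P.rho j), ENNReal.ofReal ‖P.F j y‖)) +
      ENNReal.ofReal (d * (d * cnt d (lam0 d) + 4 * d * cnt d (lam0 d))) *
        (∑ j ∈ Finset.Icc 1 P.N, (ENNReal.ofReal (P.rho j))⁻¹ *
          ∫⁻ r in Icc (P.rho (j - 1)) (P.rho j), ENNReal.ofReal (E j x r)) +
      ∑ j ∈ Finset.Icc 1 P.N, ENNReal.ofReal (E j x (P.rho j)) := by
  classical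
  set c5 := d * cnt d (lam0 d) + 4 * d * cnt d (lam0 d)
  have hc5 : 0 ≤ c5 := by have := cnt_nonneg (d := d) (lam0 d); positivity
  set K := fun j => C₀ * (P.rho j ^ d)⁻¹ * ∫ y in closedBall x (Lam * P.rho j), ‖P.F j y‖
  have hK : ∀ j, ENNReal.ofReal (K j) = ENNReal.ofReal (C₀ * (P.rho j ^ d)⁻¹) *
      ∫⁻ y in closedBall x (Lam * P.rho j), ENNReal.ofReal ‖P.F j y‖ := fun j => by
    rw [← ofReal_integral_eq_lintegral_ofReal
      (f := fun y => ‖P.F j y‖) ((hP.continuous_F j).norm.integrable_of_hasCompactSupport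
        (hP.compact_F j).norm).integrableOn (ae_of_all _ fun y => norm_nonneg _),
      ← ENNReal.ofReal_mul' (setIntegral_nonneg measurableSet_closedBall fun y _ => norm_nonneg _)]
  simp only [← hK]
  have hvar : ∀ j ∈ Finset.Icc 1 P.N,
      ENNReal.ofReal (d * (P.varW (lam0 d) j x / P.rho j) *
          ∫ r in Icc (P.rho (j - 1)) (P.rho j), |rAvg (∇ f) x r|) ≤
        ENNReal.ofReal (d * P.varW (lam0 d) j x) * ENNReal.ofReal (K j) +
          ENNReal.ofReal (d * c5) * ((ENNReal.ofReal (P.rho j))⁻¹ *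
            ∫⁻ r in Icc (P.rho (j - 1)) (P.rho j), ENNReal.ofReal (E j x r)) := by
    intro j hj
    have hr := hP.rho_pos j
    have hW := varW_nonneg (P := P) (lam0 d) j x
    have hI : IntegrableOn (fun r => |rAvg (∇ f) x r|) (Icc (P.rho (j - 1)) (P.rho j)) :=
      (((continuousOn_rAvg (continuous_gradient hf) (hasCompactSupport_gradient hfc) x).mono
        fun t ht => mem_Ioi.2 ((hP.rho_pos (j - 1)).trans_le ht.1)).abs).integrableOn_compact
          isCompact_Icc
    have hint : ENNReal.ofReal (∫ r in Icc (P.rho (j - 1)) (P.rho j), |rAvg (∇ f) x r|) ≤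
        ENNReal.ofReal (P.rho j) * ENNReal.ofReal (K j) +
          ∫⁻ r in Icc (P.rho (j - 1)) (P.rho j), ENNReal.ofReal (E j x r) := by
      rw [ofReal_integral_eq_lintegral_ofReal hI (ae_of_all _ fun r => abs_nonneg _)]
      refine (setLIntegral_mono' measurableSet_Icc (g := fun r =>
        ENNReal.ofReal (K j) + ENNReal.ofReal (E j x r)) fun r hr' => ?_).trans ?_
      · refine (ENNReal.ofReal_le_ofReal ?_).trans ENNReal.ofReal_add_le
        have h := hB.crude j hj x r hr' 0 (by simp)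
        rw [hv] at h
        linarith [abs_nonneg (dAvg (∇ f) x r 0)]
      · rw [lintegral_add_left measurable_const, setLIntegral_const, Real.volume_Icc, mul_comm]
        gcongr
        exact sub_le_self _ (hP.rho_pos _).le
    rw [ENNReal.ofReal_mul (mul_nonneg (Nat.cast_nonneg d) (div_nonneg hW hr.le)),
      show (d : ℝ) * (P.varW (lam0 d) j x / P.rho j) = d * P.varW (lam0 d) j x / P.rho j by ring]
    refine (mul_le_mul_right hint _).trans ?_
    rw [mul_add, ← mul_assoc, ← ENNReal.ofReal_mul (div_nonneg (by positivity) hr.le),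
      div_mul_cancel₀ _ hr.ne', ← ENNReal.ofReal_inv_of_pos hr, ← mul_assoc (ENNReal.ofReal (d * c5)),
      ← ENNReal.ofReal_mul (by positivity : (0:ℝ) ≤ d * c5)]
    gcongr
    rw [← div_eq_mul_inv]
    exact div_le_div_of_nonneg_right
      (mul_le_mul_of_nonneg_left (hP.varW_le j x) (Nat.cast_nonneg d)) hr.le
  have hborn : ∀ j ∈ Finset.Icc 1 P.N,
      ENNReal.ofReal (∑ c ∈ P.grid j, P.q j ⟨j, c⟩ x * |dAvg (∇ f) x (P.rho j) (P.dir j c)|) ≤
        ENNReal.ofReal (born P j x) * ENNReal.ofReal (K j) + ENNReal.ofReal (E j x (P.rho j)) := by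
    intro j hj
    have hbn := born_nonneg P j x
    have h1 : ∀ c ∈ P.grid j, |dAvg (∇ f) x (P.rho j) (P.dir j c)| ≤ K j + E j x (P.rho j) := by
      intro c _
      have h := hB.crude j hj x (P.rho j) ⟨hP.rho_mono (Nat.sub_le j 1), le_rfl⟩ (P.dir j c)
        (hP.norm_dir j c).le
      rw [hv] at h
      linarith [abs_nonneg (rAvg (∇ f) x (P.rho j))]
    refine (ENNReal.ofReal_le_ofReal (Finset.sum_le_sum fun c hc =>
      mul_le_mul_of_nonneg_left (h1 c hc) (q_nonneg _ _ _))).trans ?_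
    rw [← Finset.sum_mul, mul_add]
    refine ENNReal.ofReal_add_le.trans (add_le_add (le_of_eq (ENNReal.ofReal_mul hbn))
      (ENNReal.ofReal_le_ofReal (mul_le_of_le_one_left (hB.E_nonneg _ _ _)
        (sum_born_le_one (Finset.mem_Icc.1 hj).2 x))))
  have h3 : ENNReal.ofReal (3 * ∑ J ∈ Finset.Icc 1 P.N, Bud J x) ≤
      ENNReal.ofReal 3 * ∑ J ∈ Finset.Icc 1 P.N, ENNReal.ofReal (Bud J x) := by
    rw [ENNReal.ofReal_mul (by norm_num : (0 : ℝ) ≤ 3)]
    exact mul_le_mul_right (ofReal_sum_le _ _) _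
  rw [errFun]
  refine ENNReal.ofReal_add_le.trans ((add_le_add (ENNReal.ofReal_add_le.trans (add_le_add h3
    ((ofReal_sum_le _ _).trans (Finset.sum_le_sum hvar))))
    ((ofReal_sum_le _ _).trans (Finset.sum_le_sum hborn))).trans (le_of_eq ?_))
  simp only [Finset.sum_add_distrib, pairW, ← Finset.mul_sum,
      ENNReal.ofReal_add (mul_nonneg (Nat.cast_nonneg d) (varW_nonneg (P := P) (lam0 d) _ x))
        (born_nonneg P _ x), add_mul]
  ring

end

/-- A budget bounds the variation of the band maximum. -/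
theorem exists_lintegral_gradient_bandMax_le (hd : 0 < d) {εf : ℝ} (hεf : 0 < εf) {Lam : ℝ}
    (hLam : 1 ≤ Lam) (m₀ : ℕ) : ∃ εP : ℝ, 0 < εP ∧ ∃ m M : ℕ, m₀ ≤ m ∧ m ≤ M ∧
      ∀ C₀ : ℝ, ∃ C : ℝ≥0, ∀ f : Euc d → ℝ, ContDiff ℝ 1 f → HasCompactSupport f →
        ∀ P : Params d, P.Valid → P.v = ∇ f → P.ε = εP → P.m = m → P.M = M → 1 ≤ P.N →
          ∀ R : ℝ, P.Big R → (∀ y, f y ≠ 0 → ‖y‖ ≤ R) →
            ∀ (Bud : ℕ → Euc d → ℝ) (E : ℕ → Euc d → ℝ → ℝ), Budgeted P εf Lam C₀ Bud E →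
              ∫⁻ x, ‖∇ (bandMax f (P.rho 0) (P.rho P.N)) x‖ₑ ≤ C * ∫⁻ x, ‖∇ f x‖ₑ := by
  have hd1 : (1 : ℝ) ≤ d := by exact_mod_cast hd
  set lam1 := lam0 d + Lam + 1 with hlam1
  obtain ⟨m₁, hm₁⟩ := pow_unbounded_of_one_lt (4 * (lam1 + 3) + Lam) (one_lt_two (α := ℝ))
  set m := max m₀ m₁ with hm_def
  have hsd : 0 ≤ Real.sqrt d := Real.sqrt_nonneg _
  have hm : 4 * (lam1 + 3) + Lam ≤ 2 ^ m :=
    hm₁.le.trans (pow_le_pow_right₀ one_le_two (le_max_right _ _))
  have hlam : Real.sqrt d ≤ lam1 := by rw [hlam1, lam0]; linarith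
  have hl0 : 0 ≤ lam0 d := by rw [lam0]; linarith
  have hεP : 0 < εf / 4 := by linarith
  obtain ⟨M₀, Ccal, hCcal, hcal⟩ := calibrator_bound d m hεP hlam (by linarith) (by linarith)
  refine ⟨εf / 4, hεP, m, max m M₀, le_max_left _ _, le_max_left _ _, fun C₀ => ?_⟩
  set δ := min (εf / 4) (1 / 2) with hδ_def
  have hδ0 : 0 < δ := lt_min hεP (by norm_num)
  set c0 := cnt d (lam0 d)
  set cl := cnt d (lam0 d + Lam)
  set kH := d * (1 + 4 * d * c0 * Lam) + (1 + c0 * Lam)
  set Cv := 3 * d * c0 + 2 * d * (Ccal + 6 * (3 * 2 ^ d * (Ccal +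
    cl * (2 * d * (2 * Ccal)) + d * cl * c0 * 3) +
    3 * 2 ^ d * (cnt d (lam0 d + Lam + 1) + 5 * d * cl * c0)))
  set a1 := C₀ * (Lam ^ d * ballVol d) * kH
  set C' := ENNReal.ofReal 3 * ENNReal.ofReal C₀ +
    ENNReal.ofReal a1 * ENNReal.ofReal Cv +
    ENNReal.ofReal (d * (d * c0 + 4 * d * c0)) * ENNReal.ofReal C₀ + ENNReal.ofReal C₀
    with hC'
  have hC'top : (ENNReal.ofReal δ)⁻¹ * C' ≠ ∞ := by
    refine ENNReal.mul_ne_top (ENNReal.inv_ne_top.2 (by simp [hδ0])) ?_
    simp only [hC', ne_eq, ENNReal.add_eq_top, ENNReal.mul_eq_top, ENNReal.ofReal_ne_top,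
      false_and, and_false, or_false, not_false_eq_true]
  refine ⟨((ENNReal.ofReal δ)⁻¹ * C').toNNReal, ?_⟩
  intro f hf hfc P hP hv hPε hPm hPM hN R hBig hR Bud E hB
  rw [ENNReal.coe_toNNReal hC'top, mul_assoc,
    ← ENNReal.mul_le_iff_le_inv (by simp [hδ0]) ENNReal.ofReal_ne_top]
  refine (lintegral_gradient_le hP hf hfc hv hN hBig hR hB hPε hδ0 (min_le_left _ _)
    (min_le_right _ _)).trans ?_
  refine (lintegral_mono fun x => errFun_le hP hf hfc hv hB x).trans ?_
  set U := closedBall (0 : Euc d) (R + P.rho P.N)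
  set T := ∫⁻ x, ‖∇ f x‖ₑ with hT
  have hTv : T = ∫⁻ y, ‖P.v y‖ₑ := by rw [hT, hv]
  have hball : ∀ j, Measurable fun x => ∫⁻ y in closedBall x (Lam * P.rho j),
      ENNReal.ofReal ‖P.F j y‖ := fun j => by
    simp only [← lintegral_indicator measurableSet_closedBall]
    refine Measurable.lintegral_prod_right' (f := fun p : Euc d × Euc d =>
      (closedBall p.1 (Lam * P.rho j)).indicator (fun y => ENNReal.ofReal ‖P.F j y‖) p.2) ?_
    classical
    simp only [indicator_apply, mem_closedBall]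
    exact Measurable.ite (measurableSet_le (f := fun p : Euc d × Euc d => dist p.2 p.1)
      (by fun_prop) measurable_const)
      ((hP.continuous_F j).norm.measurable.ennreal_ofReal.comp measurable_snd) measurable_const
  have hpm : ∀ j, Measurable fun x => ENNReal.ofReal (pairW P j x) *
      (ENNReal.ofReal (C₀ * (P.rho j ^ d)⁻¹) *
        ∫⁻ y in closedBall x (Lam * P.rho j), ENNReal.ofReal ‖P.F j y‖) := fun j =>
    (measurable_pairW P j).ennreal_ofReal.mul (measurable_const.mul (hball j))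
  have hEm : ∀ j, Measurable fun x => ∫⁻ r in Icc (P.rho (j - 1)) (P.rho j),
      ENNReal.ofReal (E j x r) := fun j =>
    Measurable.lintegral_prod_right' (f := fun p : Euc d × ℝ => ENNReal.ofReal (E j p.1 p.2))
      (hB.E_meas j).ennreal_ofReal
  have hEm' : ∀ j, Measurable fun x => (ENNReal.ofReal (P.rho j))⁻¹ *
      ∫⁻ r in Icc (P.rho (j - 1)) (P.rho j), ENNReal.ofReal (E j x r) := fun j =>
    measurable_const.mul (hEm j)
  have hBm : ∀ J, Measurable fun x => ENNReal.ofReal (Bud J x) := fun J =>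
    (hB.bud_meas J).ennreal_ofReal
  have hEr : ∀ j, Measurable fun x => ENNReal.ofReal (E j x (P.rho j)) := fun j =>
    ((hB.E_meas j).comp (measurable_id.prodMk measurable_const)).ennreal_ofReal
  have m1 : Measurable fun x => ENNReal.ofReal 3 *
      ∑ J ∈ Finset.Icc 1 P.N, ENNReal.ofReal (Bud J x) :=
    measurable_const.mul (Finset.measurable_sum _ fun J _ => hBm J)
  have m2 : Measurable fun x => ∑ j ∈ Finset.Icc 1 P.N, ENNReal.ofReal (pairW P j x) *
      (ENNReal.ofReal (C₀ * (P.rho j ^ d)⁻¹) *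
        ∫⁻ y in closedBall x (Lam * P.rho j), ENNReal.ofReal ‖P.F j y‖) :=
    Finset.measurable_sum _ fun j _ => hpm j
  have m3 : Measurable fun x => ENNReal.ofReal (d * (d * c0 + 4 * d * c0)) *
      ∑ j ∈ Finset.Icc 1 P.N, (ENNReal.ofReal (P.rho j))⁻¹ *
        ∫⁻ r in Icc (P.rho (j - 1)) (P.rho j), ENNReal.ofReal (E j x r) :=
    measurable_const.mul (Finset.measurable_sum _ fun j _ => measurable_const.mul (hEm j))
  have m12 : Measurable fun x => ENNReal.ofReal 3 *
      (∑ J ∈ Finset.Icc 1 P.N, ENNReal.ofReal (Bud J x)) +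
      ∑ j ∈ Finset.Icc 1 P.N, ENNReal.ofReal (pairW P j x) *
        (ENNReal.ofReal (C₀ * (P.rho j ^ d)⁻¹) *
          ∫⁻ y in closedBall x (Lam * P.rho j), ENNReal.ofReal ‖P.F j y‖) := m1.add m2
  have m123 : Measurable fun x => ENNReal.ofReal 3 *
      (∑ J ∈ Finset.Icc 1 P.N, ENNReal.ofReal (Bud J x)) +
      (∑ j ∈ Finset.Icc 1 P.N, ENNReal.ofReal (pairW P j x) *
        (ENNReal.ofReal (C₀ * (P.rho j ^ d)⁻¹) *
          ∫⁻ y in closedBall x (Lam * P.rho j), ENNReal.ofReal ‖P.F j y‖)) +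
      ENNReal.ofReal (d * (d * c0 + 4 * d * c0)) *
        ∑ j ∈ Finset.Icc 1 P.N, (ENNReal.ofReal (P.rho j))⁻¹ *
          ∫⁻ r in Icc (P.rho (j - 1)) (P.rho j), ENNReal.ofReal (E j x r) := m12.add m3
  rw [lintegral_add_left m123, lintegral_add_left m12,
    lintegral_add_left m1, lintegral_const_mul _ (Finset.measurable_sum _ fun J _ => hBm J),
    lintegral_finsetSum _ fun J _ => hBm J, lintegral_finsetSum _ fun j _ => hpm j,
    lintegral_const_mul _ (Finset.measurable_sum _ fun j _ => hEm' j),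
    lintegral_finsetSum _ fun j _ => hEm' j,
    lintegral_finsetSum _ fun j _ => hEr j, hC', add_mul, add_mul, add_mul]
  refine add_le_add (add_le_add (add_le_add ?_ ?_) ?_) ?_
  · rw [mul_assoc, hTv]
    refine mul_le_mul_right (le_trans (Finset.sum_le_sum fun J _ => setLIntegral_le_lintegral _ _)
      hB.bud_int) _
  · -- the pairing
    obtain ⟨hK, hA, hE⟩ := hcal P hP hPm hPε (hPM ▸ le_max_right _ _) R hBig
    have hLM : Lam ≤ (2 : ℝ) ^ P.M := by
      rw [hPM]
      exact le_trans (by linarith) (hm.trans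
        (pow_le_pow_right₀ one_le_two (le_max_left _ _)))
    have hsum := hP.sum_mul_varW_le hBig (lam := lam0 d + Lam) hK
      (hA.trans le_rfl) (hE.trans le_rfl)
    have hT0 : 0 ≤ ∫ y, ‖P.v y‖ := integral_nonneg fun _ => norm_nonneg _
    have hTr : ENNReal.ofReal (∫ y, ‖P.v y‖) = T := by
      rw [hTv]
      exact ofReal_integral_norm_eq_lintegral_enorm (hP.hv.integrable_of_hasCompactSupport hP.hvc)
    have hkH : 0 ≤ kH := by have := cnt_nonneg (d := d) (lam0 d); positivity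
    have hball0 : 0 ≤ Lam ^ d * ballVol d := by have := ballVol_pos (d := d); positivity
    have hterm : ∀ j ∈ Finset.Icc 1 P.N,
        ∫⁻ x in U, ENNReal.ofReal (pairW P j x) * (ENNReal.ofReal (C₀ * (P.rho j ^ d)⁻¹) *
          ∫⁻ y in closedBall x (Lam * P.rho j), ENNReal.ofReal ‖P.F j y‖) ≤
        ENNReal.ofReal a1 *
          ENNReal.ofReal (∫ y, ‖P.F j y‖ * P.varW (lam0 d + Lam) j y) := by
      intro j hj
      have hj' := (Finset.mem_Icc.1 hj).2
      have hr := hP.rho_pos j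
      simp only [mul_left_comm (ENNReal.ofReal (pairW P j _))]
      rw [lintegral_const_mul' _ _ ENNReal.ofReal_ne_top]
      have hp := lintegral_pairing_le (U := U) measurableSet_closedBall (Lam * P.rho j)
        (φ := fun y => ‖P.F j y‖) (h := pairW P j) (H := fun y => kH * P.varW (lam0 d + Lam) j y)
        (hP.continuous_F j).norm.measurable (measurable_pairW P j) (fun y => norm_nonneg _)
        fun x y hx hy hxy => by
          refine pairW_le hP hd hj' (by linarith) hLM (fun i => ?_)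
            (hP.abs_coord_le hBig hj' (by simpa using hy) (x := y)
              (by simp [(hP.rho_pos P.N).le])) hxy
          have := mem_closedBall_zero_iff.1 hx
          refine (PiLp.norm_apply_le x i).trans ?_
          linarith [hBig.2, hP.rho_pos P.N]
      refine (mul_le_mul_right hp _).trans ?_
      have hvol : volume (closedBall (0 : Euc d) (Lam * P.rho j)) =
          ENNReal.ofReal ((Lam * P.rho j) ^ d * ballVol d) := by
        rw [Measure.addHaar_closedBall volume _ (by positivity), finrank_euclideanSpace_fin,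
          ENNReal.ofReal_mul (by positivity : 0 ≤ (Lam * P.rho j) ^ d), ballVol,
          ENNReal.ofReal_toReal measure_ball_lt_top.ne]
      rw [hvol, ← mul_assoc, ← ENNReal.ofReal_mul' (mul_nonneg (by positivity) ballVol_pos.le),
        show C₀ * (P.rho j ^ d)⁻¹ * ((Lam * P.rho j) ^ d * ballVol d) =
          C₀ * (Lam ^ d * ballVol d) by rw [mul_pow]; field_simp]
      rw [show a1 = C₀ * (Lam ^ d * ballVol d) * kH from rfl,
        ENNReal.ofReal_mul' (q := kH) hkH, mul_assoc (ENNReal.ofReal _) (ENNReal.ofReal kH),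
        ← ENNReal.ofReal_mul (q := ∫ y, _) hkH, ← integral_const_mul,
        ofReal_integral_eq_lintegral_ofReal ((hP.integrable_mul_varW _ _).const_mul _)
          (ae_of_all _ fun y => mul_nonneg hkH (mul_nonneg (norm_nonneg _) (varW_nonneg _ _ _)))]
      refine mul_le_mul_right (le_of_eq (lintegral_congr fun y => ?_)) _
      rw [mul_left_comm]
    refine (Finset.sum_le_sum hterm).trans ?_
    rw [← Finset.mul_sum, mul_assoc, ← hTr, ← ENNReal.ofReal_mul' (p := Cv) hT0,
      ← ENNReal.ofReal_sum_of_nonneg fun j _ => integral_nonneg fun y =>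
        mul_nonneg (norm_nonneg _) (varW_nonneg _ _ _)]
    refine mul_le_mul_right (ENNReal.ofReal_le_ofReal (le_trans ?_ (hsum.trans (le_of_eq ?_)))) _
    · refine Finset.sum_le_sum_of_subset_of_nonneg (fun j hj => ?_) fun j _ _ =>
        integral_nonneg fun y => mul_nonneg (norm_nonneg _) (varW_nonneg _ _ _)
      rw [Finset.mem_range]
      have := Finset.mem_Icc.1 hj
      omega
    · simp only [Cv, cl, c0]
      ring
  · rw [mul_assoc (ENNReal.ofReal _), hTv]
    refine mul_le_mul_right (le_trans (Finset.sum_le_sum fun j _ => ?_) hB.E_int_avg) _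
    rw [lintegral_const_mul _ (hEm j)]
    exact mul_le_mul_right (setLIntegral_le_lintegral _ _) _
  · rw [hTv]
    exact (Finset.sum_le_sum fun j _ => setLIntegral_le_lintegral _ _).trans hB.E_int_end

end Vale.Agent.P137.Centred
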