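import Vale.Agent.P137.Centred.Hierarchy

/-!
# P137, centred operator: the quantities of the proof

All integrals are unnormalised. `s` is the finest step, `stp s l = s * 2 ^ l` the step of level `l`,
`hier v s l` the field of level `l` and `gap v s l` the Jensen gap between the levels `l` and `l + 1`.
-/

open MeasureTheory Filter Set Metric
open scoped ENNReal NNReal Topology RealInnerProductSpace

noncomputable section

namespace Vale.Agent.P137.Centred

variable {d : ℕ}

/-- The largest average over balls centred at `x` with radius in `[a, b]`. -/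
def bandMax (f : Euc d → ℝ) (a b : ℝ) (x : Euc d) : ℝ :=
  sSup ((fun r => ballAvg f x r) '' Icc a b)

/-- The step of level `l`. -/
def stp (s : ℝ) (l : ℕ) : ℝ := s * 2 ^ l

/-- The gap between the levels `l` and `l + 1`. -/
def gap (v : Euc d → Euc d) (s : ℝ) (l : ℕ) : Euc d → ℝ := gapW v s l 1

/-- The ball of radius `r` shrunk by `w`. -/
def cut (x : Euc d) (r w : ℝ) : Euc d → ℝ := (ball x (r - w)).indicator fun _ => 1

/-- The part of the ball which is resolved at level `l`. -/
def incr (s C : ℝ) (x : Euc d) (r : ℝ) (l : ℕ) (y : Euc d) : ℝ :=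
  cut x r (C * stp s l) y - bavg (stp s l) (cut x r (C * stp s (l + 1))) y

/-- The part of the ball which is resolved below all levels. -/
def fin0 (s C : ℝ) (x : Euc d) (r : ℝ) (y : Euc d) : ℝ := cut x r 0 y - cut x r (C * s) y

/-- A weighted sum over the resolution of a ball. -/
def resInt (v : Euc d → Euc d) (s C : ℝ) (x : Euc d) (r : ℝ) (N : ℕ)
    (w : ℕ → Euc d → ℝ) : ℝ :=
  (∫ y, fin0 s C x r y * w 0 y * ‖v y‖) +
    ∑ l ∈ Finset.range N, ∫ y, incr s C x r l y * w l y * ‖hier v s l y‖

/-- The total mass seen by the resolution of a ball. -/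
def allMass (v : Euc d → Euc d) (s C : ℝ) (x : Euc d) (r : ℝ) (N : ℕ) : ℝ :=
  resInt v s C x r N fun _ _ => 1

/-- The mass weighted by the distance to the selected point `q`, at scale `R`. -/
def polMass (v : Euc d → Euc d) (s C : ℝ) (x : Euc d) (r : ℝ) (N : ℕ) (q : Euc d) (R : ℝ) : ℝ :=
  resInt v s C x r N fun l y => (‖y - q‖ + stp s l + |‖x - q‖ - r|) / R

/-- The shell of width `w` around the sphere of centre `x` and radius `r`. -/
def shell (x : Euc d) (r w : ℝ) : Set (Euc d) := {y | |‖y - x‖ - r| ≤ w}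

/-- The gaps in the shells. -/
def shellMass (v : Euc d → Euc d) (s A : ℝ) (x : Euc d) (r : ℝ) (N : ℕ) : ℝ :=
  ∑ l ∈ Finset.range N, ∫ y in shell x r (A * stp s l), gap v s l y

/-- The weight of the selection lemma. -/
def selWt (q : Euc d) (h R : ℝ) (y : Euc d) : ℝ := Real.sqrt (min 1 ((‖y - q‖ + h) / R))

/-- The gaps in the shells, weighted by the distance to the selected point `q`. -/
def selMass (v : Euc d → Euc d) (s A : ℝ) (x : Euc d) (r : ℝ) (N : ℕ) (q : Euc d) (R : ℝ) : ℝ :=
  ∑ l ∈ Finset.range N, ∫ y in shell x r (A * stp s l), selWt q (stp s l) R y * gap v s l y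

/-- The geometrically small error. -/
def geoMass (v : Euc d → Euc d) (s : ℝ) (x : Euc d) (R : ℝ) (N : ℕ) : ℝ :=
  ∑ l ∈ Finset.range N, stp s l / R * ∫ y in closedBall x (4 * R), gap v s l y

/-- The coherent error of a direction `n`. -/
def cohMass (v : Euc d → Euc d) (s : ℝ) (x : Euc d) (R : ℝ) (N : ℕ) (n : Euc d) : ℝ :=
  (∫ y in closedBall x (4 * R), excN (hier v s N y) n) + geoMass v s x R N

/-- The crude error. -/
def topMass (v : Euc d → Euc d) (s : ℝ) (x : Euc d) (R : ℝ) (N : ℕ) : ℝ :=
  (∫ y in closedBall x (4 * R), ‖hier v s N y‖) + geoMass v s x R N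

/-- A radius `r` of scale `R`, and the number `N` of levels used for it. -/
structure Scaled (s C R r : ℝ) (N : ℕ) : Prop where
  hs : 0 < s
  hsR : s ≤ R
  hr : r ∈ Icc R (2 * R)
  reach : 40 * R ≤ C * stp s N
  low : stp s N ≤ R

end Vale.Agent.P137.Centred
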