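import Vale.Agent.P137.Centred.Interface
import Vale.Agent.P137.PerCentre

/-!
# P137, centred operator: derivatives of averages and of the band maximal function
-/

open MeasureTheory Filter Set Metric
open scoped ENNReal NNReal Topology RealInnerProductSpace Gradient

noncomputable section

namespace Vale.Agent.P137.Centred

variable {d : ℕ} {f : Euc d → ℝ} {L : ℝ≥0}

/-- Averages move with the centre and the radius. -/
lemma hasDerivAt_bavg (hf : ContDiff ℝ 1 f) (hfc : HasCompactSupport f) (x e : Euc d)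
    (r κ t₀ : ℝ) :
    HasDerivAt (fun t => bavg (r + t * κ) f (x + t • e))
      (bavg (r + t₀ * κ) (fun y => ⟪∇ f y, e⟫) (x + t₀ • e) +
        κ * ((ballVol d)⁻¹ * ∫ u in ball (0 : Euc d) 1,
          ⟪∇ f (x + t₀ • e + (r + t₀ * κ) • u), u⟫)) t₀ := by
  have hg := continuous_gradient hf
  obtain ⟨G, hG⟩ := (hasCompactSupport_gradient (f := f) hfc).exists_bound_of_continuous hg
  set γ : Euc d → ℝ → Euc d := fun u t => x + t • e + (r + t * κ) • u with hγ
  set D : ℝ → Euc d → ℝ := fun t u => ⟪∇ f (γ u t), e + κ • u⟫ with hD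
  have hcont : ∀ t, Continuous fun u => f (γ u t) := fun t => by
    have := hf.continuous; simp only [hγ]; fun_prop
  have hDc : ∀ t, Continuous (D t) := fun t => by
    simp only [hD, hγ]; exact (hg.comp (by fun_prop)).inner (by fun_prop)
  have hG0 : 0 ≤ G := (norm_nonneg _).trans (hG 0)
  have hderiv : ∀ u t, HasDerivAt (fun t => f (γ u t)) (D t u) t := by
    intro u t
    have h1 : HasDerivAt (γ u) (e + κ • u) t := by
      have a := ((hasDerivAt_id' t).smul_const e)
      have b := (((hasDerivAt_id' t).mul_const κ).const_add r).smul_const u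
      simpa [hγ] using (a.const_add x).fun_add b
    have h2 := ((hf.differentiable one_ne_zero (γ u t)).hasFDerivAt).comp_hasDerivAt t h1
    rw [← inner_gradient_left] at h2
    exact h2
  have key := (hasDerivAt_integral_of_dominated_loc_of_deriv_le
    (μ := volume.restrict (ball (0 : Euc d) 1)) (F := fun t u => f (γ u t)) (F' := D)
    (x₀ := t₀) (bound := fun _ => G * (‖e‖ + |κ|)) univ_mem
    (Eventually.of_forall fun t => (hcont t).aestronglyMeasurable) ?_
    (hDc t₀).aestronglyMeasurable ?_ (integrable_const _)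
    (ae_of_all _ fun u t _ => hderiv u t)).2
  · have h3 := key.const_mul (ballVol d)⁻¹
    have e1 : ∫ u in ball (0 : Euc d) 1, D t₀ u =
        (∫ u in ball (0 : Euc d) 1, ⟪∇ f (γ u t₀), e⟫) +
          κ * ∫ u in ball (0 : Euc d) 1, ⟪∇ f (γ u t₀), u⟫ := by
      have i1 : IntegrableOn (fun u => ⟪∇ f (γ u t₀), e⟫) (ball (0 : Euc d) 1) :=
        ((((hg.comp (by simp only [hγ]; fun_prop)).inner continuous_const)).continuousOn
          |>.integrableOn_compact (isCompact_closedBall _ _)).mono_set ball_subset_closedBall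
      have i2 : IntegrableOn (fun u => κ * ⟪∇ f (γ u t₀), u⟫) (ball (0 : Euc d) 1) :=
        ((((hg.comp (by simp only [hγ]; fun_prop)).inner continuous_id).const_mul κ).continuousOn
          |>.integrableOn_compact (isCompact_closedBall _ _)).mono_set ball_subset_closedBall
      rw [← integral_const_mul, ← integral_add i1 i2]
      refine setIntegral_congr_fun measurableSet_ball fun u _ => ?_
      simp only [hD, inner_add_right, real_inner_smul_right]
    rw [e1, mul_add, mul_left_comm] at h3
    exact h3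
  · exact ((hcont t₀).continuousOn.integrableOn_compact (isCompact_closedBall _ _)).mono_set
      ball_subset_closedBall
  · refine (ae_restrict_iff' measurableSet_ball).2 (ae_of_all _ fun u hu t _ => ?_)
    refine (norm_inner_le_norm _ _).trans (mul_le_mul (hG _) ?_ (norm_nonneg _) hG0)
    refine (norm_add_le _ _).trans (add_le_add le_rfl ?_)
    rw [norm_smul, Real.norm_eq_abs]
    exact mul_le_of_le_one_right (abs_nonneg _) (mem_ball_zero_iff.1 hu).le

/-- Derivative of an average in the centre. -/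
lemma hasLineDerivAt_ballAvg (hf : ContDiff ℝ 1 f) (hfc : HasCompactSupport f) (x e : Euc d)
    {r : ℝ} (hr : 0 < r) :
    HasLineDerivAt ℝ (fun y => ballAvg f y r) (dAvg (∇ f) x r e) x e := by
  have h := hasDerivAt_bavg hf hfc x e r 0 0
  simp only [mul_zero, zero_mul, add_zero, zero_smul, bavg_eq_ballAvg _ hr] at h
  exact h

/-- Derivative of an average in the radius. -/
lemma hasDerivAt_ballAvg (hf : ContDiff ℝ 1 f) (hfc : HasCompactSupport f) (x : Euc d)
    {r : ℝ} (hr : 0 < r) :
    HasDerivAt (fun t => ballAvg f x t) (rAvg (∇ f) x r) r := by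
  have h := hasDerivAt_bavg hf hfc x 0 0 1 r
  simp only [smul_zero, add_zero, zero_add, mul_one, one_mul, inner_zero_right] at h
  have e0 : bavg r (fun _ : Euc d => (0 : ℝ)) x = 0 := bavg_const 0 r x
  rw [e0, zero_add] at h
  refine (h.congr_of_eventuallyEq ?_).congr_deriv ?_
  · filter_upwards [Ioi_mem_nhds hr] with t ht using (bavg_eq_ballAvg x ht).symm
  · rw [rAvg, ballAvg_eq_unit _ x hr]
    congr 1
    refine setIntegral_congr_fun measurableSet_ball fun u _ => ?_
    simp [smul_smul, inv_mul_cancel₀ hr.ne']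

lemma continuousOn_rAvg {v : Euc d → Euc d} (hv : Continuous v) (hvc : HasCompactSupport v)
    (x : Euc d) : ContinuousOn (rAvg v x) (Ioi 0) := by
  obtain ⟨B, hB⟩ := hvc.exists_bound_of_continuous hv
  have hc : Continuous fun r : ℝ =>
      (ballVol d)⁻¹ * ∫ u in ball (0 : Euc d) 1, ⟪v (x + r • u), u⟫ := by
    refine continuous_const.mul (continuous_of_dominated (bound := fun _ => B)
      (fun r => ((hv.comp (by fun_prop)).inner continuous_id).aestronglyMeasurable)
      (fun r => (ae_restrict_iff' measurableSet_ball).2 (ae_of_all _ fun u hu => ?_))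
      (integrable_const B)
      (ae_of_all _ fun u => (hv.comp (by fun_prop)).inner continuous_const))
    exact (norm_inner_le_norm _ _).trans ((mul_le_of_le_one_right (norm_nonneg _)
      (mem_ball_zero_iff.1 hu).le).trans (hB _))
  refine hc.continuousOn.congr fun r (hr : 0 < r) => ?_
  rw [rAvg, ballAvg_eq_unit _ x hr]
  congr 1
  refine setIntegral_congr_fun measurableSet_ball fun u _ => ?_
  simp [smul_smul, inv_mul_cancel₀ hr.ne']

lemma abs_ballAvg_sub_le (hf : LipschitzWith L f) (x y : Euc d) {r : ℝ} (hr : 0 < r) :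
    |ballAvg f x r - ballAvg f y r| ≤ L * dist x y := by
  rw [ballAvg_eq_unit f x hr, ballAvg_eq_unit f y hr, ← mul_sub,
    ← integral_sub (integrable_unitBall hf.continuous x r) (integrable_unitBall hf.continuous y r),
    abs_mul, abs_of_pos (inv_pos.2 ballVol_pos), inv_mul_le_iff₀ ballVol_pos]
  refine abs_integral_le_integral_abs.trans ((integral_mono
    (((integrable_unitBall hf.continuous x r).sub (integrable_unitBall hf.continuous y r)).abs)
    (integrable_const (L * dist x y : ℝ)) fun u => ?_).trans_eq ?_)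
  · have := hf.dist_le_mul (x + r • u) (y + r • u)
    rwa [dist_add_right, Real.dist_eq] at this
  · rw [integral_const, measureReal_unitBall, smul_eq_mul]

section Band

variable (hf : ContDiff ℝ 1 f) (hfc : HasCompactSupport f) {a b : ℝ}
include hf hfc

lemma exists_bandMax (ha : 0 < a) (hab : a ≤ b) (x : Euc d) :
    ∃ r ∈ Icc a b, ballAvg f x r = bandMax f a b x ∧
      ∀ t ∈ Icc a b, ballAvg f x t ≤ ballAvg f x r := by
  have hc : ContinuousOn (fun t => ballAvg f x t) (Icc a b) :=
    (continuousOn_ballAvg hf.continuous hfc).comp (f := fun t => (x, t)) (by fun_prop)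
      fun t ht => ha.trans_le ht.1
  obtain ⟨r, hr, hmax⟩ := isCompact_Icc.exists_isMaxOn (nonempty_Icc.2 hab) hc
  refine ⟨r, hr, ?_, fun t ht => hmax ht⟩
  symm
  refine IsGreatest.csSup_eq ⟨mem_image_of_mem _ hr, ?_⟩
  rintro _ ⟨t, ht, rfl⟩
  exact hmax ht

lemma ballAvg_le_bandMax (ha : 0 < a) {r : ℝ} (hr : r ∈ Icc a b) (x : Euc d) :
    ballAvg f x r ≤ bandMax f a b x := by
  obtain ⟨r₀, -, e, h⟩ := exists_bandMax hf hfc ha (hr.1.trans hr.2) x
  exact e ▸ h r hr

lemma bandMax_mono (ha : 0 < a) {a' b' : ℝ} (h1 : a ≤ a') (h' : a' ≤ b') (h2 : b' ≤ b)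
    (x : Euc d) : bandMax f a' b' x ≤ bandMax f a b x := by
  obtain ⟨r, hr, e, -⟩ := exists_bandMax hf hfc (ha.trans_le h1) h' x
  exact e ▸ ballAvg_le_bandMax hf hfc ha ⟨h1.trans hr.1, hr.2.trans h2⟩ x

lemma lipschitz_bandMax (hL : LipschitzWith L f) (ha : 0 < a) (hab : a ≤ b) :
    LipschitzWith L (bandMax f a b) := by
  refine LipschitzWith.of_le_add_mul L fun x y => ?_
  obtain ⟨r, hr, e, -⟩ := exists_bandMax hf hfc ha hab x
  have := abs_le.1 (abs_ballAvg_sub_le hL x y (ha.trans_le hr.1))
  linarith [ballAvg_le_bandMax hf hfc ha hr y]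

/-- The drop of the band maximum is paid by the radial derivative. -/
lemma bandMax_drop_le (ha : 0 < a) {c : ℝ} (hac : a ≤ c) (hcb : c ≤ b) (x : Euc d) :
    bandMax f a b x - bandMax f c b x ≤ ∫ r in Icc a c, |rAvg (∇ f) x r| := by
  obtain ⟨r, hr, e, -⟩ := exists_bandMax hf hfc ha (hac.trans hcb) x
  have hi : IntegrableOn (fun r => |rAvg (∇ f) x r|) (Icc a c) :=
    (((continuousOn_rAvg (continuous_gradient hf) (hasCompactSupport_gradient hfc) x).mono
      fun t ht => mem_Ioi.2 (ha.trans_le ht.1)).abs).integrableOn_compact isCompact_Icc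
  rcases le_or_gt c r with h | h
  · have := ballAvg_le_bandMax hf hfc (ha.trans_le hac) ⟨h, hr.2⟩ x
    refine le_trans ?_ (setIntegral_nonneg measurableSet_Icc fun r _ => abs_nonneg _)
    linarith
  have h1 := ballAvg_le_bandMax hf hfc (ha.trans_le hac) (⟨le_rfl, hcb⟩ : c ∈ Icc c b) x
  have hr0 : 0 < r := ha.trans_le hr.1
  have hcont : ContinuousOn (rAvg (∇ f) x) (uIcc r c) :=
    (continuousOn_rAvg (continuous_gradient hf) (hasCompactSupport_gradient hfc) x).mono
      fun t ht => by rw [uIcc_of_le h.le] at ht; exact mem_Ioi.2 (hr0.trans_le ht.1)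
  have hftc := intervalIntegral.integral_eq_sub_of_hasDerivAt (a := r) (b := c)
    (f := fun t => ballAvg f x t) (f' := rAvg (∇ f) x) (fun t ht => by
      rw [uIcc_of_le h.le] at ht
      exact hasDerivAt_ballAvg hf hfc x (hr0.trans_le ht.1)) hcont.intervalIntegrable
  rw [intervalIntegral.integral_of_le h.le] at hftc
  have h2 : |∫ t in Ioc r c, rAvg (∇ f) x t| ≤ ∫ t in Icc a c, |rAvg (∇ f) x t| :=
    abs_integral_le_integral_abs.trans (setIntegral_mono_set hi
      (ae_of_all _ fun t => abs_nonneg _)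
      (HasSubset.Subset.eventuallyLE fun t ht => ⟨hr.1.trans ht.1.le, ht.2⟩))
  linarith [neg_abs_le (∫ t in Ioc r c, rAvg (∇ f) x t)]

/-- A function above an average and touching it has the same derivative. -/
lemma fderiv_eq_dAvg {W : Euc d → ℝ} {x : Euc d} {r : ℝ} (hr : 0 < r)
    (hW : DifferentiableAt ℝ W x) (hle : ∀ y, ballAvg f y r ≤ W y) (he : ballAvg f x r = W x)
    (e : Euc d) : fderiv ℝ W x e = dAvg (∇ f) x r e := by
  have h1 : HasDerivAt (fun t : ℝ => W (x + t • e)) (fderiv ℝ W x e) 0 :=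
    hW.hasFDerivAt.hasLineDerivAt e
  have h2 : HasDerivAt (fun t : ℝ => ballAvg f (x + t • e) r) (dAvg (∇ f) x r e) 0 :=
    hasLineDerivAt_ballAvg hf hfc x e hr
  have hmin : IsLocalMin (fun t : ℝ => W (x + t • e) - ballAvg f (x + t • e) r) 0 :=
    Eventually.of_forall fun t => by
      simp only [zero_smul, add_zero, he, sub_self]
      linarith [hle (x + t • e)]
  have := hmin.hasDerivAt_eq_zero (h1.fun_sub h2)
  linarith

/-- At a maximiser in the interior, the radial derivative vanishes. -/
lemma rAvg_eq_zero {x : Euc d} {r : ℝ} (ha : 0 < a) (hr : r ∈ Ioo a b)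
    (hmax : ∀ t ∈ Icc a b, ballAvg f x t ≤ ballAvg f x r) : rAvg (∇ f) x r = 0 := by
  have hloc : IsLocalMax (fun t => ballAvg f x t) r := by
    filter_upwards [Icc_mem_nhds hr.1 hr.2] with t ht using hmax t ht
  exact hloc.hasDerivAt_eq_zero (hasDerivAt_ballAvg hf hfc x (ha.trans hr.1))

end Band

end Vale.Agent.P137.Centred
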