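import Vale.Agent.P137.Defs
import Vale.Agent.P137.Pairing

/-!
# P137, centred operator: the comparison field

For a unit vector `e` and `κ ∈ [-1, 1]` the field `bigOm d e κ lam` on the closed unit ball differs from
`u ↦ e + κ • u` by a divergence-free field which is tangent to the sphere. It is nonnegative against
`e` except near the polar set `⟪e, u⟫ + κ = 0, ‖u‖ = 1`.
-/

open MeasureTheory Filter Set Metric
open scoped ENNReal NNReal Topology RealInnerProductSpace Gradient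

noncomputable section

namespace Vale.Agent.P137.Centred

variable {d : ℕ}

/-- `(1 - |u|²) / 2`. -/
def pF (u : Euc d) : ℝ := (1 - ‖u‖ ^ 2) / 2

/-- The affine function vanishing at the poles. -/
def aF (e : Euc d) (κ : ℝ) (u : Euc d) : ℝ := ⟪e, u⟫ + κ

/-- The size of `(aF, pF)`. -/
def qF (e : Euc d) (κ : ℝ) (u : Euc d) : ℝ := Real.sqrt (aF e κ u ^ 2 + pF u ^ 2)

/-- The damping factor. -/
def gF (e : Euc d) (κ lam : ℝ) (u : Euc d) : ℝ := (1 + lam * qF e κ u)⁻¹

/-- The coefficient of `e` in the field. -/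
def omE (e : Euc d) (κ lam : ℝ) (u : Euc d) : ℝ :=
  lam * qF e κ u * gF e κ lam u + (d + 1) * pF u * gF e κ lam u
    - lam * gF e κ lam u ^ 2 * ⟪e, u⟫ * (pF u * aF e κ u / qF e κ u)
    + lam * gF e κ lam u ^ 2 * ‖u‖ ^ 2 * (pF u * pF u / qF e κ u)

/-- The coefficient of `u` in the field. -/
def omU (e : Euc d) (κ lam : ℝ) (u : Euc d) : ℝ :=
  κ * (lam * qF e κ u * gF e κ lam u) + gF e κ lam u * aF e κ u
    + lam * gF e κ lam u ^ 2 * (pF u * aF e κ u / qF e κ u)
    - lam * gF e κ lam u ^ 2 * ⟪e, u⟫ * (pF u * pF u / qF e κ u)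

/-- The comparison field. -/
def bigOm (e : Euc d) (κ lam : ℝ) (u : Euc d) : Euc d :=
  omE e κ lam u • e + omU e κ lam u • u

/-- The polar cutoff. -/
def polCut (e : Euc d) (κ : ℝ) (u : Euc d) : ℝ :=
  max 0 (min 1 (4 * (1 + κ * ⟪e, u⟫) - 2))

section Bounds

variable {e u : Euc d} {κ lam : ℝ}

lemma qF_nonneg : 0 ≤ qF e κ u := Real.sqrt_nonneg _

lemma abs_aF_le_qF : |aF e κ u| ≤ qF e κ u :=
  Real.abs_le_sqrt (by nlinarith [sq_nonneg (pF u)])

lemma abs_pF_le_qF : |pF u| ≤ qF e κ u :=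
  Real.abs_le_sqrt (by nlinarith [sq_nonneg (aF e κ u)])

lemma qF_le_add : qF e κ u ≤ |aF e κ u| + |pF u| := by
  rw [qF, Real.sqrt_le_left (by positivity)]
  nlinarith [sq_abs (aF e κ u), sq_abs (pF u), abs_nonneg (aF e κ u), abs_nonneg (pF u)]

lemma pF_nonneg (hu : ‖u‖ ≤ 1) : 0 ≤ pF u := by
  unfold pF; nlinarith [norm_nonneg u]

lemma abs_inner_le_one (he : ‖e‖ = 1) (hu : ‖u‖ ≤ 1) : |⟪e, u⟫| ≤ 1 := by
  refine (abs_real_inner_le_norm e u).trans ?_
  rw [he, one_mul]; exact hu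

lemma qF_le (he : ‖e‖ = 1) (hκ : |κ| ≤ 1) (hu : ‖u‖ ≤ 1) : qF e κ u ≤ 3 := by
  refine qF_le_add.trans ?_
  have h1 : |aF e κ u| ≤ 2 := (abs_add_le _ _).trans (by linarith [abs_inner_le_one he hu])
  have h2 : |pF u| ≤ 1 := by
    rw [abs_of_nonneg (pF_nonneg hu)]; unfold pF; nlinarith [norm_nonneg u]
  linarith

lemma gF_pos (hl : 0 ≤ lam) : 0 < gF e κ lam u :=
  inv_pos.2 (by linarith [mul_nonneg hl (qF_nonneg (e := e) (κ := κ) (u := u))])

lemma gF_le_one (hl : 0 ≤ lam) : gF e κ lam u ≤ 1 :=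
  inv_le_one_of_one_le₀ (by linarith [mul_nonneg hl (qF_nonneg (e := e) (κ := κ) (u := u))])

lemma abs_div_qF_le (b : ℝ) : |pF u * b / qF e κ u| ≤ |b| := by
  rcases eq_or_ne (qF e κ u) 0 with h | h
  · simp [h]
  · rw [abs_div, abs_mul, abs_of_nonneg qF_nonneg, div_le_iff₀
      (lt_of_le_of_ne qF_nonneg (Ne.symm h)), mul_comm |pF u|]
    exact mul_le_mul_of_nonneg_left abs_pF_le_qF (abs_nonneg b)

lemma abs_omE_le (he : ‖e‖ = 1) (hu : ‖u‖ ≤ 1) (hl : 0 ≤ lam) :
    |omE e κ lam u| ≤ (3 * lam + d + 1) * (qF e κ u * gF e κ lam u) := by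
  set q := qF e κ u
  set g := gF e κ lam u
  have hq : 0 ≤ q := qF_nonneg
  have hg : 0 < g := gF_pos hl
  have hg1 : g ≤ 1 := gF_le_one hl
  have ht := abs_inner_le_one he hu
  have h1 : |(d + 1) * pF u * g| ≤ (d + 1) * (q * g) := by
    rw [abs_mul, abs_mul, abs_of_nonneg hg.le, abs_of_nonneg (by positivity : (0:ℝ) ≤ (d:ℝ) + 1),
      mul_assoc]
    exact mul_le_mul_of_nonneg_left (mul_le_mul_of_nonneg_right abs_pF_le_qF hg.le) (by positivity)
  have hgg : g ^ 2 * q ≤ q * g := by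
    have := mul_le_mul_of_nonneg_left hg1 (mul_nonneg hq hg.le)
    linarith [show g ^ 2 * q = q * g * g by ring, show q * g * 1 = q * g by ring]
  have h2 : |lam * g ^ 2 * ⟪e, u⟫ * (pF u * aF e κ u / q)| ≤ lam * (q * g) := by
    rw [abs_mul, abs_mul, abs_mul, abs_of_nonneg hl, abs_of_nonneg (sq_nonneg g)]
    calc lam * g ^ 2 * |⟪e, u⟫| * |pF u * aF e κ u / q| ≤ lam * g ^ 2 * 1 * q := by
          gcongr
          exact (abs_div_qF_le _).trans abs_aF_le_qF
      _ ≤ _ := by rw [mul_one, mul_assoc]; exact mul_le_mul_of_nonneg_left hgg hl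
  have h3 : |lam * g ^ 2 * ‖u‖ ^ 2 * (pF u * pF u / q)| ≤ lam * (q * g) := by
    rw [abs_mul, abs_mul, abs_mul, abs_of_nonneg hl, abs_of_nonneg (sq_nonneg g),
      abs_of_nonneg (sq_nonneg ‖u‖)]
    calc lam * g ^ 2 * ‖u‖ ^ 2 * |pF u * pF u / q| ≤ lam * g ^ 2 * 1 * q := by
          gcongr
          · exact pow_le_one₀ (norm_nonneg u) hu
          · exact (abs_div_qF_le _).trans abs_pF_le_qF
      _ ≤ _ := by rw [mul_one, mul_assoc]; exact mul_le_mul_of_nonneg_left hgg hl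
  have h0 : |lam * q * g| = lam * (q * g) := by rw [abs_of_nonneg (by positivity), mul_assoc]
  unfold omE
  refine (abs_add_le _ _).trans ((add_le_add ((abs_sub _ _).trans (add_le_add
    ((abs_add_le _ _).trans (add_le_add h0.le h1)) h2)) h3).trans (le_of_eq ?_))
  ring

lemma abs_omU_le (he : ‖e‖ = 1) (hκ : |κ| ≤ 1) (hu : ‖u‖ ≤ 1) (hl : 0 ≤ lam) :
    |omU e κ lam u| ≤ (3 * lam + 1) * (qF e κ u * gF e κ lam u) := by
  set q := qF e κ u
  set g := gF e κ lam u
  have hq : 0 ≤ q := qF_nonneg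
  have hg : 0 < g := gF_pos hl
  have hg1 : g ≤ 1 := gF_le_one hl
  have ht := abs_inner_le_one he hu
  have hgg : g ^ 2 * q ≤ q * g := by
    have := mul_le_mul_of_nonneg_left hg1 (mul_nonneg hq hg.le)
    linarith [show g ^ 2 * q = q * g * g by ring, show q * g * 1 = q * g by ring]
  have h0 : |κ * (lam * q * g)| ≤ lam * (q * g) := by
    rw [abs_mul, abs_of_nonneg (by positivity : 0 ≤ lam * q * g)]
    exact (mul_le_of_le_one_left (by positivity) hκ).trans (le_of_eq (by ring))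
  have h1 : |g * aF e κ u| ≤ q * g := by
    rw [abs_mul, abs_of_nonneg hg.le, mul_comm]
    exact mul_le_mul_of_nonneg_right abs_aF_le_qF hg.le
  have h2 : |lam * g ^ 2 * (pF u * aF e κ u / q)| ≤ lam * (q * g) := by
    rw [abs_mul, abs_mul, abs_of_nonneg hl, abs_of_nonneg (sq_nonneg g)]
    calc lam * g ^ 2 * |pF u * aF e κ u / q| ≤ lam * g ^ 2 * q := by
          gcongr
          exact (abs_div_qF_le _).trans abs_aF_le_qF
      _ ≤ _ := by rw [mul_assoc]; exact mul_le_mul_of_nonneg_left hgg hl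
  have h3 : |lam * g ^ 2 * ⟪e, u⟫ * (pF u * pF u / q)| ≤ lam * (q * g) := by
    rw [abs_mul, abs_mul, abs_mul, abs_of_nonneg hl, abs_of_nonneg (sq_nonneg g)]
    calc lam * g ^ 2 * |⟪e, u⟫| * |pF u * pF u / q| ≤ lam * g ^ 2 * 1 * q := by
          gcongr
          exact (abs_div_qF_le _).trans abs_pF_le_qF
      _ ≤ _ := by rw [mul_one, mul_assoc]; exact mul_le_mul_of_nonneg_left hgg hl
  unfold omU
  refine (abs_sub _ _).trans ((add_le_add ((abs_add_le _ _).trans (add_le_add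
    ((abs_add_le _ _).trans (add_le_add h0 h1)) h2)) h3).trans (le_of_eq ?_))
  ring

lemma norm_bigOm_le (he : ‖e‖ = 1) (hκ : |κ| ≤ 1) (hu : ‖u‖ ≤ 1) (hl : 1 ≤ lam) :
    ‖bigOm e κ lam u‖ ≤ (d + 8) * lam * (qF e κ u * gF e κ lam u) := by
  have hl0 : 0 ≤ lam := zero_le_one.trans hl
  have hqg : 0 ≤ qF e κ u * gF e κ lam u := mul_nonneg qF_nonneg (gF_pos hl0).le
  refine (norm_add_le _ _).trans ?_
  rw [norm_smul, norm_smul, he, mul_one, Real.norm_eq_abs, Real.norm_eq_abs]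
  have h2 : |omU e κ lam u| * ‖u‖ ≤ |omU e κ lam u| := mul_le_of_le_one_right (abs_nonneg _) hu
  have hd : (0 : ℝ) ≤ d := Nat.cast_nonneg d
  nlinarith [abs_omE_le (κ := κ) he hu hl0, abs_omU_le he hκ hu hl0,
    mul_nonneg hd (mul_nonneg (sub_nonneg.2 hl) hqg), mul_nonneg (sub_nonneg.2 hl) hqg]

lemma qF_mul_gF_le (hl : 0 < lam) : qF e κ u * gF e κ lam u ≤ lam⁻¹ := by
  have hq : 0 ≤ qF e κ u := qF_nonneg
  rw [gF, mul_inv_le_iff₀ (by positivity), mul_add, mul_one, ← mul_assoc,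
    inv_mul_cancel₀ hl.ne', one_mul]
  linarith [inv_pos.2 hl]

/-- The projection of the field on `e`. -/
lemma inner_bigOm (he : ‖e‖ = 1) : ⟪e, bigOm e κ lam u⟫ =
    lam * qF e κ u * gF e κ lam u * (1 + κ * ⟪e, u⟫) + (d + 1) * pF u * gF e κ lam u
      + gF e κ lam u * aF e κ u * ⟪e, u⟫
      + lam * gF e κ lam u ^ 2 * (pF u * pF u / qF e κ u) * (‖u‖ ^ 2 - ⟪e, u⟫ ^ 2) := by
  rw [bigOm, inner_add_right, real_inner_smul_right, real_inner_smul_right,
    real_inner_self_eq_norm_sq, he]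
  unfold omE omU
  ring

lemma le_inner_bigOm (he : ‖e‖ = 1) (hu : ‖u‖ ≤ 1) (hl : 0 ≤ lam) :
    qF e κ u * gF e κ lam u * (lam * (1 + κ * ⟪e, u⟫) - 1) ≤ ⟪e, bigOm e κ lam u⟫ := by
  rw [inner_bigOm he]
  have hg := gF_pos (e := e) (κ := κ) (u := u) hl
  have hp := pF_nonneg hu
  have h1 : 0 ≤ (d + 1) * pF u * gF e κ lam u := by positivity
  have h2 : 0 ≤ lam * gF e κ lam u ^ 2 * (pF u * pF u / qF e κ u) * (‖u‖ ^ 2 - ⟪e, u⟫ ^ 2) := by
    refine mul_nonneg (mul_nonneg (by positivity) (div_nonneg (by positivity) qF_nonneg)) ?_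
    have := abs_real_inner_le_norm e u
    rw [he, one_mul] at this
    nlinarith [abs_le.1 this]
  have h3 : -(qF e κ u * gF e κ lam u) ≤ gF e κ lam u * aF e κ u * ⟪e, u⟫ := by
    have h := abs_le.1 (show |aF e κ u * ⟪e, u⟫| ≤ qF e κ u by
      rw [abs_mul]
      exact (mul_le_of_le_one_right (abs_nonneg _) (abs_inner_le_one he hu)).trans abs_aF_le_qF)
    nlinarith
  nlinarith

end Bounds

/-- The field inequalities. -/
theorem bigOm_lower {e n u : Euc d} {κ θ lam ε η : ℝ} (hθ : 0 < θ) (hθ8 : θ ≤ 1 / 16)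
    (hlam : lam = 2 / θ) (he : ‖e‖ = 1) (hκ : |κ| ≤ 1) (hu : ‖u‖ ≤ 1) (hn : ‖n - e‖ ≤ ε)
    (hη : 0 ≤ η) (hsmall : (ε + η) * ((d + 8) * lam) ≤ 1 / 8) :
    (|κ| ≤ 1 - θ → qF e κ u * gF e κ lam u / 4 ≤ ⟪n, bigOm e κ lam u⟫ - η * ‖bigOm e κ lam u‖) ∧
      (1 - θ < |κ| → polCut e κ u / 32 + qF e κ u * gF e κ lam u / 4 - 4 * min θ (qF e κ u) ≤
        ⟪n, bigOm e κ lam u⟫ - η * ‖bigOm e κ lam u‖) := by
  have hlam0 : 0 < lam := by rw [hlam]; positivity
  have hlθ : lam * θ = 2 := by rw [hlam]; field_simp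
  have hl1 : 1 ≤ lam := by rw [hlam, le_div_iff₀ hθ]; linarith
  have ht := abs_le.1 (abs_inner_le_one he hu)
  set q := qF e κ u with hqdef
  set g := gF e κ lam u with hgdef
  set t := ⟪e, u⟫ with htdef
  have hq : 0 ≤ q := qF_nonneg
  have hg : 0 < g := gF_pos hlam0.le
  have hqg : 0 ≤ q * g := mul_nonneg hq hg.le
  have hbase : q * g * (lam * (1 + κ * t) - 9 / 8) ≤
      ⟪n, bigOm e κ lam u⟫ - η * ‖bigOm e κ lam u‖ := by
    have h1 : ⟪n, bigOm e κ lam u⟫ = ⟪e, bigOm e κ lam u⟫ + ⟪n - e, bigOm e κ lam u⟫ := by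
      rw [inner_sub_left]; ring
    have h2 := abs_le.1 ((abs_real_inner_le_norm (n - e) (bigOm e κ lam u)).trans
      (mul_le_mul_of_nonneg_right hn (norm_nonneg _)))
    have h3 := le_inner_bigOm (κ := κ) (lam := lam) he hu hlam0.le
    have h4 := norm_bigOm_le (κ := κ) he hκ hu hl1
    have hεη : 0 ≤ ε + η := by linarith [(norm_nonneg _).trans hn]
    have h5 := mul_le_mul_of_nonneg_left h4 hεη
    have h6 := mul_le_mul_of_nonneg_right hsmall hqg
    nlinarith
  have hbig : θ ≤ 1 + κ * t → q * g * (7 / 8) ≤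
      ⟪n, bigOm e κ lam u⟫ - η * ‖bigOm e κ lam u‖ := by
    intro h
    refine le_trans (mul_le_mul_of_nonneg_left ?_ hqg) hbase
    nlinarith [mul_le_mul_of_nonneg_left h hlam0.le]
  refine ⟨fun hk => le_trans (by linarith) (hbig ?_), fun hk => ?_⟩
  · have h1 : |κ * t| ≤ 1 - θ := by
      rw [abs_mul]
      exact (mul_le_of_le_one_right (abs_nonneg κ) (abs_inner_le_one he hu)).trans hk
    linarith [(abs_le.1 h1).1]
  have hmin : q * g ≤ min θ q := by
    refine le_min ((qF_mul_gF_le hlam0).trans ?_) (mul_le_of_le_one_right hq (gF_le_one hlam0.le))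
    rw [hlam, inv_div]; linarith
  have h1κt : 0 ≤ 1 + κ * t := by
    have : |κ * t| ≤ 1 := by
      rw [abs_mul]; exact mul_le_one₀ hκ (abs_nonneg _) (abs_inner_le_one he hu)
    linarith [(abs_le.1 this).1]
  have hm0 : 0 ≤ min θ q := le_min hθ.le hq
  rcases le_or_gt (1 + κ * t) (1 / 2) with hom | hom
  · have : polCut e κ u = 0 := max_eq_left ((min_le_right _ _).trans (by
      rw [← htdef]; linarith))
    rw [this]
    refine le_trans ?_ hbase
    nlinarith [mul_nonneg hqg (mul_nonneg hlam0.le h1κt)]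
  · have hpc : polCut e κ u ≤ 1 := max_le zero_le_one (min_le_left _ _)
    have hqθ : θ ≤ q := by
      by_contra hcon
      have ha : |aF e κ u| < θ := abs_aF_le_qF.trans_lt (not_le.1 hcon)
      have hκ2 : (1 - θ) ^ 2 ≤ κ ^ 2 := by
        rw [← sq_abs κ]; exact pow_le_pow_left₀ (by linarith) hk.le 2
      have : κ * aF e κ u ≤ θ := (le_abs_self _).trans (by
        rw [abs_mul]; exact (mul_le_of_le_one_left (abs_nonneg _) hκ).trans ha.le)
      rw [aF, ← htdef, mul_add, ← sq] at this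
      nlinarith
    have hqgθ : θ / 3 ≤ q * g := by
      rw [hgdef, gF, ← hqdef, le_mul_inv_iff₀ (by positivity)]
      nlinarith
    have h1 : q * g * (lam / 2 - 9 / 8) ≤ ⟪n, bigOm e κ lam u⟫ - η * ‖bigOm e κ lam u‖ := by
      refine le_trans (mul_le_mul_of_nonneg_left ?_ hqg) hbase
      nlinarith [mul_le_mul_of_nonneg_left hom.le hlam0.le]
    have h2 : θ / 3 * (lam / 2 - 2) ≤ q * g * (lam / 2 - 2) :=
      mul_le_mul_of_nonneg_right hqgθ (by nlinarith)
    nlinarith

/-- On the polar side the radial component is negative against `n`. -/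
lemma sign_mul_inner_le {e n u : Euc d} {κ θ ε : ℝ} (hθ8 : θ ≤ 1 / 16) (hk : 1 - θ < |κ|)
    (hκ : |κ| ≤ 1) (hu : ‖u‖ ≤ 1) (he : ‖e‖ = 1) (hn : ‖n - e‖ ≤ ε) (hε : ε ≤ 1 / 8) :
    (if 0 ≤ κ then (1 : ℝ) else -1) * ⟪n, u⟫ ≤ -(1 / 8) + 2 * polCut e κ u := by
  have hd : |⟪n, u⟫ - ⟪e, u⟫| ≤ ε := by
    rw [← inner_sub_left]
    exact (abs_real_inner_le_norm _ _).trans
      ((mul_le_of_le_one_right (norm_nonneg _) hu).trans hn)
  have ht := abs_le.1 (abs_inner_le_one he hu)
  rw [abs_le] at hd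
  have hp0 : 0 ≤ polCut e κ u := le_max_left _ _
  have hp : min 1 (4 * (1 + κ * ⟪e, u⟫) - 2) ≤ polCut e κ u := le_max_right _ _
  split_ifs with h
  · rw [abs_of_nonneg h] at hk hκ
    rcases le_total 1 (4 * (1 + κ * ⟪e, u⟫) - 2) with h1 | h1
    · rw [min_eq_left h1] at hp; linarith
    · rw [min_eq_right h1] at hp
      rcases le_total 0 ⟪e, u⟫ with h2 | h2 <;> nlinarith
  · rw [abs_of_neg (not_le.1 h)] at hk hκ
    rcases le_total 1 (4 * (1 + κ * ⟪e, u⟫) - 2) with h1 | h1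
    · rw [min_eq_left h1] at hp; linarith
    · rw [min_eq_right h1] at hp
      rcases le_total 0 ⟪e, u⟫ with h2 | h2 <;> nlinarith

section Lipschitz

lemma abs_pF_sub_le {u u' : Euc d} (hu : ‖u‖ ≤ 1) (hu' : ‖u'‖ ≤ 1) :
    |pF u - pF u'| ≤ ‖u - u'‖ := by
  have h := abs_norm_sub_norm_le u u'
  rw [abs_le] at h ⊢
  unfold pF
  constructor <;> nlinarith [norm_nonneg u, norm_nonneg u']

lemma abs_aF_sub_le {e : Euc d} (he : ‖e‖ = 1) (κ : ℝ) (u u' : Euc d) :
    |aF e κ u - aF e κ u'| ≤ ‖u - u'‖ := by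
  rw [aF, aF, add_sub_add_right_eq_sub, ← inner_sub_right]
  exact (abs_real_inner_le_norm _ _).trans_eq (by rw [he, one_mul])

lemma abs_sqrt_sub_le (A P A' P' : ℝ) :
    |Real.sqrt (A ^ 2 + P ^ 2) - Real.sqrt (A' ^ 2 + P' ^ 2)| ≤ |A - A'| + |P - P'| := by
  have key : ∀ A P A' P' : ℝ,
      Real.sqrt (A ^ 2 + P ^ 2) ≤ Real.sqrt (A' ^ 2 + P' ^ 2) + (|A - A'| + |P - P'|) := by
    intro A P A' P'
    set s := Real.sqrt (A' ^ 2 + P' ^ 2) with hs
    have hs0 : 0 ≤ s := Real.sqrt_nonneg _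
    rw [Real.sqrt_le_left (by positivity)]
    have e1 : s ^ 2 = A' ^ 2 + P' ^ 2 := Real.sq_sqrt (by positivity)
    have h1 : |A'| ≤ s := Real.abs_le_sqrt (by nlinarith)
    have h2 : |P'| ≤ s := Real.abs_le_sqrt (by nlinarith)
    have h3 : |A| ≤ |A'| + |A - A'| := by
      calc |A| = |A' + (A - A')| := by ring_nf
        _ ≤ _ := abs_add_le _ _
    have h4 : |P| ≤ |P'| + |P - P'| := by
      calc |P| = |P' + (P - P')| := by ring_nf
        _ ≤ _ := abs_add_le _ _
    nlinarith [sq_abs A, sq_abs P, sq_abs A', sq_abs P', abs_nonneg A, abs_nonneg P,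
      abs_nonneg A', abs_nonneg P', abs_nonneg (A - A'), abs_nonneg (P - P')]
  rw [abs_sub_le_iff]
  refine ⟨by linarith [key A P A' P'], ?_⟩
  have := key A' P' A P
  rw [abs_sub_comm A', abs_sub_comm P'] at this
  linarith

lemma abs_mul_div_sqrt_sub_le (A P A' P' : ℝ) :
    |P * A / Real.sqrt (A ^ 2 + P ^ 2) - P' * A' / Real.sqrt (A' ^ 2 + P' ^ 2)| ≤
        3 * (|A - A'| + |P - P'|) ∧
      |P * P / Real.sqrt (A ^ 2 + P ^ 2) - P' * P' / Real.sqrt (A' ^ 2 + P' ^ 2)| ≤
        3 * (|A - A'| + |P - P'|) := by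
  set s := Real.sqrt (A ^ 2 + P ^ 2) with hs
  set s' := Real.sqrt (A' ^ 2 + P' ^ 2) with hs'
  set D := |A - A'| + |P - P'| with hD
  have hD0 : 0 ≤ D := by positivity
  have hP : |P| ≤ s := Real.abs_le_sqrt (by nlinarith)
  have hP' : |P'| ≤ s' := Real.abs_le_sqrt (by nlinarith)
  have hss : |s - s'| ≤ D := abs_sqrt_sub_le A P A' P'
  have gen : ∀ B B' : ℝ, |B| ≤ s → |B'| ≤ s' → |B - B'| ≤ D →
      |P * B / s - P' * B' / s'| ≤ 3 * D := by
    intro B B' hB hB' hBB
    have hPP : |P - P'| ≤ D := by linarith [abs_nonneg (A - A')]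
    rcases eq_or_ne s 0 with h0 | h0
    · have hB0 : B = 0 := abs_nonpos_iff.1 (by linarith)
      rw [hB0, zero_sub, abs_neg] at hBB
      rw [hB0, mul_zero, zero_div, zero_sub, abs_neg, abs_div, abs_mul,
        abs_of_nonneg (Real.sqrt_nonneg _ : 0 ≤ s')]
      refine le_trans (div_le_of_le_mul₀ (Real.sqrt_nonneg _) hD0 ?_) (by linarith)
      rw [mul_comm D]; exact mul_le_mul hP' hBB (abs_nonneg _) (Real.sqrt_nonneg _)
    rcases eq_or_ne s' 0 with h0' | h0'
    · have hB0 : B' = 0 := abs_nonpos_iff.1 (by linarith)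
      rw [hB0, sub_zero] at hBB
      rw [hB0, mul_zero, zero_div, sub_zero, abs_div, abs_mul,
        abs_of_nonneg (Real.sqrt_nonneg _ : 0 ≤ s)]
      refine le_trans (div_le_of_le_mul₀ (Real.sqrt_nonneg _) hD0 ?_) (by linarith)
      rw [mul_comm D]; exact mul_le_mul hP hBB (abs_nonneg _) (Real.sqrt_nonneg _)
    have hspos : 0 < s := lt_of_le_of_ne (Real.sqrt_nonneg _) (Ne.symm h0)
    have hspos' : 0 < s' := lt_of_le_of_ne (Real.sqrt_nonneg _) (Ne.symm h0')
    have e : P * B / s - P' * B' / s' = (P - P') * (B / s) + P' / s' * (B - B') +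
        P' * B / (s * s') * (s' - s) := by field_simp; ring
    have a1 : |B / s| ≤ 1 := by rw [abs_div, abs_of_pos hspos, div_le_one hspos]; exact hB
    have a2 : |P' / s'| ≤ 1 := by rw [abs_div, abs_of_pos hspos', div_le_one hspos']; exact hP'
    have a3 : |P' * B / (s * s')| ≤ 1 := by
      rw [abs_div, abs_mul, abs_of_pos (mul_pos hspos hspos'), div_le_one (by positivity),
        mul_comm s]
      exact mul_le_mul hP' hB (abs_nonneg _) hspos'.le
    rw [e]
    refine (abs_add_three _ _ _).trans ?_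
    rw [abs_mul, abs_mul, abs_mul, abs_sub_comm s' s]
    have b1 := mul_le_mul hPP a1 (abs_nonneg _) hD0
    have b2 := mul_le_mul a2 hBB (abs_nonneg _) zero_le_one
    have b3 := mul_le_mul a3 hss (abs_nonneg _) zero_le_one
    linarith
  exact ⟨gen A A' (Real.abs_le_sqrt (by nlinarith)) (Real.abs_le_sqrt (by nlinarith))
    (by linarith [abs_nonneg (P - P')]), gen P P' hP hP' (by linarith [abs_nonneg (A - A')])⟩

/-- Bounded by `B` and `L`-Lipschitz on the closed unit ball. -/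
def LipB {F : Type*} [NormedAddCommGroup F] (f : Euc d → F) (B L : ℝ) : Prop :=
  ∀ u u', ‖u‖ ≤ 1 → ‖u'‖ ≤ 1 → ‖f u‖ ≤ B ∧ ‖f u - f u'‖ ≤ L * ‖u - u'‖

lemma LipB.add {F : Type*} [NormedAddCommGroup F] {f g : Euc d → F} {B L B' L' : ℝ}
    (hf : LipB f B L) (hg : LipB g B' L') :
    LipB (fun u => f u + g u) (B + B') (L + L') := fun u u' hu hu' =>
  ⟨(norm_add_le _ _).trans (add_le_add (hf u u' hu hu').1 (hg u u' hu hu').1), by
    rw [add_sub_add_comm, add_mul]
    exact (norm_add_le _ _).trans (add_le_add (hf u u' hu hu').2 (hg u u' hu hu').2)⟩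

lemma LipB.neg {F : Type*} [NormedAddCommGroup F] {f : Euc d → F} {B L : ℝ} (hf : LipB f B L) :
    LipB (fun u => -f u) B L := fun u u' hu hu' => by
  obtain ⟨h1, h2⟩ := hf u u' hu hu'
  exact ⟨by rwa [norm_neg], by rwa [neg_sub_neg, norm_sub_rev]⟩

lemma LipB.smul {F : Type*} [NormedAddCommGroup F] [NormedSpace ℝ F] {c : Euc d → ℝ}
    {f : Euc d → F} {B L B' L' : ℝ} (hc : LipB c B L) (hf : LipB f B' L') :
    LipB (fun u => c u • f u) (B * B') (L * B' + B * L') := fun u u' hu hu' => by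
  obtain ⟨c1, c2⟩ := hc u u' hu hu'
  obtain ⟨f1, f2⟩ := hf u u' hu hu'
  obtain ⟨c1', -⟩ := hc u' u hu' hu
  have hB : 0 ≤ B := (norm_nonneg _).trans c1
  refine ⟨by rw [norm_smul]; exact mul_le_mul c1 f1 (norm_nonneg _) hB, ?_⟩
  have e : c u • f u - c u' • f u' = (c u - c u') • f u + c u' • (f u - f u') := by module
  rw [e]
  refine (norm_add_le _ _).trans ?_
  rw [norm_smul, norm_smul]
  have := mul_le_mul c2 f1 (norm_nonneg _) ((norm_nonneg _).trans c2)
  have := mul_le_mul c1' f2 (norm_nonneg _) hB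
  linarith

lemma LipB.const {F : Type*} [NormedAddCommGroup F] {c : F} {B : ℝ} (hc : ‖c‖ ≤ B) :
    LipB (fun _ : Euc d => c) B 0 := fun _ _ _ _ => ⟨hc, by simp⟩

/-- The parameters of the field. -/
abbrev Par (d : ℕ) := {p : Euc d × ℝ // ‖p.1‖ = 1 ∧ |p.2| ≤ 1}

/-- Bounded and Lipschitz on the unit ball, uniformly in the parameters. -/
def LipU {F : Type*} [NormedAddCommGroup F] (f : Par d → Euc d → F) : Prop :=
  ∃ B L : ℝ, ∀ p, LipB (f p) B L

lemma LipU.add {F : Type*} [NormedAddCommGroup F] {f g : Par d → Euc d → F} :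
    LipU f → LipU g → LipU fun p u => f p u + g p u :=
  fun ⟨_, _, h⟩ ⟨_, _, h'⟩ => ⟨_, _, fun p => (h p).add (h' p)⟩

lemma LipU.sub {F : Type*} [NormedAddCommGroup F] {f g : Par d → Euc d → F} :
    LipU f → LipU g → LipU fun p u => f p u - g p u := fun ⟨_, _, h⟩ ⟨_, _, h'⟩ => by
  simp only [sub_eq_add_neg]
  exact ⟨_, _, fun p => (h p).add (h' p).neg⟩

lemma LipU.smul {F : Type*} [NormedAddCommGroup F] [NormedSpace ℝ F] {c : Par d → Euc d → ℝ}
    {f : Par d → Euc d → F} : LipU c → LipU f → LipU fun p u => c p u • f p u :=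
  fun ⟨_, _, h⟩ ⟨_, _, h'⟩ => ⟨_, _, fun p => (h p).smul (h' p)⟩

lemma LipU.mul {c f : Par d → Euc d → ℝ} : LipU c → LipU f → LipU fun p u => c p u * f p u :=
  fun h h' => h.smul h'

lemma LipU.const {F : Type*} [NormedAddCommGroup F] {c : Par d → F} {B : ℝ}
    (hc : ∀ p, ‖c p‖ ≤ B) : LipU fun p (_ : Euc d) => c p :=
  ⟨B, 0, fun p => LipB.const (hc p)⟩

/-- The field is Lipschitz, uniformly in the parameters. -/
theorem exists_bigOm_lipschitz (d : ℕ) {lam : ℝ} (hl : 0 ≤ lam) :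
    ∃ L : ℝ, 0 ≤ L ∧ ∀ e : Euc d, ‖e‖ = 1 → ∀ κ, |κ| ≤ 1 → ∀ u u' : Euc d, ‖u‖ ≤ 1 → ‖u'‖ ≤ 1 →
      ‖bigOm e κ lam u - bigOm e κ lam u'‖ ≤ L * ‖u - u'‖ := by
  have hqb : ∀ p : Par d, LipB (qF p.1.1 p.1.2) 3 2 := fun p u u' hu hu' => by
    refine ⟨by rw [Real.norm_eq_abs, abs_of_nonneg qF_nonneg]; exact qF_le p.2.1 p.2.2 hu,
      (abs_sqrt_sub_le _ _ _ _).trans ?_⟩
    linarith [abs_aF_sub_le p.2.1 p.1.2 u u', abs_pF_sub_le hu hu']
  have hq : LipU fun (p : Par d) u => qF p.1.1 p.1.2 u := ⟨_, _, hqb⟩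
  have hg : LipU fun (p : Par d) u => gF p.1.1 p.1.2 lam u := ⟨1, lam * 2, fun p u u' hu hu' => by
    refine ⟨by rw [Real.norm_eq_abs, abs_of_pos (gF_pos hl)]; exact gF_le_one hl, ?_⟩
    have hh : ∀ w, (1 : ℝ) ≤ 1 + lam * qF p.1.1 p.1.2 w := fun w => by
      linarith [mul_nonneg hl (qF_nonneg (e := p.1.1) (κ := p.1.2) (u := w))]
    simp only [gF]
    rw [Real.norm_eq_abs, inv_sub_inv (by linarith [hh u]) (by linarith [hh u']), abs_div,
      abs_of_nonneg (a := (1 + lam * qF p.1.1 p.1.2 u) * (1 + lam * qF p.1.1 p.1.2 u'))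
        (by nlinarith [hh u, hh u'])]
    refine (div_le_self (abs_nonneg _) (by nlinarith [hh u, hh u'])).trans ?_
    rw [add_sub_add_left_eq_sub, ← mul_sub, abs_mul, abs_of_nonneg hl, mul_assoc, abs_sub_comm]
    exact mul_le_mul_of_nonneg_left (hqb p u u' hu hu').2 hl⟩
  have ha : LipU fun (p : Par d) u => aF p.1.1 p.1.2 u := ⟨3, 1, fun p u u' hu hu' =>
    ⟨by rw [Real.norm_eq_abs]; exact abs_aF_le_qF.trans (qF_le p.2.1 p.2.2 hu),
      by rw [one_mul]; exact abs_aF_sub_le p.2.1 _ u u'⟩⟩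
  have hp : LipU fun (_ : Par d) (u : Euc d) => pF u := ⟨3, 1, fun p u u' hu hu' =>
    ⟨by rw [Real.norm_eq_abs]
        exact (abs_pF_le_qF (e := p.1.1) (κ := p.1.2)).trans (qF_le p.2.1 p.2.2 hu),
      by rw [one_mul]; exact abs_pF_sub_le hu hu'⟩⟩
  have ht : LipU fun (p : Par d) (u : Euc d) => ⟪p.1.1, u⟫ := ⟨1, 1, fun p u u' hu hu' =>
    ⟨abs_inner_le_one p.2.1 hu, by
      rw [Real.norm_eq_abs, one_mul, ← inner_sub_right]
      exact (abs_real_inner_le_norm _ _).trans_eq (by rw [p.2.1, one_mul])⟩⟩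
  have hn : LipU fun (_ : Par d) (u : Euc d) => ‖u‖ := ⟨1, 1, fun p u u' hu hu' =>
    ⟨by rw [norm_norm]; exact hu, by rw [one_mul]; exact abs_norm_sub_norm_le u u'⟩⟩
  have hid : LipU fun (_ : Par d) (u : Euc d) => u :=
    ⟨1, 1, fun p u u' hu hu' => ⟨hu, by rw [one_mul]⟩⟩
  have hpa : LipU fun (p : Par d) u => pF u * aF p.1.1 p.1.2 u / qF p.1.1 p.1.2 u :=
    ⟨3, 6, fun p u u' hu hu' => by
      refine ⟨(abs_div_qF_le _).trans (abs_aF_le_qF.trans (qF_le p.2.1 p.2.2 hu)),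
        ((abs_mul_div_sqrt_sub_le _ _ _ _).1).trans ?_⟩
      linarith [abs_aF_sub_le p.2.1 p.1.2 u u', abs_pF_sub_le hu hu']⟩
  have hpp : LipU fun (p : Par d) u => pF u * pF u / qF p.1.1 p.1.2 u :=
    ⟨3, 6, fun p u u' hu hu' => by
      refine ⟨(abs_div_qF_le _).trans (abs_pF_le_qF.trans (qF_le p.2.1 p.2.2 hu)),
        ((abs_mul_div_sqrt_sub_le _ _ _ _).2).trans ?_⟩
      linarith [abs_aF_sub_le p.2.1 p.1.2 u u', abs_pF_sub_le hu hu']⟩
  have hlam : LipU fun (_ : Par d) (_ : Euc d) => lam := LipU.const fun _ => le_rfl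
  have hκ : LipU fun (p : Par d) (_ : Euc d) => p.1.2 := LipU.const fun p => p.2.2
  have hd1 : LipU fun (_ : Par d) (_ : Euc d) => ((d : ℝ) + 1) := LipU.const fun _ => le_rfl
  have he : LipU fun (p : Par d) (_ : Euc d) => p.1.1 := LipU.const fun p => p.2.1.le
  have hlg : LipU fun (p : Par d) u => lam * gF p.1.1 p.1.2 lam u ^ 2 := by
    simp only [sq]; exact hlam.mul (hg.mul hg)
  have hu2 : LipU fun (_ : Par d) (u : Euc d) => ‖u‖ ^ 2 := by
    simp only [sq]; exact hn.mul hn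
  have hsig := (hlam.mul hq).mul hg
  have hE : LipU fun (p : Par d) u => omE p.1.1 p.1.2 lam u :=
    ((hsig.add ((hd1.mul hp).mul hg)).sub ((hlg.mul ht).mul hpa)).add ((hlg.mul hu2).mul hpp)
  have hU : LipU fun (p : Par d) u => omU p.1.1 p.1.2 lam u :=
    (((hκ.mul hsig).add (hg.mul ha)).add (hlg.mul hpa)).sub ((hlg.mul ht).mul hpp)
  obtain ⟨B, L, hBL⟩ : LipU fun (p : Par d) u => bigOm p.1.1 p.1.2 lam u :=
    (hE.smul he).add (hU.smul hid)
  exact ⟨max L 0, le_max_right _ _, fun e he κ hκ u u' hu hu' =>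
    ((hBL ⟨(e, κ), he, hκ⟩ u u' hu hu').2).trans
      (mul_le_mul_of_nonneg_right (le_max_left _ _) (norm_nonneg _))⟩

end Lipschitz

section IBP

lemma lineDeriv_neg' (f : Euc d → ℝ) (x w : Euc d) : lineDeriv ℝ f x (-w) = -lineDeriv ℝ f x w := by
  rw [← neg_one_smul ℝ w, lineDeriv_smul, neg_one_smul]

/-- Mixed derivatives commute, in integrated form. -/
lemma integral_fderiv_mul_lineDeriv_comm {g ψ : Euc d → ℝ} (hg : ContDiff ℝ 1 g)
    (hgc : HasCompactSupport g) {L : ℝ≥0} (hψ : LipschitzWith L ψ) (hψc : HasCompactSupport ψ)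
    (a b : Euc d) :
    ∫ u, fderiv ℝ g u a * lineDeriv ℝ ψ u b = ∫ u, fderiv ℝ g u b * lineDeriv ℝ ψ u a := by
  obtain ⟨G, hG⟩ := ContDiff.lipschitzWith_of_hasCompactSupport hgc hg one_ne_zero
  have hdiff := hg.differentiable one_ne_zero
  have hca : Continuous fun u => fderiv ℝ g u a :=
    (hg.continuous_fderiv one_ne_zero).clm_apply continuous_const
  have hcca : HasCompactSupport fun u => fderiv ℝ g u a := hgc.fderiv_apply ℝ a
  have hla : Integrable fun u => lineDeriv ℝ ψ u a := by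
    have hm : AEStronglyMeasurable (fun u => lineDeriv ℝ ψ u a) volume :=
      aestronglyMeasurable_lineDeriv hψ.continuous _
    have hsupp : Function.support (fun u => lineDeriv ℝ ψ u a) ⊆ tsupport ψ := by
      intro u hu
      by_contra hcon
      refine hu ?_
      have h0 : ψ =ᶠ[𝓝 u] fun _ => 0 := notMem_tsupport_iff_eventuallyEq.1 hcon
      show lineDeriv ℝ ψ u a = 0
      rw [h0.lineDeriv_eq]
      simp [lineDeriv]
    refine (integrableOn_iff_integrable_of_support_subset hsupp).1 ⟨hm.restrict, ?_⟩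
    refine HasFiniteIntegral.restrict_of_bounded (C := L * ‖a‖) hψc.measure_lt_top ?_
    exact ae_of_all _ fun u => norm_lineDeriv_le_of_lipschitz ℝ hψ
  have hlb : Integrable fun u => fderiv ℝ g u b * lineDeriv ℝ ψ u a := by
    refine hla.bdd_mul (c := G * ‖b‖)
      ((hg.continuous_fderiv one_ne_zero).clm_apply continuous_const).aestronglyMeasurable
      (ae_of_all _ fun u => ?_)
    rw [← (hdiff u).lineDeriv_eq_fderiv]
    exact norm_lineDeriv_le_of_lipschitz ℝ hG
  have T1 := hψ.integral_inv_smul_sub_mul_tendsto_integral_lineDeriv_mul (μ := volume)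
    (hca.integrable_of_hasCompactSupport hcca) b
  have T2 := hG.integral_inv_smul_sub_mul_tendsto_integral_lineDeriv_mul (μ := volume) hla (-b)
  have key : ∀ t : ℝ, ∫ u, t⁻¹ • (ψ (u + t • b) - ψ u) * fderiv ℝ g u a =
      -∫ u, t⁻¹ • (g (u + t • -b) - g u) * lineDeriv ℝ ψ u a := by
    intro t
    simp only [smul_eq_mul, mul_assoc, integral_const_mul]
    rw [← mul_neg]
    congr 1
    set w := t • b
    have hw : t • -b = -w := by simp [w]
    simp only [hw]
    set g' := fun u => g (u + -w) - g u with hg'def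
    have hg' : ContDiff ℝ 1 g' := (hg.comp (contDiff_id.add contDiff_const)).sub hg
    have hg'c : HasCompactSupport g' :=
      (hgc.comp_homeomorph (Homeomorph.addRight (-w))).sub hgc
    obtain ⟨G', hG'⟩ := ContDiff.lipschitzWith_of_hasCompactSupport hg'c hg' one_ne_zero
    have e : ∀ u, lineDeriv ℝ g' u a = fderiv ℝ g (u + -w) a - fderiv ℝ g u a := by
      intro u
      rw [(hg'.differentiable one_ne_zero u).lineDeriv_eq_fderiv]
      simp only [hg'def]
      have hd1 : DifferentiableAt ℝ (fun z => g (z + -w)) u :=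
        (hdiff _).comp u (differentiableAt_id.add_const _)
      rw [fderiv_fun_sub hd1 (hdiff u), fderiv_comp_add_right]
      rfl
    have h1 := hG'.integral_lineDeriv_mul_eq (μ := volume) hψ hψc a
    simp only [lineDeriv_neg', neg_mul, integral_neg, e] at h1
    have h2 : ∫ u, g' u * lineDeriv ℝ ψ u a = ∫ u, lineDeriv ℝ ψ u a * g' u :=
      integral_congr_ae (ae_of_all _ fun u => mul_comm _ _)
    rw [h2, ← h1]
    simp only [sub_mul]
    have i1 : Integrable fun u => ψ (u + w) * fderiv ℝ g u a :=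
      ((hψ.continuous.comp (continuous_add_const w)).mul hca).integrable_of_hasCompactSupport
        hcca.mul_left
    have i2 : Integrable fun u => ψ u * fderiv ℝ g u a :=
      (hψ.continuous.mul hca).integrable_of_hasCompactSupport hcca.mul_left
    have i3 : Integrable fun u => fderiv ℝ g (u + -w) a * ψ u :=
      ((hca.comp (continuous_add_const _)).mul hψ.continuous).integrable_of_hasCompactSupport
        hψc.mul_left
    have i4 : Integrable fun u => fderiv ℝ g u a * ψ u :=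
      (hca.mul hψ.continuous).integrable_of_hasCompactSupport hψc.mul_left
    rw [integral_sub i1 i2, integral_sub i3 i4,
      ← integral_add_right_eq_self (fun u => ψ (u + w) * fderiv ℝ g u a) (-w)]
    simp [mul_comm]
  have h3 := tendsto_nhds_unique (T1.congr key) T2.neg
  simp only [(hdiff _).lineDeriv_eq_fderiv, map_neg, neg_mul, integral_neg, neg_neg] at h3
  calc ∫ u, fderiv ℝ g u a * lineDeriv ℝ ψ u b = ∫ u, lineDeriv ℝ ψ u b * fderiv ℝ g u a :=
        integral_congr_ae (ae_of_all _ fun u => mul_comm _ _)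
    _ = _ := h3

/-- The potential of the divergence-free part of the field. -/
def potF (e : Euc d) (κ lam : ℝ) (u : Euc d) : ℝ :=
  max (pF u) 0 * (1 + lam * Real.sqrt (aF e κ u ^ 2 + max (pF u) 0 ^ 2))⁻¹

lemma potF_of_le (e : Euc d) (κ lam : ℝ) {u : Euc d} (hu : ‖u‖ ≤ 1) :
    potF e κ lam u = pF u * gF e κ lam u := by
  rw [potF, max_eq_left (pF_nonneg hu)]; rfl

lemma potF_eq_zero (e : Euc d) (κ lam : ℝ) {u : Euc d} (hu : 1 ≤ ‖u‖) : potF e κ lam u = 0 := by
  rw [potF, max_eq_right (by unfold pF; nlinarith), zero_mul]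

lemma lipschitz_potF {e : Euc d} (he : ‖e‖ = 1) (κ : ℝ) {lam : ℝ} (hl : 0 ≤ lam) :
    LipschitzWith (Real.toNNReal (1 + 2 * lam)) (potF e κ lam) := by
  refine LipschitzWith.of_dist_le_mul fun u u' => ?_
  rw [Real.coe_toNNReal _ (by positivity), Real.dist_eq, dist_eq_norm]
  have hP : |max (pF u) 0 - max (pF u') 0| ≤ ‖u - u'‖ := by
    refine le_trans ?_ (abs_norm_sub_norm_le u u')
    have h0 := norm_nonneg u
    have h0' := norm_nonneg u'
    unfold pF
    rw [abs_le]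
    rcases le_total ‖u‖ ‖u'‖ with h | h
    · rw [abs_of_nonpos (by linarith : ‖u‖ - ‖u'‖ ≤ 0)]
      rcases le_total ‖u'‖ 1 with h1 | h1
      · rw [max_eq_left (by nlinarith), max_eq_left (by nlinarith)]
        constructor <;> nlinarith
      · rw [max_eq_right (a := (1 - ‖u'‖ ^ 2) / 2) (by nlinarith)]
        rcases le_total ‖u‖ 1 with h2 | h2
        · rw [max_eq_left (by nlinarith)]; constructor <;> nlinarith
        · rw [max_eq_right (by nlinarith)]; constructor <;> linarith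
    · rw [abs_of_nonneg (by linarith : 0 ≤ ‖u‖ - ‖u'‖)]
      rcases le_total ‖u‖ 1 with h1 | h1
      · rw [max_eq_left (by nlinarith), max_eq_left (by nlinarith)]
        constructor <;> nlinarith
      · rw [max_eq_right (a := (1 - ‖u‖ ^ 2) / 2) (by nlinarith)]
        rcases le_total ‖u'‖ 1 with h2 | h2
        · rw [max_eq_left (by nlinarith)]; constructor <;> nlinarith
        · rw [max_eq_right (by nlinarith)]; constructor <;> linarith
  have hb : max (pF u) 0 ≤ 1 / 2 := max_le (by unfold pF; nlinarith [sq_nonneg ‖u‖]) (by norm_num)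
  have ha := abs_aF_sub_le he κ u u'
  unfold potF
  set A := aF e κ u
  set A' := aF e κ u'
  set P := max (pF u) 0
  set P' := max (pF u') 0
  set g := (1 + lam * Real.sqrt (A ^ 2 + P ^ 2))⁻¹
  set g' := (1 + lam * Real.sqrt (A' ^ 2 + P' ^ 2))⁻¹
  have h1 : (1 : ℝ) ≤ 1 + lam * Real.sqrt (A ^ 2 + P ^ 2) := le_add_of_nonneg_right (by positivity)
  have h1' : (1 : ℝ) ≤ 1 + lam * Real.sqrt (A' ^ 2 + P' ^ 2) :=
    le_add_of_nonneg_right (by positivity)
  have hg : |g - g'| ≤ lam * (2 * ‖u - u'‖) := by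
    simp only [g, g']
    rw [inv_sub_inv (by linarith) (by linarith), abs_div,
      abs_of_nonneg (a := (1 + lam * Real.sqrt (A ^ 2 + P ^ 2)) *
        (1 + lam * Real.sqrt (A' ^ 2 + P' ^ 2))) (by positivity)]
    refine (div_le_self (abs_nonneg _) (one_le_mul_of_one_le_of_one_le h1 h1')).trans ?_
    rw [add_sub_add_left_eq_sub, ← mul_sub, abs_mul, abs_of_nonneg hl, abs_sub_comm]
    exact mul_le_mul_of_nonneg_left
      ((abs_sqrt_sub_le _ _ _ _).trans (by linarith)) hl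
  have hg'1 : |g'| ≤ 1 := by
    rw [abs_of_nonneg (by simp only [g']; positivity)]
    exact inv_le_one_of_one_le₀ h1'
  have hP0 : 0 ≤ P := le_max_right _ _
  calc |P * g - P' * g'| = |P * (g - g') + (P - P') * g'| := by ring_nf
    _ ≤ P * |g - g'| + |P - P'| * |g'| := by
        refine (abs_add_le _ _).trans (le_of_eq ?_)
        rw [abs_mul, abs_mul, abs_of_nonneg hP0]
    _ ≤ 1 / 2 * (lam * (2 * ‖u - u'‖)) + ‖u - u'‖ * 1 :=
        add_le_add (mul_le_mul hb hg (abs_nonneg _) (by norm_num))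
          (mul_le_mul hP hg'1 (abs_nonneg _) (norm_nonneg _))
    _ ≤ _ := by nlinarith [mul_nonneg hl (norm_nonneg (u - u'))]

lemma hasCompactSupport_potF (e : Euc d) (κ lam : ℝ) : HasCompactSupport (potF e κ lam) :=
  HasCompactSupport.intro (isCompact_closedBall (0 : Euc d) 1) fun u hu =>
    potF_eq_zero e κ lam (by rw [mem_closedBall_zero_iff, not_le] at hu; exact hu.le)

/-- The derivative of the potential inside the ball. -/
lemma hasFDerivAt_potF (e : Euc d) (κ : ℝ) {lam : ℝ} (hl : 0 ≤ lam) {u : Euc d} (hu : ‖u‖ < 1) :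
    HasFDerivAt (potF e κ lam)
      (-(gF e κ lam u) • innerSL ℝ u - (pF u * lam * gF e κ lam u ^ 2 / qF e κ u) •
        (aF e κ u • innerSL ℝ e - pF u • innerSL ℝ u)) u := by
  have hp : 0 < pF u := by unfold pF; nlinarith [norm_nonneg u]
  have hev : (fun w => pF w * gF e κ lam w) =ᶠ[𝓝 u] potF e κ lam := by
    filter_upwards [(continuous_norm.tendsto u).eventually_lt_const hu] with w hw using
      (potF_of_le e κ lam hw.le).symm
  refine HasFDerivAt.congr_of_eventuallyEq ?_ hev.symm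
  have hS : 0 < aF e κ u ^ 2 + pF u ^ 2 := by positivity
  have dp : HasFDerivAt (pF (d := d)) (-innerSL ℝ u) u := by
    unfold pF
    simp only [div_eq_mul_inv]
    refine (((hasStrictFDerivAt_norm_sq u).hasFDerivAt.const_sub 1).mul_const (2⁻¹ : ℝ)).congr_fderiv ?_
    ext w; simp
  have da : HasFDerivAt (aF e κ) (innerSL ℝ e) u :=
    ((innerSL ℝ e).hasFDerivAt (x := u)).add_const κ
  have dq : HasFDerivAt (qF e κ)
      ((qF e κ u)⁻¹ • (aF e κ u • innerSL ℝ e - pF u • innerSL ℝ u)) u := by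
    unfold qF
    refine (((da.pow 2).add (dp.pow 2)).sqrt hS.ne').congr_fderiv ?_
    ext w; simp; field_simp; ring
  have hd : 1 + lam * qF e κ u ≠ 0 := by
    linarith [mul_nonneg hl (qF_nonneg (e := e) (κ := κ) (u := u))]
  have dg : HasFDerivAt (gF e κ lam)
      (-(gF e κ lam u ^ 2) • (lam • ((qF e κ u)⁻¹ •
        (aF e κ u • innerSL ℝ e - pF u • innerSL ℝ u)))) u := by
    refine ((hasDerivAt_inv hd).comp_hasFDerivAt u ((dq.const_mul lam).const_add 1)).congr_fderiv ?_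
    ext w; simp [gF, inv_pow]
  refine (dp.mul dg).congr_fderiv ?_
  ext w; simp; ring

/-- The field has the same pairing with gradients as `u ↦ e + κ • u`. -/
theorem integral_unit_bigOm {g : Euc d → ℝ} (hg : ContDiff ℝ 1 g) (hgc : HasCompactSupport g)
    {e : Euc d} (he : ‖e‖ = 1) (κ : ℝ) {lam : ℝ} (hl : 0 ≤ lam) :
    ∫ u in ball (0 : Euc d) 1, ⟪∇ g u, bigOm e κ lam u⟫ =
      ∫ u in ball (0 : Euc d) 1, ⟪∇ g u, e + κ • u⟫ := by
  set φ := potF e κ lam with hφ
  have hφL := lipschitz_potF he κ hl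
  set L := Real.toNNReal (1 + 2 * lam)
  have hψ : ∀ j : Fin d, ∃ L', LipschitzWith L' fun u => φ u * u j := by
    intro j
    refine ⟨Real.toNNReal (L + 1), LipschitzWith.of_dist_le_mul fun u u' => ?_⟩
    rw [Real.coe_toNNReal _ (by positivity), Real.dist_eq, dist_eq_norm]
    have hb : ∀ w, |φ w| ≤ 1 ∧ (1 ≤ ‖w‖ → φ w = 0) := fun w => by
      refine ⟨?_, potF_eq_zero e κ lam⟩
      rw [hφ, potF, abs_mul, abs_of_nonneg (le_max_right _ _), abs_of_nonneg (by positivity)]
      refine mul_le_one₀ (max_le (by unfold pF; nlinarith [sq_nonneg ‖w‖]) zero_le_one)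
        (by positivity) (inv_le_one_of_one_le₀ (le_add_of_nonneg_right (by positivity)))
    have hc : ∀ w : Euc d, |w j| ≤ ‖w‖ := fun w => PiLp.norm_apply_le w j
    have h1 : |φ u - φ u'| ≤ L * ‖u - u'‖ := by
      rw [← Real.dist_eq, ← dist_eq_norm]; exact hφL.dist_le_mul u u'
    have h2 : |u j - u' j| ≤ ‖u - u'‖ := hc (u - u')
    rcases le_total ‖u‖ 1 with hu | hu
    · calc |φ u * u j - φ u' * u' j| = |(φ u - φ u') * u j + φ u' * (u j - u' j)| := by ring_nf
        _ ≤ |φ u - φ u'| * |u j| + |φ u'| * |u j - u' j| := by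
            rw [← abs_mul, ← abs_mul]; exact abs_add_le _ _
        _ ≤ L * ‖u - u'‖ * 1 + 1 * ‖u - u'‖ :=
            add_le_add (mul_le_mul h1 ((hc u).trans hu) (abs_nonneg _) (by positivity))
              (mul_le_mul (hb u').1 h2 (abs_nonneg _) zero_le_one)
        _ = _ := by ring
    · rcases le_total ‖u'‖ 1 with hu' | hu'
      · rw [(hb u).2 hu, zero_mul, zero_sub, abs_neg, abs_mul]
        rw [(hb u).2 hu, zero_sub, abs_neg] at h1
        refine (mul_le_mul h1 ((hc u').trans hu') (abs_nonneg _) (by positivity)).trans ?_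
        nlinarith [norm_nonneg (u - u')]
      · rw [(hb u).2 hu, (hb u').2 hu', zero_mul, zero_mul, sub_zero, abs_zero]; positivity
  have hψc : ∀ j : Fin d, HasCompactSupport fun u => φ u * u j :=
    fun j => (hasCompactSupport_potF e κ lam).mul_right
  set b : Fin d → Euc d := fun j => unitVec j with hb
  set I : Euc d → ℝ := fun u => ∑ j, (fderiv ℝ g u e * lineDeriv ℝ (fun w => φ w * w j) u (b j) -
    fderiv ℝ g u (b j) * lineDeriv ℝ (fun w => φ w * w j) u e) with hI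
  have hint : ∀ (a c : Euc d) (j : Fin d),
      Integrable fun u => fderiv ℝ g u a * lineDeriv ℝ (fun w => φ w * w j) u c := by
    intro a c j
    obtain ⟨L', hL'⟩ := hψ j
    refine (((hg.continuous_fderiv one_ne_zero).clm_apply continuous_const
      ).integrable_of_hasCompactSupport (hgc.fderiv_apply ℝ a)).mul_bdd (c := L' * ‖c‖)
        (aestronglyMeasurable_lineDeriv hL'.continuous _)
        (ae_of_all _ fun u => norm_lineDeriv_le_of_lipschitz ℝ hL')
  have hzero : ∫ u, I u = 0 := by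
    have hi : ∀ j, Integrable fun u => fderiv ℝ g u e * lineDeriv ℝ (fun w => φ w * w j) u (b j) -
        fderiv ℝ g u (b j) * lineDeriv ℝ (fun w => φ w * w j) u e :=
      fun j => (hint e (b j) j).sub (hint (b j) e j)
    simp only [hI]
    rw [integral_finsetSum _ fun j _ => hi j]
    refine Finset.sum_eq_zero fun j _ => ?_
    obtain ⟨L', hL'⟩ := hψ j
    rw [integral_sub (hint e (b j) j) (hint (b j) e j),
      integral_fderiv_mul_lineDeriv_comm hg hgc hL' (hψc j) e (b j), sub_self]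
  have hout : ∀ u, u ∉ closedBall (0 : Euc d) 1 → I u = 0 := by
    intro u hu
    refine Finset.sum_eq_zero fun j _ => ?_
    rw [mem_closedBall_zero_iff, not_le] at hu
    have h0 : (fun w => φ w * w j) =ᶠ[𝓝 u] fun _ => 0 := by
      filter_upwards [(continuous_norm.tendsto u).eventually_const_lt hu] with w hw
      rw [hφ, potF_eq_zero e κ lam hw.le, zero_mul]
    rw [h0.lineDeriv_eq, h0.lineDeriv_eq]
    simp [lineDeriv]
  have hin : ∀ u ∈ ball (0 : Euc d) 1,
      I u = ⟪∇ g u, bigOm e κ lam u⟫ - ⟪∇ g u, e + κ • u⟫ := by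
    intro u hu
    rw [mem_ball_zero_iff] at hu
    have hD := hasFDerivAt_potF e κ hl hu
    set Dφ := (-(gF e κ lam u) • innerSL ℝ u - (pF u * lam * gF e κ lam u ^ 2 / qF e κ u) •
        (aF e κ u • innerSL ℝ e - pF u • innerSL ℝ u)) with hDφ
    have hld : ∀ j (c : Euc d), lineDeriv ℝ (fun w => φ w * w j) u c =
        φ u * c j + u j * Dφ c := by
      intro j c
      have h := hD.mul ((EuclideanSpace.proj (𝕜 := ℝ) j).hasFDerivAt (x := u))
      refine ((h.differentiableAt).lineDeriv_eq_fderiv).trans ?_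
      rw [h.fderiv]
      simp [hφ]
    have hsum : ∀ T : Euc d →L[ℝ] ℝ, ∀ w : Euc d, ∑ j, w j * T (b j) = T w := by
      intro T w
      have hw : w = ∑ j, w j • b j := by
        ext i; simp [hb, unitVec, WithLp.ofLp_sum, Pi.single_apply]
      conv_rhs => rw [hw]
      simp
    have hG : ∀ w, fderiv ℝ g u w = ⟪∇ g u, w⟫ := fun w => inner_gradient_left.symm
    simp only [hI, hld]
    have hbb : ∀ j, (b j) j = 1 := fun j => by simp [hb, unitVec]
    have e1 : ∑ j, (fderiv ℝ g u e * (φ u * b j j + u j * Dφ (b j)) -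
        fderiv ℝ g u (b j) * (φ u * e j + u j * Dφ e)) =
        d * (fderiv ℝ g u e * φ u) + fderiv ℝ g u e * ∑ j, u j * Dφ (b j)
          - φ u * ∑ j, e j * fderiv ℝ g u (b j) - Dφ e * ∑ j, u j * fderiv ℝ g u (b j) := by
      have h : (d : ℝ) * (fderiv ℝ g u e * φ u) = ∑ _j : Fin d, fderiv ℝ g u e * φ u := by simp
      rw [h, Finset.mul_sum, Finset.mul_sum, Finset.mul_sum, ← Finset.sum_add_distrib,
        ← Finset.sum_sub_distrib, ← Finset.sum_sub_distrib]
      refine Finset.sum_congr rfl fun j _ => ?_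
      rw [hbb j]; ring
    rw [e1, hsum, hsum, hsum, hG, hG, hφ, potF_of_le e κ lam hu.le, bigOm, inner_add_right,
      real_inner_smul_right, real_inner_smul_right, inner_add_right, real_inner_smul_right]
    have hu2 : ‖u‖ ^ 2 = 1 - 2 * pF u := by unfold pF; ring
    have hee : ⟪e, e⟫ = 1 := by rw [real_inner_self_eq_norm_sq, he, one_pow]
    have huu : ⟪u, u⟫ = 1 - 2 * pF u := by rw [real_inner_self_eq_norm_sq, hu2]
    have ht : ⟪u, e⟫ = ⟪e, u⟫ := real_inner_comm _ _
    have hk : κ = aF e κ u - ⟪e, u⟫ := by unfold aF; ring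
    have hden : (0 : ℝ) < 1 + lam * qF e κ u := by
      linarith [mul_nonneg hl (qF_nonneg (e := e) (κ := κ) (u := u))]
    have hlq : lam * qF e κ u * gF e κ lam u = 1 - gF e κ lam u := by
      have : (1 + lam * qF e κ u) * gF e κ lam u = 1 := mul_inv_cancel₀ hden.ne'
      linarith
    unfold omE omU
    simp only [hDφ, _root_.sub_apply, _root_.smul_apply,
      innerSL_apply_apply, smul_eq_mul, hee, huu, ht,
      hlq, hu2]
    rw [hk]
    simp only [aF]
    ring
  have h1 : ∫ u, I u = ∫ u in ball (0 : Euc d) 1, I u := by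
    rw [← setIntegral_eq_integral_of_forall_compl_eq_zero (s := closedBall (0 : Euc d) 1)
      (fun u hu => hout u hu)]
    refine setIntegral_congr_set ?_
    refine ae_eq_set.2 ⟨?_, by rw [sdiff_eq_empty.2 ball_subset_closedBall]; simp⟩
    rw [closedBall_sdiff_ball]
    exact Measure.addHaar_sphere_of_ne_zero volume 0 one_ne_zero
  have hgc' : Continuous (∇ g) := continuous_gradient hg
  have hi : ∀ W : Euc d → Euc d, ContinuousOn W (closedBall 0 1) →
      IntegrableOn (fun u => ⟪∇ g u, W u⟫) (ball (0 : Euc d) 1) := fun W hW =>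
    ((hgc'.continuousOn.inner hW).integrableOn_compact (isCompact_closedBall _ _)).mono_set
      ball_subset_closedBall
  rw [setIntegral_congr_fun measurableSet_ball hin] at h1
  rcases le_or_gt |κ| 1 with hκ | hκ
  · obtain ⟨L', hL0, hL'⟩ := exists_bigOm_lipschitz d hl
    have hcont : ContinuousOn (bigOm e κ lam) (closedBall (0 : Euc d) 1) :=
      (LipschitzOnWith.of_dist_le_mul (K := L'.toNNReal) fun u hu u' hu' => by
        rw [Real.coe_toNNReal _ hL0, dist_eq_norm, dist_eq_norm]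
        exact hL' e he κ hκ u u' (mem_closedBall_zero_iff.1 hu)
          (mem_closedBall_zero_iff.1 hu')).continuousOn
    rw [integral_sub (hi _ hcont) (hi (fun u => e + κ • u) (by fun_prop))] at h1
    linarith
  · have hq0 : ∀ u ∈ closedBall (0 : Euc d) 1, 0 < qF e κ u := fun u hu => by
      refine lt_of_lt_of_le ?_ abs_aF_le_qF
      have h := abs_inner_le_one he (mem_closedBall_zero_iff.1 hu)
      refine abs_pos.2 fun h0 => ?_
      rw [aF, add_eq_zero_iff_eq_neg'] at h0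
      rw [h0, abs_neg] at hκ
      linarith
    have cq : Continuous (qF e κ) := by unfold qF aF pF; fun_prop
    have cg : Continuous (gF e κ lam) := by
      refine Continuous.inv₀ (by fun_prop) fun u => ?_
      linarith [mul_nonneg hl (qF_nonneg (e := e) (κ := κ) (u := u))]
    have ca : Continuous (aF e κ) := by unfold aF; fun_prop
    have cp : Continuous (pF (d := d)) := by unfold pF; fun_prop
    have hcont : ContinuousOn (bigOm e κ lam) (closedBall (0 : Euc d) 1) := by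
      have c1 : ContinuousOn (fun u => pF u * aF e κ u / qF e κ u) (closedBall (0 : Euc d) 1) :=
        (cp.mul ca).continuousOn.div cq.continuousOn fun u hu => (hq0 u hu).ne'
      have c2 : ContinuousOn (fun u => pF u * pF u / qF e κ u) (closedBall (0 : Euc d) 1) :=
        (cp.mul cp).continuousOn.div cq.continuousOn fun u hu => (hq0 u hu).ne'
      unfold bigOm omE omU
      fun_prop
    rw [integral_sub (hi _ hcont) (hi (fun u => e + κ • u) (by fun_prop))] at h1
    linarith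

/-- The field identity on an arbitrary ball. -/
theorem integral_bigOm {f : Euc d → ℝ} (hf : ContDiff ℝ 1 f) (hfc : HasCompactSupport f)
    (x : Euc d) {r : ℝ} (hr : 0 < r) {e : Euc d} (he : ‖e‖ = 1) (κ : ℝ) {lam : ℝ} (hl : 0 ≤ lam) :
    ∫ y in ball x r, ⟪∇ f y, bigOm e κ lam (r⁻¹ • (y - x))⟫ =
      ∫ y in ball x r, ⟪∇ f y, e + κ • (r⁻¹ • (y - x))⟫ := by
  set g : Euc d → ℝ := fun u => f (x + r • u) with hgdef
  have hg : ContDiff ℝ 1 g := hf.comp (contDiff_const.add (contDiff_id.const_smul r))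
  have hgc : HasCompactSupport g :=
    hfc.comp_homeomorph ((Homeomorph.smulOfNeZero r hr.ne').trans (Homeomorph.addLeft x))
  have hgrad : ∀ u, ∇ g u = r • ∇ f (x + r • u) := by
    intro u
    refine ext_inner_right ℝ fun w => ?_
    have h1 : HasFDerivAt g ((fderiv ℝ f (x + r • u)).comp (r • ContinuousLinearMap.id ℝ (Euc d))) u :=
      ((hf.differentiable one_ne_zero _).hasFDerivAt).comp u
        (((hasFDerivAt_id u).const_smul r).const_add x)
    rw [inner_gradient_left, h1.fderiv, real_inner_smul_left, inner_gradient_left]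
    simp
  have key := integral_unit_bigOm hg hgc he κ hl
  simp only [hgrad, real_inner_smul_left, integral_const_mul] at key
  have hk := mul_left_cancel₀ hr.ne' key
  have cv : ∀ W : Euc d → Euc d, ∫ y in ball x r, ⟪∇ f y, W (r⁻¹ • (y - x))⟫ =
      r ^ d * ballVol d * ((ballVol d)⁻¹ *
        ∫ u in ball (0 : Euc d) 1, ⟪∇ f (x + r • u), W u⟫) := by
    intro W
    have h := ballAvg_eq_unit (fun y => ⟪∇ f y, W (r⁻¹ • (y - x))⟫) x hr
    simp only [add_sub_cancel_left, smul_smul, inv_mul_cancel₀ hr.ne', one_smul] at h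
    rw [← h, ballAvg, ← mul_assoc,
      mul_inv_cancel₀ (mul_pos (pow_pos hr d) ballVol_pos).ne', one_mul]
  rw [cv (bigOm e κ lam), cv fun u => e + κ • u, hk]

end IBP

end Vale.Agent.P137.Centred
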