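import Vale.Agent.P137.Centred.Budget
import Vale.Agent.P137.Centred.Calibrated
import Vale.Agent.P137.Centred.Main

/-!
# P137, centred operator: the band bound
-/

open MeasureTheory Filter Set Metric
open scoped ENNReal NNReal Topology RealInnerProductSpace Gradient

noncomputable section

namespace Vale.Agent.P137.Centred

variable {d : ℕ}

/-- The average over balls of radius one does not increase the mass of the gradient. -/
lemma lintegral_gradient_bandMax_one_le {f : Euc d → ℝ} (hf : ContDiff ℝ 1 f)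
    (hfc : HasCompactSupport f) :
    ∫⁻ x, ‖∇ (bandMax f 1 1) x‖ₑ ≤ ∫⁻ x, ‖∇ f x‖ₑ := by
  have hω : 0 < ballVol d := ballVol_pos
  have hg := continuous_gradient hf
  have hgc := hasCompactSupport_gradient (f := f) hfc
  have hW : ∀ y, bandMax f 1 1 y = ballAvg f y 1 := fun y => by
    rw [bandMax, Icc_self, image_singleton, csSup_singleton]
  set g : Euc d → ℝ := fun y => (ballVol d)⁻¹ * ‖∇ f y‖ with hg_def
  have hpt : ∀ x, ‖∇ (bandMax f 1 1) x‖ ≤ ∫ y in closedBall x 1, g y := by
    intro x
    have hI : 0 ≤ ∫ y in closedBall x 1, ‖∇ f y‖ := integral_nonneg fun y => norm_nonneg _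
    have h0 : 0 ≤ ∫ y in closedBall x 1, g y :=
      setIntegral_nonneg measurableSet_closedBall fun y _ => by positivity
    rw [gradient, LinearIsometryEquiv.norm_map]
    refine ContinuousLinearMap.opNorm_le_bound _ h0 fun e => ?_
    by_cases hdiff : DifferentiableAt ℝ (bandMax f 1 1) x
    · rw [fderiv_eq_dAvg hf hfc one_pos hdiff (fun y => (hW y).ge) (hW x).symm e, dAvg, ballAvg,
        one_pow, one_mul, norm_mul, Real.norm_of_nonneg (inv_nonneg.2 hω.le)]
      simp only [hg_def]
      rw [integral_const_mul, mul_assoc]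
      refine mul_le_mul_of_nonneg_left ((norm_integral_le_integral_norm _).trans ?_)
        (inv_nonneg.2 hω.le)
      rw [← integral_mul_const]
      refine (integral_mono_of_nonneg (ae_of_all _ fun y => norm_nonneg _) ?_
        (ae_of_all _ fun y => norm_inner_le_norm (∇ f y) e)).trans ?_
      · exact ((hg.norm.mul continuous_const).continuousOn.integrableOn_compact
          (isCompact_closedBall x 1)).mono_set ball_subset_closedBall
      · exact setIntegral_mono_set ((hg.norm.mul continuous_const).continuousOn.integrableOn_compact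
          (isCompact_closedBall x 1)) (ae_of_all _ fun y => mul_nonneg (norm_nonneg _) (norm_nonneg _))
          ball_subset_closedBall.eventuallyLE
    · rw [fderiv_zero_of_not_differentiableAt hdiff, ContinuousLinearMap.zero_apply, norm_zero]
      positivity
  calc ∫⁻ x, ‖∇ (bandMax f 1 1) x‖ₑ
      ≤ ∫⁻ x, ENNReal.ofReal (∫ y in closedBall x 1, g y) := lintegral_mono fun x => by
        rw [← ofReal_norm]; exact ENNReal.ofReal_le_ofReal (hpt x)
    _ ≤ ENNReal.ofReal (1 ^ d * ballVol d * ∫ y, g y) :=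
        lintegral_closedBall_integral_le (hg.norm.const_smul (ballVol d)⁻¹)
          (hgc.norm.mul_left) (fun y => mul_nonneg (inv_nonneg.2 hω.le) (norm_nonneg _)) zero_le_one
    _ = ∫⁻ x, ‖∇ f x‖ₑ := by
        rw [← ofReal_integral_norm_eq_lintegral_enorm (hg.integrable_of_hasCompactSupport hgc),
          integral_const_mul, one_pow, one_mul, ← mul_assoc, mul_inv_cancel₀ hω.ne', one_mul]

/-- The maximal functions over all bands have gradients bounded by that of the data. -/
theorem bandBound (d : ℕ) (hd : 0 < d) : BandBound d := by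
  obtain ⟨εf, hεf, m₀, hbud⟩ := exists_budget d hd
  obtain ⟨εP, hεP, m, M, hm, hmM, hcal⟩ :=
    exists_lintegral_gradient_bandMax_le hd hεf (show (1 : ℝ) ≤ 16 by norm_num) (max m₀ 1)
  obtain ⟨C₀, hbud⟩ := hbud m M ((le_max_left _ _).trans hm) hmM
  obtain ⟨C, hC⟩ := hcal C₀
  have hm1 : 1 ≤ m := (le_max_right _ _).trans hm
  refine ⟨max C 1, M, hm1.trans hmM, fun f hf hfc _ j => ?_⟩
  rcases Nat.eq_zero_or_pos j with rfl | hj
  · simp only [mul_zero, pow_zero, inv_one]
    refine (lintegral_gradient_bandMax_one_le hf hfc).trans ?_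
    exact le_mul_of_one_le_left' (by exact_mod_cast le_max_right C 1)
  obtain ⟨R, hR⟩ := hfc.isCompact.isBounded.subset_closedBall (0 : Euc d)
  have hsupp : ∀ y, y ∈ tsupport f → ‖y‖ ≤ R := fun y hy => mem_closedBall_zero_iff.1 (hR hy)
  set s : ℝ := (2 : ℝ) ^ (-((M * j : ℕ) : ℤ)) with hs
  set P : Params d := ⟨∇ f, s, M, m, 2 * j, R + 2 * 2 ^ (M * j), εP, unitVec ⟨0, hd⟩⟩ with hPdef
  have hs' : s = ((2 : ℝ) ^ (M * j))⁻¹ := by rw [hs, zpow_neg, zpow_natCast]
  have h0 : P.rho 0 = ((2 : ℝ) ^ (M * j))⁻¹ := by simp [Params.rho, hPdef, hs']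
  have hN : P.rho P.N = (2 : ℝ) ^ (M * j) := by
    show s * 2 ^ (M * (2 * j)) = _
    rw [hs', show M * (2 * j) = M * j + M * j by ring, pow_add, ← mul_assoc,
      inv_mul_cancel₀ (by positivity), one_mul]
  have hP : P.Valid :=
    ⟨continuous_gradient hf, hasCompactSupport_gradient hfc, by positivity, hm1, hmM, hεP,
      by simp [hPdef, unitVec]⟩
  have hBig : P.Big R := by
    refine ⟨fun x hx => hsupp x ?_, by rw [hN]⟩
    by_contra h
    exact hx (show ∇ f x = 0 by rw [gradient, fderiv_of_notMem_tsupport ℝ h, map_zero])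
  obtain ⟨Bud, E, hB⟩ := hbud f hf hfc P hP rfl rfl rfl ⟨_, rfl⟩
  have h := hC f hf hfc P hP rfl rfl rfl rfl (by show 1 ≤ 2 * j; omega) R hBig
    (fun y hy => hsupp y (subset_tsupport f hy)) Bud E hB
  rw [h0, hN] at h
  exact h.trans (mul_le_mul' (by exact_mod_cast le_max_left C 1) le_rfl)

end Vale.Agent.P137.Centred
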