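import Vale.Agent.P137.Centred.Bavg
import Vale.Agent.P137.Core

/-!
# P137, centred operator: the hierarchy of averaged fields and its gaps
-/

open MeasureTheory Filter Set Metric
open scoped ENNReal NNReal Topology RealInnerProductSpace

noncomputable section

namespace Vale.Agent.P137.Centred

variable {d : ℕ}

/-- The averaged fields: each step averages over a ball of doubled radius. -/
def hier (v : Euc d → Euc d) (s : ℝ) : ℕ → Euc d → Euc d
  | 0 => v
  | n + 1 => bavg (s * 2 ^ n) (hier v s n)

/-- The composition of `m` averaging steps starting at level `n`. -/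
def iter (s : ℝ) (n : ℕ) : ℕ → (Euc d → ℝ) → Euc d → ℝ
  | 0, h => h
  | m + 1, h => bavg (s * 2 ^ (n + m)) (iter s n m h)

/-- The loss of mass between the levels `n` and `n + m`. -/
def gapW (v : Euc d → Euc d) (s : ℝ) (n m : ℕ) (x : Euc d) : ℝ :=
  iter s n m (fun y => ‖hier v s n y‖) x - ‖hier v s (n + m) x‖

variable {v : Euc d → Euc d} {s : ℝ} {h : Euc d → ℝ}

lemma continuous_hier (hv : Continuous v) : ∀ n, Continuous (hier v s n)
  | 0 => hv
  | n + 1 => continuous_bavg (continuous_hier hv n) _

lemma hasCompactSupport_hier (hvc : HasCompactSupport v) : ∀ n, HasCompactSupport (hier v s n)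
  | 0 => hvc
  | n + 1 => hasCompactSupport_bavg (hasCompactSupport_hier hvc n) _

lemma integrable_norm_hier (hv : Continuous v) (hvc : HasCompactSupport v) (n : ℕ) :
    Integrable fun y => ‖hier v s n y‖ :=
  ((continuous_hier hv n).integrable_of_hasCompactSupport (hasCompactSupport_hier hvc n)).norm

lemma continuous_iter (hh : Continuous h) (n : ℕ) : ∀ m, Continuous (iter s n m h)
  | 0 => hh
  | m + 1 => continuous_bavg (continuous_iter hh n m) _

lemma hasCompactSupport_iter (hhc : HasCompactSupport h) (n : ℕ) :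
    ∀ m, HasCompactSupport (iter s n m h)
  | 0 => hhc
  | m + 1 => hasCompactSupport_bavg (hasCompactSupport_iter hhc n m) _

lemma iter_nonneg (h0 : ∀ y, 0 ≤ h y) (n : ℕ) : ∀ m x, 0 ≤ iter s n m h x
  | 0, x => h0 x
  | m + 1, x => bavg_nonneg (iter_nonneg h0 n m) _ x

lemma integral_iter (hh : Continuous h) (hhc : HasCompactSupport h) (n : ℕ) :
    ∀ m, ∫ x, iter s n m h x = ∫ x, h x
  | 0 => rfl
  | m + 1 => (integral_bavg (continuous_iter hh n m) (hasCompactSupport_iter hhc n m) _).trans
      (integral_iter hh hhc n m)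

lemma norm_hier_add_le (hv : Continuous v) (n : ℕ) :
    ∀ m x, ‖hier v s (n + m) x‖ ≤ iter s n m (fun y => ‖hier v s n y‖) x
  | 0, _ => le_rfl
  | m + 1, x => (norm_bavg_le _ _ x).trans
      (bavg_mono (continuous_hier hv _).norm (continuous_iter (continuous_hier hv n).norm n m)
        (norm_hier_add_le hv n m) _ x)

lemma gapW_nonneg (hv : Continuous v) (n m : ℕ) (x : Euc d) : 0 ≤ gapW v s n m x :=
  sub_nonneg.2 (norm_hier_add_le hv n m x)

lemma continuous_gapW (hv : Continuous v) (n m : ℕ) : Continuous (gapW v s n m) :=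
  (continuous_iter (continuous_hier hv n).norm n m).sub (continuous_hier hv _).norm

lemma integrable_gapW (hv : Continuous v) (hvc : HasCompactSupport v) (n m : ℕ) :
    Integrable (gapW v s n m) :=
  ((continuous_iter (continuous_hier hv n).norm n m).integrable_of_hasCompactSupport
    (hasCompactSupport_iter (hasCompactSupport_hier hvc n).norm n m)).sub
      (integrable_norm_hier hv hvc _)

lemma integral_gapW (hv : Continuous v) (hvc : HasCompactSupport v) (n m : ℕ) :
    ∫ x, gapW v s n m x = (∫ x, ‖hier v s n x‖) - ∫ x, ‖hier v s (n + m) x‖ := by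
  simp only [gapW]
  rw [integral_sub ((continuous_iter (continuous_hier hv n).norm n m).integrable_of_hasCompactSupport
      (hasCompactSupport_iter (hasCompactSupport_hier hvc n).norm n m))
      (integrable_norm_hier hv hvc _),
    integral_iter (continuous_hier hv n).norm (hasCompactSupport_hier hvc n).norm]

lemma antitone_integral_hier (hv : Continuous v) (hvc : HasCompactSupport v) :
    Antitone fun n => ∫ x, ‖hier v s n x‖ := by
  refine antitone_nat_of_succ_le fun n => ?_
  have h1 := integral_gapW (s := s) hv hvc n 1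
  have h2 : 0 ≤ ∫ x, gapW v s n 1 x := integral_nonneg (gapW_nonneg hv n 1)
  linarith

/-- Gaps over disjoint windows add up to at most the mass of the finest field. -/
lemma sum_integral_gapW_le (hv : Continuous v) (hvc : HasCompactSupport v) {m M : ℕ} (hm : m ≤ M)
    (a N : ℕ) :
    ∑ K ∈ Finset.range N, ∫ x, gapW v s (a + M * K) m x ≤ ∫ x, ‖v x‖ := by
  have hA := antitone_integral_hier (s := s) hv hvc
  calc ∑ K ∈ Finset.range N, ∫ x, gapW v s (a + M * K) m x
      ≤ ∑ K ∈ Finset.range N,
          ((∫ x, ‖hier v s (a + M * K) x‖) - ∫ x, ‖hier v s (a + M * (K + 1)) x‖) := by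
        refine Finset.sum_le_sum fun K _ => ?_
        rw [integral_gapW hv hvc]
        have := hA (show a + M * K + m ≤ a + M * (K + 1) by rw [Nat.mul_succ]; omega)
        simp only at this
        linarith
    _ = (∫ x, ‖hier v s a x‖) - ∫ x, ‖hier v s (a + M * N) x‖ := by
        rw [Finset.sum_range_sub' fun K => ∫ x, ‖hier v s (a + M * K) x‖]
        simp
    _ ≤ _ := by
        have h1 := hA (Nat.zero_le a)
        have h2 : 0 ≤ ∫ x, ‖hier v s (a + M * N) x‖ := integral_nonneg fun _ => norm_nonneg _
        simp only [hier] at h1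
        linarith

lemma excN_eq (w n : Euc d) : excN w n = ‖w‖ - ⟪w, n⟫ := rfl

/-- The excess evolves exactly by the gap. -/
lemma iter_excN (hv : Continuous v) (u : Euc d) (n : ℕ) : ∀ m x,
    iter s n m (fun y => excN (hier v s n y) u) x
      = gapW v s n m x + excN (hier v s (n + m) x) u := by
  have key : ∀ m x, iter s n m (fun y => excN (hier v s n y) u) x
      = iter s n m (fun y => ‖hier v s n y‖) x - ⟪hier v s (n + m) x, u⟫ := by
    intro m
    induction m with
    | zero => exact fun x => rfl
    | succ m ih =>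
      intro x
      have hc := continuous_hier (s := s) hv (n + m)
      simp only [iter, funext ih]
      rw [bavg_sub (continuous_iter (continuous_hier hv n).norm n m) (hc.inner continuous_const),
        bavg_inner hc]
      rfl
  intro m x
  rw [key, gapW, excN_eq]
  ring

/-- The weight used for the lower bound on iterated averages. -/
def capFn (x : Euc d) (ρ a : ℝ) (y : Euc d) : ℝ := max 0 (a - ‖y - x‖ ^ 2 / ρ ^ 2)

lemma capFn_le_bavg (x : Euc d) {ρ : ℝ} (a r : ℝ) (y : Euc d) :
    capFn x ρ (a - r ^ 2 / ρ ^ 2) y ≤ bavg r (capFn x ρ a) y := by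
  refine max_le (bavg_nonneg (fun _ => le_max_left _ _) r y) ?_
  have hq : Continuous fun z => a - ‖z - x‖ ^ 2 / ρ ^ 2 := by fun_prop
  refine le_trans ?_ (bavg_mono hq (continuous_const.max hq) (fun _ => le_max_right _ _) r y)
  have h1 := bavg_sqDist_le x y r
  have e : bavg r (fun z => a - ‖z - x‖ ^ 2 / ρ ^ 2) y
      = a - bavg r (fun z => ‖z - x‖ ^ 2) y / ρ ^ 2 := by
    rw [bavg_sub continuous_const (by fun_prop), bavg_const]
    simp only [bavg, smul_eq_mul, integral_div]
    ring
  rw [e]
  have := div_le_div_of_nonneg_right h1 (sq_nonneg ρ)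
  rw [add_div] at this
  linarith

lemma integral_capFn_le_iter (hh : Continuous h) (hhc : HasCompactSupport h) (h0 : ∀ y, 0 ≤ h y)
    (x : Euc d) (ρ : ℝ) (n : ℕ) : ∀ m a,
    ∫ y, h y * capFn x ρ (a - (∑ j ∈ Finset.range m, (s * 2 ^ (n + j)) ^ 2) / ρ ^ 2) y
      ≤ ∫ y, iter s n m h y * capFn x ρ a y
  | 0, a => by simp [iter]
  | m + 1, a => by
    have hc : ∀ b, Continuous (capFn x ρ b) := fun b => by unfold capFn; fun_prop
    rw [iter, integral_bavg_mul (continuous_iter hh n m) (hasCompactSupport_iter hhc n m) (hc a)]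
    refine le_trans ?_ (integral_mono
      (((continuous_iter hh n m).mul (hc _)).integrable_of_hasCompactSupport
        (hasCompactSupport_iter hhc n m).mul_right)
      (((continuous_iter hh n m).mul (continuous_bavg (hc a) _)).integrable_of_hasCompactSupport
        (hasCompactSupport_iter hhc n m).mul_right)
      fun y => mul_le_mul_of_nonneg_left (capFn_le_bavg x a _ y) (iter_nonneg h0 n m y))
    refine le_trans (le_of_eq ?_) (integral_capFn_le_iter hh hhc h0 x ρ n m _)
    congr 1
    funext y
    rw [Finset.sum_range_succ]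
    congr 2
    ring

/-- Iterated averages see all the mass near the centre. -/
lemma setIntegral_le_iter (hh : Continuous h) (hhc : HasCompactSupport h) (h0 : ∀ y, 0 ≤ h y)
    (hs : 0 < s) (n k : ℕ) (x : Euc d) :
    ∫ y in ball x (s * 2 ^ (n + k) / 2), h y
      ≤ 3 * ((s * 2 ^ (n + k)) ^ d * ballVol d) * iter s n (k + 1) h x := by
  set ρ := s * 2 ^ (n + k) with hρdef
  have hρ : 0 < ρ := by positivity
  set S := (∑ j ∈ Finset.range k, (s * 2 ^ (n + j)) ^ 2) / ρ ^ 2 with hS
  have hS1 : S ≤ 1 / 3 := by
    rw [hS, div_le_iff₀ (by positivity)]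
    have key : ∀ k, 3 * ∑ j ∈ Finset.range k, (s * 2 ^ (n + j)) ^ 2 ≤ (s * 2 ^ (n + k)) ^ 2 := by
      intro k
      induction k with
      | zero => simp; positivity
      | succ k ih => rw [Finset.sum_range_succ, ← add_assoc n k 1, pow_succ 2]; nlinarith
    have := key k
    rw [← hρdef] at this
    linarith
  have hc : ∀ b, Continuous (capFn x ρ b) := fun b => by unfold capFn; fun_prop
  have hiter := continuous_iter (s := s) hh n k
  have hitc := hasCompactSupport_iter (s := s) hhc n k
  have h1 : ∫ y, iter s n k h y * capFn x ρ 1 y ≤ ∫ y in ball x ρ, iter s n k h y := by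
    rw [← integral_indicator measurableSet_ball]
    refine integral_mono ((hiter.mul (hc 1)).integrable_of_hasCompactSupport hitc.mul_right)
      ((hiter.integrable_of_hasCompactSupport hitc).indicator measurableSet_ball) fun y => ?_
    have hy0 := iter_nonneg (s := s) h0 n k y
    by_cases hy : y ∈ ball x ρ
    · rw [indicator_of_mem hy]
      exact mul_le_of_le_one_right hy0 (max_le zero_le_one (by
        have : 0 ≤ ‖y - x‖ ^ 2 / ρ ^ 2 := by positivity
        linarith))
    · rw [indicator_of_notMem hy, capFn, max_eq_left, mul_zero]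
      rw [mem_ball_iff_norm, not_lt] at hy
      rw [sub_nonpos, one_le_div (by positivity)]
      exact pow_le_pow_left₀ hρ.le hy 2
  have h2 : (1 / 3) * ∫ y in ball x (ρ / 2), h y ≤ ∫ y, h y * capFn x ρ (1 - S) y := by
    rw [← integral_indicator measurableSet_ball, ← integral_const_mul]
    refine integral_mono (((hh.integrable_of_hasCompactSupport hhc).indicator
      measurableSet_ball).const_mul _)
      ((hh.mul (hc _)).integrable_of_hasCompactSupport hhc.mul_right) fun y => ?_
    by_cases hy : y ∈ ball x (ρ / 2)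
    · simp only [indicator_of_mem hy, capFn]
      rw [mul_comm]
      refine mul_le_mul_of_nonneg_left (le_max_of_le_right ?_) (h0 y)
      have : ‖y - x‖ ^ 2 / ρ ^ 2 ≤ 1 / 4 := by
        rw [div_le_iff₀ (by positivity)]
        have := mem_ball_iff_norm.1 hy
        nlinarith [norm_nonneg (y - x)]
      linarith
    · simp only [indicator_of_notMem hy, mul_zero]
      exact mul_nonneg (h0 y) (le_max_left _ _)
  have h3 := integral_capFn_le_iter (s := s) hh hhc h0 x ρ n k 1
  rw [iter, bavg_eq_ballAvg x hρ, ballAvg]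
  have hV : 0 < ρ ^ d * ballVol d := mul_pos (pow_pos hρ d) ballVol_pos
  rw [mul_assoc 3, ← mul_assoc (ρ ^ d * ballVol d), mul_inv_cancel₀ hV.ne', one_mul]
  linarith

/-- The weight used for the upper bound on iterated averages. -/
def rampFn (x : Euc d) (ρ R : ℝ) (y : Euc d) : ℝ := max 0 (min 1 ((R - ‖y - x‖) / ρ + 1))

lemma bavg_rampFn_le (x : Euc d) {ρ : ℝ} (hρ : 0 < ρ) (R r : ℝ) (y : Euc d) :
    bavg r (rampFn x ρ R) y ≤ rampFn x ρ (R + |r|) y := by
  rw [bavg, smul_eq_mul, inv_mul_le_iff₀ ballVol_pos]
  calc ∫ u in ball (0 : Euc d) 1, rampFn x ρ R (y + r • u)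
      ≤ ∫ _u in ball (0 : Euc d) 1, rampFn x ρ (R + |r|) y := by
        refine setIntegral_mono_on (integrable_unitBall (g := rampFn x ρ R) ?_ y r)
          (integrable_const _) measurableSet_ball fun u hu => ?_
        · unfold rampFn; fun_prop
        · refine max_le_max le_rfl (min_le_min le_rfl (add_le_add ?_ le_rfl))
          refine div_le_div_of_nonneg_right ?_ hρ.le
          have h1 : ‖y - x‖ ≤ ‖y + r • u - x‖ + ‖r • u‖ := by
            calc ‖y - x‖ = ‖(y + r • u - x) - r • u‖ := by congr 1; abel
              _ ≤ _ := norm_sub_le _ _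
          have h2 : ‖r • u‖ ≤ |r| := by
            rw [norm_smul, Real.norm_eq_abs]
            exact mul_le_of_le_one_right (abs_nonneg r) (mem_ball_zero_iff.1 hu).le
          linarith
    _ = _ := by rw [integral_const, measureReal_unitBall, smul_eq_mul]

lemma integral_iter_mul_rampFn_le (hh : Continuous h) (hhc : HasCompactSupport h)
    (h0 : ∀ y, 0 ≤ h y) (hs : 0 ≤ s) (x : Euc d) {ρ : ℝ} (hρ : 0 < ρ) (n : ℕ) : ∀ m R,
    ∫ y, iter s n m h y * rampFn x ρ R y
      ≤ ∫ y, h y * rampFn x ρ (R + ∑ j ∈ Finset.range m, s * 2 ^ (n + j)) y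
  | 0, R => by simp [iter]
  | m + 1, R => by
    have hc : ∀ b, Continuous (rampFn x ρ b) := fun b => by unfold rampFn; fun_prop
    rw [iter, integral_bavg_mul (continuous_iter hh n m) (hasCompactSupport_iter hhc n m) (hc R)]
    refine (integral_mono
      (((continuous_iter hh n m).mul (continuous_bavg (hc R) _)).integrable_of_hasCompactSupport
        (hasCompactSupport_iter hhc n m).mul_right)
      (((continuous_iter hh n m).mul (hc _)).integrable_of_hasCompactSupport
        (hasCompactSupport_iter hhc n m).mul_right)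
      fun y => mul_le_mul_of_nonneg_left (bavg_rampFn_le x hρ R _ y)
        (iter_nonneg h0 n m y)).trans ?_
    rw [abs_of_nonneg (by positivity), Finset.sum_range_succ, add_comm (∑ j ∈ _, _), ← add_assoc]
    exact integral_iter_mul_rampFn_le hh hhc h0 hs x hρ n m _

/-- Iterated averages only see the mass nearby. -/
lemma iter_le_setIntegral (hh : Continuous h) (hhc : HasCompactSupport h) (h0 : ∀ y, 0 ≤ h y)
    (hs : 0 < s) (n k : ℕ) (x : Euc d) :
    iter s n (k + 1) h x ≤ ((s * 2 ^ (n + k)) ^ d * ballVol d)⁻¹ *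
      ∫ y in closedBall x (3 * (s * 2 ^ (n + k))), h y := by
  set ρ := s * 2 ^ (n + k) with hρdef
  have hρ : 0 < ρ := by positivity
  have hS : ∑ j ∈ Finset.range k, s * 2 ^ (n + j) ≤ ρ := by
    have key : ∀ k, ∑ j ∈ Finset.range k, s * 2 ^ (n + j) ≤ s * 2 ^ (n + k) := by
      intro k
      induction k with
      | zero => simp; positivity
      | succ k ih => rw [Finset.sum_range_succ, ← add_assoc n k 1, pow_succ 2]; linarith
    exact key k
  have hc : ∀ b, Continuous (rampFn x ρ b) := fun b => by unfold rampFn; fun_prop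
  have hiter := continuous_iter (s := s) hh n k
  have hitc := hasCompactSupport_iter (s := s) hhc n k
  rw [iter, bavg_eq_ballAvg x hρ, ballAvg]
  refine mul_le_mul_of_nonneg_left ?_ (inv_nonneg.2 (mul_pos (pow_pos hρ d) ballVol_pos).le)
  refine le_trans ?_ ((integral_iter_mul_rampFn_le hh hhc h0 hs.le x hρ n k ρ).trans ?_)
  · rw [← integral_indicator measurableSet_ball]
    refine integral_mono ((hiter.integrable_of_hasCompactSupport hitc).indicator measurableSet_ball)
      ((hiter.mul (hc ρ)).integrable_of_hasCompactSupport hitc.mul_right) fun y => ?_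
    by_cases hy : y ∈ ball x ρ
    · rw [indicator_of_mem hy, rampFn, min_eq_left, max_eq_right zero_le_one, mul_one]
      have : 0 ≤ (ρ - ‖y - x‖) / ρ :=
        div_nonneg (by linarith [mem_ball_iff_norm.1 hy]) hρ.le
      linarith
    · rw [indicator_of_notMem hy]
      exact mul_nonneg (iter_nonneg h0 n k y) (le_max_left _ _)
  · rw [← integral_indicator measurableSet_closedBall]
    refine integral_mono ((hh.mul (hc _)).integrable_of_hasCompactSupport hhc.mul_right)
      ((hh.integrable_of_hasCompactSupport hhc).indicator measurableSet_closedBall) fun y => ?_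
    by_cases hy : y ∈ closedBall x (3 * ρ)
    · rw [indicator_of_mem hy]
      exact mul_le_of_le_one_right (h0 y) (max_le zero_le_one (min_le_left _ _))
    · rw [indicator_of_notMem hy, rampFn, max_eq_left, mul_zero]
      refine (min_le_right _ _).trans ?_
      rw [mem_closedBall_iff_norm, not_le] at hy
      rw [← le_neg_iff_add_nonpos_right, div_le_iff₀ hρ]
      linarith

end Vale.Agent.P137.Centred
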