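import Vale.Agent.P137.Centred.Core

/-!
# P137, centred operator: resolving a ball by the hierarchy

A ball is split into the parts which are resolved at the different levels; sums over this resolution
are compared by telescoping with the exact gap identity.
-/

open MeasureTheory Filter Set Metric
open scoped ENNReal NNReal Topology RealInnerProductSpace

noncomputable section

namespace Vale.Agent.P137.Centred

variable {d : ℕ}

section BM

variable {F : Type*} [NormedAddCommGroup F]

/-- Measurable and bounded. -/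
structure BM (φ : Euc d → F) : Prop where
  meas : StronglyMeasurable φ
  bdd : ∃ B, ∀ y, ‖φ y‖ ≤ B

lemma BM.add {φ ψ : Euc d → F} (hφ : BM φ) (hψ : BM ψ) : BM fun y => φ y + ψ y := by
  obtain ⟨B, hB⟩ := hφ.bdd
  obtain ⟨B', hB'⟩ := hψ.bdd
  exact ⟨hφ.meas.add hψ.meas, B + B', fun y => (norm_add_le _ _).trans (add_le_add (hB y) (hB' y))⟩

lemma BM.sub {φ ψ : Euc d → F} (hφ : BM φ) (hψ : BM ψ) : BM fun y => φ y - ψ y := by
  obtain ⟨B, hB⟩ := hφ.bdd
  obtain ⟨B', hB'⟩ := hψ.bdd
  exact ⟨hφ.meas.sub hψ.meas, B + B', fun y => (norm_sub_le _ _).trans (add_le_add (hB y) (hB' y))⟩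

lemma BM.smul [NormedSpace ℝ F] {φ : Euc d → ℝ} {ψ : Euc d → F} (hφ : BM φ) (hψ : BM ψ) :
    BM fun y => φ y • ψ y := by
  obtain ⟨B, hB⟩ := hφ.bdd
  obtain ⟨B', hB'⟩ := hψ.bdd
  exact ⟨hφ.meas.smul hψ.meas, B * B', fun y => by
    rw [norm_smul]
    exact mul_le_mul (hB y) (hB' y) (norm_nonneg _) ((norm_nonneg _).trans (hB y))⟩

lemma BM.const (c : F) : BM fun _ : Euc d => c :=
  ⟨stronglyMeasurable_const, ‖c‖, fun _ => le_rfl⟩

lemma BM.indicator {φ : Euc d → F} (hφ : BM φ) {S : Set (Euc d)} (hS : MeasurableSet S) :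
    BM (S.indicator φ) := by
  obtain ⟨B, hB⟩ := hφ.bdd
  refine ⟨hφ.meas.indicator hS, B, fun y => ?_⟩
  exact (norm_indicator_le_norm_self φ y).trans (hB y)

lemma BM.apply {φ : Euc d → Euc d} (hφ : BM φ) (i : Fin d) : BM fun y => φ y i := by
  obtain ⟨B, hB⟩ := hφ.bdd
  exact ⟨(EuclideanSpace.proj (𝕜 := ℝ) i).continuous.comp_stronglyMeasurable hφ.meas, B,
    fun y => (PiLp.norm_apply_le (φ y) i).trans (hB y)⟩

lemma BM.integrableOn {φ : Euc d → F} (hφ : BM φ) {S : Set (Euc d)} (hS : volume S < ∞) :
    IntegrableOn φ S := by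
  obtain ⟨B, hB⟩ := hφ.bdd
  exact ⟨hφ.meas.aestronglyMeasurable, HasFiniteIntegral.restrict_of_bounded (C := B) hS
    (ae_of_all _ hB)⟩

lemma BM.comp_add_smul {φ : Euc d → F} (hφ : BM φ) (x : Euc d) (r : ℝ) :
    BM fun u => φ (x + r • u) := by
  obtain ⟨B, hB⟩ := hφ.bdd
  exact ⟨hφ.meas.comp_measurable (by fun_prop), B, fun u => hB _⟩

lemma BM.integrable_shift {φ : Euc d → F} (hφ : BM φ) (x : Euc d) (r : ℝ) :
    IntegrableOn (fun u => φ (x + r • u)) (ball (0 : Euc d) 1) :=
  (hφ.comp_add_smul x r).integrableOn measure_ball_lt_top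

lemma BM.bavg [NormedSpace ℝ F] {φ : Euc d → F} (hφ : BM φ) (r : ℝ) : BM (bavg r φ) := by
  obtain ⟨B, hB⟩ := hφ.bdd
  have hm : StronglyMeasurable fun p : Euc d × Euc d => φ (p.1 + r • p.2) :=
    hφ.meas.comp_measurable (by fun_prop)
  refine ⟨(hm.integral_prod_right' (ν := volume.restrict (ball (0 : Euc d) 1))).const_smul _,
    B, fun x => ?_⟩
  refine (norm_bavg_le φ r x).trans ?_
  rw [Centred.bavg, smul_eq_mul, inv_mul_le_iff₀ ballVol_pos]
  refine (integral_mono_of_nonneg (ae_of_all _ fun u => norm_nonneg _) (integrable_const B)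
    (ae_of_all _ fun u => hB _)).trans_eq ?_
  rw [integral_const, measureReal_unitBall, smul_eq_mul]

lemma bavg_congr_on [NormedSpace ℝ F] {φ ψ : Euc d → F} {x : Euc d} {r : ℝ}
    (h : ∀ z, ‖z - x‖ ≤ |r| → φ z = ψ z) : bavg r φ x = bavg r ψ x := by
  unfold Centred.bavg
  congr 1
  refine setIntegral_congr_fun measurableSet_ball fun u hu => h _ ?_
  rw [add_sub_cancel_left, norm_smul, Real.norm_eq_abs]
  exact mul_le_of_le_one_right (abs_nonneg r) (mem_ball_zero_iff.1 hu).le

lemma bavg_le_bavg {φ ψ : Euc d → ℝ} (hφ : BM φ) (hψ : BM ψ) {x : Euc d} {r : ℝ}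
    (h : ∀ z, ‖z - x‖ ≤ |r| → φ z ≤ ψ z) : bavg r φ x ≤ bavg r ψ x := by
  refine mul_le_mul_of_nonneg_left ?_ (inv_pos.2 ballVol_pos).le
  refine setIntegral_mono_on (hφ.integrable_shift x r) (hψ.integrable_shift x r) measurableSet_ball
    fun u hu => h _ ?_
  rw [add_sub_cancel_left, norm_smul, Real.norm_eq_abs]
  exact mul_le_of_le_one_right (abs_nonneg r) (mem_ball_zero_iff.1 hu).le

lemma bavg_smul_const {φ : Euc d → F} [NormedSpace ℝ F] (c r : ℝ) (x : Euc d) :
    bavg r (fun y => c • φ y) x = c • bavg r φ x := by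
  unfold Centred.bavg
  rw [integral_smul, smul_comm]

/-- The averaging operator is self-adjoint against bounded weights. -/
lemma integral_bavg_mul_bdd {h φ : Euc d → ℝ} (hh : Continuous h) (hhc : HasCompactSupport h)
    (hφ : BM φ) (r : ℝ) : ∫ x, bavg r h x * φ x = ∫ x, h x * bavg r φ x := by
  set B := ball (0 : Euc d) 1
  obtain ⟨D, hD⟩ := hφ.bdd
  obtain ⟨C, hC⟩ := hhc.exists_bound_of_continuous hh
  have hu : ∀ᵐ p : Euc d × Euc d ∂(volume.prod (volume.restrict B)), p.2 ∈ B :=
    Measure.quasiMeasurePreserving_snd.ae (ae_restrict_mem measurableSet_ball)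
  have hint : Integrable (Function.uncurry fun (x : Euc d) (u : Euc d) => h (x + r • u) * φ x)
      ((volume : Measure (Euc d)).prod ((volume : Measure (Euc d)).restrict B)) := by
    set S := cthickening |r| (tsupport h)
    have hS : IsCompact S := IsCompact.cthickening hhc
    refine Integrable.mono' (g := fun p => S.indicator (fun _ => C * D) p.1)
      ((integrable_indicator_iff hS.measurableSet).2
        (integrableOn_const (hS.measure_lt_top.ne)) |>.comp_fst _) ?_ ?_
    · exact ((hh.comp (by fun_prop)).stronglyMeasurable.mul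
        (hφ.meas.comp_measurable measurable_fst)).aestronglyMeasurable
    filter_upwards [hu] with p hp
    by_cases hx : p.1 ∈ S
    · rw [indicator_of_mem hx, Function.uncurry, norm_mul]
      exact mul_le_mul (hC _) (hD _) (norm_nonneg _) ((norm_nonneg _).trans (hC 0))
    · rw [indicator_of_notMem hx, Function.uncurry]
      have : h (p.1 + r • p.2) = 0 := image_eq_zero_of_notMem_tsupport fun h' => hx (by
        refine mem_cthickening_of_dist_le p.1 _ |r| _ h' ?_
        rw [dist_self_add_right, norm_smul, Real.norm_eq_abs]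
        exact mul_le_of_le_one_right (abs_nonneg r) (mem_ball_zero_iff.1 hp).le)
      simp [this]
  have hint2 : Integrable (Function.uncurry fun (x : Euc d) (u : Euc d) => h x * φ (x + r • u))
      ((volume : Measure (Euc d)).prod ((volume : Measure (Euc d)).restrict B)) := by
    refine Integrable.mono' (g := fun p => |h p.1| * D)
      (((hh.integrable_of_hasCompactSupport hhc).abs.mul_const D).comp_fst _)
      ((hh.comp continuous_fst).stronglyMeasurable.mul
        (hφ.meas.comp_measurable (by fun_prop))).aestronglyMeasurable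
      (ae_of_all _ fun p => ?_)
    rw [Function.uncurry, norm_mul, Real.norm_eq_abs]
    exact mul_le_mul_of_nonneg_left (hD _) (abs_nonneg _)
  have key : ∀ u : Euc d, ∫ x, h (x + r • u) * φ x = ∫ x, h x * φ (x + r • (-u)) := fun u => by
    rw [← integral_add_right_eq_self (fun x => h x * φ (x + r • (-u))) (r • u)]
    simp [add_assoc]
  have e1 : ∀ x, bavg r h x * φ x = (ballVol d)⁻¹ * ∫ u in B, h (x + r • u) * φ x := fun x => by
    rw [Centred.bavg, smul_eq_mul, integral_mul_const, mul_assoc]
  simp_rw [e1]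
  rw [integral_const_mul, integral_integral_swap hint]
  simp_rw [key]
  have e2 : ∫ u in B, ∫ x, h x * φ (x + r • (-u)) = ∫ u in B, ∫ x, h x * φ (x + r • u) := by
    rw [← integral_indicator measurableSet_ball, ← integral_indicator measurableSet_ball,
      ← integral_neg_eq_self]
    refine integral_congr_ae (ae_of_all _ fun u => ?_)
    by_cases hu : u ∈ B
    · have hu' : -u ∈ B := by simpa [B] using hu
      simp [B] at hu hu'; simp [hu]
    · have hu' : -u ∉ B := by simpa [B] using hu
      simp [B] at hu hu'; simp [hu.not_gt]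
  rw [e2, ← integral_integral_swap hint2, ← integral_const_mul]
  refine integral_congr_ae (ae_of_all _ fun x => ?_)
  simp only [Centred.bavg, smul_eq_mul, integral_const_mul]
  ring

/-- A continuous function times a bounded weight supported in a ball is integrable. -/
lemma BM.integrable_mul {φ : Euc d → ℝ} (hφ : BM φ) {x : Euc d} {r : ℝ}
    (hsupp : ∀ y, y ∉ ball x r → φ y = 0) {g : Euc d → ℝ}
    (hg : ContinuousOn g (closedBall x r)) : Integrable fun y => φ y * g y := by
  obtain ⟨B, hB⟩ := hφ.bdd
  obtain ⟨G, hG⟩ := (isCompact_closedBall x r).exists_bound_of_continuousOn hg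
  have hsub : Function.support (fun y => φ y * g y) ⊆ closedBall x r := by
    intro y hy
    by_contra hcon
    exact hy (by simp [hsupp y fun h => hcon (ball_subset_closedBall h)])
  refine (integrableOn_iff_integrable_of_support_subset hsub).1 ⟨hφ.meas.aestronglyMeasurable.mul
    (hg.aestronglyMeasurable measurableSet_closedBall), ?_⟩
  refine HasFiniteIntegral.restrict_of_bounded (C := B * G) measure_closedBall_lt_top ?_
  filter_upwards [ae_restrict_mem measurableSet_closedBall] with y hy
  rw [norm_mul]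
  exact mul_le_mul (hB y) (hG y hy) (norm_nonneg _) ((norm_nonneg _).trans (hB y))

lemma BM.integrable_mul' {φ g : Euc d → ℝ} (hφ : BM φ) (hg : Continuous g)
    (hgc : HasCompactSupport g) : Integrable fun y => φ y * g y := by
  obtain ⟨B, hB⟩ := hφ.bdd
  exact (hg.integrable_of_hasCompactSupport hgc).bdd_mul (c := B) hφ.meas.aestronglyMeasurable
    (ae_of_all _ hB)

end BM

section Cut

variable {x : Euc d} {r w w' : ℝ}

lemma bm_cut : BM (cut x r w) := (BM.const (1 : ℝ)).indicator measurableSet_ball

lemma cut_nonneg (y : Euc d) : 0 ≤ cut x r w y := indicator_nonneg (fun _ _ => zero_le_one) y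

lemma cut_le_one (y : Euc d) : cut x r w y ≤ 1 :=
  indicator_le' (fun _ _ => le_rfl) (fun _ _ => zero_le_one) y

lemma cut_of_mem {y : Euc d} (h : ‖y - x‖ < r - w) : cut x r w y = 1 :=
  indicator_of_mem (mem_ball_iff_norm.2 h) _

lemma cut_of_notMem {y : Euc d} (h : r - w ≤ ‖y - x‖) : cut x r w y = 0 :=
  indicator_of_notMem (fun hy => (mem_ball_iff_norm.1 hy).not_ge h) _

lemma cut_anti (h : w ≤ w') (y : Euc d) : cut x r w' y ≤ cut x r w y :=
  indicator_le_indicator_of_subset (ball_subset_ball (by linarith)) (fun _ => zero_le_one) y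

lemma cut_eq_zero (h : r ≤ w) (y : Euc d) : cut x r w y = 0 :=
  cut_of_notMem (le_trans (by linarith) (norm_nonneg _))

lemma bavg_cut_nonneg (h : ℝ) (y : Euc d) : 0 ≤ bavg h (cut x r w) y :=
  bavg_nonneg cut_nonneg h y

/-- The average of a smaller cut is below a larger one. -/
lemma bavg_cut_le {h : ℝ} (hw : w + |h| ≤ w') (y : Euc d) :
    bavg h (cut x r w') y ≤ cut x r w y := by
  by_cases hy : ‖y - x‖ < r - w
  · rw [cut_of_mem hy, ← bavg_const (1 : ℝ) h y]
    exact bavg_le_bavg bm_cut (BM.const 1) fun z _ => cut_le_one z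
  · refine le_of_eq ?_
    rw [cut_of_notMem (not_lt.1 hy), ← bavg_const (0 : ℝ) h y]
    refine bavg_congr_on fun z hz => cut_of_notMem ?_
    linarith [not_lt.1 hy, norm_sub_le_norm_sub_add_norm_sub y z x, norm_sub_rev y z]

/-- The average of a larger cut is one on a smaller one. -/
lemma bavg_cut_eq_one {h : ℝ} (hw : w' + |h| ≤ w) {y : Euc d} (hy : ‖y - x‖ < r - w) :
    bavg h (cut x r w') y = 1 := by
  rw [← bavg_const (1 : ℝ) h y]
  refine bavg_congr_on fun z hz => cut_of_mem ?_
  linarith [norm_sub_le_norm_sub_add_norm_sub z y x]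

lemma stp_succ (s : ℝ) (l : ℕ) : stp s (l + 1) = 2 * stp s l := by
  simp [stp, pow_succ]; ring

lemma stp_pos {s : ℝ} (hs : 0 < s) (l : ℕ) : 0 < stp s l := by unfold stp; positivity

lemma stp_zero (s : ℝ) : stp s 0 = s := by simp [stp]

variable {s C : ℝ} {l : ℕ} {y : Euc d}

lemma bavg_cut_succ_le (hs : 0 < s) (hC : 1 ≤ C) (l : ℕ) (y : Euc d) :
    bavg (stp s l) (cut x r (C * stp s (l + 1))) y ≤ cut x r (C * stp s l) y := by
  refine bavg_cut_le ?_ y
  have := stp_pos hs l
  rw [abs_of_pos this, stp_succ]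
  nlinarith

lemma bm_incr : BM (incr s C x r l) := bm_cut.sub (bm_cut.bavg _)

lemma incr_nonneg (hs : 0 < s) (hC : 1 ≤ C) (l : ℕ) (y : Euc d) : 0 ≤ incr s C x r l y :=
  sub_nonneg.2 (bavg_cut_succ_le hs hC l y)

lemma incr_le_cut (l : ℕ) (y : Euc d) : incr s C x r l y ≤ cut x r (C * stp s l) y :=
  sub_le_self _ (bavg_cut_nonneg _ _)

lemma incr_le_one (l : ℕ) (y : Euc d) : incr s C x r l y ≤ 1 :=
  (incr_le_cut l y).trans (cut_le_one y)

lemma incr_eq_zero (hs : 0 < s) (hC : 1 ≤ C) (h : r - C * stp s l ≤ ‖y - x‖) :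
    incr s C x r l y = 0 :=
  le_antisymm ((incr_le_cut l y).trans (cut_of_notMem h).le) (incr_nonneg hs hC l y)

lemma incr_eq_zero_of_notMem (hs : 0 < s) (hC : 1 ≤ C) (hy : y ∉ ball x r) :
    incr s C x r l y = 0 := by
  refine incr_eq_zero hs hC ?_
  rw [mem_ball_iff_norm, not_lt] at hy
  nlinarith [stp_pos hs l]

lemma bm_fin0 : BM (fin0 s C x r) := bm_cut.sub bm_cut

lemma fin0_nonneg (hs : 0 < s) (hC : 0 ≤ C) (y : Euc d) : 0 ≤ fin0 s C x r y :=
  sub_nonneg.2 (cut_anti (by positivity) y)

lemma fin0_le_cut (y : Euc d) : fin0 s C x r y ≤ cut x r 0 y := sub_le_self _ (cut_nonneg y)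

lemma fin0_eq_zero_of_notMem (hs : 0 < s) (hC : 0 ≤ C) (hy : y ∉ ball x r) :
    fin0 s C x r y = 0 := by
  rw [mem_ball_iff_norm, not_lt] at hy
  rw [fin0, cut_of_notMem (by linarith), cut_of_notMem (by nlinarith), sub_zero]

end Cut

section Energy

variable {v : Euc d → Euc d} {s : ℝ}

/-- A nonnegative quantity which evolves by the gaps. -/
structure Energy (v : Euc d → Euc d) (s : ℝ) (E : ℕ → Euc d → ℝ) : Prop where
  cont : ∀ l, Continuous (E l)
  supp : ∀ l, HasCompactSupport (E l)
  nonneg : ∀ l y, 0 ≤ E l y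
  step : ∀ l y, bavg (stp s l) (E l) y = E (l + 1) y + gap v s l y

lemma energy_norm (hv : Continuous v) (hvc : HasCompactSupport v) :
    Energy v s fun l y => ‖hier v s l y‖ where
  cont l := (continuous_hier hv l).norm
  supp l := (hasCompactSupport_hier hvc l).norm
  nonneg l y := norm_nonneg _
  step l y := by
    simp only [gap, gapW, iter, add_zero]
    rw [stp]
    ring

lemma energy_excN (hv : Continuous v) (hvc : HasCompactSupport v) {n : Euc d} (hn : ‖n‖ = 1) :
    Energy v s fun l y => excN (hier v s l y) n where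
  cont l := (continuous_hier hv l).norm.sub ((continuous_hier hv l).inner continuous_const)
  supp l := (hasCompactSupport_hier (s := s) hvc l).mono' fun y hy => subset_closure fun h0 => hy (by
    simp [excN, h0])
  nonneg l y := excN_nonneg _ hn
  step l y := by
    have h := iter_excN (s := s) hv n l 1 y
    simp only [iter, add_zero] at h
    rw [stp, h, gap, add_comm]

variable {E : ℕ → Euc d → ℝ}

lemma Energy.gap_cont (hv : Continuous v) (l : ℕ) : Continuous (gap v s l) :=
  continuous_gapW hv l 1

lemma hasCompactSupport_gap (hvc : HasCompactSupport v) (l : ℕ) :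
    HasCompactSupport (gap v s l) := by
  unfold gap gapW
  exact (hasCompactSupport_iter (hasCompactSupport_hier hvc l).norm l 1).sub
    (hasCompactSupport_hier hvc _).norm

lemma gap_nonneg (hv : Continuous v) (l : ℕ) (y : Euc d) : 0 ≤ gap v s l y := gapW_nonneg hv l 1 y

lemma Energy.integral_bavg (hE : Energy v s E) (hv : Continuous v) (hvc : HasCompactSupport v)
    {φ : Euc d → ℝ} (hφ : BM φ) (l : ℕ) :
    ∫ y, bavg (stp s l) φ y * E l y = (∫ y, φ y * E (l + 1) y) + ∫ y, φ y * gap v s l y := by
  rw [← integral_add (hφ.integrable_mul' (hE.cont _) (hE.supp _))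
    (hφ.integrable_mul' (Energy.gap_cont hv l) (hasCompactSupport_gap hvc l))]
  simp only [← mul_add, ← hE.step]
  rw [integral_congr_ae (ae_of_all _ fun y => mul_comm (bavg (stp s l) φ y) (E l y)),
    ← integral_bavg_mul_bdd (hE.cont l) (hE.supp l) hφ]
  exact integral_congr_ae (ae_of_all _ fun y => mul_comm _ _)

/-- Telescoping a pointwise inequality between consecutive levels. -/
lemma Energy.tele (hE : Energy v s E) (hv : Continuous v) (hvc : HasCompactSupport v)
    {a b P : ℕ → Euc d → ℝ} (ha : ∀ l, BM (a l)) (hb : ∀ l, BM (b l)) (hP : ∀ l, BM (P l))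
    {N : ℕ} (h : ∀ l < N, ∀ y, a l y + P l y ≤ b l y + bavg (stp s l) (P (l + 1)) y) :
    (∑ l ∈ Finset.range N, ∫ y, a l y * E l y) + ∫ y, P 0 y * E 0 y ≤
      (∑ l ∈ Finset.range N, ∫ y, b l y * E l y) + (∫ y, P N y * E N y) +
        ∑ l ∈ Finset.range N, ∫ y, P (l + 1) y * gap v s l y := by
  induction N with
  | zero => simp
  | succ N ih =>
    have h' := ih fun l hl => h l (hl.trans N.lt_succ_self)
    have i1 := (ha N).integrable_mul' (hE.cont N) (hE.supp N)
    have i2 := (hP N).integrable_mul' (hE.cont N) (hE.supp N)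
    have i3 := (hb N).integrable_mul' (hE.cont N) (hE.supp N)
    have i4 := ((hP (N + 1)).bavg (stp s N)).integrable_mul' (hE.cont N) (hE.supp N)
    have h1 : (∫ y, a N y * E N y) + ∫ y, P N y * E N y ≤
        (∫ y, b N y * E N y) + ∫ y, bavg (stp s N) (P (N + 1)) y * E N y := by
      rw [← integral_add i1 i2, ← integral_add i3 i4]
      refine integral_mono (i1.add i2) (i3.add i4) fun y => ?_
      simp only [← add_mul]
      exact mul_le_mul_of_nonneg_right (h N N.lt_succ_self y) (hE.nonneg N y)
    rw [hE.integral_bavg hv hvc (hP (N + 1))] at h1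
    rw [Finset.sum_range_succ, Finset.sum_range_succ, Finset.sum_range_succ]
    linarith

end Energy

section Res

variable {v : Euc d → Euc d} {s C r : ℝ} {x : Euc d} {N : ℕ}

/-- A sum over the resolution of a ball. -/
def res (s C : ℝ) (x : Euc d) (r : ℝ) (N : ℕ) (g : ℕ → Euc d → ℝ) : ℝ :=
  (∫ y, fin0 s C x r y * g 0 y) + ∑ l ∈ Finset.range N, ∫ y, incr s C x r l y * g l y

lemma resInt_eq_res (w : ℕ → Euc d → ℝ) :
    resInt v s C x r N w = res s C x r N fun l y => w l y * ‖hier v s l y‖ := by
  simp only [resInt, res, mul_assoc]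
  rfl

lemma allMass_eq_res :
    allMass v s C x r N = res s C x r N fun l y => ‖hier v s l y‖ := by
  simp only [allMass, resInt_eq_res, one_mul]

lemma integrable_fin0_mul (hs : 0 < s) (hC : 0 ≤ C) {g : Euc d → ℝ}
    (hg : ContinuousOn g (closedBall x r)) : Integrable fun y => fin0 s C x r y * g y :=
  bm_fin0.integrable_mul (fun _ hy => fin0_eq_zero_of_notMem hs hC hy) hg

lemma integrable_incr_mul (hs : 0 < s) (hC : 1 ≤ C) (l : ℕ) {g : Euc d → ℝ}
    (hg : ContinuousOn g (closedBall x r)) : Integrable fun y => incr s C x r l y * g y :=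
  bm_incr.integrable_mul (fun _ hy => incr_eq_zero_of_notMem hs hC hy) hg

variable {g g' : ℕ → Euc d → ℝ}

lemma res_add (hs : 0 < s) (hC : 1 ≤ C) (hg : ∀ l, ContinuousOn (g l) (closedBall x r))
    (hg' : ∀ l, ContinuousOn (g' l) (closedBall x r)) :
    res s C x r N (fun l y => g l y + g' l y) = res s C x r N g + res s C x r N g' := by
  have hC0 : 0 ≤ C := zero_le_one.trans hC
  unfold res
  simp only [mul_add]
  rw [integral_add (integrable_fin0_mul hs hC0 (hg 0)) (integrable_fin0_mul hs hC0 (hg' 0)),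
    Finset.sum_congr rfl fun l _ =>
      integral_add (integrable_incr_mul hs hC l (hg l)) (integrable_incr_mul hs hC l (hg' l)),
    Finset.sum_add_distrib]
  ring

lemma res_const_mul (c : ℝ) :
    res s C x r N (fun l y => c * g l y) = c * res s C x r N g := by
  unfold res
  simp only [mul_left_comm _ c, integral_const_mul, ← Finset.mul_sum, mul_add]

lemma res_mono (hs : 0 < s) (hC : 1 ≤ C) (hg : ∀ l, ContinuousOn (g l) (closedBall x r))
    (hg' : ∀ l, ContinuousOn (g' l) (closedBall x r))
    (h0 : ∀ y ∈ ball x r, fin0 s C x r y ≠ 0 → g 0 y ≤ g' 0 y)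
    (h : ∀ l < N, ∀ y ∈ ball x r, incr s C x r l y ≠ 0 → g l y ≤ g' l y) :
    res s C x r N g ≤ res s C x r N g' := by
  have hC0 : 0 ≤ C := zero_le_one.trans hC
  refine add_le_add (integral_mono (integrable_fin0_mul hs hC0 (hg 0))
    (integrable_fin0_mul hs hC0 (hg' 0)) fun y => ?_) (Finset.sum_le_sum fun l hl =>
      integral_mono (integrable_incr_mul hs hC l (hg l)) (integrable_incr_mul hs hC l (hg' l))
        fun y => ?_)
  · simp only
    by_cases hz : fin0 s C x r y = 0
    · rw [hz, zero_mul, zero_mul]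
    · exact mul_le_mul_of_nonneg_left (h0 y (by_contra fun hy =>
        hz (fin0_eq_zero_of_notMem hs hC0 hy)) hz) (fin0_nonneg hs hC0 y)
  · simp only
    by_cases hz : incr s C x r l y = 0
    · rw [hz, zero_mul, zero_mul]
    · exact mul_le_mul_of_nonneg_left (h l (Finset.mem_range.1 hl) y (by_contra fun hy =>
        hz (incr_eq_zero_of_notMem hs hC hy)) hz) (incr_nonneg hs hC l y)

lemma res_nonneg (hs : 0 < s) (hC : 1 ≤ C) (h : ∀ l, ∀ y ∈ ball x r, 0 ≤ g l y) :
    0 ≤ res s C x r N g := by
  have hC0 : 0 ≤ C := zero_le_one.trans hC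
  refine add_nonneg (integral_nonneg fun y => ?_) (Finset.sum_nonneg fun l _ =>
    integral_nonneg fun y => ?_)
  · by_cases hy : y ∈ ball x r
    · exact mul_nonneg (fin0_nonneg hs hC0 y) (h 0 y hy)
    · simp [fin0_eq_zero_of_notMem hs hC0 hy]
  · by_cases hy : y ∈ ball x r
    · exact mul_nonneg (incr_nonneg hs hC l y) (h l y hy)
    · simp [incr_eq_zero_of_notMem hs hC hy]

variable {E : ℕ → Euc d → ℝ}

/-- The resolution with an increasing weight is paid for by the top level and the gaps in the
shells. -/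
lemma Energy.res_le (hE : Energy v s E) (hv : Continuous v) (hvc : HasCompactSupport v)
    (hs : 0 < s) (hC : 1 ≤ C) {α : ℕ → Euc d → ℝ} (hαc : ∀ l, Continuous (α l))
    (hα0 : ∀ l y, 0 ≤ α l y)
    (hα : ∀ l y z, ‖z - y‖ ≤ stp s l → α l y ≤ α (l + 1) z) :
    res s C x r N (fun l y => α l y * E l y) ≤
      (∫ y in closedBall x (r + stp s N), α N y * E N y) +
        ∑ l ∈ Finset.range N, ∫ y in shell x r (2 * C * stp s l), α (l + 1) y * gap v s l y := by
  have hC0 : 0 ≤ C := zero_le_one.trans hC
  set P : ℕ → Euc d → ℝ := fun l => (ball x (r + stp s l)).indicator (α l) -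
    fun y => cut x r (C * stp s l) y * α l y with hP
  set Q : ℕ → Euc d → ℝ := fun l y =>
    (cut x r (-stp s l) y - cut x r (C * stp s l) y) with hQ
  have hαB : ∀ l, ∃ B, ∀ y, ‖y - x‖ ≤ r + stp s l → α l y ≤ B := by
    intro l
    obtain ⟨B, hB⟩ := (isCompact_closedBall x (r + stp s l)).exists_bound_of_continuousOn
      (hαc l).continuousOn
    exact ⟨B, fun y hy => (le_abs_self _).trans (hB y (mem_closedBall_iff_norm.2 hy))⟩
  have hQ0 : ∀ l y, 0 ≤ Q l y := fun l y => sub_nonneg.2 (cut_anti (by nlinarith [stp_pos hs l]) y)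
  have hQout : ∀ l y, r + stp s l ≤ ‖y - x‖ → Q l y = 0 := fun l y hy => by
    simp only [hQ]
    rw [cut_of_notMem (by linarith), cut_of_notMem (by nlinarith [stp_pos hs l]), sub_zero]
  have hm : ∀ l, StronglyMeasurable fun y => Q l y * α l y := fun l =>
    (bm_cut.sub bm_cut).meas.mul (hαc l).stronglyMeasurable
  have hbm : ∀ l, BM fun y => Q l y * α l y := by
    intro l
    obtain ⟨B, hB⟩ := hαB l
    refine ⟨hm l, max B 0, fun y => ?_⟩
    rw [Real.norm_eq_abs, abs_of_nonneg (mul_nonneg (hQ0 l y) (hα0 l y))]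
    rcases lt_or_ge ‖y - x‖ (r + stp s l) with hy | hy
    · refine (mul_le_of_le_one_left (hα0 l y) ?_).trans ((hB y hy.le).trans (le_max_left _ _))
      exact (sub_le_self _ (cut_nonneg y)).trans (cut_le_one y)
    · rw [hQout l y hy, zero_mul]; exact le_max_right _ _
  have ha : ∀ l, BM fun y => incr s C x r l y * α l y := by
    intro l
    obtain ⟨B, hB⟩ := hαB l
    refine ⟨bm_incr.meas.mul (hαc l).stronglyMeasurable, max B 0, fun y => ?_⟩
    rw [Real.norm_eq_abs, abs_of_nonneg (mul_nonneg (incr_nonneg hs hC l y) (hα0 l y))]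
    by_cases hy : y ∈ ball x r
    · refine (mul_le_of_le_one_left (hα0 l y) (incr_le_one l y)).trans
        ((hB y ?_).trans (le_max_left _ _))
      linarith [mem_ball_iff_norm.1 hy, stp_pos hs l]
    · rw [incr_eq_zero_of_notMem hs hC hy, zero_mul]; exact le_max_right _ _
  have key := hE.tele hv hvc (a := fun l y => incr s C x r l y * α l y) (b := fun _ _ => 0)
    (P := fun l y => Q l y * α l y) (N := N) ha (fun _ => BM.const 0) hbm fun l _ y => by
      rw [zero_add]
      rcases lt_or_ge ‖y - x‖ (r + stp s l) with hy | hy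
      · have h1 : bavg (stp s l) (cut x r (-stp s (l + 1))) y = 1 := by
          refine bavg_cut_eq_one (w := -stp s l) ?_ (by linarith)
          rw [abs_of_pos (stp_pos hs l), stp_succ]; linarith
        have h2 : α l y * (1 - bavg (stp s l) (cut x r (C * stp s (l + 1))) y) ≤
            bavg (stp s l) (fun z => Q (l + 1) z * α (l + 1) z) y := by
          rw [← h1]
          have e : bavg (stp s l) (Q (l + 1)) y = bavg (stp s l) (cut x r (-stp s (l + 1))) y -
              bavg (stp s l) (cut x r (C * stp s (l + 1))) y := by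
            simp only [hQ, Centred.bavg, ← smul_sub]
            rw [integral_sub (bm_cut.integrable_shift y _) (bm_cut.integrable_shift y _)]
          rw [← e, ← smul_eq_mul, ← bavg_smul_const]
          refine bavg_le_bavg ((BM.const (α l y)).smul (bm_cut.sub bm_cut)) (hbm (l + 1))
            fun z hz => ?_
          rw [smul_eq_mul, mul_comm]
          exact mul_le_mul_of_nonneg_left
            (hα l y z (by rwa [abs_of_pos (stp_pos hs l)] at hz)) (hQ0 _ _)
        refine le_trans (le_of_eq ?_) h2
        simp only [hQ, incr]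
        rw [cut_of_mem (w := -stp s l) (by linarith)]
        ring
      · rw [hQout l y hy, incr_eq_zero hs hC (by nlinarith [stp_pos hs l]), zero_mul, zero_add]
        exact bavg_nonneg (fun z => mul_nonneg (hQ0 _ z) (hα0 _ z)) _ y
  simp only [zero_mul, integral_zero, Finset.sum_const_zero, zero_add] at key
  have hfin : ∫ y, fin0 s C x r y * (α 0 y * E 0 y) ≤ ∫ y, Q 0 y * α 0 y * E 0 y := by
    refine integral_mono (integrable_fin0_mul hs hC0 ((hαc 0).mul (hE.cont 0)).continuousOn)
      ((hbm 0).integrable_mul' (hE.cont 0) (hE.supp 0)) fun y => ?_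
    simp only [mul_assoc]
    refine mul_le_mul_of_nonneg_right ?_ (mul_nonneg (hα0 0 y) (hE.nonneg 0 y))
    simp only [hQ, fin0, stp_zero]
    exact sub_le_sub_right (cut_anti (by linarith) y) _
  have htop : ∫ y, Q N y * α N y * E N y ≤
      ∫ y in closedBall x (r + stp s N), α N y * E N y := by
    rw [← integral_indicator measurableSet_closedBall]
    refine integral_mono ((hbm N).integrable_mul' (hE.cont N) (hE.supp N))
      ((((hαc N).mul (hE.cont N)).continuousOn.integrableOn_compact
        (isCompact_closedBall _ _)).integrable_indicator measurableSet_closedBall) fun y => ?_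
    have h0 := mul_nonneg (hα0 N y) (hE.nonneg N y)
    simp only [mul_assoc]
    by_cases hy : y ∈ closedBall x (r + stp s N)
    · rw [indicator_of_mem hy]
      exact mul_le_of_le_one_left h0 ((sub_le_self _ (cut_nonneg y)).trans (cut_le_one y))
    · rw [indicator_of_notMem hy, hQout N y (le_of_lt (by
        rwa [mem_closedBall_iff_norm, not_le] at hy)), zero_mul]
  have hgap : ∀ l, ∫ y, Q (l + 1) y * α (l + 1) y * gap v s l y ≤
      ∫ y in shell x r (2 * C * stp s l), α (l + 1) y * gap v s l y := by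
    intro l
    have hsm : MeasurableSet (shell x r (2 * C * stp s l)) :=
      (isClosed_le (by fun_prop) continuous_const).measurableSet
    rw [← integral_indicator hsm]
    have hgi : Integrable fun y => α (l + 1) y * gap v s l y :=
      ((hαc _).mul (Energy.gap_cont hv l)).integrable_of_hasCompactSupport
        (hasCompactSupport_gap hvc l).mul_left
    refine integral_mono ((hbm _).integrable_mul' (Energy.gap_cont hv l)
      (hasCompactSupport_gap hvc l)) (hgi.indicator hsm) fun y => ?_
    have h0 := mul_nonneg (hα0 (l + 1) y) (gap_nonneg (s := s) hv l y)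
    simp only
    rw [mul_assoc (Q (l + 1) y)]
    by_cases hy : y ∈ shell x r (2 * C * stp s l)
    · rw [indicator_of_mem hy]
      exact mul_le_of_le_one_left h0 ((sub_le_self _ (cut_nonneg y)).trans (cut_le_one y))
    · rw [indicator_of_notMem hy]
      refine le_of_eq ?_
      simp only [shell, mem_ofPred_eq, not_le, lt_abs] at hy
      have hp := stp_pos hs l
      rcases hy with hy | hy
      · rw [hQout (l + 1) y (by rw [stp_succ]; nlinarith), zero_mul]
      · simp only [hQ]
        rw [cut_of_mem (w := -stp s (l + 1)) (by rw [stp_succ]; nlinarith),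
          cut_of_mem (w := C * stp s (l + 1)) (by rw [stp_succ]; linarith), sub_self, zero_mul]
  have hsum := Finset.sum_le_sum (s := Finset.range N) fun l _ => hgap l
  unfold res
  simp only [← mul_assoc] at hfin ⊢
  linarith

/-- The sum of the steps times the resolved masses. -/
lemma Energy.sum_stp_cut_le (hE : Energy v s E) (hv : Continuous v) (hvc : HasCompactSupport v)
    (hs : 0 < s) (hC : 1 ≤ C) (hN : r ≤ C * stp s N) :
    ∑ l ∈ Finset.range N, stp s l * ∫ y, cut x r (C * stp s l) y * E l y ≤
      2 * ∑ l ∈ Finset.range N, stp s l * ((∫ y, incr s C x r l y * E l y) +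
        ∫ y, cut x r (C * stp s (l + 1)) y * gap v s l y) := by
  set X : ℕ → ℝ := fun l => ∫ y, cut x r (C * stp s l) y * E l y with hX
  set I : ℕ → ℝ := fun l => (∫ y, incr s C x r l y * E l y) +
    ∫ y, cut x r (C * stp s (l + 1)) y * gap v s l y with hI
  have hrec : ∀ l, X l = I l + X (l + 1) := by
    intro l
    have h1 := hE.integral_bavg hv hvc (bm_cut (x := x) (r := r) (w := C * stp s (l + 1))) l
    have h2 : ∫ y, incr s C x r l y * E l y =
        X l - ∫ y, bavg (stp s l) (cut x r (C * stp s (l + 1))) y * E l y := by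
      simp only [hX, incr, sub_mul]
      exact integral_sub (bm_cut.integrable_mul' (hE.cont l) (hE.supp l))
        ((bm_cut.bavg _).integrable_mul' (hE.cont l) (hE.supp l))
    simp only [hI]
    linarith [show X (l + 1) = ∫ y, cut x r (C * stp s (l + 1)) y * E (l + 1) y from rfl]
  have hXN : X N = 0 := by simp [hX, cut_eq_zero hN]
  have key : ∀ n, ∑ l ∈ Finset.range n, stp s l * X l ≤
      2 * (∑ l ∈ Finset.range n, stp s l * I l) + (stp s n - s) * X n := by
    intro n
    induction n with
    | zero => simp [stp_zero]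
    | succ n ih =>
      have hnn : 0 ≤ X n := integral_nonneg fun y => mul_nonneg (cut_nonneg y) (hE.nonneg n y)
      rw [Finset.sum_range_succ, Finset.sum_range_succ, stp_succ]
      have hI0 : 0 ≤ I n := add_nonneg
        (integral_nonneg fun y => mul_nonneg (incr_nonneg hs hC n y) (hE.nonneg n y))
        (integral_nonneg fun y => mul_nonneg (cut_nonneg y) (gap_nonneg hv n y))
      have := hrec n
      have h2 : (2 * stp s n - s) * X n = (2 * stp s n - s) * (I n + X (n + 1)) := by rw [← this]
      linarith [mul_nonneg hs.le hI0, h2]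
  have := key N
  rw [hXN, mul_zero, add_zero] at this
  exact this

lemma bavg_apply {φ : Euc d → Euc d} (hφ : BM φ) (h : ℝ) (y : Euc d) (i : Fin d) :
    (bavg h φ y) i = bavg h (fun z => φ z i) y := by
  simp only [Centred.bavg, PiLp.smul_apply]
  congr 1
  exact ((EuclideanSpace.proj (𝕜 := ℝ) i).integral_comp_comm (hφ.integrable_shift y h)).symm

lemma inner_eq_sum_mul (a b : Euc d) : ⟪a, b⟫ = ∑ i, a i * b i := by
  rw [PiLp.inner_apply]
  exact Finset.sum_congr rfl fun i _ => by simp [mul_comm]

lemma integrable_inner_bdd {g φ : Euc d → Euc d} (hg : Continuous g) (hgc : HasCompactSupport g)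
    (hφ : BM φ) : Integrable fun y => ⟪g y, φ y⟫ := by
  simp only [inner_eq_sum_mul]
  refine integrable_finsetSum _ fun i _ => ?_
  exact (((hφ.apply i).integrable_mul' ((EuclideanSpace.proj (𝕜 := ℝ) i).continuous.comp hg)
    (hgc.comp_left (g := fun w : Euc d => w i) rfl))).congr
      (ae_of_all _ fun y => mul_comm _ _)

/-- Self-adjointness for vector fields. -/
lemma integral_inner_hier_succ (hv : Continuous v) (hvc : HasCompactSupport v) {φ : Euc d → Euc d}
    (hφ : BM φ) (l : ℕ) :
    ∫ y, ⟪hier v s (l + 1) y, φ y⟫ = ∫ y, ⟪hier v s l y, bavg (stp s l) φ y⟫ := by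
  have hl := continuous_hier (s := s) hv l
  have hci : ∀ i, Continuous fun y => hier v s l y i :=
    fun i => (EuclideanSpace.proj (𝕜 := ℝ) i).continuous.comp hl
  have hcs : ∀ i, HasCompactSupport fun y => hier v s l y i :=
    fun i => (hasCompactSupport_hier hvc l).comp_left (g := fun w : Euc d => w i) rfl
  have e : ∀ y i, hier v s (l + 1) y i = bavg (stp s l) (fun z => hier v s l z i) y := by
    intro y i
    simp only [hier, stp, Centred.bavg, PiLp.smul_apply]
    congr 1
    exact ((EuclideanSpace.proj (𝕜 := ℝ) i).integral_comp_comm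
      (integrable_unitBall hl y _)).symm
  simp only [inner_eq_sum_mul, e, bavg_apply hφ]
  rw [integral_finsetSum _ fun i _ => ?_, integral_finsetSum _ fun i _ => ?_]
  · exact Finset.sum_congr rfl fun i _ => integral_bavg_mul_bdd (hci i) (hcs i) (hφ.apply i) _
  · exact (((hφ.apply i).bavg _).integrable_mul' (hci i) (hcs i)).congr
      (ae_of_all _ fun y => mul_comm _ _)
  · exact ((hφ.apply i).integrable_mul' (continuous_bavg (hci i) _)
      (hasCompactSupport_bavg (hcs i) _)).congr (ae_of_all _ fun y => mul_comm _ _)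

/-- A pairing with a Lipschitz field, resolved. -/
theorem neg_setIntegral_inner_le (hv : Continuous v) (hvc : HasCompactSupport v) (hs : 0 < s)
    (hC : 1 ≤ C) (hN : r ≤ C * stp s N) {ξ : Euc d → Euc d}
    (hξ : ContinuousOn ξ (closedBall x r)) {L : ℝ} (hL : 0 ≤ L)
    (hLip : ∀ y ∈ closedBall x r, ∀ z ∈ closedBall x r, ‖ξ y - ξ z‖ ≤ L * ‖y - z‖) :
    -∫ y in ball x r, ⟪v y, ξ y⟫ ≤
      res s C x r N (fun l y => -⟪hier v s l y, ξ y⟫) +
        2 * L * ∑ l ∈ Finset.range N, stp s l * ((∫ y, incr s C x r l y * ‖hier v s l y‖) +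
          ∫ y, cut x r (C * stp s (l + 1)) y * gap v s l y) := by
  have hC0 : 0 ≤ C := zero_le_one.trans hC
  obtain ⟨B, hB⟩ := (isCompact_closedBall x r).exists_bound_of_continuousOn hξ
  set ζ : Euc d → Euc d := (closedBall x r).indicator ξ with hζdef
  have hζ : BM ζ := by
    refine ⟨?_, max B 0, fun y => ?_⟩
    · classical
      rw [hζdef, ← piecewise_eq_indicator]
      exact (hξ.measurable_piecewise continuousOn_const measurableSet_closedBall).stronglyMeasurable
    by_cases hy : y ∈ closedBall x r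
    · rw [hζdef, indicator_of_mem hy]; exact (hB y hy).trans (le_max_left _ _)
    · rw [hζdef, indicator_of_notMem hy, norm_zero]; exact le_max_right _ _
  set φ : ℕ → Euc d → Euc d := fun l y => cut x r (C * stp s l) y • ζ y with hφ
  have hφb : ∀ l, BM (φ l) := fun l => bm_cut.smul hζ
  set Y : ℕ → ℝ := fun l => ∫ y, ⟪hier v s l y, φ l y⟫ with hY
  set c : ℕ → Euc d → Euc d := fun l y => bavg (stp s l) (φ (l + 1)) y -
    bavg (stp s l) (cut x r (C * stp s (l + 1))) y • ζ y with hc
  have hcb : ∀ l, BM (c l) := fun l => ((hφb _).bavg _).sub ((bm_cut.bavg _).smul hζ)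
  have hnorm : ∀ l y, ‖c l y‖ ≤ L * stp s l * cut x r (C * stp s l) y := by
    intro l y
    set h := stp s l with hh
    have hh0 := stp_pos hs l
    set ψ := cut x r (C * stp s (l + 1)) with hψ
    have e : c l y = bavg h (fun z => ψ z • (ζ z - ζ y)) y := by
      simp only [hc, hφ, Centred.bavg, smul_sub]
      rw [integral_sub ((bm_cut.smul hζ).integrable_shift y h)
        ((bm_cut.smul (BM.const (ζ y))).integrable_shift y h), integral_smul_const, smul_sub,
        smul_eq_mul, smul_smul]
    rw [e]
    refine (norm_bavg_le _ _ _).trans ?_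
    refine le_trans ?_ (mul_le_mul_of_nonneg_left (bavg_cut_succ_le hs hC l y)
      (mul_nonneg hL hh0.le))
    have hb1 : BM fun z => ‖ψ z • (ζ z - ζ y)‖ := by
      obtain ⟨b, hb⟩ := (bm_cut.smul (hζ.sub (BM.const (ζ y))) : BM fun z => ψ z • (ζ z - ζ y)).bdd
      exact ⟨((bm_cut.smul (hζ.sub (BM.const (ζ y)))).meas).norm, b,
        fun z => by rw [norm_norm]; exact hb z⟩
    rw [← smul_eq_mul, ← bavg_smul_const]
    refine bavg_le_bavg hb1 ((BM.const (L * h)).smul bm_cut) fun z hz => ?_
    rw [abs_of_pos hh0] at hz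
    rw [norm_smul, Real.norm_eq_abs, abs_of_nonneg (cut_nonneg z), smul_eq_mul, mul_comm (L * h)]
    rcases le_or_gt (r - C * stp s (l + 1)) ‖z - x‖ with hzx | hzx
    · rw [cut_of_notMem hzx, zero_mul, zero_mul]
    · refine mul_le_mul_of_nonneg_left ?_ (cut_nonneg z)
      have hz' : z ∈ closedBall x r := by
        rw [mem_closedBall_iff_norm]; nlinarith [stp_pos hs (l + 1)]
      have hy' : y ∈ closedBall x r := by
        rw [mem_closedBall_iff_norm]
        have := stp_succ s l
        nlinarith [norm_sub_le_norm_sub_add_norm_sub y z x, norm_sub_rev y z]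
      rw [hζdef, indicator_of_mem hz', indicator_of_mem hy']
      exact (hLip z hz' y hy').trans (mul_le_mul_of_nonneg_left hz hL)
  have hstep : ∀ l, -Y l ≤ (∫ y, incr s C x r l y * -⟪hier v s l y, ξ y⟫) + -Y (l + 1) +
      L * (stp s l * ∫ y, cut x r (C * stp s l) y * ‖hier v s l y‖) := by
    intro l
    have hcl := continuous_hier (s := s) hv l
    have hcs := hasCompactSupport_hier (s := s) hvc l
    have e : ∀ y, φ l y = incr s C x r l y • ζ y + (bavg (stp s l) (φ (l + 1)) y - c l y) := by
      intro y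
      simp only [hφ, hc, incr]
      module
    have e1 : Y l = (∫ y, ⟪hier v s l y, incr s C x r l y • ζ y⟫) +
        (Y (l + 1) - ∫ y, ⟪hier v s l y, c l y⟫) := by
      have i12 : Integrable fun y => ⟪hier v s l y, bavg (stp s l) (φ (l + 1)) y⟫ -
          ⟪hier v s l y, c l y⟫ :=
        (integrable_inner_bdd hcl hcs ((hφb _).bavg _)).sub (integrable_inner_bdd hcl hcs (hcb l))
      simp only [hY, e, inner_add_right, inner_sub_right]
      rw [integral_add (integrable_inner_bdd hcl hcs (bm_incr.smul hζ))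
        i12,
        integral_sub (integrable_inner_bdd hcl hcs ((hφb _).bavg _))
          (integrable_inner_bdd hcl hcs (hcb l)), ← integral_inner_hier_succ hv hvc (hφb _) l]
    have e2 : ∫ y, ⟪hier v s l y, incr s C x r l y • ζ y⟫ =
        -∫ y, incr s C x r l y * -⟪hier v s l y, ξ y⟫ := by
      rw [← integral_neg]
      refine integral_congr_ae (ae_of_all _ fun y => ?_)
      simp only [real_inner_smul_right, mul_neg, neg_neg]
      by_cases hy : y ∈ closedBall x r
      · rw [hζdef, indicator_of_mem hy]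
      · rw [incr_eq_zero_of_notMem hs hC fun h => hy (ball_subset_closedBall h), zero_mul,
          zero_mul]
    have e3 : ∫ y, ⟪hier v s l y, c l y⟫ ≤
        L * (stp s l * ∫ y, cut x r (C * stp s l) y * ‖hier v s l y‖) := by
      rw [← mul_assoc, ← integral_const_mul]
      refine integral_mono (integrable_inner_bdd hcl hcs (hcb l))
        ((bm_cut.integrable_mul' hcl.norm hcs.norm).const_mul _) fun y => ?_
      refine (real_inner_le_norm _ _).trans ?_
      calc ‖hier v s l y‖ * ‖c l y‖ ≤ ‖hier v s l y‖ * (L * stp s l * cut x r (C * stp s l) y) :=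
            mul_le_mul_of_nonneg_left (hnorm l y) (norm_nonneg _)
        _ = _ := by ring
    linarith
  have hsum : ∀ n, -Y 0 ≤ (∑ l ∈ Finset.range n, ∫ y, incr s C x r l y * -⟪hier v s l y, ξ y⟫) +
      -Y n + L * ∑ l ∈ Finset.range n, stp s l * ∫ y, cut x r (C * stp s l) y * ‖hier v s l y‖ := by
    intro n
    induction n with
    | zero => simp
    | succ n ih =>
      rw [Finset.sum_range_succ, Finset.sum_range_succ, mul_add]
      linarith [hstep n]
  have hYN : Y N = 0 := by simp [hY, hφ, cut_eq_zero hN]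
  have h0 : -∫ y in ball x r, ⟪v y, ξ y⟫ = (∫ y, fin0 s C x r y * -⟪v y, ξ y⟫) + -Y 0 := by
    have e : ∫ y in ball x r, ⟪v y, ξ y⟫ =
        ∫ y, (fin0 s C x r y * ⟪v y, ξ y⟫ + ⟪v y, φ 0 y⟫) := by
      rw [← integral_indicator measurableSet_ball]
      refine integral_congr_ae (ae_of_all _ fun y => ?_)
      simp only [hφ, real_inner_smul_right, stp_zero]
      by_cases hy : y ∈ ball x r
      · rw [indicator_of_mem hy, hζdef, indicator_of_mem (ball_subset_closedBall hy), fin0,
          cut_of_mem (w := 0) (by simpa [← mem_ball_iff_norm] using hy)]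
        ring
      · rw [indicator_of_notMem hy, fin0_eq_zero_of_notMem hs hC0 hy, zero_mul, zero_add]
        rw [mem_ball_iff_norm, not_lt] at hy
        rw [cut_of_notMem (by nlinarith), zero_mul]
    have i1 : Integrable fun y => fin0 s C x r y * ⟪v y, ξ y⟫ :=
      integrable_fin0_mul hs hC0 (hv.continuousOn.inner hξ)
    rw [e, integral_add i1 (integrable_inner_bdd hv hvc (hφb 0))]
    simp only [mul_neg, integral_neg, hY, hier]
    ring
  have h1 := (energy_norm (s := s) hv hvc).sum_stp_cut_le hv hvc (x := x) hs hC hN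
  have h2 := hsum N
  rw [hYN, neg_zero, add_zero] at h2
  have h3 := mul_le_mul_of_nonneg_left h1 hL
  unfold res
  simp only [hier] at *
  linarith

/-- The total mass, against a constant direction. -/
lemma allMass_eq (hv : Continuous v) (hvc : HasCompactSupport v) (hs : 0 < s) (hC : 1 ≤ C)
    (hN : r ≤ C * stp s N) (n : Euc d) :
    allMass v s C x r N =
      (∫ y in ball x r, ⟪v y, n⟫) + res s C x r N fun l y => excN (hier v s l y) n := by
  have h1 := neg_setIntegral_inner_le hv hvc hs hC hN (x := x) (ξ := fun _ => n)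
    continuousOn_const le_rfl (fun _ _ _ _ => by simp)
  have h2 := neg_setIntegral_inner_le hv hvc hs hC hN (x := x) (ξ := fun _ => -n)
    continuousOn_const le_rfl (fun _ _ _ _ => by simp)
  simp only [inner_neg_right, neg_neg, integral_neg, mul_zero, zero_mul, add_zero] at h1 h2
  have e1 : res s C x r N (fun l y => -⟪hier v s l y, n⟫) =
      -res s C x r N fun l y => ⟪hier v s l y, n⟫ := by
    simpa using res_const_mul (s := s) (C := C) (x := x) (r := r) (N := N)
      (g := fun l y => ⟪hier v s l y, n⟫) (-1)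
  rw [e1] at h1
  have hc : ∀ l, ContinuousOn (fun y => ⟪hier v s l y, n⟫) (closedBall x r) :=
    fun l => ((continuous_hier hv l).inner continuous_const).continuousOn
  have hn : ∀ l, ContinuousOn (fun y => excN (hier v s l y) n) (closedBall x r) :=
    fun l => (continuous_hier hv l).norm.continuousOn.sub (hc l)
  rw [allMass_eq_res, show (fun l y => ‖hier v s l y‖) = fun l y =>
    ⟪hier v s l y, n⟫ + excN (hier v s l y) n from funext fun l => funext fun y => by
      simp [excN], res_add hs hC hc hn]
  linarith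

end Res

end Vale.Agent.P137.Centred
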