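import Vale.Agent.P137.Centred.Field
import Vale.Agent.P137.Centred.Resolution

/-!
# P137, centred operator: the bounds for a single ball
-/

open MeasureTheory Filter Set Metric
open scoped ENNReal NNReal Topology RealInnerProductSpace Gradient

noncomputable section

namespace Vale.Agent.P137.Centred

variable {d : ℕ} {v : Euc d → Euc d} {s C R r : ℝ} {N : ℕ} {x q n : Euc d}

lemma measurableSet_shell (x : Euc d) (r w : ℝ) : MeasurableSet (shell x r w) :=
  (isClosed_le (by fun_prop) continuous_const).measurableSet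

lemma continuous_selWt (q : Euc d) (h R : ℝ) : Continuous (selWt q h R) := by
  unfold selWt; fun_prop

lemma selWt_nonneg (q : Euc d) (h R : ℝ) (y : Euc d) : 0 ≤ selWt q h R y := Real.sqrt_nonneg _

lemma selWt_le_one (q : Euc d) (h R : ℝ) (y : Euc d) : selWt q h R y ≤ 1 :=
  Real.sqrt_le_one.2 (min_le_left _ _)

lemma min_le_selWt (q : Euc d) {h R : ℝ} (hh : 0 ≤ h) (hR : 0 ≤ R) (y : Euc d) :
    min 1 ((‖y - q‖ + h) / R) ≤ selWt q h R y := by
  have hz : 0 ≤ min 1 ((‖y - q‖ + h) / R) := le_min zero_le_one (by positivity)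
  rw [selWt, Real.le_sqrt hz hz]
  nlinarith [min_le_left 1 ((‖y - q‖ + h) / R)]

lemma integrableOn_gap_mul (hv : Continuous v) (hvc : HasCompactSupport v) (l : ℕ)
    {g : Euc d → ℝ} (hg : Continuous g) (S : Set (Euc d)) :
    IntegrableOn (fun y => g y * gap v s l y) S :=
  ((hg.mul (Energy.gap_cont hv l)).integrable_of_hasCompactSupport
    (hasCompactSupport_gap hvc l).mul_left).integrableOn

lemma integrableOn_gap (hv : Continuous v) (hvc : HasCompactSupport v) (l : ℕ) (S : Set (Euc d)) :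
    IntegrableOn (gap v s l) S :=
  ((Energy.gap_cont hv l).integrable_of_hasCompactSupport
    (hasCompactSupport_gap hvc l)).integrableOn

lemma shellMass_nonneg (hv : Continuous v) (A : ℝ) : 0 ≤ shellMass v s A x r N :=
  Finset.sum_nonneg fun l _ => setIntegral_nonneg (measurableSet_shell _ _ _)
    fun y _ => gap_nonneg hv l y

lemma selMass_nonneg (hv : Continuous v) (A : ℝ) (q : Euc d) :
    0 ≤ selMass v s A x r N q R :=
  Finset.sum_nonneg fun l _ => setIntegral_nonneg (measurableSet_shell _ _ _)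
    fun y _ => mul_nonneg (selWt_nonneg _ _ _ y) (gap_nonneg hv l y)

lemma geoMass_nonneg (hv : Continuous v) (hs : 0 ≤ s) (hR : 0 ≤ R) :
    0 ≤ geoMass v s x R N :=
  Finset.sum_nonneg fun l _ => mul_nonneg (div_nonneg (by unfold stp; positivity) hR)
    (setIntegral_nonneg measurableSet_closedBall fun y _ => gap_nonneg hv l y)

lemma cohMass_nonneg (hv : Continuous v) (hs : 0 ≤ s) (hR : 0 ≤ R) (hn : ‖n‖ = 1) :
    0 ≤ cohMass v s x R N n :=
  add_nonneg (setIntegral_nonneg measurableSet_closedBall fun y _ => excN_nonneg _ hn)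
    (geoMass_nonneg hv hs hR)

lemma neg_inner_le_exc {n : Euc d} (hn : ‖n‖ = 1) (F w : Euc d) {η : ℝ} (hη : 0 < η) :
    -⟪F, w⟫ ≤ -((⟪n, w⟫ - η * ‖w‖) * ‖F‖) + excN F n * ‖w‖ / (2 * η) := by
  set a := ‖F‖ • n - F with ha
  have hexc := excN_nonneg F hn
  have h1 : ‖a‖ ^ 2 = 2 * ‖F‖ * excN F n := by
    rw [ha, norm_sub_sq_real, norm_smul, hn, mul_one, norm_norm, real_inner_smul_left,
      real_inner_comm F n, excN]
    ring
  have h2 : ‖a‖ ≤ η * ‖F‖ + excN F n / (2 * η) := by
    refine le_of_pow_le_pow_left₀ two_ne_zero (by positivity) ?_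
    rw [h1]
    have e : (η * ‖F‖ + excN F n / (2 * η)) ^ 2 =
        2 * ‖F‖ * excN F n + (η * ‖F‖ - excN F n / (2 * η)) ^ 2 := by
      field_simp; ring
    rw [e]
    nlinarith [sq_nonneg (η * ‖F‖ - excN F n / (2 * η))]
  have h3 : -⟪F, w⟫ = -(⟪n, w⟫ * ‖F‖) + ⟪a, w⟫ := by
    rw [ha, inner_sub_left, real_inner_smul_left]; ring
  rw [h3]
  refine (add_le_add le_rfl ((real_inner_le_norm a w).trans
    (mul_le_mul_of_nonneg_right h2 (norm_nonneg w)))).trans (le_of_eq ?_)
  ring

/-- The weighted excess of the resolution. -/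
lemma res_exc_amp_le (hv : Continuous v) (hvc : HasCompactSupport v) (hC : 1 ≤ C)
    (hS : Scaled s C R r N) (hn : ‖n‖ = 1) (q : Euc d) :
    res s C x r N (fun l y => min 1 ((‖y - q‖ + stp s l + |‖x - q‖ - r|) / R) *
        excN (hier v s l y) n) ≤
      cohMass v s x R N n + (2 * C + 2) * selMass v s (2 * C) x r N q R := by
  have hs := hS.hs
  have hR : 0 < R := lt_of_lt_of_le hs hS.hsR
  set α : ℕ → Euc d → ℝ := fun l y => min 1 ((‖y - q‖ + stp s l + |‖x - q‖ - r|) / R) with hα
  have hE := energy_excN (s := s) hv hvc hn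
  have hα0 : ∀ l y, 0 ≤ α l y := fun l y =>
    le_min zero_le_one (div_nonneg (by have := stp_pos hs l; positivity) hR.le)
  refine (hE.res_le hv hvc hs hC (α := α) (fun l => by simp only [hα]; fun_prop) hα0
    (fun l y z hz => ?_)).trans (add_le_add ?_ ?_)
  · refine min_le_min le_rfl (div_le_div_of_nonneg_right ?_ hR.le)
    have := stp_succ s l
    linarith [norm_sub_le_norm_sub_add_norm_sub y z q, norm_sub_rev y z]
  · refine le_trans ?_ (le_add_of_nonneg_right (geoMass_nonneg hv hs.le hR.le))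
    refine le_trans (setIntegral_mono_on
      (((by simp only [hα]; fun_prop : Continuous (α N)).mul (hE.cont N)).continuousOn.integrableOn_compact
        (isCompact_closedBall _ _))
      ((hE.cont N).continuousOn.integrableOn_compact (isCompact_closedBall _ _))
      measurableSet_closedBall fun y _ => mul_le_of_le_one_left (hE.nonneg N y) (min_le_left _ _)) ?_
    exact setIntegral_mono_set ((hE.cont N).continuousOn.integrableOn_compact (isCompact_closedBall _ _))
      (ae_of_all _ fun y => hE.nonneg N y)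
      (closedBall_subset_closedBall (by linarith [hS.hr.2, hS.low])).eventuallyLE
  · rw [selMass, Finset.mul_sum]
    refine Finset.sum_le_sum fun l _ => ?_
    rw [← integral_const_mul]
    refine setIntegral_mono_on (integrableOn_gap_mul hv hvc l (by simp only [hα]; fun_prop) _)
      ((integrableOn_gap_mul hv hvc l (continuous_selWt _ _ _) _).const_mul _)
      (measurableSet_shell _ _ _) fun y hy => ?_
    rw [← mul_assoc]
    refine mul_le_mul_of_nonneg_right ?_ (gap_nonneg hv l y)
    have hh := stp_pos hs l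
    have hD : |‖x - q‖ - r| ≤ ‖y - q‖ + 2 * C * stp s l := by
      have h1 : |‖x - q‖ - ‖y - x‖| ≤ ‖y - q‖ := by
        rw [norm_sub_rev y x]
        refine (abs_norm_sub_norm_le _ _).trans (le_of_eq ?_)
        rw [sub_sub_sub_cancel_left]
      have h2 : |‖y - x‖ - r| ≤ 2 * C * stp s l := hy
      calc |‖x - q‖ - r| = |(‖x - q‖ - ‖y - x‖) + (‖y - x‖ - r)| := by ring_nf
        _ ≤ _ := (abs_add_le _ _).trans (add_le_add h1 h2)
    refine le_trans ?_ (mul_le_mul_of_nonneg_left (min_le_selWt q hh.le hR.le y) (by linarith))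
    rw [mul_min_of_nonneg _ _ (by linarith : (0:ℝ) ≤ 2 * C + 2), ← mul_div_assoc]
    refine min_le_min (by linarith) (div_le_div_of_nonneg_right ?_ hR.le)
    rw [stp_succ]
    nlinarith [norm_nonneg (y - q)]

/-- The resolution of a nonnegative energy. -/
lemma Energy.res_one_le {E : ℕ → Euc d → ℝ} (hE : Energy v s E) (hv : Continuous v)
    (hvc : HasCompactSupport v) (hC : 1 ≤ C) {A : ℝ} (hA : 2 * C ≤ A) (hs : 0 < s)
    (hr : r + stp s N ≤ 4 * R) :
    res s C x r N (fun l y => E l y) ≤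
      (∫ y in closedBall x (4 * R), E N y) + shellMass v s A x r N := by
  have h := hE.res_le hv hvc hs hC (x := x) (r := r) (N := N) (α := fun _ _ => (1 : ℝ))
    (fun _ => continuous_const) (fun _ _ => zero_le_one) fun _ _ _ _ => le_rfl
  simp only [one_mul] at h
  refine h.trans (add_le_add (setIntegral_mono_set
    ((hE.cont N).continuousOn.integrableOn_compact (isCompact_closedBall _ _))
    (ae_of_all _ fun y => hE.nonneg N y) (closedBall_subset_closedBall hr).eventuallyLE)
    (Finset.sum_le_sum fun l _ => setIntegral_mono_set (integrableOn_gap hv hvc l _)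
      (ae_of_all _ fun y => gap_nonneg hv l y) ((show shell x r (2 * C * stp s l) ⊆ shell x r (A * stp s l) from fun y hy => ?_).eventuallyLE)))
  exact le_trans (show |‖y - x‖ - r| ≤ 2 * C * stp s l from hy)
    (mul_le_mul_of_nonneg_right hA (stp_pos hs l).le)

lemma res_exc_le (hv : Continuous v) (hvc : HasCompactSupport v) (hC : 1 ≤ C) {A : ℝ}
    (hA : 2 * C ≤ A) {C' : ℝ} (hS : Scaled s C' R r N) (hn : ‖n‖ = 1) :
    res s C x r N (fun l y => excN (hier v s l y) n) ≤
      cohMass v s x R N n + shellMass v s A x r N := by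
  have hs := hS.hs
  have hR : 0 < R := lt_of_lt_of_le hs hS.hsR
  refine ((energy_excN hv hvc hn).res_one_le hv hvc hC hA hs
    (by linarith [hS.hr.2, hS.low])).trans ?_
  unfold cohMass
  linarith [geoMass_nonneg (x := x) (N := N) hv hs.le hR.le]

/-- The crude bound for the whole resolved mass. -/
lemma allMass_le_top (hv : Continuous v) (hvc : HasCompactSupport v) (hC : 1 ≤ C) {A : ℝ}
    (hA : 2 * C ≤ A) {C' : ℝ} (hS : Scaled s C' R r N) :
    allMass v s C x r N ≤ topMass v s x R N + shellMass v s A x r N := by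
  have hs := hS.hs
  have hR : 0 < R := lt_of_lt_of_le hs hS.hsR
  rw [allMass_eq_res]
  refine ((energy_norm hv hvc).res_one_le hv hvc hC hA hs
    (by linarith [hS.hr.2, hS.low])).trans ?_
  unfold topMass
  linarith [geoMass_nonneg (x := x) (N := N) hv hs.le hR.le]

/-- The pairing with a field which is Lipschitz at scale `r`, error absorbed at each level. -/
lemma neg_inner_le_res (hv : Continuous v) (hvc : HasCompactSupport v) (hC : 1 ≤ C)
    (hS : Scaled s C R r N) {ξ : Euc d → Euc d} (hξ : ContinuousOn ξ (closedBall x r)) {L : ℝ}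
    (hL : 0 ≤ L)
    (hLip : ∀ y ∈ closedBall x r, ∀ z ∈ closedBall x r, ‖ξ y - ξ z‖ ≤ L / r * ‖y - z‖) :
    -∫ y in ball x r, ⟪v y, ξ y⟫ ≤
      (∫ y, fin0 s C x r y * -⟪v y, ξ y⟫) +
        (∑ l ∈ Finset.range N, ∫ y, incr s C x r l y *
          (-⟪hier v s l y, ξ y⟫ + 2 * L * (stp s l / r) * ‖hier v s l y‖)) +
        2 * L * geoMass v s x R N := by
  have hs := hS.hs
  have hR : 0 < R := lt_of_lt_of_le hs hS.hsR
  have hr : 0 < r := lt_of_lt_of_le hR hS.hr.1
  have hN : r ≤ C * stp s N := by linarith [hS.reach, hS.hr.2]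
  have h := neg_setIntegral_inner_le hv hvc hs hC hN hξ (div_nonneg hL hr.le) hLip
  unfold res at h
  simp only [hier] at h
  have e : ∀ l, ∫ y, incr s C x r l y *
      (-⟪hier v s l y, ξ y⟫ + 2 * L * (stp s l / r) * ‖hier v s l y‖) =
      (∫ y, incr s C x r l y * -⟪hier v s l y, ξ y⟫) +
        2 * L * (stp s l / r) * ∫ y, incr s C x r l y * ‖hier v s l y‖ := by
    intro l
    rw [← integral_const_mul, ← integral_add]
    · exact integral_congr_ae (ae_of_all _ fun y => by ring)
    · exact integrable_incr_mul hs hC l ((continuous_hier hv l).continuousOn.inner hξ).neg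
    · exact (integrable_incr_mul hs hC l (continuous_hier hv l).norm.continuousOn).const_mul _
  have hgeo : ∑ l ∈ Finset.range N, stp s l / r *
      ∫ y, cut x r (C * stp s (l + 1)) y * gap v s l y ≤ geoMass v s x R N := by
    refine Finset.sum_le_sum fun l _ => mul_le_mul
      (div_le_div_of_nonneg_left (stp_pos hs l).le hR hS.hr.1) ?_
      (integral_nonneg fun y => mul_nonneg (cut_nonneg y) (gap_nonneg hv l y))
      (div_nonneg (stp_pos hs l).le hR.le)
    rw [← integral_indicator measurableSet_closedBall]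
    refine integral_mono (bm_cut.integrable_mul' (Energy.gap_cont hv l) (hasCompactSupport_gap hvc l))
      (((Energy.gap_cont hv l).integrable_of_hasCompactSupport
        (hasCompactSupport_gap hvc l)).indicator measurableSet_closedBall) fun y => ?_
    by_cases hy : y ∈ closedBall x (4 * R)
    · rw [indicator_of_mem hy]
      exact mul_le_of_le_one_left (gap_nonneg hv l y) (cut_le_one y)
    · rw [indicator_of_notMem hy]
      rw [mem_closedBall_iff_norm, not_le] at hy
      refine le_of_eq (mul_eq_zero_of_left (cut_of_notMem ?_) _)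
      nlinarith [hS.hr.2, stp_pos hs (l + 1)]
  simp only [e, Finset.sum_add_distrib]
  have hg2 := mul_le_mul_of_nonneg_left hgeo (by positivity : (0:ℝ) ≤ 2 * L)
  have e2 : 2 * (L / r) * ∑ l ∈ Finset.range N, stp s l *
      ((∫ y, incr s C x r l y * ‖hier v s l y‖) +
        ∫ y, cut x r (C * stp s (l + 1)) y * gap v s l y) =
      (∑ l ∈ Finset.range N, 2 * L * (stp s l / r) * ∫ y, incr s C x r l y * ‖hier v s l y‖) +
        2 * L * ∑ l ∈ Finset.range N, stp s l / r *
          ∫ y, cut x r (C * stp s (l + 1)) y * gap v s l y := by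
    rw [Finset.mul_sum, Finset.mul_sum, ← Finset.sum_add_distrib]
    exact Finset.sum_congr rfl fun l _ => by ring
  linarith

lemma qF_le_amp {e ν y : Euc d} (he : ‖e‖ = 1) (hν : ‖ν‖ = 1) (hr : 0 < r) (hRr : R ≤ r)
    (hR : 0 < R) (hy : y ∈ closedBall x r) {D h : ℝ} (hh : 0 ≤ h)
    (hD : ‖q - x - r • ν‖ ≤ D) :
    qF e (-⟪e, ν⟫) (r⁻¹ • (y - x)) ≤ 2 * ((‖y - q‖ + h + D) / R) := by
  set u := r⁻¹ • (y - x) with hu
  have hu1 : ‖u‖ ≤ 1 := by
    rw [hu, norm_smul, Real.norm_of_nonneg (inv_nonneg.2 hr.le), inv_mul_le_iff₀ hr, mul_one]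
    exact mem_closedBall_iff_norm.1 hy
  have h1 : ‖u - ν‖ ≤ (‖y - q‖ + h + D) / R := by
    have e1 : u - ν = r⁻¹ • ((y - q) + (q - x - r • ν)) := by
      rw [hu, smul_add, smul_sub, smul_sub, smul_sub, smul_sub, smul_smul, inv_mul_cancel₀ hr.ne',
        one_smul]
      abel
    rw [e1, norm_smul, Real.norm_of_nonneg (inv_nonneg.2 hr.le), inv_mul_eq_div]
    refine (div_le_div_of_nonneg_left (norm_nonneg _) hR hRr).trans
      (div_le_div_of_nonneg_right ((norm_add_le _ _).trans ?_) hR.le)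
    linarith
  have ha : |aF e (-⟪e, ν⟫) u| ≤ ‖u - ν‖ := by
    rw [aF, ← sub_eq_add_neg, ← inner_sub_right]
    exact (abs_real_inner_le_norm _ _).trans_eq (by rw [he, one_mul])
  have hp : |pF u| ≤ ‖u - ν‖ := by
    rw [abs_of_nonneg (pF_nonneg hu1), pF]
    have := norm_sub_norm_le ν u
    rw [hν, norm_sub_rev ν u] at this
    nlinarith [norm_nonneg u]
  linarith [qF_le_add (e := e) (κ := -⟪e, ν⟫) (u := u)]

lemma exists_unit_towards (q x e : Euc d) (he : ‖e‖ = 1) (hr : 0 ≤ r) :
    ∃ ν : Euc d, ‖ν‖ = 1 ∧ ‖q - x - r • ν‖ ≤ |‖x - q‖ - r| := by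
  by_cases hq : q - x = 0
  · refine ⟨e, he, le_of_eq ?_⟩
    rw [hq, norm_sub_rev x q, hq, norm_zero, zero_sub, zero_sub, norm_neg, norm_smul, he, mul_one,
      Real.norm_eq_abs, abs_neg]
  · refine ⟨‖q - x‖⁻¹ • (q - x), norm_smul_inv_norm (𝕜 := ℝ) hq, le_of_eq ?_⟩
    have h0 : ‖q - x‖ ≠ 0 := norm_ne_zero_iff.2 hq
    have e1 : q - x - r • (‖q - x‖⁻¹ • (q - x)) = ((‖q - x‖ - r) / ‖q - x‖) • (q - x) := by
      rw [smul_smul, sub_div, div_self h0, sub_smul, one_smul, div_eq_mul_inv]
    rw [e1, norm_smul, Real.norm_eq_abs, abs_div, abs_norm, div_mul_cancel₀ _ h0, norm_sub_rev x q]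

/-- Away from the sphere through `q` the selection weight sees every gap. -/
lemma shellMass_le_selMass (hv : Continuous v) (hvc : HasCompactSupport v) (hs : 0 < s) (hR : 0 < R)
    (hC : 1 ≤ C) {η : ℝ} (hη : 0 ≤ η) (hD : η * R ≤ |‖x - q‖ - r|) :
    min 1 (η / (2 * C)) * shellMass v s (2 * C) x r N ≤ selMass v s (2 * C) x r N q R := by
  rw [shellMass, selMass, Finset.mul_sum]
  refine Finset.sum_le_sum fun l _ => ?_
  rw [← integral_const_mul]
  refine setIntegral_mono_on ((integrableOn_gap hv hvc l _).const_mul _)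
    (integrableOn_gap_mul hv hvc l (continuous_selWt _ _ _) _) (measurableSet_shell _ _ _)
    fun y hy => mul_le_mul_of_nonneg_right ?_ (gap_nonneg hv l y)
  refine le_trans ?_ (min_le_selWt q (stp_pos hs l).le hR.le y)
  refine min_le_min le_rfl ?_
  rw [div_le_div_iff₀ (by linarith) hR]
  have h1 : |‖x - q‖ - ‖y - x‖| ≤ ‖y - q‖ := by
    rw [norm_sub_rev y x]
    refine (abs_norm_sub_norm_le _ _).trans (le_of_eq ?_)
    rw [sub_sub_sub_cancel_left]
  have h2 : |‖y - x‖ - r| ≤ 2 * C * stp s l := hy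
  have h3 : |‖x - q‖ - r| ≤ ‖y - q‖ + 2 * C * stp s l := by
    calc |‖x - q‖ - r| = |(‖x - q‖ - ‖y - x‖) + (‖y - x‖ - r)| := by ring_nf
      _ ≤ _ := (abs_add_le _ _).trans (add_le_add h1 h2)
  nlinarith [norm_nonneg (y - q), mul_nonneg (sub_nonneg.2 hC) (norm_nonneg (y - q))]

lemma polMass_nonneg (hs : 0 < s) (hC : 1 ≤ C) (hR : 0 < R) :
    0 ≤ polMass v s C x r N q R := by
  rw [polMass, resInt_eq_res]
  exact res_nonneg hs hC fun l y _ => mul_nonneg
    (div_nonneg (by have := stp_pos hs l; positivity) hR.le) (norm_nonneg _)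

lemma res_le_polMass (hv : Continuous v) (hs : 0 < s) (hC : 1 ≤ C) {z : Euc d → ℝ}
    (hz : ContinuousOn z (closedBall x r))
    (h : ∀ l, ∀ y ∈ closedBall x r, z y ≤ 2 * ((‖y - q‖ + stp s l + |‖x - q‖ - r|) / R)) :
    res s C x r N (fun l y => z y * ‖hier v s l y‖) ≤ 2 * polMass v s C x r N q R := by
  have hFc : ∀ l, ContinuousOn (fun y => ‖hier v s l y‖) (closedBall x r) :=
    fun l => (continuous_hier hv l).norm.continuousOn
  rw [polMass, resInt_eq_res, ← res_const_mul]
  refine res_mono hs hC (fun l => hz.mul (hFc l))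
    (fun l => continuousOn_const.mul ((by fun_prop : ContinuousOn
      (fun y => (‖y - q‖ + stp s l + |‖x - q‖ - r|) / R) (closedBall x r)).mul (hFc l))) ?_ ?_
  · intro y hy _
    simp only [← mul_assoc]
    exact mul_le_mul_of_nonneg_right (h 0 y (ball_subset_closedBall hy)) (norm_nonneg _)
  · intro l _ y hy _
    simp only [← mul_assoc]
    exact mul_le_mul_of_nonneg_right (h l y (ball_subset_closedBall hy)) (norm_nonneg _)

/-- Halving the constant of the resolution changes the total mass only by the budget. -/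
lemma allMass_half_le (hv : Continuous v) (hvc : HasCompactSupport v) (hC : 128 ≤ C)
    (hS : Scaled s C R r N) (hn : ‖n‖ = 1) :
    allMass v s (C / 2) x r N ≤
      allMass v s C x r N + cohMass v s x R N n + shellMass v s (2 * C) x r N := by
  have hs := hS.hs
  have hR : 0 < R := lt_of_lt_of_le hs hS.hsR
  have hN : r ≤ C * stp s N := by linarith [hS.reach, hS.hr.2]
  have hN2 : r ≤ C / 2 * stp s N := by linarith [hS.reach, hS.hr.2]
  have hC1 : (1:ℝ) ≤ C := by linarith
  have hC2 : (1:ℝ) ≤ C / 2 := by linarith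
  have e7 := allMass_eq hv hvc hs hC1 hN (x := x) n
  have e8 := allMass_eq hv hvc hs hC2 hN2 (x := x) n
  have h0 : 0 ≤ res s C x r N fun l y => excN (hier v s l y) n :=
    res_nonneg hs hC1 fun l y _ => excN_nonneg _ hn
  have h1 := res_exc_le hv hvc hC2 (A := 2 * C) (by linarith) (x := x) hS hn
  linarith

/-- The polar threshold. -/
def thC : ℝ := 1 / 8192

/-- The damping. -/
def lmC : ℝ := 2 / thC

/-- The angular tolerance. -/
def epC (d : ℕ) : ℝ := 1 / (16 * ((d + 8) * lmC))

lemma thC_pos : 0 < thC := by unfold thC; norm_num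

lemma thC_le : thC ≤ 1 / 16 := by unfold thC; norm_num

lemma one_le_lmC : 1 ≤ lmC := by unfold lmC thC; norm_num

lemma epC_pos (d : ℕ) : 0 < epC d := by
  unfold epC; have := one_le_lmC; positivity

lemma epC_le (d : ℕ) : epC d ≤ 1 / 32 := by
  unfold epC
  refine one_div_le_one_div_of_le (by norm_num) ?_
  have : (0 : ℝ) ≤ d := Nat.cast_nonneg d
  nlinarith [one_le_lmC]

lemma epC_small (d : ℕ) : (epC d + epC d) * ((d + 8) * lmC) ≤ 1 / 8 := by
  unfold epC
  have := one_le_lmC
  field_simp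
  norm_num

lemma norm_bigOm_le_const {e u : Euc d} {κ : ℝ} (he : ‖e‖ = 1) (hκ : |κ| ≤ 1) (hu : ‖u‖ ≤ 1) :
    ‖bigOm e κ lmC u‖ ≤ (d + 8) := by
  refine (norm_bigOm_le he hκ hu one_le_lmC).trans ?_
  calc (d + 8) * lmC * (qF e κ u * gF e κ lmC u)
      ≤ (d + 8) * lmC * lmC⁻¹ :=
        mul_le_mul_of_nonneg_left (qF_mul_gF_le (zero_lt_one.trans_le one_le_lmC))
          (by have := one_le_lmC; positivity)
    _ = _ := by have := one_le_lmC; field_simp

/-- The position in the unit ball. -/
def upos (x : Euc d) (r : ℝ) (y : Euc d) : Euc d := r⁻¹ • (y - x)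

lemma norm_upos_le (hr : 0 < r) {y : Euc d} (hy : y ∈ closedBall x r) : ‖upos x r y‖ ≤ 1 := by
  rw [upos, norm_smul, Real.norm_of_nonneg (inv_nonneg.2 hr.le), inv_mul_le_iff₀ hr, mul_one]
  exact mem_closedBall_iff_norm.1 hy

lemma norm_upos_sub (hr : 0 < r) (y z : Euc d) : ‖upos x r y - upos x r z‖ = 1 / r * ‖y - z‖ := by
  rw [upos, upos, ← smul_sub, sub_sub_sub_cancel_right, norm_smul,
    Real.norm_of_nonneg (inv_nonneg.2 hr.le), one_div]

lemma continuous_upos (x : Euc d) (r : ℝ) : Continuous (upos x r) := by unfold upos; fun_prop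

lemma le_two_pF_of_incr_ne_zero (hs : 0 < s) (hC : 1 ≤ C) (hr : 0 < r) {l : ℕ} {y : Euc d}
    (hy : incr s C x r l y ≠ 0) : C * stp s l / r ≤ 2 * pF (upos x r y) := by
  have hlt : ‖y - x‖ < r - C * stp s l := lt_of_not_ge fun h => hy (incr_eq_zero hs hC h)
  have h1 : ‖upos x r y‖ * r = ‖y - x‖ := by
    rw [upos, norm_smul, Real.norm_of_nonneg (inv_nonneg.2 hr.le)]; field_simp
  have hu' : ‖upos x r y‖ ≤ 1 :=
    norm_upos_le hr (mem_closedBall_iff_norm.2 (by nlinarith [stp_pos hs l]))
  rw [div_le_iff₀ hr, pF]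
  nlinarith [mul_nonneg (mul_nonneg (sub_nonneg.2 hu') (norm_nonneg (upos x r y))) hr.le]

/-- The field bound, given a lower bound `low` for the field and a bound `W` for its norm. -/
lemma field_bound {f : Euc d → ℝ} (hf : ContDiff ℝ 1 f) (hfc : HasCompactSupport f) {L : ℝ}
    (hL : 0 ≤ L) (hLip : ∀ e : Euc d, ‖e‖ = 1 → ∀ κ, |κ| ≤ 1 → ∀ u u' : Euc d, ‖u‖ ≤ 1 → ‖u'‖ ≤ 1 →
      ‖bigOm e κ lmC u - bigOm e κ lmC u'‖ ≤ L * ‖u - u'‖)
    (hC1 : 1 ≤ C) (hCL : 16 * L * (1 + 3 * lmC) ≤ C) (hS : Scaled s C R r N)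
    {e n : Euc d} (he : ‖e‖ = 1) (hn : ‖n‖ = 1) {κ : ℝ} (hκ : |κ| ≤ 1) {low : Euc d → ℝ}
    {W : ℕ → Euc d → ℝ} {M : ℝ} (hM : 0 ≤ M)
    (hlow : ContinuousOn low (closedBall x r)) (hWc : ∀ l, ContinuousOn (W l) (closedBall x r))
    (hlb : ∀ y ∈ closedBall x r, low y + qF e κ (upos x r y) * gF e κ lmC (upos x r y) / 4 ≤
      ⟪n, bigOm e κ lmC (upos x r y)⟫ - epC d * ‖bigOm e κ lmC (upos x r y)‖)
    (hW : ∀ l, ∀ y ∈ closedBall x r, ‖bigOm e κ lmC (upos x r y)‖ ≤ M * W l y) :
    -∫ y in ball x r, ⟪∇ f y, e⟫ ≤ κ * (∫ y in ball x r, ⟪∇ f y, upos x r y⟫) +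
      res s C x r N (fun l y => -(low y) * ‖hier (∇ f) s l y‖) +
      M / (2 * epC d) * res s C x r N (fun l y => W l y * excN (hier (∇ f) s l y) n) +
      2 * L * geoMass (∇ f) s x R N := by
  have hv : Continuous (∇ f) := continuous_gradient hf
  have hvc : HasCompactSupport (∇ f) := hasCompactSupport_gradient hfc
  have hs := hS.hs
  have hR : 0 < R := lt_of_lt_of_le hs hS.hsR
  have hr : 0 < r := lt_of_lt_of_le hR hS.hr.1
  have hlam0 : 0 ≤ lmC := zero_le_one.trans one_le_lmC
  have hε : 0 < epC d := epC_pos d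
  have huc : ContinuousOn (upos x r) (closedBall x r) := (continuous_upos x r).continuousOn
  have hFc : ∀ l, ContinuousOn (fun y => ‖hier (∇ f) s l y‖) (closedBall x r) :=
    fun l => (continuous_hier hv l).norm.continuousOn
  have hEc : ∀ l, ContinuousOn (fun y => excN (hier (∇ f) s l y) n) (closedBall x r) := fun l =>
    (hFc l).sub ((continuous_hier hv l).inner continuous_const).continuousOn
  set v := ∇ f with hvdef
  set P := ∫ y in ball x r, ⟪v y, upos x r y⟫ with hPdef
  set ξ := fun y => bigOm e κ lmC (upos x r y) with hξdef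
  have hξL : ∀ y ∈ closedBall x r, ∀ z ∈ closedBall x r, ‖ξ y - ξ z‖ ≤ L / r * ‖y - z‖ := by
    intro y hy z hz
    refine (hLip e he κ hκ _ _ (norm_upos_le hr hy) (norm_upos_le hr hz)).trans ?_
    rw [norm_upos_sub hr, ← mul_assoc, mul_one_div]
  have hξ : ContinuousOn ξ (closedBall x r) :=
    (LipschitzOnWith.of_dist_le_mul (K := (L / r).toNNReal) fun y hy z hz => by
      rw [Real.coe_toNNReal _ (by positivity), dist_eq_norm, dist_eq_norm]
      exact hξL y hy z hz).continuousOn
  have h1 := neg_inner_le_res hv hvc hC1 hS hξ (by positivity) hξL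
  have hid := integral_bigOm hf hfc x hr he κ hlam0
  have i1 : IntegrableOn (fun y => ⟪v y, e⟫) (ball x r) :=
    ((hv.inner continuous_const).continuousOn.integrableOn_compact
      (isCompact_closedBall x r)).mono_set ball_subset_closedBall
  have i2 : IntegrableOn (fun y => κ * ⟪v y, upos x r y⟫) (ball x r) :=
    (((hv.continuousOn.inner (𝕜 := ℝ) huc).integrableOn_compact
      (isCompact_closedBall x r)).mono_set ball_subset_closedBall).const_mul κ
  have e3 : ∫ y in ball x r, ⟪v y, ξ y⟫ = (∫ y in ball x r, ⟪v y, e⟫) + κ * P := by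
    simp only [hξdef, upos, hvdef] at hid ⊢
    rw [hid, hPdef]
    simp only [inner_add_right, real_inner_smul_right, upos, hvdef] at i1 i2 ⊢
    rw [integral_add i1 i2, integral_const_mul]
  set g : ℕ → Euc d → ℝ := fun l y => -(low y) * ‖hier v s l y‖ +
    M / (2 * (epC d)) * (W l y * excN (hier v s l y) n) with hg
  have hgc : ∀ l, ContinuousOn (g l) (closedBall x r) := fun l =>
    (hlow.neg.mul (hFc l)).add (continuousOn_const.mul ((hWc l).mul (hEc l)))
  have hcmp : ∀ l y, y ∈ closedBall x r →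
      -⟪hier v s l y, ξ y⟫ + qF e κ (upos x r y) * gF e κ lmC (upos x r y) / 4 * ‖hier v s l y‖ ≤ g l y := by
    intro l y hy
    refine (add_le_add (neg_inner_le_exc hn (hier v s l y) (ξ y) hε) le_rfl).trans ?_
    have h3 := mul_le_mul_of_nonneg_right (hlb y hy) (norm_nonneg (hier v s l y))
    have h4 : excN (hier v s l y) n * ‖ξ y‖ / (2 * (epC d)) ≤
        M / (2 * (epC d)) * (W l y * excN (hier v s l y) n) := by
      rw [div_mul_eq_mul_div]
      refine div_le_div_of_nonneg_right ?_ (by positivity)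
      rw [← mul_assoc, mul_comm]
      exact mul_le_mul_of_nonneg_right (hW l y hy) (excN_nonneg _ hn)
    simp only [hg, hξdef] at h4 ⊢
    nlinarith
  have hfin : ∫ y, fin0 s C x r y * -⟪v y, ξ y⟫ ≤ ∫ y, fin0 s C x r y * g 0 y := by
    refine integral_mono (integrable_fin0_mul hs (by linarith) (hv.continuousOn.inner hξ).neg)
      (integrable_fin0_mul hs (by linarith) (hgc 0)) fun y => ?_
    simp only
    by_cases hy : y ∈ ball x r
    · refine mul_le_mul_of_nonneg_left ?_ (fin0_nonneg hs (by linarith) y)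
      have hq : 0 ≤ qF e κ (upos x r y) * gF e κ lmC (upos x r y) / 4 * ‖hier v s 0 y‖ := by
        have := gF_pos (e := e) (κ := κ) (u := upos x r y) hlam0
        have := qF_nonneg (e := e) (κ := κ) (u := upos x r y)
        positivity
      have := hcmp 0 y (ball_subset_closedBall hy)
      simp only [hier] at this hq ⊢
      linarith
    · rw [fin0_eq_zero_of_notMem hs (by linarith) hy, zero_mul, zero_mul]
  have hlev : ∀ l, ∫ y, incr s C x r l y *
      (-⟪hier v s l y, ξ y⟫ + 2 * L * (stp s l / r) * ‖hier v s l y‖) ≤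
      ∫ y, incr s C x r l y * g l y := by
    intro l
    refine integral_mono (integrable_incr_mul hs hC1 l
      (((continuous_hier hv l).continuousOn.inner hξ).neg.add (continuousOn_const.mul (hFc l))))
      (integrable_incr_mul hs hC1 l (hgc l)) fun y => ?_
    simp only
    by_cases hz : incr s C x r l y = 0
    · rw [hz, zero_mul, zero_mul]
    refine mul_le_mul_of_nonneg_left ?_ (incr_nonneg hs hC1 l y)
    have hy : y ∈ closedBall x r :=
      ball_subset_closedBall (by_contra fun h => hz (incr_eq_zero_of_notMem hs hC1 h))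
    refine le_trans (add_le_add le_rfl (mul_le_mul_of_nonneg_right ?_ (norm_nonneg _))) (hcmp l y hy)
    have hp := le_two_pF_of_incr_ne_zero hs hC1 hr hz
    have hq3 := qF_le he hκ (norm_upos_le hr hy)
    have hpq := (abs_le.1 (abs_pF_le_qF (e := e) (κ := κ) (u := upos x r y))).2
    have hq0 := qF_nonneg (e := e) (κ := κ) (u := upos x r y)
    have hqg : qF e κ (upos x r y) / (1 + 3 * lmC) ≤ qF e κ (upos x r y) * gF e κ lmC (upos x r y) := by
      rw [div_eq_mul_inv]
      refine mul_le_mul_of_nonneg_left (inv_anti₀ ?_ ?_) hq0 <;> nlinarith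
    rw [div_le_iff₀ (by positivity)] at hqg
    have hd0 : 0 ≤ stp s l / r := div_nonneg (stp_pos hs l).le hr.le
    rw [mul_div_assoc] at hp
    nlinarith [mul_le_mul_of_nonneg_right hCL hd0]
  have hres : res s C x r N g = res s C x r N (fun l y => -(low y) * ‖hier v s l y‖) +
      M / (2 * (epC d)) * res s C x r N (fun l y => W l y * excN (hier v s l y) n) := by
    simp only [hg]
    rw [res_add hs hC1 (g := fun l y => -(low y) * ‖hier v s l y‖)
      (g' := fun l y => M / (2 * (epC d)) * (W l y * excN (hier v s l y) n))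
      (fun l => hlow.neg.mul (hFc l)) (fun l => continuousOn_const.mul ((hWc l).mul (hEc l))),
      res_const_mul]
  have hall : (∫ y, fin0 s C x r y * -⟪v y, ξ y⟫) +
      (∑ l ∈ Finset.range N, ∫ y, incr s C x r l y *
        (-⟪hier v s l y, ξ y⟫ + 2 * L * (stp s l / r) * ‖hier v s l y‖)) ≤ res s C x r N g :=
    add_le_add hfin (Finset.sum_le_sum fun l _ => hlev l)
  linarith

/-- The endpoint bound. -/
lemma endpoint_bound {f : Euc d → ℝ} (hf : ContDiff ℝ 1 f) (hfc : HasCompactSupport f) {L : ℝ}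
    (hL : 0 ≤ L) (hLip : ∀ e : Euc d, ‖e‖ = 1 → ∀ κ, |κ| ≤ 1 → ∀ u u' : Euc d, ‖u‖ ≤ 1 → ‖u'‖ ≤ 1 →
      ‖bigOm e κ lmC u - bigOm e κ lmC u'‖ ≤ L * ‖u - u'‖)
    (hC1 : 1 ≤ C) (hCL : 16 * L * (1 + 3 * lmC) ≤ C) (hS : Scaled s C R r N)
    {e n : Euc d} (he : ‖e‖ = 1) (hn : ‖n‖ = 1) (hne : ‖n - e‖ ≤ epC d) :
    -∫ y in ball x r, ⟪∇ f y, e⟫ ≤ ((d + 8) / (2 * epC d) + 2 * L + 1) *
      (cohMass (∇ f) s x R N n + shellMass (∇ f) s (2 * C) x r N) := by
  have hv : Continuous (∇ f) := continuous_gradient hf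
  have hvc : HasCompactSupport (∇ f) := hasCompactSupport_gradient hfc
  have hs := hS.hs
  have hR : 0 < R := lt_of_lt_of_le hs hS.hsR
  have hr : 0 < r := lt_of_lt_of_le hR hS.hr.1
  have hε := epC_pos d
  have hgeoB : geoMass (∇ f) s x R N ≤ cohMass (∇ f) s x R N n :=
    le_add_of_nonneg_left (setIntegral_nonneg measurableSet_closedBall
      fun y _ => excN_nonneg _ hn)
  have hB0 := cohMass_nonneg (x := x) (N := N) hv hs.le hR.le hn
  have hW0 := shellMass_nonneg (x := x) (r := r) (N := N) (s := s) hv (2 * C)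
  have hres_exc := res_exc_le hv hvc hC1 (le_refl (2 * C)) (x := x) hS hn
  have h := field_bound (x := x) hf hfc hL hLip hC1 hCL hS he hn (κ := 0) (by simp) (low := fun _ => 0)
    (W := fun _ _ => 1) (M := (d : ℝ) + 8) (by positivity) continuousOn_const
    (fun _ => continuousOn_const) (fun y hy => by
      rw [zero_add]
      exact (bigOm_lower (lam := lmC) thC_pos thC_le rfl he (by simp) (norm_upos_le hr hy) hne hε.le
        (epC_small d)).1 (by simp; unfold thC; norm_num)) (fun l y hy => by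
      rw [mul_one]; exact norm_bigOm_le_const he (by simp) (norm_upos_le hr hy))
  simp only [neg_zero, zero_mul, zero_add, one_mul] at h
  rw [show res s C x r N (fun _ _ => (0 : ℝ)) = 0 by simp [res], zero_add] at h
  refine h.trans ?_
  have hq : 0 ≤ ((d : ℝ) + 8) / (2 * epC d) := by positivity
  nlinarith [mul_le_mul_of_nonneg_left hres_exc hq]

/-- In the polar case stationarity bounds the whole mass. -/
lemma stationary_bound {f : Euc d → ℝ} (hf : ContDiff ℝ 1 f) (hfc : HasCompactSupport f)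
    (hC : 128 ≤ C) (hS : Scaled s C R r N) {e n : Euc d} (he : ‖e‖ = 1) (hn : ‖n‖ = 1)
    (hne : ‖n - e‖ ≤ epC d) {κ : ℝ} (hκ : |κ| ≤ 1) (hp : 1 - thC < |κ|) :
    allMass (∇ f) s C x r N ≤ 16 * |∫ y in ball x r, ⟪∇ f y, upos x r y⟫| +
      32 * res s C x r N (fun l y => polCut e κ (upos x r y) * ‖hier (∇ f) s l y‖) +
      (8 / epC d + 32) * (cohMass (∇ f) s x R N n + shellMass (∇ f) s (2 * C) x r N) := by
  have hC1 : 1 ≤ C := by linarith
  have hv : Continuous (∇ f) := continuous_gradient hf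
  have hvc : HasCompactSupport (∇ f) := hasCompactSupport_gradient hfc
  have hs := hS.hs
  have hR : 0 < R := lt_of_lt_of_le hs hS.hsR
  have hr : 0 < r := lt_of_lt_of_le hR hS.hr.1
  have hε := epC_pos d
  have hε8 := epC_le d
  have huc : ContinuousOn (upos x r) (closedBall x r) := (continuous_upos x r).continuousOn
  have hFc : ∀ l, ContinuousOn (fun y => ‖hier (∇ f) s l y‖) (closedBall x r) :=
    fun l => (continuous_hier hv l).norm.continuousOn
  have hEc : ∀ l, ContinuousOn (fun y => excN (hier (∇ f) s l y) n) (closedBall x r) := fun l =>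
    (hFc l).sub ((continuous_hier hv l).inner continuous_const).continuousOn
  have hgeoB : geoMass (∇ f) s x R N ≤ cohMass (∇ f) s x R N n :=
    le_add_of_nonneg_left (setIntegral_nonneg measurableSet_closedBall
      fun y _ => excN_nonneg _ hn)
  have hW0 := shellMass_nonneg (x := x) (r := r) (N := N) (s := s) hv (2 * C)
  have hres_exc := res_exc_le hv hvc hC1 (le_refl (2 * C)) (x := x) hS hn
  set v := ∇ f with hvdef
  set P := ∫ y in ball x r, ⟪v y, upos x r y⟫ with hPdef
  set om : Euc d → ℝ := fun y => polCut e κ (upos x r y) with homdef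
  have homc : ContinuousOn om (closedBall x r) := by
    simp only [homdef, polCut, upos]; fun_prop
  set OUT := res s C x r N (fun l y => om y * ‖hier v s l y‖) with hOUT
  set ALL := allMass v s C x r N with hALL
  set B := cohMass v s x R N n with hBdef
  set W := shellMass v s (2 * C) x r N with hWdef
  set σ : ℝ := if 0 ≤ κ then 1 else -1 with hσ
  have hσ1 : |σ| = 1 := by rw [hσ]; split_ifs <;> simp
  set ξ := fun y => (-σ) • upos x r y with hξdef
  have hξ : ContinuousOn ξ (closedBall x r) := huc.const_smul (-σ)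
  have hξL : ∀ y ∈ closedBall x r, ∀ z ∈ closedBall x r, ‖ξ y - ξ z‖ ≤ 1 / r * ‖y - z‖ := by
    intro y _ z _
    simp only [hξdef, ← smul_sub, norm_smul, Real.norm_eq_abs, abs_neg, hσ1, one_mul, norm_upos_sub hr, le_refl]
  have h1 := neg_inner_le_res hv hvc hC1 hS hξ zero_le_one hξL
  set g : ℕ → Euc d → ℝ := fun l y =>
    (-(1 / 8 - (epC d) - 2 / C) + 2 * om y) * ‖hier v s l y‖ + 1 / (2 * (epC d)) * excN (hier v s l y) n
    with hg
  have hgc : ∀ l, ContinuousOn (g l) (closedBall x r) := fun l =>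
    ((continuousOn_const.add (continuousOn_const.mul homc)).mul (hFc l)).add
      (continuousOn_const.mul (hEc l))
  have hcmp : ∀ l, ∀ y ∈ closedBall x r,
      -⟪hier v s l y, ξ y⟫ + 2 / C * ‖hier v s l y‖ ≤ g l y := by
    intro l y hy
    refine (add_le_add (neg_inner_le_exc hn (hier v s l y) (ξ y) hε) le_rfl).trans ?_
    have hξ1 : ‖ξ y‖ ≤ 1 := by
      simp only [hξdef, norm_smul, Real.norm_eq_abs, abs_neg, hσ1, one_mul]; exact norm_upos_le hr hy
    have hsn := sign_mul_inner_le (θ := thC) thC_le hp hκ (norm_upos_le hr hy) he hne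
      (by linarith)
    rw [← hσ] at hsn
    have h5 : excN (hier v s l y) n * ‖ξ y‖ / (2 * (epC d)) ≤ 1 / (2 * (epC d)) * excN (hier v s l y) n := by
      rw [one_div, inv_mul_eq_div]
      exact div_le_div_of_nonneg_right (mul_le_of_le_one_right (excN_nonneg _ hn) hξ1)
        (by positivity)
    have h6 : -(⟪n, ξ y⟫ - (epC d) * ‖ξ y‖) ≤ -(1 / 8) + 2 * om y + (epC d) := by
      simp only [hξdef, real_inner_smul_right] at hξ1 ⊢
      simp only [homdef]
      nlinarith [mul_le_mul_of_nonneg_left hξ1 hε.le]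
    simp only [hg]
    nlinarith [mul_le_mul_of_nonneg_right h6 (norm_nonneg (hier v s l y))]
  have hfin : ∫ y, fin0 s C x r y * -⟪v y, ξ y⟫ ≤ ∫ y, fin0 s C x r y * g 0 y := by
    refine integral_mono (integrable_fin0_mul hs (by linarith) (hv.continuousOn.inner hξ).neg)
      (integrable_fin0_mul hs (by linarith) (hgc 0)) fun y => ?_
    simp only
    by_cases hy : y ∈ ball x r
    · refine mul_le_mul_of_nonneg_left ?_ (fin0_nonneg hs (by linarith) y)
      have h0 : 0 ≤ 2 / C * ‖hier v s 0 y‖ := by positivity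
      have := hcmp 0 y (ball_subset_closedBall hy)
      simp only [hier] at this h0 ⊢
      linarith
    · rw [fin0_eq_zero_of_notMem hs (by linarith) hy, zero_mul, zero_mul]
  have hlev : ∀ l, ∫ y, incr s C x r l y *
      (-⟪hier v s l y, ξ y⟫ + 2 * 1 * (stp s l / r) * ‖hier v s l y‖) ≤
      ∫ y, incr s C x r l y * g l y := by
    intro l
    refine integral_mono (integrable_incr_mul hs hC1 l
      (((continuous_hier hv l).continuousOn.inner hξ).neg.add (continuousOn_const.mul (hFc l))))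
      (integrable_incr_mul hs hC1 l (hgc l)) fun y => ?_
    simp only
    by_cases hz : incr s C x r l y = 0
    · rw [hz, zero_mul, zero_mul]
    refine mul_le_mul_of_nonneg_left ?_ (incr_nonneg hs hC1 l y)
    have hy : y ∈ closedBall x r :=
      ball_subset_closedBall (by_contra fun h => hz (incr_eq_zero_of_notMem hs hC1 h))
    refine le_trans (add_le_add le_rfl (mul_le_mul_of_nonneg_right ?_ (norm_nonneg _))) (hcmp l y hy)
    have hlt : ‖y - x‖ < r - C * stp s l := lt_of_not_ge fun h => hz (incr_eq_zero hs hC1 h)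
    rw [le_div_iff₀ (by linarith), mul_one]
    have : C * (stp s l / r) ≤ 1 := by
      rw [← mul_div_assoc, div_le_one hr]; linarith [norm_nonneg (y - x)]
    linarith
  have hall : -∫ y in ball x r, ⟪v y, ξ y⟫ ≤
      res s C x r N g + 2 * 1 * geoMass v s x R N := by
    have := Finset.sum_le_sum (s := Finset.range N) fun l _ => hlev l
    unfold res
    linarith
  have e5 : -∫ y in ball x r, ⟪v y, ξ y⟫ = σ * P := by
    simp only [hξdef, real_inner_smul_right, integral_const_mul]
    rw [hPdef]; simp only [upos]; ring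
  have e6 : res s C x r N g = (-(1 / 8 - (epC d) - 2 / C)) * ALL + 2 * OUT +
      1 / (2 * (epC d)) * res s C x r N (fun l y => excN (hier v s l y) n) := by
    rw [hALL, allMass_eq_res, hOUT, ← res_const_mul, ← res_const_mul, ← res_const_mul,
      ← res_add hs hC1 (g := fun l y => -(1 / 8 - (epC d) - 2 / C) * ‖hier v s l y‖)
        (g' := fun l y => 2 * (om y * ‖hier v s l y‖))
        (fun l => continuousOn_const.mul (hFc l)) (fun l => continuousOn_const.mul (homc.mul (hFc l))),
      ← res_add hs hC1 (g := fun l y => -(1 / 8 - (epC d) - 2 / C) * ‖hier v s l y‖ + 2 * (om y * ‖hier v s l y‖))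
        (g' := fun l y => 1 / (2 * (epC d)) * excN (hier v s l y) n)
        (fun l => (continuousOn_const.mul (hFc l)).add (continuousOn_const.mul (homc.mul (hFc l))))
        (fun l => continuousOn_const.mul (hEc l))]
    simp only [hg]
    congr 1; funext l y; ring
  rw [e5, e6] at hall
  have hσP : -|P| ≤ σ * P := by
    have := neg_abs_le (σ * P)
    rwa [abs_mul, hσ1, one_mul] at this
  have h2C : 2 / C ≤ 1 / 64 := by rw [div_le_iff₀ (by linarith)]; linarith
  have h7 := mul_le_mul_of_nonneg_left hres_exc (by positivity : (0:ℝ) ≤ 1 / (2 * (epC d)))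
  have h9 : ALL * (1 / 16) ≤ (1 / 8 - (epC d) - 2 / C) * ALL := by
    have hALL0 : 0 ≤ ALL := by
      rw [hALL, allMass_eq_res]; exact res_nonneg hs hC1 fun l y _ => norm_nonneg _
    rw [mul_comm ALL]; exact mul_le_mul_of_nonneg_right (by linarith) hALL0
  have h10 : 8 / (epC d) * (B + W) = 16 * (1 / (2 * (epC d)) * (B + W)) := by ring
  linarith

/-- The constants of the pointwise bounds. -/
theorem exists_pointwise (d : ℕ) :
    ∃ ε : ℝ, 0 < ε ∧ ∃ c : ℕ, 7 ≤ c ∧ ∀ η : ℝ, 0 < η → ∃ K : ℝ, 0 ≤ K ∧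
      ∀ f : Euc d → ℝ, ContDiff ℝ 1 f → HasCompactSupport f → ∀ (s R r : ℝ) (N : ℕ)
        (x n e : Euc d), Scaled s (2 ^ c) R r N → ‖e‖ = 1 → ‖n‖ = 1 → ‖n - e‖ ≤ ε →
        (∀ q : Euc d,
          -∫ y in ball x r, ⟪∇ f y, e⟫ ≤ K * |∫ y in ball x r, ⟪∇ f y, r⁻¹ • (y - x)⟫| +
              K * (cohMass (∇ f) s x R N n + selMass (∇ f) s (2 * 2 ^ c) x r N q R) ∨
          (|‖x - q‖ - r| ≤ η * R ∧
            allMass (∇ f) s (2 ^ c) x r N ≤ K * shellMass (∇ f) s (2 * 2 ^ c) x r N ∧
            allMass (∇ f) s (2 ^ c / 2) x r N ≤ K * shellMass (∇ f) s (2 * 2 ^ c) x r N ∧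
            -∫ y in ball x r, ⟪∇ f y, e⟫ ≤ K * |∫ y in ball x r, ⟪∇ f y, r⁻¹ • (y - x)⟫| +
              K * (cohMass (∇ f) s x R N n + selMass (∇ f) s (2 * 2 ^ c) x r N q R) +
              K * polMass (∇ f) s (2 ^ c) x r N q R)) ∧
        -∫ y in ball x r, ⟪∇ f y, e⟫ ≤
          K * (cohMass (∇ f) s x R N n + shellMass (∇ f) s (2 * 2 ^ c) x r N) := by
  have hlam0 : 0 ≤ lmC := zero_le_one.trans one_le_lmC
  have hlam1 := one_le_lmC
  have hε := epC_pos d
  have hθ := thC_pos
  obtain ⟨L, hL, hLip⟩ := exists_bigOm_lipschitz d hlam0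
  obtain ⟨c, hc⟩ := pow_unbounded_of_one_lt (16 * L * (1 + 3 * lmC) + 128) (one_lt_two (α := ℝ))
  set C : ℝ := 2 ^ c with hCdef
  have hL16 : 0 ≤ 16 * L * (1 + 3 * lmC) := by positivity
  have hC7 : 7 ≤ c := by
    by_contra h
    have : C ≤ 2 ^ 6 := pow_le_pow_right₀ one_le_two (by omega)
    linarith
  have hC128 : 128 ≤ C := by linarith
  have hC1 : 1 ≤ C := by linarith
  have hCL : 16 * L * (1 + 3 * lmC) ≤ C := by linarith
  refine ⟨epC d, hε, c, hC7, fun η hη => ?_⟩
  set K₁ : ℝ := (d + 8) * lmC * 3 * (2 * C + 2) / (2 * epC d) + 2 * L + 1 with hK₁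
  have hK₁0 : 0 < K₁ := by rw [hK₁]; positivity
  set K₂ : ℝ := (d + 8) / (2 * epC d) + 2 * L + 1 with hK₂
  have hK₂0 : 0 < K₂ := by rw [hK₂]; positivity
  set KA : ℝ := 2 * (8 / epC d + 32) with hKA
  have hKA64 : 64 ≤ KA := by rw [hKA]; linarith [show 0 ≤ 8 / epC d by positivity]
  set mη := min 1 (η / (2 * C)) with hmηdef
  have hmη : 0 < mη := lt_min one_pos (by positivity)
  set K : ℝ := K₁ + K₂ + 3 * KA + 8 + 3 * KA / mη with hK
  have hK' : 0 ≤ 3 * KA / mη := div_nonneg (by linarith) hmη.le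
  refine ⟨K, by linarith, fun f hf hfc s R r N x n e hS he hn hne => ?_⟩
  have hs := hS.hs
  have hR : 0 < R := lt_of_lt_of_le hs hS.hsR
  have hr : 0 < r := lt_of_lt_of_le hR hS.hr.1
  set v := ∇ f with hvdef
  have hv : Continuous v := continuous_gradient hf
  have hvc : HasCompactSupport v := hasCompactSupport_gradient hfc
  have hFc : ∀ l, ContinuousOn (fun y => ‖hier v s l y‖) (closedBall x r) :=
    fun l => (continuous_hier hv l).norm.continuousOn
  set A := 2 * C with hAdef
  set B := cohMass v s x R N n with hBdef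
  set W := shellMass v s A x r N with hWdef
  have hB0 : 0 ≤ B := cohMass_nonneg hv hs.le hR.le hn
  have hW0 : 0 ≤ W := shellMass_nonneg hv A
  have hgeoB : geoMass v s x R N ≤ B :=
    le_add_of_nonneg_left (setIntegral_nonneg measurableSet_closedBall
      fun y _ => excN_nonneg _ hn)
  refine ⟨fun q => ?_, (endpoint_bound (x := x) hf hfc hL hLip hC1 hCL hS he hn hne).trans
    (mul_le_mul_of_nonneg_right (by linarith) (add_nonneg hB0 hW0))⟩
  set G := selMass v s A x r N q R with hGdef
  have hG0 : 0 ≤ G := selMass_nonneg hv A q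
  set D := |‖x - q‖ - r| with hDdef
  set P := ∫ y in ball x r, ⟪v y, r⁻¹ • (y - x)⟫ with hPdef
  obtain ⟨ν, hν, hqν⟩ := exists_unit_towards q x e he hr.le
  set κ := -⟪e, ν⟫ with hκdef
  have hκ : |κ| ≤ 1 := by rw [hκdef, abs_neg]; exact abs_inner_le_one he hν.le
  have hamp : ∀ l, ∀ y ∈ closedBall x r,
      qF e κ (upos x r y) ≤ 2 * ((‖y - q‖ + stp s l + D) / R) := fun l y hy =>
    qF_le_amp he hν hr hS.hr.1 hR hy (stp_pos hs l).le hqν
  set α : ℕ → Euc d → ℝ := fun l y => min 1 ((‖y - q‖ + stp s l + D) / R) with hαdef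
  have hαc : ∀ l, ContinuousOn (α l) (closedBall x r) := fun l => by simp only [hαdef]; fun_prop
  set M : ℝ := (d + 8) * lmC * 3 with hMdef
  have hM0 : 0 ≤ M := by rw [hMdef]; positivity
  have hM : ∀ l, ∀ y ∈ closedBall x r, ‖bigOm e κ lmC (upos x r y)‖ ≤ M * α l y := by
    intro l y hy
    refine (norm_bigOm_le he hκ (norm_upos_le hr hy) hlam1).trans ?_
    rw [hMdef, mul_assoc ((d + 8) * lmC) 3]
    refine mul_le_mul_of_nonneg_left ?_ (by positivity)
    refine (mul_le_of_le_one_right qF_nonneg (gF_le_one hlam0)).trans ?_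
    rw [hαdef, mul_min_of_nonneg _ _ (by norm_num : (0:ℝ) ≤ 3), mul_one]
    have h0 : 0 ≤ (‖y - q‖ + stp s l + D) / R :=
      div_nonneg (by have := stp_pos hs l; positivity) hR.le
    exact le_min (qF_le he hκ (norm_upos_le hr hy)) ((hamp l y hy).trans (by linarith))
  have hexcα := mul_le_mul_of_nonneg_left (res_exc_amp_le hv hvc hC1 hS hn (x := x) q)
    (show 0 ≤ M / (2 * epC d) by positivity)
  change M / (2 * epC d) * res s C x r N (fun l y => α l y * excN (hier v s l y) n) ≤
    M / (2 * epC d) * (B + (2 * C + 2) * G) at hexcα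
  have hP : κ * P ≤ |P| := (le_abs_self _).trans (by
    rw [abs_mul]; exact mul_le_of_le_one_left (abs_nonneg _) hκ)
  have hK₁le : M / (2 * epC d) * (B + (2 * C + 2) * G) + 2 * L * geoMass v s x R N ≤
      K₁ * (B + G) := by
    have e1 : K₁ = M / (2 * epC d) * (2 * C + 2) + 2 * L + 1 := by rw [hK₁, hMdef]; ring
    have hq : 0 ≤ M / (2 * epC d) := by positivity
    rw [e1]
    have h1 : 0 ≤ M / (2 * epC d) * (2 * C + 1) * B :=
      mul_nonneg (mul_nonneg hq (by linarith)) hB0
    have h2 : 0 ≤ 2 * L * G := mul_nonneg (by linarith) hG0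
    linarith [mul_le_mul_of_nonneg_left hgeoB (by linarith : (0:ℝ) ≤ 2 * L)]
  have hKBG : ∀ K' ≤ K, K' * (B + G) ≤ K * (B + G) := fun K' h =>
    mul_le_mul_of_nonneg_right h (add_nonneg hB0 hG0)
  have hKP : ∀ K' ≤ K, K' * |P| ≤ K * |P| := fun K' h =>
    mul_le_mul_of_nonneg_right h (abs_nonneg _)
  rcases le_or_gt |κ| (1 - thC) with hnp | hp
  · left
    have h := field_bound (x := x) hf hfc hL hLip hC1 hCL hS he hn hκ (low := fun _ => 0) (W := α) hM0
      continuousOn_const hαc (fun y hy => by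
        rw [zero_add]
        exact (bigOm_lower (lam := lmC) hθ thC_le rfl he hκ (norm_upos_le hr hy) hne hε.le (epC_small d)).1 hnp)
      hM
    rw [show res s C x r N (fun l y => -(0:ℝ) * ‖hier v s l y‖) = 0 by simp [res]] at h
    have := hKBG K₁ (by linarith)
    have := hKP 1 (by linarith)
    simp only [upos] at h
    linarith
  -- the polar case
  set om : Euc d → ℝ := fun y => polCut e κ (upos x r y) with homdef
  set zq : Euc d → ℝ := fun y => min thC (qF e κ (upos x r y)) with hzqdef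
  have homc : ContinuousOn om (closedBall x r) := by
    simp only [homdef, polCut, upos]; fun_prop
  have hzqc : ContinuousOn zq (closedBall x r) := by
    simp only [hzqdef, qF, aF, pF, upos]; fun_prop
  set OUT := res s C x r N (fun l y => om y * ‖hier v s l y‖) with hOUT
  set ZQ := res s C x r N (fun l y => zq y * ‖hier v s l y‖) with hZQ
  set ALL := allMass v s C x r N with hALL
  have hO : 0 ≤ OUT := res_nonneg hs hC1 fun l y _ => mul_nonneg (le_max_left _ _) (norm_nonneg _)
  have hZθ : ZQ ≤ thC * ALL := by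
    rw [hALL, allMass_eq_res, ← res_const_mul]
    exact res_mono hs hC1 (fun l => hzqc.mul (hFc l)) (fun l => continuousOn_const.mul (hFc l))
      (fun y _ _ => mul_le_mul_of_nonneg_right (min_le_left _ _) (norm_nonneg _))
      (fun l _ y _ _ => mul_le_mul_of_nonneg_right (min_le_left _ _) (norm_nonneg _))
  have hmain : -∫ y in ball x r, ⟪v y, e⟫ ≤ |P| - OUT / 32 + 4 * ZQ + K₁ * (B + G) := by
    have h := field_bound (x := x) hf hfc hL hLip hC1 hCL hS he hn hκ
      (low := fun y => om y / 32 - 4 * zq y) (W := α) hM0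
      ((homc.div_const 32).sub (continuousOn_const.mul hzqc)) hαc (fun y hy => by
        have := (bigOm_lower (lam := lmC) hθ thC_le rfl he hκ (norm_upos_le hr hy) hne hε.le (epC_small d)).2 hp
        simp only [homdef, hzqdef]
        linarith) hM
    have e4 : res s C x r N (fun l y => -(om y / 32 - 4 * zq y) * ‖hier v s l y‖) =
        (-1 / 32) * OUT + 4 * ZQ := by
      rw [hOUT, hZQ, ← res_const_mul, ← res_const_mul, ← res_add hs hC1
        (g := fun l y => -1 / 32 * (om y * ‖hier v s l y‖))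
        (g' := fun l y => 4 * (zq y * ‖hier v s l y‖))
        (fun l => continuousOn_const.mul (homc.mul (hFc l))) (fun l => continuousOn_const.mul (hzqc.mul (hFc l)))]
      congr 1; funext l y; ring
    rw [e4] at h
    simp only [upos] at h
    linarith
  rcases le_or_gt (4 * thC * ALL) (OUT / 32) with hsm | hlg
  · left
    have := hKBG K₁ (by linarith)
    have := hKP 1 (by linarith)
    linarith
  have hAll : ALL ≤ KA * (|P| + B + W) := by
    have h := stationary_bound hf hfc hC128 hS he hn hne hκ hp (x := x)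
    have e1 : thC * ALL * 8192 = ALL := by unfold thC; ring
    have e2 : 32 * |P| ≤ KA * |P| := mul_le_mul_of_nonneg_right (by linarith) (abs_nonneg _)
    have e3 : 2 * ((8 / epC d + 32) * (B + W)) = KA * (B + W) := by rw [hKA]; ring
    simp only [upos] at h
    simp only [homdef, upos] at hOUT
    rw [← hOUT] at h
    linarith
  have hZKA : 4 * ZQ ≤ thC * 4 * (KA * (|P| + B + W)) := by
    have := mul_le_mul_of_nonneg_left hAll (by positivity : (0:ℝ) ≤ thC * 4)
    linarith
  have hθ16 : thC * 8 ≤ 1 := by unfold thC; norm_num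
  have hKA0 : 0 ≤ KA := by linarith
  by_cases hBW : W ≤ B + |P|
  · left
    have h1 : 4 * ZQ ≤ KA * (|P| + B) := by
      refine hZKA.trans ?_
      have : thC * 4 * (KA * (|P| + B + W)) ≤ thC * 4 * (KA * (2 * (|P| + B))) :=
        mul_le_mul_of_nonneg_left (mul_le_mul_of_nonneg_left (by linarith) hKA0) (by positivity)
      have h2 := mul_le_mul_of_nonneg_right hθ16 (show 0 ≤ KA * (|P| + B) by positivity)
      linarith
    have := hKP (KA + 1) (by linarith)
    have := hKBG (K₁ + KA) (by linarith)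
    have : 0 ≤ KA * G := mul_nonneg hKA0 hG0
    linarith
  push Not at hBW
  have hAllW : ALL ≤ 2 * KA * W := by
    have : KA * (|P| + B + W) ≤ KA * (2 * W) := mul_le_mul_of_nonneg_left (by linarith) hKA0
    linarith
  by_cases hD : D ≤ η * R
  · right
    refine ⟨hD, hAllW.trans (mul_le_mul_of_nonneg_right (by linarith) hW0), ?_, ?_⟩
    · have h1 := allMass_half_le hv hvc (show (128:ℝ) ≤ C from hC128) hS hn (x := x)
      have e9 : allMass v s (C / 2) x r N ≤ (2 * KA + 2) * W := by linarith [abs_nonneg P]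
      exact e9.trans (mul_le_mul_of_nonneg_right (by linarith) hW0)
    · have hZ2 : ZQ ≤ 2 * polMass v s C x r N q R :=
        res_le_polMass hv hs hC1 hzqc
          (fun l y hy => (min_le_right _ _).trans (hamp l y hy))
      have hP0 : 0 ≤ polMass v s C x r N q R := polMass_nonneg hs hC1 hR
      have : 8 * polMass v s C x r N q R ≤ K * polMass v s C x r N q R :=
        mul_le_mul_of_nonneg_right (by linarith) hP0
      have := hKP 1 (by linarith)
      have := hKBG K₁ (by linarith)
      linarith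
  · left
    push Not at hD
    have hWG : mη * W ≤ G := shellMass_le_selMass hv hvc hs hR hC1 hη.le hD.le
    have hWG' : KA * W ≤ KA / mη * G := by
      rw [div_mul_eq_mul_div, le_div_iff₀ hmη, mul_assoc, mul_comm W]
      exact mul_le_mul_of_nonneg_left hWG hKA0
    have h1 : 4 * ZQ ≤ KA * W := by
      refine hZKA.trans ?_
      have : thC * 4 * (KA * (|P| + B + W)) ≤ thC * 4 * (KA * (2 * W)) :=
        mul_le_mul_of_nonneg_left (mul_le_mul_of_nonneg_left (by linarith) hKA0) (by positivity)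
      have h2 := mul_le_mul_of_nonneg_right hθ16 (show 0 ≤ KA * W by positivity)
      linarith
    have hq : 0 ≤ KA / mη := div_nonneg hKA0 hmη.le
    have hq3 : K₁ + KA / mη ≤ K := by
      have e : 3 * KA / mη = 3 * (KA / mη) := mul_div_assoc 3 KA mη
      linarith
    have := hKBG (K₁ + KA / mη) hq3
    have := hKP 1 (by linarith)
    have : 0 ≤ KA / mη * B := mul_nonneg hq hB0
    linarith

/-- The crude bound for the derivatives. -/
theorem exists_crude (d : ℕ) (c : ℕ) (hc : 7 ≤ c) :
    ∃ K : ℝ, 0 ≤ K ∧ ∀ v : Euc d → Euc d, Continuous v → HasCompactSupport v →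
      ∀ (s R r : ℝ) (N : ℕ) (x : Euc d), Scaled s (2 ^ c) R r N → ∀ e : Euc d, ‖e‖ ≤ 1 →
        |∫ y in ball x r, ⟪v y, e⟫| + |∫ y in ball x r, ⟪v y, r⁻¹ • (y - x)⟫| ≤
          K * (topMass v s x R N + shellMass v s (2 * 2 ^ c) x r N) := by
  refine ⟨12, by norm_num, fun v hv hvc s R r N x hS e he => ?_⟩
  set C : ℝ := 2 ^ c
  have hC : (128 : ℝ) ≤ C := le_trans (by norm_num) (pow_le_pow_right₀ one_le_two hc)
  have hC1 : 1 ≤ C := by linarith
  have hs := hS.hs
  have hR : 0 < R := lt_of_lt_of_le hs hS.hsR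
  have hr : 0 < r := lt_of_lt_of_le hR hS.hr.1
  have hall := allMass_le_top hv hvc hC1 (le_refl (2 * C)) (x := x) hS
  have hgeo0 := geoMass_nonneg (x := x) (N := N) hv hs.le hR.le
  have hgeo : geoMass v s x R N ≤ topMass v s x R N :=
    le_add_of_nonneg_left (setIntegral_nonneg measurableSet_closedBall fun y _ => norm_nonneg _)
  have hW0 := shellMass_nonneg (x := x) (r := r) (N := N) (s := s) hv (2 * C)
  have key : ∀ ξ : Euc d → Euc d, ContinuousOn ξ (closedBall x r) →
      (∀ y ∈ closedBall x r, ∀ z ∈ closedBall x r, ‖ξ y - ξ z‖ ≤ 1 / r * ‖y - z‖) →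
      (∀ y ∈ closedBall x r, ‖ξ y‖ ≤ 1) →
      -∫ y in ball x r, ⟪v y, ξ y⟫ ≤ 2 * allMass v s C x r N + 2 * geoMass v s x R N := by
    intro ξ hξ hξL hξ1
    have h1 := neg_inner_le_res hv hvc hC1 hS hξ zero_le_one hξL
    have hpt : ∀ l, ∀ y ∈ closedBall x r, -⟪hier v s l y, ξ y⟫ ≤ ‖hier v s l y‖ := fun l y hy =>
      ((neg_le_abs _).trans (abs_real_inner_le_norm _ _)).trans
        (mul_le_of_le_one_right (norm_nonneg _) (hξ1 y hy))
    have hF0 : Integrable fun y => fin0 s C x r y * ‖v y‖ :=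
      integrable_fin0_mul hs (by linarith) hv.norm.continuousOn
    have hfin : ∫ y, fin0 s C x r y * -⟪v y, ξ y⟫ ≤ ∫ y, fin0 s C x r y * ‖v y‖ := by
      refine integral_mono (integrable_fin0_mul hs (by linarith) (hv.continuousOn.inner hξ).neg)
        hF0 fun y => ?_
      simp only
      by_cases hy : y ∈ ball x r
      · exact mul_le_mul_of_nonneg_left (hpt 0 y (ball_subset_closedBall hy))
          (fin0_nonneg hs (by linarith) y)
      · rw [fin0_eq_zero_of_notMem hs (by linarith) hy, zero_mul, zero_mul]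
    have hlev : ∀ l, ∫ y, incr s C x r l y *
        (-⟪hier v s l y, ξ y⟫ + 2 * 1 * (stp s l / r) * ‖hier v s l y‖) ≤
        2 * ∫ y, incr s C x r l y * ‖hier v s l y‖ := by
      intro l
      rw [← integral_const_mul]
      refine integral_mono (integrable_incr_mul hs hC1 l
        (((continuous_hier hv l).continuousOn.inner hξ).neg.add
          (continuousOn_const.mul (continuous_hier hv l).norm.continuousOn)))
        ((integrable_incr_mul hs hC1 l (continuous_hier hv l).norm.continuousOn).const_mul 2)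
        fun y => ?_
      simp only
      by_cases hz : incr s C x r l y = 0
      · rw [hz, zero_mul, zero_mul, mul_zero]
      rw [mul_left_comm 2]
      refine mul_le_mul_of_nonneg_left ?_ (incr_nonneg hs hC1 l y)
      have hy : y ∈ closedBall x r :=
        ball_subset_closedBall (by_contra fun h => hz (incr_eq_zero_of_notMem hs hC1 h))
      have hlt : ‖y - x‖ < r - C * stp s l := lt_of_not_ge fun h => hz (incr_eq_zero hs hC1 h)
      have h2 : 2 * (stp s l / r) ≤ 1 := by
        rw [← mul_div_assoc, div_le_one hr]; nlinarith [norm_nonneg (y - x), stp_pos hs l]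
      nlinarith [hpt l y hy, norm_nonneg (hier v s l y)]
    have hsum := Finset.sum_le_sum (s := Finset.range N) fun l _ => hlev l
    rw [← Finset.mul_sum] at hsum
    have h0 : 0 ≤ ∫ y, fin0 s C x r y * ‖v y‖ :=
      integral_nonneg fun y => mul_nonneg (fin0_nonneg hs (by linarith) y) (norm_nonneg _)
    rw [allMass_eq_res]
    unfold res
    simp only [hier]
    linarith
  have hu : ∀ y ∈ closedBall x r, ‖r⁻¹ • (y - x)‖ ≤ 1 := fun y hy => by
    rw [norm_smul, Real.norm_of_nonneg (inv_nonneg.2 hr.le), inv_mul_le_iff₀ hr, mul_one]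
    exact mem_closedBall_iff_norm.1 hy
  have hL : ∀ y z : Euc d, ‖r⁻¹ • (y - x) - r⁻¹ • (z - x)‖ ≤ 1 / r * ‖y - z‖ := fun y z => by
    rw [← smul_sub, sub_sub_sub_cancel_right, norm_smul,
      Real.norm_of_nonneg (inv_nonneg.2 hr.le), one_div]
  have a1 := key (fun _ => e) continuousOn_const
    (fun y _ z _ => by simp; positivity) (fun y _ => he)
  have a2 := key (fun _ => -e) continuousOn_const
    (fun y _ z _ => by simp; positivity) (fun y _ => by rwa [norm_neg])
  have a3 := key (fun y => r⁻¹ • (y - x)) (by fun_prop) (fun y _ z _ => hL y z) hu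
  have a4 := key (fun y => -(r⁻¹ • (y - x))) (by fun_prop)
    (fun y _ z _ => by rw [neg_sub_neg, norm_sub_rev]; exact hL y z)
    (fun y hy => by rw [norm_neg]; exact hu y hy)
  simp only [inner_neg_right, integral_neg, neg_neg] at a2 a4
  have b1 : |∫ y in ball x r, ⟪v y, e⟫| ≤ 2 * allMass v s C x r N + 2 * geoMass v s x R N :=
    abs_le.2 ⟨by linarith, a2⟩
  have b2 : |∫ y in ball x r, ⟪v y, r⁻¹ • (y - x)⟫| ≤
      2 * allMass v s C x r N + 2 * geoMass v s x R N := abs_le.2 ⟨by linarith, a4⟩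
  linarith

end Vale.Agent.P137.Centred
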