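import Vale.Agent.P137.Centred.Resolution

/-!
# P137, centred operator: the ray lemma

The events on one ray through the selected point `q` are summed: the part of a ball far from `q` is
passed, by telescoping, to a larger ball on the same ray.
-/

open MeasureTheory Filter Set Metric
open scoped ENNReal NNReal Topology RealInnerProductSpace

noncomputable section

namespace Vale.Agent.P137.Centred

variable {d : ℕ}

/-- A weight which is small unless `a` and `R` are comparable. -/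
def mid (a R : ℝ) : ℝ := Real.sqrt (min (a / R) (R / a))

lemma mid_nonneg (a R : ℝ) : 0 ≤ mid a R := Real.sqrt_nonneg _

lemma sum_pow_natAbs_le (T : Finset ℤ) (n : ℤ) :
    ∑ k ∈ T, ((3 : ℝ) / 4) ^ (k - n).natAbs ≤ 8 := by
  classical
  set f : ℤ → Bool × ℕ := fun k => (decide (n ≤ k), (k - n).natAbs)
  have hinj : Set.InjOn f T := fun a _ b _ hab => by
    simp only [f, Prod.mk.injEq, decide_eq_decide] at hab
    by_cases ha : n ≤ a
    · have := hab.1.1 ha; omega
    · have : ¬n ≤ b := fun h => ha (hab.1.2 h); omega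
  set m := T.sup fun k => (k - n).natAbs
  calc ∑ k ∈ T, ((3 : ℝ) / 4) ^ (k - n).natAbs = ∑ p ∈ T.image f, ((3 : ℝ) / 4) ^ p.2 := by
        rw [Finset.sum_image hinj]
    _ ≤ ∑ p ∈ (Finset.univ : Finset Bool) ×ˢ Finset.range (m + 1), ((3 : ℝ) / 4) ^ p.2 := by
        refine Finset.sum_le_sum_of_subset_of_nonneg (fun p hp => ?_) fun p _ _ => by positivity
        obtain ⟨k, hk, rfl⟩ := Finset.mem_image.1 hp
        exact Finset.mem_product.2 ⟨Finset.mem_univ _,
          Finset.mem_range.2 (Nat.lt_succ_of_le (Finset.le_sup (f := fun k => (k - n).natAbs) hk))⟩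
    _ ≤ 8 := by
        rw [Finset.sum_product, Fintype.sum_bool, geom_sum_eq (by norm_num)]
        have : (0 : ℝ) ≤ (3 / 4) ^ (m + 1) := by positivity
        rw [show ∀ x : ℝ, (x - 1) / (3 / 4 - 1) = 4 - 4 * x from fun x => by ring]
        linarith

/-- Each scale is met by few weights. -/
lemma sum_mid_le (T : Finset ℤ) {a : ℝ} (ha : 0 ≤ a) : ∑ k ∈ T, mid a (2 ^ k) ≤ 16 := by
  rcases ha.eq_or_lt with rfl | ha
  · simp [mid]
  obtain ⟨n, hn, hn'⟩ := exists_mem_Ico_zpow (y := (2 : ℝ)) ha one_lt_two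
  have key : ∀ k, mid a (2 ^ k) ≤ 2 * ((3 : ℝ) / 4) ^ (k - n).natAbs := by
    intro k
    set j := (k - n).natAbs with hj
    have h9 : ((1 : ℝ) / 2) ^ j ≤ (9 / 16) ^ j :=
      pow_le_pow_left₀ (by norm_num) (by norm_num) j
    have e : (2 * ((3 : ℝ) / 4) ^ j) ^ 2 = 4 * (9 / 16) ^ j := by
      rw [mul_pow, ← pow_mul, mul_comm j, pow_mul]; norm_num
    have h0 : (0 : ℝ) ≤ (1 / 2) ^ j := by positivity
    rw [mid, Real.sqrt_le_left (by positivity), e]
    rcases le_or_gt n k with hk | hk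
    · refine (min_le_left _ _).trans ?_
      have e2 : (2 : ℝ) ^ k = 2 ^ n * 2 ^ j := by
        rw [← zpow_natCast (2 : ℝ) j, ← zpow_add₀ (by norm_num)]; congr 1; omega
      have e3 : (2 : ℝ) ^ (n + 1) / 2 ^ k = 2 * (1 / 2) ^ j := by
        rw [e2, zpow_add_one₀ (by norm_num), div_pow, one_pow]
        field_simp
      linarith [div_le_div_of_nonneg_right hn'.le (zpow_nonneg (zero_le_two (α := ℝ)) k)]
    · refine (min_le_right _ _).trans ?_
      have e2 : (2 : ℝ) ^ n = 2 ^ k * 2 ^ j := by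
        rw [← zpow_natCast (2 : ℝ) j, ← zpow_add₀ (by norm_num)]; congr 1; omega
      have e3 : (2 : ℝ) ^ k / 2 ^ n = (1 / 2) ^ j := by
        rw [e2, div_pow, one_pow]; field_simp
      linarith [div_le_div_of_nonneg_left (zpow_nonneg (zero_le_two (α := ℝ)) k)
        (zpow_pos (two_pos (α := ℝ)) n) hn]
  refine (Finset.sum_le_sum fun k _ => key k).trans ?_
  rw [← Finset.mul_sum]
  linarith [sum_pow_natAbs_le T n]

lemma le_mul_mid {t : ℝ} {a R : ℝ} (ha : 0 < a) (hR : 0 < R) (ht : t = a / R) (h8 : t ≤ 8) :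
    t ≤ 23 * mid a R := by
  have ht0 : 0 < t := ht ▸ by positivity
  rw [← div_le_iff₀' (by norm_num), mid, Real.le_sqrt (by positivity) (by positivity), ← ht,
    show R / a = 1 / t by rw [ht, one_div_div], le_min_iff, le_div_iff₀ ht0]
  constructor
  · nlinarith
  · nlinarith [pow_le_pow_left₀ ht0.le h8 3]

/-- Going out along a ray from `q` enlarges a ball, away from `q`. -/
lemma ray_step {y q p : Euc d} {t D D' R w : ℝ} (ht : 2 ≤ t) (hp : ‖p‖ ≤ 9 / 4 * R) (hD : 0 ≤ D)
    (hDR : D ≤ R / 4) (hD' : 0 ≤ D') (hw : 0 ≤ w) (hy : ‖y - (q + p)‖ < ‖p‖ + D - w) :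
    ‖y - (q + t • p)‖ < t * ‖p‖ - D' - w / 2 ∨
      (‖y - q‖ ≤ 7 * Real.sqrt (R * (D + D')) ∧ w ≤ 4 * (D + D')) := by
  set z := y - q with hz
  rw [show y - (q + p) = z - p by rw [hz]; abel] at hy
  rw [show y - (q + t • p) = z - t • p by rw [hz]; abel]
  have hmove : ∀ t₀ ≤ t, ‖z - t • p‖ ≤ ‖z - t₀ • p‖ + (t - t₀) * ‖p‖ := fun t₀ ht₀ => by
    have e : z - t • p = (z - t₀ • p) - (t - t₀) • p := by rw [sub_smul]; abel
    rw [e]
    refine (norm_sub_le _ _).trans ?_
    rw [norm_smul, Real.norm_of_nonneg (by linarith)]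
  have h1 := hmove 1 (by linarith)
  have h2 := hmove 2 ht
  rw [one_smul] at h1
  rw [two_smul] at h2
  have par := parallelogram_law_with_norm ℝ (z - p) p
  rw [sub_add_cancel, show z - p - p = z - (p + p) by abel] at par
  set a := ‖z‖
  set b := ‖z - p‖
  set g := ‖z - (p + p)‖
  set L := ‖p‖
  set e := ‖z - t • p‖
  have hg : 0 ≤ g := norm_nonneg _
  have hb : 0 ≤ b := norm_nonneg _
  have hL : 0 ≤ L := norm_nonneg _
  rcases le_or_gt (4 * (D + D')) w with h | h
  · left; linarith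
  rcases le_or_gt a (7 * Real.sqrt (R * (D + D'))) with ha | ha
  · exact .inr ⟨ha, h.le⟩
  left
  have hR0 : 0 ≤ R := by linarith
  have ha2 : 49 * (R * (D + D')) < a * a := by
    have := Real.mul_self_sqrt (mul_nonneg hR0 (add_nonneg hD hD'))
    nlinarith [Real.sqrt_nonneg (R * (D + D'))]
  have hbb : b * b ≤ (L + D) * (L + D) := by nlinarith
  have hLS := mul_le_mul_of_nonneg_right hp (add_nonneg hD hD')
  have hLD := mul_le_mul_of_nonneg_left (le_add_of_nonneg_right hD' : D ≤ D + D') hL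
  have hDD := mul_le_mul_of_nonneg_right hDR hD
  have hRD := mul_le_mul_of_nonneg_left (le_add_of_nonneg_right hD' : D ≤ D + D') hR0
  rcases lt_or_ge (2 * L) (3 * (D + D')) with h3 | h3
  · nlinarith [mul_le_mul_of_nonneg_left h3.le hL]
  have : g ≤ 2 * L - 3 * (D + D') := by nlinarith
  linarith

/-- The potential of the records. -/
def pot (b : ℕ) (k m : ℤ) : ℤ := max 0 (min (k - m + b + 1) (2 * b + 2))

/-- The weighted total of the potential. -/
def Phi (b : ℕ) (Ms : Finset ℤ) (S : ℤ → ℝ) (k : ℤ) : ℝ := ∑ m ∈ Ms, (pot b k m : ℝ) * S m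

lemma Phi_mono {b : ℕ} {Ms : Finset ℤ} {S : ℤ → ℝ} (hS : ∀ m ∈ Ms, 0 ≤ S m) {k k' : ℤ}
    (h : k ≤ k') : Phi b Ms S k ≤ Phi b Ms S k' := by
  refine Finset.sum_le_sum fun m hm => mul_le_mul_of_nonneg_right ?_ (hS m hm)
  exact_mod_cast (show pot b k m ≤ pot b k' m by unfold pot; omega)

/-- One step of the covering: `M` covers what is not passed on to `T'`. -/
lemma records_step {W D : ℤ → ℝ} {T T' : Finset ℤ} {M : ℤ} {σ : ℤ → ℤ}
    (hW : ∀ k ∈ T, 0 ≤ W k) (hMT : M ∈ T) (hle : ∀ k ∈ T, k ≤ M) (hsub : T' ⊆ T)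
    (hσ : ∀ k ∈ T', σ k ∈ T' ∧ k ≤ σ k ∧ D (σ k) ≤ (2 : ℝ) ^ k ∧ W k ≤ 2 * W (σ k))
    (hout : ∀ k ∈ T, k ∉ T' → D M ≤ (2 : ℝ) ^ k ∧ W k ≤ 2 * W M) :
    (∀ k ∈ T, (if k ∈ T' then σ k else M) ∈ T ∧ k ≤ (if k ∈ T' then σ k else M) ∧
      D (if k ∈ T' then σ k else M) ≤ (2 : ℝ) ^ k ∧ W k ≤ 2 * W (if k ∈ T' then σ k else M)) ∧
    ∑ m ∈ T.image (fun k => if k ∈ T' then σ k else M), W m ≤
      W M + ∑ m ∈ T'.image σ, W m := by
  classical
  refine ⟨fun k hk => ?_, ?_⟩
  · by_cases hk' : k ∈ T'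
    · simp only [hk', if_true]
      exact ⟨hsub (hσ k hk').1, (hσ k hk').2⟩
    · simp only [hk', if_false]
      exact ⟨hMT, hle k hk, hout k hk hk'⟩
  have hsub' : T.image (fun k => if k ∈ T' then σ k else M) ⊆ insert M (T'.image σ) := by
    intro m hm
    obtain ⟨k, -, rfl⟩ := Finset.mem_image.1 hm
    by_cases hk' : k ∈ T'
    · simp only [hk', if_true]
      exact Finset.mem_insert_of_mem (Finset.mem_image_of_mem _ hk')
    · simp [hk']
  have hW' : ∀ m ∈ T'.image σ, 0 ≤ W m := fun m hm => by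
    obtain ⟨k, hk, rfl⟩ := Finset.mem_image.1 hm
    exact hW _ (hsub (hσ k hk).1)
  refine (Finset.sum_le_sum_of_subset_of_nonneg hsub' fun m hm _ => ?_).trans ?_
  · rcases Finset.mem_insert.1 hm with rfl | hm
    exacts [hW _ hMT, hW' m hm]
  · by_cases hmem : M ∈ T'.image σ
    · rw [Finset.insert_eq_of_mem hmem]; linarith [hW M hMT]
    · rw [Finset.sum_insert hmem]

/-- The covering of the events by the records. -/
lemma exists_records {b : ℕ} {W D S : ℤ → ℝ} {Ms T : Finset ℤ}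
    (hW : ∀ k ∈ T, 0 ≤ W k) (hS : ∀ m ∈ Ms, 0 ≤ S m) (hD : ∀ k ∈ T, D k ≤ (2 : ℝ) ^ k)
    (hWS : ∀ k ∈ T, W k ≤ ∑ m ∈ Ms.filter (fun m => m ≤ k + b ∧ D k ≤ (2 : ℝ) ^ (m + b)), S m) :
    ∃ σ : ℤ → ℤ, (∀ k ∈ T, σ k ∈ T ∧ k ≤ σ k ∧ D (σ k) ≤ (2 : ℝ) ^ k ∧ W k ≤ 2 * W (σ k)) ∧
      ∀ k₀ ∈ T, (∀ k ∈ T, k ≤ k₀) → ∑ M ∈ T.image σ, W M + W k₀ ≤ 2 * Phi b Ms S k₀ := by
  classical
  induction T using Finset.strongInduction with
  | H T ih =>
    rcases T.eq_empty_or_nonempty with rfl | hne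
    · exact ⟨id, by simp, by simp⟩
    obtain ⟨M, hMT, hle⟩ : ∃ M ∈ T, ∀ k ∈ T, k ≤ M := ⟨_, T.max'_mem hne, T.le_max'⟩
    have hWM := hW M hMT
    by_cases hrec : ∃ k ∈ T, k < M ∧ D M ≤ (2 : ℝ) ^ k ∧ 2 * W M < W k
    · obtain ⟨k', ⟨hkT, hkM, hkD, hkW⟩, hmax⟩ : ∃ k',
          (k' ∈ T ∧ k' < M ∧ D M ≤ (2 : ℝ) ^ k' ∧ 2 * W M < W k') ∧
          ∀ k ∈ T, k < M → D M ≤ (2 : ℝ) ^ k → 2 * W M < W k → k ≤ k' := by
        obtain ⟨k, hk, h⟩ := hrec
        set U := T.filter fun k => k < M ∧ D M ≤ (2 : ℝ) ^ k ∧ 2 * W M < W k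
        have hU : U.Nonempty := ⟨k, Finset.mem_filter.2 ⟨hk, h⟩⟩
        exact ⟨_, Finset.mem_filter.1 (U.max'_mem hU), fun j hj h1 h2 h3 =>
          U.le_max' j (Finset.mem_filter.2 ⟨hj, h1, h2, h3⟩)⟩
      set T' := T.filter (· ≤ k')
      have hsub : T' ⊆ T := Finset.filter_subset _ _
      obtain ⟨σ, h1, h2⟩ := ih T' (Finset.filter_ssubset.2 ⟨M, hMT, not_le.2 hkM⟩)
        (fun k hk => hW k (hsub hk)) (fun k hk => hD k (hsub hk)) (fun k hk => hWS k (hsub hk))
      obtain ⟨h3, h4⟩ := records_step hW hMT hle hsub h1 fun k hk hk' => by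
        rw [Finset.mem_filter, not_and, not_le] at hk'
        have hlt := hk' hk
        have hDk : D M ≤ (2 : ℝ) ^ k := hkD.trans (zpow_le_zpow_right₀ one_le_two hlt.le)
        refine ⟨hDk, le_of_not_gt fun hc => ?_⟩
        rcases (hle k hk).lt_or_eq with h | h
        · exact hlt.not_ge (hmax k hk h hDk hc)
        · rw [h] at hc; linarith
      refine ⟨_, h3, fun k₀ hk₀ hk₀' => ?_⟩
      obtain rfl : k₀ = M := le_antisymm (hle _ hk₀) (hk₀' _ hMT)
      have := h2 k' (Finset.mem_filter.2 ⟨hkT, le_rfl⟩) fun k hk => (Finset.mem_filter.1 hk).2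
      linarith [Phi_mono (b := b) hS hkM.le]
    · push Not at hrec
      set T' := T.filter fun k : ℤ => (2 : ℝ) ^ k < D M
      have hsub : T' ⊆ T := Finset.filter_subset _ _
      obtain ⟨σ, h1, h2⟩ := ih T' (Finset.filter_ssubset.2 ⟨M, hMT, not_lt.2 (hD M hMT)⟩)
        (fun k hk => hW k (hsub hk)) (fun k hk => hD k (hsub hk)) (fun k hk => hWS k (hsub hk))
      obtain ⟨h3, h4⟩ := records_step hW hMT hle hsub h1 fun k hk hk' => by
        rw [Finset.mem_filter, not_and, not_lt] at hk'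
        refine ⟨hk' hk, ?_⟩
        rcases (hle k hk).lt_or_eq with h | h
        · exact hrec k hk h (hk' hk)
        · rw [h]; linarith
      refine ⟨_, h3, fun k₀ hk₀ hk₀' => ?_⟩
      obtain rfl : k₀ = M := le_antisymm (hle _ hk₀) (hk₀' _ hMT)
      have hwin := hWS k₀ hMT
      rw [Finset.sum_filter] at hwin
      rcases T'.eq_empty_or_nonempty with he | hne'
      · have h4' := h4.trans_eq (by rw [he, Finset.image_empty, Finset.sum_empty, add_zero] :
          W k₀ + ∑ m ∈ T'.image σ, W m = W k₀)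
        have : ∑ m ∈ Ms, (if m ≤ k₀ + b ∧ D k₀ ≤ (2 : ℝ) ^ (m + b) then S m else 0) ≤
            Phi b Ms S k₀ := by
          refine Finset.sum_le_sum fun m hm => ?_
          split_ifs with h
          · refine le_mul_of_one_le_left (hS m hm) ?_
            exact_mod_cast (show (1 : ℤ) ≤ pot b k₀ m by unfold pot; omega)
          · refine mul_nonneg ?_ (hS m hm)
            exact_mod_cast (show (0 : ℤ) ≤ pot b k₀ m by unfold pot; omega)
        linarith
      · obtain ⟨k', hk'T, hmax⟩ : ∃ k' ∈ T', ∀ k ∈ T', k ≤ k' := ⟨_, T'.max'_mem hne', T'.le_max'⟩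
        obtain ⟨hkT, hkD⟩ := Finset.mem_filter.1 hk'T
        have hk'M : k' < k₀ := lt_of_le_of_ne (hle k' hkT) fun e => hkD.not_ge (e ▸ hD k₀ hMT)
        have key : Phi b Ms S k' +
            ∑ m ∈ Ms, (if m ≤ k₀ + b ∧ D k₀ ≤ (2 : ℝ) ^ (m + b) then S m else 0) ≤
            Phi b Ms S k₀ := by
          rw [Phi, Phi, ← Finset.sum_add_distrib]
          refine Finset.sum_le_sum fun m hm => ?_
          split_ifs with h'
          · have : k' < m + b :=
              (zpow_lt_zpow_iff_right₀ (one_lt_two : (1 : ℝ) < 2)).1 (hkD.trans_le h'.2)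
            rw [show (pot b k' m : ℝ) * S m + S m = ((pot b k' m : ℝ) + 1) * S m by ring]
            refine mul_le_mul_of_nonneg_right ?_ (hS m hm)
            exact_mod_cast (show pot b k' m + 1 ≤ pot b k₀ m by unfold pot; omega)
          · rw [add_zero]
            refine mul_le_mul_of_nonneg_right ?_ (hS m hm)
            exact_mod_cast (show pot b k' m ≤ pot b k₀ m by unfold pot; omega)
        linarith [h2 k' hk'T hmax, hW k' hkT]

variable {v : Euc d → Euc d} {s : ℝ}

lemma gap_integrableOn (hv : Continuous v) (hvc : HasCompactSupport v) {w : Euc d → ℝ}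
    (hw : Continuous w) (l : ℕ) (S : Set (Euc d)) :
    IntegrableOn (fun y => w y * gap v s l y) S :=
  ((hw.mul (Energy.gap_cont hv l)).integrable_of_hasCompactSupport
    (hasCompactSupport_gap hvc l).mul_left).integrableOn

private lemma shellMass_nonneg (hv : Continuous v) (A : ℝ) (x : Euc d) (r : ℝ) (N : ℕ) :
    0 ≤ shellMass v s A x r N :=
  Finset.sum_nonneg fun l _ => integral_nonneg fun y => gap_nonneg hv l y

private lemma selMass_nonneg (hv : Continuous v) (A : ℝ) (x : Euc d) (r : ℝ) (N : ℕ) (q : Euc d) (R : ℝ) :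
    0 ≤ selMass v s A x r N q R :=
  Finset.sum_nonneg fun l _ => integral_nonneg fun y =>
    mul_nonneg (Real.sqrt_nonneg _) (gap_nonneg hv l y)

lemma mul_shellMass_le_selMass (hv : Continuous v) (hvc : HasCompactSupport v) (hs : 0 < s)
    {R : ℝ} (hsR : s ≤ R) (A : ℝ) (x : Euc d) (r : ℝ) (N : ℕ) (q : Euc d) :
    s / R * shellMass v s A x r N ≤ selMass v s A x r N q R := by
  rw [shellMass, selMass, Finset.mul_sum]
  refine Finset.sum_le_sum fun l _ => ?_
  rw [← integral_const_mul]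
  refine setIntegral_mono_on (gap_integrableOn hv hvc continuous_const l _)
    (gap_integrableOn hv hvc (by unfold selWt; fun_prop) l _)
    (isClosed_le (by fun_prop) continuous_const).measurableSet
    fun y _ => mul_le_mul_of_nonneg_right ?_ (gap_nonneg hv l y)
  have hR : 0 < R := hs.trans_le hsR
  have h1 : s / R ≤ 1 := (div_le_one hR).2 hsR
  have h0 : 0 ≤ s / R := by positivity
  have hsh : s ≤ stp s l := le_mul_of_one_le_right hs.le (one_le_pow₀ one_le_two)
  refine (Real.le_sqrt h0 ?_).2 (le_min ?_ ?_)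
  · exact le_min zero_le_one (div_nonneg (add_nonneg (norm_nonneg _) (hs.le.trans hsh)) hR.le)
  · nlinarith
  · refine le_trans ?_ (div_le_div_of_nonneg_right
      (le_add_of_nonneg_of_le (norm_nonneg (y - q)) hsh) hR.le)
    nlinarith

lemma polMass_eq (hv : Continuous v) (hs : 0 < s) {C : ℝ} (hC : 1 ≤ C) (x : Euc d) (r : ℝ) (N : ℕ)
    (q : Euc d) (R : ℝ) :
    polMass v s C x r N q R = |‖x - q‖ - r| / R * allMass v s C x r N +
      res s C x r N fun l y => (‖y - q‖ + stp s l) / R * ‖hier v s l y‖ := by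
  rw [polMass, resInt_eq_res, allMass_eq_res, ← res_const_mul,
    ← res_add hs hC (g := fun l y => |‖x - q‖ - r| / R * ‖hier v s l y‖)
      (fun l => (continuous_const.mul (continuous_hier hv l).norm).continuousOn)
      fun l => ?_]
  · congr 1
    funext l y
    ring
  · exact ((by fun_prop : Continuous fun y => (‖y - q‖ + stp s l) / R).mul
      (continuous_hier hv l).norm).continuousOn

/-- The truncated distance weight. -/
def trunc (q : Euc d) (R s : ℝ) (l : ℕ) (y : Euc d) : ℝ := min 16 ((‖y - q‖ + stp s l) / R)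

/-- What is left of a ball at level `l`. -/
def rim (s C : ℝ) (x : Euc d) (r : ℝ) (l : ℕ) (y : Euc d) : ℝ :=
  cut x r (-stp s l) y - cut x r (C * stp s l) y

/-- The potential of the telescoping. -/
def passed (q : Euc d) (R s C : ℝ) (x : Euc d) (r : ℝ) (x' : Euc d) (r' : ℝ) (l : ℕ) (y : Euc d) : ℝ :=
  trunc q R s l y * (rim s C x r l y * cut x' r' (C / 2 * stp s l) y)

section Pair

variable {C R r r' S : ℝ} {N N' l : ℕ} {x x' q y : Euc d}

lemma trunc_nonneg (hs : 0 < s) (hR : 0 < R) (l : ℕ) (y : Euc d) : 0 ≤ trunc q R s l y :=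
  le_min (by norm_num) (div_nonneg (add_nonneg (norm_nonneg _) (stp_pos hs l).le) hR.le)

lemma bm_trunc (hs : 0 < s) (hR : 0 < R) (l : ℕ) : BM (trunc q R s l) :=
  ⟨(by unfold trunc; fun_prop : Continuous (trunc q R s l)).stronglyMeasurable, 16, fun y => by
    rw [Real.norm_eq_abs, abs_of_nonneg (trunc_nonneg hs hR l y)]
    exact min_le_left _ _⟩

lemma bm_rim (l : ℕ) : BM (rim s C x r l) := bm_cut.sub bm_cut

lemma rim_nonneg (hs : 0 < s) (hC : 0 ≤ C) (l : ℕ) (y : Euc d) : 0 ≤ rim s C x r l y :=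
  sub_nonneg.2 (cut_anti (by nlinarith [stp_pos hs l]) y)

lemma rim_le_one (l : ℕ) (y : Euc d) : rim s C x r l y ≤ 1 :=
  (sub_le_self _ (cut_nonneg y)).trans (cut_le_one y)

lemma rim_eq_zero (hs : 0 < s) (hC : 0 ≤ C) (hy : r + stp s l ≤ ‖y - x‖) : rim s C x r l y = 0 := by
  rw [rim, cut_of_notMem (by linarith), cut_of_notMem (by nlinarith [stp_pos hs l]), sub_zero]

lemma bm_passed (hs : 0 < s) (hR : 0 < R) (l : ℕ) : BM (passed q R s C x r x' r' l) :=
  (bm_trunc hs hR l).smul ((bm_rim l).smul bm_cut)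

lemma passed_nonneg (hs : 0 < s) (hR : 0 < R) (hC : 0 ≤ C) (l : ℕ) (y : Euc d) :
    0 ≤ passed q R s C x r x' r' l y :=
  mul_nonneg (trunc_nonneg hs hR l y) (mul_nonneg (rim_nonneg hs hC l y) (cut_nonneg y))

lemma passed_step (hs : 0 < s) (hR : 0 < R) (hC : 2 ≤ C) (l : ℕ) (y : Euc d) :
    incr s C x r l y * (trunc q R s l y * cut x' r' (C / 2 * stp s l) y) +
        passed q R s C x r x' r' l y ≤
      cut x r (-stp s l) y * (trunc q R s l y * incr s (C / 2) x' r' l y) +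
        bavg (stp s l) (passed q R s C x r x' r' (l + 1)) y := by
  have hC0 : 0 ≤ C := by linarith
  have hC2 : 1 ≤ C / 2 := by linarith
  have hh := stp_pos hs l
  have hT := trunc_nonneg (q := q) hs hR l y
  by_cases hy : ‖y - x‖ < r + stp s l
  swap
  · push Not at hy
    rw [incr_eq_zero hs (by linarith) (by nlinarith), passed, rim_eq_zero hs hC0 hy]
    simp only [zero_mul, mul_zero, add_zero]
    exact add_nonneg (mul_nonneg (cut_nonneg y) (mul_nonneg hT (incr_nonneg hs hC2 l y)))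
      (bavg_nonneg (passed_nonneg hs hR hC0 (l + 1)) _ y)
  set Q := rim s C x r (l + 1)
  set χ := cut x' r' (C / 2 * stp s (l + 1))
  set χ₀ := cut x' r' (C / 2 * stp s l) y with hχ₀
  have hQb : BM Q := bm_rim _
  have hχb : BM χ := bm_cut
  have ho : cut x r (-stp s l) y = 1 := cut_of_mem (by linarith)
  have hLHS : incr s C x r l y + rim s C x r l y = bavg (stp s l) Q y := by
    have e : bavg (stp s l) Q y = bavg (stp s l) (cut x r (-stp s (l + 1))) y -
        bavg (stp s l) (cut x r (C * stp s (l + 1))) y := by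
      simp only [Q, rim, Centred.bavg, ← smul_sub]
      rw [integral_sub (bm_cut.integrable_shift y _) (bm_cut.integrable_shift y _)]
    rw [e, bavg_cut_eq_one (w := -stp s l) (by rw [abs_of_pos hh, stp_succ]; linarith) (by linarith),
      rim, incr, ho]
    ring
  have h3 : trunc q R s l y * bavg (stp s l) (fun z => Q z * χ z) y ≤
      bavg (stp s l) (passed q R s C x r x' r' (l + 1)) y := by
    rw [← smul_eq_mul, ← bavg_smul_const]
    refine bavg_le_bavg ((BM.const (trunc q R s l y)).smul (hQb.smul hχb))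
      (bm_passed hs hR (l + 1)) fun z hz => ?_
    rw [abs_of_pos hh] at hz
    refine mul_le_mul_of_nonneg_right (min_le_min le_rfl (div_le_div_of_nonneg_right ?_ hR.le))
      (mul_nonneg (rim_nonneg hs hC0 _ z) (cut_nonneg z))
    rw [stp_succ]
    linarith [norm_sub_le_norm_sub_add_norm_sub y z q, norm_sub_rev y z]
  have h2 : χ₀ * bavg (stp s l) Q y ≤ incr s (C / 2) x' r' l y +
      bavg (stp s l) (fun z => Q z * χ z) y := by
    rcases Set.indicator_eq_zero_or_self (ball x' (r' - C / 2 * stp s l)) (fun _ => (1 : ℝ)) y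
      with h | h
    · rw [show χ₀ = 0 from h, zero_mul]
      exact add_nonneg (incr_nonneg hs hC2 l y)
        (bavg_nonneg (fun z => mul_nonneg (rim_nonneg hs hC0 _ z) (cut_nonneg z)) _ y)
    · have hsplit : bavg (stp s l) (fun z => Q z + χ z) y ≤
          bavg (stp s l) (fun z => Q z * χ z + 1) y := by
        refine bavg_le_bavg (hQb.add hχb) ((hQb.smul hχb).add (BM.const 1)) fun z _ => ?_
        show Q z + χ z ≤ Q z * χ z + 1
        nlinarith [mul_nonneg (sub_nonneg.2 (rim_le_one (s := s) (C := C) (x := x) (r := r) (l + 1) z))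
          (sub_nonneg.2 (cut_le_one (x := x') (r := r') (w := C / 2 * stp s (l + 1)) z))]
      have e1 : bavg (stp s l) (fun z => Q z + χ z) y = bavg (stp s l) Q y + bavg (stp s l) χ y := by
        simp only [Centred.bavg, ← smul_add]
        rw [integral_add (hQb.integrable_shift y _) (hχb.integrable_shift y _)]
      have e2 : bavg (stp s l) (fun z => Q z * χ z + 1) y =
          bavg (stp s l) (fun z => Q z * χ z) y + 1 := by
        conv_rhs => rw [← bavg_const (1 : ℝ) (stp s l) y]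
        simp only [Centred.bavg, ← smul_add]
        have hQχ : BM fun z => Q z * χ z := hQb.smul hχb
        rw [integral_add (hQχ.integrable_shift y _) ((BM.const (1 : ℝ)).integrable_shift y (stp s l))]
      have e3 : χ₀ = 1 := h
      have e4 : incr s (C / 2) x' r' l y = 1 - bavg (stp s l) χ y := by
        rw [incr, ← hχ₀, e3]
      rw [e3, one_mul]
      linarith
  rw [passed, ho, one_mul]
  rw [← hLHS] at h2
  linarith [mul_le_mul_of_nonneg_left h2 hT]

lemma norm_sub_lt_near (hx : ‖x - q‖ ≤ 9 / 4 * R) (hru : r ≤ 2 * R) {w : ℝ}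
    (hy : ‖y - x‖ < r + w) : ‖y - q‖ < 17 / 4 * R + w := by
  linarith [norm_sub_le_norm_sub_add_norm_sub y x q]

lemma stp_le_of_le (hs : 0 < s) (hlow : stp s N ≤ R) (hl : l ≤ N) : stp s l ≤ R :=
  le_trans (mul_le_mul_of_nonneg_left (pow_le_pow_right₀ one_le_two hl) hs.le) hlow

lemma trunc_eq (hsc : Scaled s C R r N) (hx : ‖x - q‖ ≤ 9 / 4 * R) (hl : l ≤ N)
    (hy : ‖y - x‖ < r + stp s l) : trunc q R s l y = (‖y - q‖ + stp s l) / R := by
  have hR : 0 < R := hsc.hs.trans_le hsc.hsR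
  refine min_eq_right ?_
  rw [div_le_iff₀ hR]
  linarith [norm_sub_lt_near hx hsc.hr.2 hy, stp_le_of_le hsc.hs hsc.low hl]

lemma weight_le_mid (hsc : Scaled s C R r N) (hx : ‖x - q‖ ≤ 9 / 4 * R) (hl : l ≤ N)
    (hy : ‖y - x‖ < r + stp s l) :
    (‖y - q‖ + stp s l) / R ≤ 23 * mid (‖y - q‖ + stp s l) R := by
  have hR : 0 < R := hsc.hs.trans_le hsc.hsR
  refine le_mul_mid (add_pos_of_nonneg_of_pos (norm_nonneg _) (stp_pos hsc.hs l)) hR rfl ?_
  rw [div_le_iff₀ hR]
  linarith [norm_sub_lt_near hx hsc.hr.2 hy, stp_le_of_le hsc.hs hsc.low hl]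

lemma passed_gap_le (hv : Continuous v) (hvc : HasCompactSupport v) (hsc : Scaled s C R r N)
    (hC : 2 ≤ C) (hx : ‖x - q‖ ≤ 9 / 4 * R) :
    ∑ l ∈ Finset.range N, ∫ y, passed q R s C x r x' r' (l + 1) y * gap v s l y ≤
      18 * selMass v s (2 * C) x r N q R := by
  obtain ⟨hs, hsR, ⟨hrl, hru⟩, hreach, hlow⟩ := hsc
  have hR : 0 < R := hs.trans_le hsR
  have hC0 : 0 ≤ C := by linarith
  rw [selMass, Finset.mul_sum]
  refine Finset.sum_le_sum fun l hl => ?_
  have hl' : l + 1 ≤ N := Finset.mem_range.1 hl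
  have hh := stp_pos hs l
  have hm : MeasurableSet (shell x r (2 * C * stp s l)) :=
    (isClosed_le (by fun_prop) continuous_const).measurableSet
  have hint : Integrable fun y => 18 * (selWt q (stp s l) R y * gap v s l y) :=
    (((by unfold selWt; fun_prop : Continuous (selWt q (stp s l) R)).mul (Energy.gap_cont hv l)
      ).integrable_of_hasCompactSupport (hasCompactSupport_gap hvc l).mul_left).const_mul 18
  rw [← integral_const_mul, ← integral_indicator hm]
  refine integral_mono ((bm_passed hs hR _).integrable_mul' (Energy.gap_cont hv l)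
    (hasCompactSupport_gap hvc l)) (hint.indicator hm) fun y => ?_
  have hg := gap_nonneg (s := s) hv l y
  by_cases hy : r - 2 * C * stp s l ≤ ‖y - x‖ ∧ ‖y - x‖ < r + stp s (l + 1)
  · have hys : y ∈ shell x r (2 * C * stp s l) := by
      show |‖y - x‖ - r| ≤ _
      rw [stp_succ] at hy
      exact abs_le.2 ⟨by linarith, by nlinarith⟩
    rw [indicator_of_mem hys, ← mul_assoc]
    refine mul_le_mul_of_nonneg_right ?_ hg
    refine (mul_le_of_le_one_right (trunc_nonneg hs hR _ y)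
      (mul_le_one₀ (rim_le_one _ y) (cut_nonneg y) (cut_le_one y))).trans
      ((min_le_right _ _).trans ?_)
    set u := (‖y - q‖ + stp s l) / R with hu
    have hu0 : 0 ≤ u := div_nonneg (add_nonneg (norm_nonneg _) hh.le) hR.le
    have hu2 : (‖y - q‖ + stp s (l + 1)) / R ≤ 2 * u := by
      rw [hu, ← mul_div_assoc, stp_succ]
      gcongr
      linarith [norm_nonneg (y - q)]
    have hu9 : u ≤ 9 := by
      rw [hu, div_le_iff₀ hR]
      linarith [norm_sub_lt_near hx hru hy.2, stp_le_of_le hs hlow hl',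
        stp_le_of_le hs hlow (Nat.le_of_succ_le hl')]
    refine hu2.trans ?_
    suffices u ≤ 9 * selWt q (stp s l) R y by linarith
    rw [selWt, ← hu]
    rcases le_or_gt u 1 with h1 | h1
    · rw [min_eq_right h1]
      nlinarith [Real.sq_sqrt hu0, Real.sqrt_nonneg u, Real.sqrt_le_one.2 h1]
    · rw [min_eq_left h1.le, Real.sqrt_one]; linarith
  · refine le_trans (le_of_eq ?_) (indicator_nonneg (fun z _ => mul_nonneg (by norm_num)
      (mul_nonneg (Real.sqrt_nonneg _) (gap_nonneg hv l z))) y)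
    have : rim s C x r (l + 1) y = 0 := by
      rcases lt_or_ge ‖y - x‖ (r + stp s (l + 1)) with h | h
      · have h' : ‖y - x‖ < r - 2 * C * stp s l := not_le.1 fun hc => hy ⟨hc, h⟩
        rw [rim, cut_of_mem (w := -stp s (l + 1)) (by linarith [stp_pos hs (l + 1), mul_nonneg hC0 hh.le]),
          cut_of_mem (w := C * stp s (l + 1)) (by rw [stp_succ]; linarith), sub_self]
      · exact rim_eq_zero hs hC0 h
    simp [passed, this]

lemma norm_div_le (hR : 0 < R) (hS : 0 ≤ S) {a : ℝ} (ha : a ≤ 7 * Real.sqrt (R * S)) :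
    a / R ≤ 7 * Real.sqrt (S / R) := by
  rw [div_le_iff₀ hR]
  refine ha.trans (le_of_eq ?_)
  rw [mul_assoc]
  congr 1
  rw [Real.sqrt_eq_iff_eq_sq (by positivity) (by positivity), mul_pow, Real.sq_sqrt (by positivity)]
  field_simp

lemma incr_weight_le (hsc : Scaled s C R r N) (hC : 128 ≤ C) (hx : ‖x - q‖ ≤ 9 / 4 * R)
    (hS : 0 ≤ S) (hSR : S ≤ 5 / 4 * R)
    (hgeo : ∀ y w, 0 ≤ w → ‖y - x‖ < r - w → ‖y - x'‖ < r' - w / 2 ∨
      (‖y - q‖ ≤ 7 * Real.sqrt (R * S) ∧ w ≤ 4 * S)) (hl : l < N) (y : Euc d) :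
    incr s C x r l y * ((‖y - q‖ + stp s l) / R) ≤ 9 * Real.sqrt (S / R) * incr s C x r l y +
      incr s C x r l y * (trunc q R s l y * cut x' r' (C / 2 * stp s l) y) := by
  have hs := hsc.hs
  have hR : 0 < R := hs.trans_le hsc.hsR
  have hh := stp_pos hs l
  have h0 := incr_nonneg (x := x) (r := r) hs (by linarith : 1 ≤ C) l y
  rcases le_or_gt (r - C * stp s l) ‖y - x‖ with hy | hy
  · simp [incr_eq_zero hs (by linarith : 1 ≤ C) hy]
  rcases hgeo y _ (mul_nonneg (by linarith) hh.le) hy with hin | ⟨hq, hw⟩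
  · rw [cut_of_mem (x := x') (r := r') (w := C / 2 * stp s l) (by linarith), mul_one,
      trunc_eq hsc hx hl.le (by nlinarith)]
    linarith [mul_nonneg (mul_nonneg (by norm_num : (0 : ℝ) ≤ 9) (Real.sqrt_nonneg (S / R))) h0]
  · refine le_add_of_le_of_nonneg ?_ (mul_nonneg h0 (mul_nonneg (trunc_nonneg hs hR l y) (cut_nonneg y)))
    rw [mul_comm _ (incr s C x r l y)]
    refine mul_le_mul_of_nonneg_left ?_ h0
    have h1 : stp s l / R ≤ S / R := by gcongr; nlinarith
    have h2 : S / R ≤ 2 * Real.sqrt (S / R) := by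
      have h' : S / R ≤ 5 / 4 := (div_le_iff₀ hR).2 hSR
      nlinarith [Real.sq_sqrt (div_nonneg hS hR.le), Real.sqrt_nonneg (S / R)]
    rw [add_div]
    linarith [norm_div_le hR hS hq]

lemma fin0_weight_le (hsc : Scaled s C R r N) (hC : 128 ≤ C) (hx : ‖x - q‖ ≤ 9 / 4 * R)
    (hS : 0 ≤ S)
    (hgeo : ∀ y w, 0 ≤ w → ‖y - x‖ < r - w → ‖y - x'‖ < r' - w / 2 ∨
      (‖y - q‖ ≤ 7 * Real.sqrt (R * S) ∧ w ≤ 4 * S)) (y : Euc d) :
    fin0 s C x r y * ((‖y - q‖ + stp s 0) / R) ≤
      (9 * Real.sqrt (S / R) + s / R) * fin0 s C x r y + passed q R s C x r x' r' 0 y +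
        23 * (fin0 s (C / 2) x' r' y * mid (‖y - q‖ + stp s 0) R) := by
  have hs := hsc.hs
  have hR : 0 < R := hs.trans_le hsc.hsR
  have hC0 : 0 ≤ C := by linarith
  have h0 := fin0_nonneg (x := x) (r := r) hs hC0 y
  have h0' := fin0_nonneg (x := x') (r := r') hs (by linarith : 0 ≤ C / 2) y
  have hP0 := passed_nonneg (q := q) (x := x) (r := r) (x' := x') (r' := r') hs hR hC0 0 y
  have hsr : 0 ≤ s / R := by positivity
  rcases le_or_gt r ‖y - x‖ with hy | hy
  · rw [fin0_eq_zero_of_notMem hs hC0 (by rwa [mem_ball_iff_norm, not_lt]), zero_mul, mul_zero]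
    exact add_nonneg (add_nonneg le_rfl hP0) (mul_nonneg (by norm_num) (mul_nonneg h0' (mid_nonneg _ _)))
  have hy0 : ‖y - x‖ < r + stp s 0 := by linarith [stp_pos hs 0]
  rcases hgeo y 0 le_rfl (by linarith) with hin | ⟨hq, -⟩
  · have ht2 := weight_le_mid hsc hx (Nat.zero_le N) hy0
    set t := (‖y - q‖ + stp s 0) / R with ht
    have ht0 : 0 ≤ t := div_nonneg (add_nonneg (norm_nonneg _) (stp_pos hs 0).le) hR.le
    have hfQ : fin0 s C x r y = rim s C x r 0 y := by
      simp only [fin0, rim, stp_zero]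
      rw [cut_of_mem (w := 0) (by linarith), cut_of_mem (w := -s) (by linarith [stp_zero s])]
    have e : fin0 s (C / 2) x' r' y + cut x' r' (C / 2 * stp s 0) y = 1 := by
      simp only [fin0, stp_zero]
      rw [cut_of_mem (w := 0) (by linarith)]; ring
    have hf1 : fin0 s C x r y ≤ 1 := (fin0_le_cut y).trans (cut_le_one y)
    calc fin0 s C x r y * t = fin0 s C x r y * t * fin0 s (C / 2) x' r' y +
          passed q R s C x r x' r' 0 y := by
          rw [passed, trunc_eq hsc hx (Nat.zero_le N) hy0, ← ht, ← hfQ]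
          linear_combination (-(fin0 s C x r y * t)) * e
      _ ≤ 23 * (fin0 s (C / 2) x' r' y * mid (‖y - q‖ + stp s 0) R) +
          passed q R s C x r x' r' 0 y := by
          refine add_le_add ?_ le_rfl
          calc _ ≤ t * fin0 s (C / 2) x' r' y :=
                mul_le_mul_of_nonneg_right (mul_le_of_le_one_left ht0 hf1) h0'
            _ ≤ _ := by linarith [mul_le_mul_of_nonneg_right ht2 h0']
      _ ≤ _ := by linarith [mul_nonneg (add_nonneg (mul_nonneg (by norm_num : (0 : ℝ) ≤ 9)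
          (Real.sqrt_nonneg (S / R))) hsr) h0]
  · refine le_add_of_le_of_nonneg (le_add_of_le_of_nonneg ?_ hP0)
      (mul_nonneg (by norm_num) (mul_nonneg h0' (mid_nonneg _ _)))
    rw [mul_comm]
    refine mul_le_mul_of_nonneg_right ?_ h0
    rw [add_div, stp_zero]
    linarith [norm_div_le hR hS hq, Real.sqrt_nonneg (S / R)]

lemma continuous_mid_weight (hs : 0 < s) (q : Euc d) (R : ℝ) (l : ℕ) :
    Continuous fun y => mid (‖y - q‖ + stp s l) R := by
  refine Real.continuous_sqrt.comp (((by fun_prop : Continuous fun y : Euc d =>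
    (‖y - q‖ + stp s l) / R)).min (continuous_const.div₀ (by fun_prop) fun y => ?_))
  exact (add_pos_of_nonneg_of_pos (norm_nonneg _) (stp_pos hs l)).ne'

/-- One event, against the ball of a record. -/
lemma pair_le (hv : Continuous v) (hvc : HasCompactSupport v) (hsc : Scaled s C R r N)
    (hC : 128 ≤ C) (hN : N ≤ N') (hx : ‖x - q‖ ≤ 9 / 4 * R) (hS : 0 ≤ S) (hSR : S ≤ 5 / 4 * R)
    (hgeo : ∀ y w, 0 ≤ w → ‖y - x‖ < r - w → ‖y - x'‖ < r' - w / 2 ∨
      (‖y - q‖ ≤ 7 * Real.sqrt (R * S) ∧ w ≤ 4 * S))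
    (hfar : ∀ y, ‖y - x‖ < r + stp s N → r' - C / 2 * stp s N ≤ ‖y - x'‖) :
    res s C x r N (fun l y => (‖y - q‖ + stp s l) / R * ‖hier v s l y‖) ≤
      (9 * Real.sqrt (S / R) + s / R) * allMass v s C x r N +
      18 * selMass v s (2 * C) x r N q R +
      23 * res s (C / 2) x' r' N' fun l y => mid (‖y - q‖ + stp s l) R * ‖hier v s l y‖ := by
  have hs := hsc.hs
  have hR : 0 < R := hs.trans_le hsc.hsR
  have hC1 : 1 ≤ C := by linarith
  have hC2 : 1 ≤ C / 2 := by linarith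
  have hC0 : 0 ≤ C := by linarith
  have hE := energy_norm (s := s) hv hvc
  set P := passed q R s C x r x' r' with hP
  set a : ℕ → Euc d → ℝ := fun l y =>
    incr s C x r l y * (trunc q R s l y * cut x' r' (C / 2 * stp s l) y) with ha
  set b : ℕ → Euc d → ℝ := fun l y =>
    cut x r (-stp s l) y * (trunc q R s l y * incr s (C / 2) x' r' l y) with hb
  have hab : ∀ l, BM (a l) := fun l => bm_incr.smul ((bm_trunc hs hR l).smul bm_cut)
  have hbb : ∀ l, BM (b l) := fun l => bm_cut.smul ((bm_trunc hs hR l).smul bm_incr)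
  have key := hE.tele hv hvc hab hbb (fun l => bm_passed hs hR l) (N := N)
    fun l _ y => passed_step hs hR (by linarith) l y
  have hPN : ∫ y, P N y * ‖hier v s N y‖ = 0 := by
    refine integral_eq_zero_of_ae (ae_of_all _ fun y => ?_)
    by_cases hy : ‖y - x‖ < r + stp s N
    · simp [hP, passed, cut_of_notMem (hfar y hy)]
    · simp [hP, passed, rim_eq_zero hs hC0 (not_lt.1 hy)]
  rw [hPN, add_zero] at key
  have hgap : ∑ l ∈ Finset.range N, ∫ y, P (l + 1) y * gap v s l y ≤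
      18 * selMass v s (2 * C) x r N q R := passed_gap_le hv hvc hsc (by linarith) hx
  set Z := 9 * Real.sqrt (S / R) with hZ
  set g' : ℕ → Euc d → ℝ := fun l y => mid (‖y - q‖ + stp s l) R * ‖hier v s l y‖ with hg'
  have hFc : ∀ l, Continuous fun y => ‖hier v s l y‖ := fun l => (continuous_hier hv l).norm
  have hg'c : ∀ l, ContinuousOn (g' l) (closedBall x' r') :=
    fun l => ((continuous_mid_weight hs q R l).mul (hFc l)).continuousOn
  have hwc : ∀ l, ContinuousOn (fun y => (‖y - q‖ + stp s l) / R * ‖hier v s l y‖)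
      (closedBall x r) := fun l =>
    ((by fun_prop : Continuous fun y => (‖y - q‖ + stp s l) / R).mul (hFc l)).continuousOn
  have hF0 : ∀ l y, 0 ≤ ‖hier v s l y‖ := fun l y => norm_nonneg _
  have I0 : ∫ y, fin0 s C x r y * ((‖y - q‖ + stp s 0) / R * ‖hier v s 0 y‖) ≤
      (Z + s / R) * (∫ y, fin0 s C x r y * ‖hier v s 0 y‖) + (∫ y, P 0 y * ‖hier v s 0 y‖) +
        23 * ∫ y, fin0 s (C / 2) x' r' y * g' 0 y := by
    have i1 := (integrable_fin0_mul (x := x) (r := r) hs hC0 (hFc 0).continuousOn).const_mul (Z + s / R)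
    have i2 : Integrable fun y => P 0 y * ‖hier v s 0 y‖ :=
      (bm_passed hs hR 0).integrable_mul' (hFc 0) (hE.supp 0)
    have i3 := (integrable_fin0_mul hs (by linarith : 0 ≤ C / 2) (hg'c 0)).const_mul 23
    rw [← integral_const_mul, ← integral_const_mul, ← integral_add i1 i2,
      ← integral_add (i1.fun_add i2) i3]
    refine integral_mono (integrable_fin0_mul hs hC0 (hwc 0)) ((i1.fun_add i2).fun_add i3)
      fun y => ?_
    have := mul_le_mul_of_nonneg_right (fin0_weight_le hsc hC hx hS hgeo y) (hF0 0 y)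
    simp only [hg', hZ, hP]
    linarith
  have I1 : ∀ l < N, ∫ y, incr s C x r l y * ((‖y - q‖ + stp s l) / R * ‖hier v s l y‖) ≤
      Z * (∫ y, incr s C x r l y * ‖hier v s l y‖) + ∫ y, a l y * ‖hier v s l y‖ := by
    intro l hl
    have i1 := (integrable_incr_mul (x := x) (r := r) hs hC1 l (hFc l).continuousOn).const_mul Z
    have i2 := (hab l).integrable_mul' (hFc l) (hE.supp l)
    rw [← integral_const_mul, ← integral_add i1 i2]
    refine integral_mono (integrable_incr_mul hs hC1 l (hwc l)) (i1.fun_add i2) fun y => ?_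
    have := mul_le_mul_of_nonneg_right (incr_weight_le hsc hC hx hS hSR hgeo hl y) (hF0 l y)
    simp only [ha, hZ]
    linarith
  have I2 : ∀ l < N, ∫ y, b l y * ‖hier v s l y‖ ≤
      23 * ∫ y, incr s (C / 2) x' r' l y * g' l y := by
    intro l hl
    rw [← integral_const_mul]
    refine integral_mono ((hbb l).integrable_mul' (hFc l) (hE.supp l))
      ((integrable_incr_mul hs hC2 l (hg'c l)).const_mul 23) fun y => ?_
    have h0 := incr_nonneg (x := x') (r := r') hs hC2 l y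
    simp only [hb, hg']
    rw [← mul_assoc (incr _ _ _ _ _ _), ← mul_assoc 23]
    refine mul_le_mul_of_nonneg_right ?_ (hF0 l y)
    rcases lt_or_ge ‖y - x‖ (r + stp s l) with hy | hy
    · refine (mul_le_of_le_one_left (mul_nonneg (trunc_nonneg hs hR l y) h0) (cut_le_one y)).trans ?_
      rw [trunc_eq hsc hx hl.le hy]
      linarith [mul_le_mul_of_nonneg_right (weight_le_mid hsc hx hl.le hy) h0]
    · rw [cut_of_notMem (by linarith), zero_mul]
      exact mul_nonneg (by norm_num) (mul_nonneg h0 (mid_nonneg _ _))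
  have hsum1 := Finset.sum_le_sum (s := Finset.range N) fun l hl => I1 l (Finset.mem_range.1 hl)
  have hsum2 := Finset.sum_le_sum (s := Finset.range N) fun l hl => I2 l (Finset.mem_range.1 hl)
  have hN' : ∑ l ∈ Finset.range N, ∫ y, incr s (C / 2) x' r' l y * g' l y ≤
      ∑ l ∈ Finset.range N', ∫ y, incr s (C / 2) x' r' l y * g' l y :=
    Finset.sum_le_sum_of_subset_of_nonneg (Finset.range_mono hN) fun l _ _ =>
      integral_nonneg fun y => mul_nonneg (incr_nonneg hs hC2 l y)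
        (mul_nonneg (mid_nonneg _ _) (hF0 l y))
  have hI : 0 ≤ s / R * ∑ l ∈ Finset.range N, ∫ y, incr s C x r l y * ‖hier v s l y‖ :=
    mul_nonneg (by positivity) (Finset.sum_nonneg fun l _ => integral_nonneg fun y =>
      mul_nonneg (incr_nonneg hs hC1 l y) (hF0 l y))
  rw [Finset.sum_add_distrib, ← Finset.mul_sum] at hsum1
  rw [← Finset.mul_sum] at hsum2
  rw [allMass_eq_res]
  simp only [res]
  linarith

end Pair

/-- The events on one ray through `q`. -/
theorem exists_ray (d c : ℕ) (hc : 7 ≤ c) (K₀ B : ℝ) :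
    ∃ K : ℝ, 0 ≤ K ∧ ∀ v : Euc d → Euc d, Continuous v → HasCompactSupport v →
      ∀ (s : ℝ) (q u : Euc d) (ρ : ℤ → ℝ) (N : ℤ → ℕ) (T Ms : Finset ℤ) (S : ℤ → ℝ),
      (∀ m ∈ Ms, 0 ≤ S m) →
      (∀ k ∈ T, Scaled s (2 ^ c) ((2 : ℝ) ^ k) (ρ k) (N k)) →
      (∀ k ∈ T, ∀ k' ∈ T, k ≤ k' → N k ≤ N k') →
      (∀ k ∈ T, |‖(q + (2 : ℝ) ^ k • u) - q‖ - ρ k| ≤ 1 / 4 * (2 : ℝ) ^ k ∧
        allMass v s (2 ^ c) (q + (2 : ℝ) ^ k • u) (ρ k) (N k) ≤
          K₀ * shellMass v s (2 * 2 ^ c) (q + (2 : ℝ) ^ k • u) (ρ k) (N k) ∧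
        allMass v s (2 ^ c / 2) (q + (2 : ℝ) ^ k • u) (ρ k) (N k) ≤
          K₀ * shellMass v s (2 * 2 ^ c) (q + (2 : ℝ) ^ k • u) (ρ k) (N k) ∧
        shellMass v s (2 * 2 ^ c) (q + (2 : ℝ) ^ k • u) (ρ k) (N k) ≤
          ∑ m ∈ Ms.filter (fun m => (2 : ℝ) ^ m ≤ B * 2 ^ k ∧
            |‖(q + (2 : ℝ) ^ k • u) - q‖ - ρ k| ≤ B * 2 ^ m), S m) →
      ∑ k ∈ T, polMass v s (2 ^ c) (q + (2 : ℝ) ^ k • u) (ρ k) (N k) q ((2 : ℝ) ^ k) ≤
        K * (∑ m ∈ Ms, S m +
          ∑ k ∈ T, selMass v s (2 * 2 ^ c) (q + (2 : ℝ) ^ k • u) (ρ k) (N k) q ((2 : ℝ) ^ k)) := by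
  classical
  obtain ⟨b, hb⟩ := pow_unbounded_of_one_lt (max B 1) (one_lt_two : (1 : ℝ) < 2)
  set K₁ := max K₀ 0
  set B₁ : ℝ := 2 ^ b with hB₁
  have hB1 : 1 ≤ B₁ := one_le_pow₀ one_le_two
  have hBB : B ≤ B₁ := (le_max_left _ _).trans hb.le
  have hK : 0 ≤ K₁ := le_max_right _ _
  refine ⟨K₁ * (160 * B₁ ^ 2 + 688 * (2 * (2 * b + 2))) + K₁ + 18, by positivity,
    fun v hv hvc s q u ρ N T Ms S hS hsc hmono hyp => ?_⟩
  set x : ℤ → Euc d := fun k => q + (2 : ℝ) ^ k • u with hx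
  set R : ℤ → ℝ := fun k => (2 : ℝ) ^ k with hR
  set D : ℤ → ℝ := fun k => |‖x k - q‖ - ρ k| with hD
  set W : ℤ → ℝ := fun k => shellMass v s (2 * 2 ^ c) (x k) (ρ k) (N k) with hW
  set sel : ℤ → ℝ := fun k => selMass v s (2 * 2 ^ c) (x k) (ρ k) (N k) q (R k) with hsel
  have hW0 : ∀ k, 0 ≤ W k := fun k => shellMass_nonneg hv _ _ _ _
  have hR0 : ∀ k, 0 < R k := fun k => zpow_pos two_pos k
  have hD0 : ∀ k, 0 ≤ D k := fun k => abs_nonneg _
  have hDR : ∀ k ∈ T, D k ≤ R k / 4 := fun k hk => (hyp k hk).1.trans_eq (by simp only [hR]; ring)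
  have hC : (128 : ℝ) ≤ 2 ^ c := le_trans (by norm_num) (pow_le_pow_right₀ one_le_two hc)
  have hlen : ∀ k, x k - q = (2 : ℝ) ^ k • u := fun k => add_sub_cancel_left q _
  have hLb : ∀ k ∈ T, 3 / 4 * R k ≤ ‖x k - q‖ ∧ ‖x k - q‖ ≤ 9 / 4 * R k := fun k hk => by
    have h := abs_le.1 (hDR k hk)
    have h' := (hsc k hk).hr
    exact ⟨by linarith [h'.1], by linarith [h'.2]⟩
  obtain ⟨σ, hσ, hrec⟩ := exists_records (b := b) (W := W) (D := D) (fun k _ => hW0 k) hS
    (fun k hk => (hDR k hk).trans (by linarith [hR0 k])) fun k hk => by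
      refine (hyp k hk).2.2.2.trans (Finset.sum_le_sum_of_subset_of_nonneg (fun m hm => ?_)
        fun m hm _ => hS m (Finset.mem_filter.1 hm).1)
      obtain ⟨hmMs, h1, h2⟩ := Finset.mem_filter.1 hm
      refine Finset.mem_filter.2 ⟨hmMs, ?_, ?_⟩
      · rw [← zpow_le_zpow_iff_right₀ (one_lt_two : (1 : ℝ) < 2), zpow_add₀ two_ne_zero,
          zpow_natCast, mul_comm]
        exact h1.trans (mul_le_mul_of_nonneg_right hBB (hR0 k).le)
      · rw [zpow_add₀ two_ne_zero, zpow_natCast, mul_comm]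
        exact h2.trans (mul_le_mul_of_nonneg_right hBB (zpow_nonneg zero_le_two m))
  set g : ℤ → ℕ → Euc d → ℝ := fun k l y => mid (‖y - q‖ + stp s l) (R k) * ‖hier v s l y‖
  set J : ℤ → ℝ := fun k => res s (2 ^ c / 2) (x (σ k)) (ρ (σ k)) (N (σ k)) (g k)
  have key : ∀ k ∈ T, polMass v s (2 ^ c) (x k) (ρ k) (N k) q (R k) ≤
      10 * K₁ * (Real.sqrt (D k / R k) * W k) + 9 * K₁ * (Real.sqrt (D (σ k) / R k) * W k) +
        (K₁ + 18) * sel k + 23 * J k := by
    intro k hk
    obtain ⟨hM, hkM, hDM, -⟩ := hσ k hk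
    have hs := (hsc k hk).hs
    have hSR : D k + D (σ k) ≤ 5 / 4 * R k := by linarith [hDR k hk]
    have hgeo : ∀ y w, 0 ≤ w → ‖y - x k‖ < ρ k - w → ‖y - x (σ k)‖ < ρ (σ k) - w / 2 ∨
        (‖y - q‖ ≤ 7 * Real.sqrt (R k * (D k + D (σ k))) ∧ w ≤ 4 * (D k + D (σ k))) := by
      intro y w hw hy
      rcases hkM.eq_or_lt with e | hlt
      · left; rw [← e]; linarith
      have e : x (σ k) = q + (2 : ℝ) ^ (σ k - k) • (x k - q) := by
        rw [hlen, smul_smul, ← zpow_add₀ two_ne_zero, sub_add_cancel]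
      have ht : (2 : ℝ) ≤ 2 ^ (σ k - k) := by
        simpa using zpow_le_zpow_right₀ (one_le_two : (1 : ℝ) ≤ 2) (show (1 : ℤ) ≤ σ k - k by omega)
      have hp := abs_le.1 (show |‖x k - q‖ - ρ k| ≤ D k from le_rfl)
      rcases ray_step (q := q) (p := x k - q) ht (hLb k hk).2 (hD0 k) (hDR k hk) (hD0 (σ k)) hw
        (by rw [add_sub_cancel]; linarith) with h | h
      · left
        rw [← e] at h
        have hp' := abs_le.1 (show |‖x (σ k) - q‖ - ρ (σ k)| ≤ D (σ k) from le_rfl)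
        have : ‖x (σ k) - q‖ = 2 ^ (σ k - k) * ‖x k - q‖ := by
          rw [e, add_sub_cancel_left, norm_smul, Real.norm_of_nonneg (by positivity)]
        linarith
      · exact .inr h
    have hfar : ∀ y, ‖y - x k‖ < ρ k + stp s (N k) →
        ρ (σ k) - 2 ^ c / 2 * stp s (N k) ≤ ‖y - x (σ k)‖ := by
      intro y hy
      have h1 := norm_sub_le_norm_sub_add_norm_sub (x (σ k)) y q
      have h2 := norm_sub_le_norm_sub_add_norm_sub y (x k) q
      have h3 := abs_le.1 (show |‖x (σ k) - q‖ - ρ (σ k)| ≤ D (σ k) from le_rfl)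
      have h4 := (hsc k hk).reach
      have h5 := (hsc k hk).low
      rw [norm_sub_rev (x (σ k)) y] at h1
      linarith [(hLb k hk).2, (hsc k hk).hr.2, hR0 k]
    have hp := pair_le hv hvc (hsc k hk) hC (hmono k hk _ hM hkM) (hLb k hk).2
      (add_nonneg (hD0 k) (hD0 _)) hSR hgeo hfar
    rw [polMass_eq hv hs (by linarith) (x k)]
    have hall : allMass v s (2 ^ c) (x k) (ρ k) (N k) ≤ K₁ * W k :=
      (hyp k hk).2.1.trans (mul_le_mul_of_nonneg_right (le_max_left _ _) (hW0 k))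
    have hsub : Real.sqrt ((D k + D (σ k)) / R k) ≤
        Real.sqrt (D k / R k) + Real.sqrt (D (σ k) / R k) := by
      rw [add_div, Real.sqrt_le_left (by positivity), add_sq,
        Real.sq_sqrt (div_nonneg (hD0 k) (hR0 k).le), Real.sq_sqrt (div_nonneg (hD0 _) (hR0 k).le)]
      nlinarith [Real.sqrt_nonneg (D k / R k), Real.sqrt_nonneg (D (σ k) / R k)]
    have hd1 : D k / R k ≤ Real.sqrt (D k / R k) := by
      have h0 := div_nonneg (hD0 k) (hR0 k).le
      have h1 : D k / R k ≤ 1 := (div_le_one (hR0 k)).2 (by linarith [hDR k hk, hR0 k])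
      exact (Real.le_sqrt h0 h0).2 (by nlinarith)
    have hcoef : D k / R k + (9 * Real.sqrt ((D k + D (σ k)) / R k) + s / R k) ≤
        10 * Real.sqrt (D k / R k) + 9 * Real.sqrt (D (σ k) / R k) + s / R k := by linarith
    have hpos : 0 ≤ 10 * Real.sqrt (D k / R k) + 9 * Real.sqrt (D (σ k) / R k) + s / R k := by
      have := div_nonneg hs.le (hR0 k).le
      positivity
    have hall0 : 0 ≤ allMass v s (2 ^ c) (x k) (ρ k) (N k) := by
      rw [allMass_eq_res]
      exact res_nonneg hs (by linarith) fun l y _ => norm_nonneg _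
    have hmain := (mul_le_mul_of_nonneg_right hcoef hall0).trans (mul_le_mul_of_nonneg_left hall hpos)
    have hsW := mul_le_mul_of_nonneg_left (mul_shellMass_le_selMass hv hvc hs (hsc k hk).hsR
      (2 * 2 ^ c) (x k) (ρ k) (N k) q) hK
    simp only [hD, hW, hsel, hR] at *
    linarith
  -- the own error
  have hone : ∑ k ∈ T, Real.sqrt (D k / R k) * W k ≤ 16 * B₁ ^ 2 * ∑ m ∈ Ms, S m := by
    refine (Finset.sum_le_sum fun k hk => ((mul_le_mul_of_nonneg_left ((hyp k hk).2.2.2)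
      (Real.sqrt_nonneg _)).trans_eq (Finset.mul_sum ..)).trans
        ((Finset.sum_le_sum fun m hm => ?_).trans (Finset.sum_le_sum_of_subset_of_nonneg
          (f := fun m => B₁ ^ 2 * mid (2 ^ m) (R k) * S m) (Finset.filter_subset _ Ms)
          fun m hm _ => mul_nonneg (mul_nonneg (by positivity) (mid_nonneg _ _)) (hS m hm)))).trans ?_
    · obtain ⟨hmMs, h1, h2⟩ := Finset.mem_filter.1 hm
      refine mul_le_mul_of_nonneg_right ?_ (hS m hmMs)
      set t := (2 : ℝ) ^ m / R k with ht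
      have hm0 : (0 : ℝ) < 2 ^ m := zpow_pos two_pos m
      have ht0 : 0 < t := div_pos hm0 (hR0 k)
      have htB : t ≤ B₁ :=
        (div_le_iff₀ (hR0 k)).2 (h1.trans (mul_le_mul_of_nonneg_right hBB (hR0 k).le))
      have hDt : D k / R k ≤ B₁ * t := by
        rw [ht, ← mul_div_assoc]
        exact div_le_div_of_nonneg_right (h2.trans (mul_le_mul_of_nonneg_right hBB hm0.le))
          (hR0 k).le
      rw [Real.sqrt_le_left (mul_nonneg (by positivity) (mid_nonneg _ _)), mul_pow, mid, ← ht,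
        show R k / (2 : ℝ) ^ m = 1 / t by rw [ht, one_div_div], Real.sq_sqrt
          (le_min ht0.le (by positivity)), mul_min_of_nonneg _ _ (by positivity), le_min_iff]
      have hB3 : 1 ≤ B₁ ^ 3 := one_le_pow₀ hB1
      refine ⟨hDt.trans ?_, hDt.trans ?_⟩
      · nlinarith [mul_nonneg (mul_nonneg (by linarith : 0 ≤ B₁) ht0.le) (sub_nonneg.2 hB3)]
      · rw [mul_one_div, le_div_iff₀ ht0]
        nlinarith [mul_le_mul htB htB ht0.le (by linarith)]
    · rw [Finset.sum_comm, Finset.mul_sum]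
      refine Finset.sum_le_sum fun m hm => ?_
      rw [← Finset.sum_mul, ← Finset.mul_sum, mul_comm (16 : ℝ)]
      exact mul_le_mul_of_nonneg_right (mul_le_mul_of_nonneg_left
        (sum_mid_le T (zpow_nonneg zero_le_two m)) (by positivity)) (hS m hm)
  -- the errors of the records
  have htwo : ∑ k ∈ T, Real.sqrt (D (σ k) / R k) * W k ≤ 32 * ∑ M ∈ T.image σ, W M := by
    rw [← Finset.sum_fiberwise_of_maps_to (g := σ) (t := T.image σ)
      (fun k hk => Finset.mem_image_of_mem σ hk), Finset.mul_sum]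
    refine Finset.sum_le_sum fun M _ => ?_
    calc _ ≤ ∑ k ∈ T.filter (fun k => σ k = M), mid (D M) (R k) * (2 * W M) := by
          refine Finset.sum_le_sum fun k hk => ?_
          obtain ⟨hkT, rfl⟩ := Finset.mem_filter.1 hk
          obtain ⟨-, -, hDM, hWM⟩ := hσ k hkT
          refine mul_le_mul (Real.sqrt_le_sqrt (le_min le_rfl ?_)) hWM (hW0 k) (mid_nonneg _ _)
          rcases (hD0 (σ k)).eq_or_lt with h | h
          · simp [← h]
          · exact ((div_le_one (hR0 k)).2 hDM).trans ((one_le_div h).2 hDM)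
      _ ≤ 16 * (2 * W M) := by
          rw [← Finset.sum_mul]
          exact mul_le_mul_of_nonneg_right (sum_mid_le _ (hD0 M)) (by linarith [hW0 M])
      _ = 32 * W M := by ring
  have hthree : ∑ k ∈ T, J k ≤ 16 * K₁ * ∑ M ∈ T.image σ, W M := by
    rw [← Finset.sum_fiberwise_of_maps_to (g := σ) (t := T.image σ)
      (fun k hk => Finset.mem_image_of_mem σ hk), Finset.mul_sum]
    refine Finset.sum_le_sum fun M hM => ?_
    obtain ⟨k₁, hk₁, rfl⟩ := Finset.mem_image.1 hM
    have hMT := (hσ k₁ hk₁).1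
    have hs := (hsc _ hMT).hs
    have hC2 : (1 : ℝ) ≤ 2 ^ c / 2 := by linarith
    set F := T.filter fun k => σ k = σ k₁ with hF
    have hgc : ∀ k l, ContinuousOn (g k l) (closedBall (x (σ k₁)) (ρ (σ k₁))) := fun k l => by
      refine (Continuous.mul ?_ (continuous_hier hv l).norm).continuousOn
      refine Real.continuous_sqrt.comp (((by fun_prop : Continuous fun y : Euc d =>
        (‖y - q‖ + stp s l) / R k)).min (continuous_const.div₀ (by fun_prop) fun y => ?_))
      exact (add_pos_of_nonneg_of_pos (norm_nonneg _) (stp_pos hs l)).ne'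
    have e : ∑ k ∈ F, J k = res s (2 ^ c / 2) (x (σ k₁)) (ρ (σ k₁)) (N (σ k₁))
        fun l y => ∑ k ∈ F, g k l y := by
      rw [Finset.sum_congr rfl fun k hk => show J k = _ by
        simp only [J]; rw [(Finset.mem_filter.1 hk).2]]
      simp only [res, Finset.mul_sum]
      rw [Finset.sum_add_distrib, Finset.sum_comm,
        integral_finsetSum _ fun k _ => integrable_fin0_mul hs (by linarith) (hgc k 0),
        Finset.sum_congr rfl fun l _ => (integral_finsetSum _ fun k _ =>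
          integrable_incr_mul hs hC2 l (hgc k l)).symm]
    rw [e]
    have hsumc : ∀ l, ContinuousOn (fun y => ∑ k ∈ F, g k l y)
        (closedBall (x (σ k₁)) (ρ (σ k₁))) := fun l => continuousOn_finsetSum _ fun k _ => hgc k l
    have hb : ∀ l y, ∑ k ∈ F, g k l y ≤ 16 * ‖hier v s l y‖ := fun l y => by
      simp only [g, ← Finset.sum_mul]
      exact mul_le_mul_of_nonneg_right
        (sum_mid_le F (add_nonneg (norm_nonneg _) (stp_pos hs l).le)) (norm_nonneg _)
    refine (res_mono hs hC2 (g' := fun l y => 16 * ‖hier v s l y‖) hsumc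
      (fun l => (continuous_const.mul (continuous_hier hv l).norm).continuousOn)
      (fun y _ _ => hb 0 y) fun l _ y _ _ => hb l y).trans ?_
    rw [res_const_mul, ← allMass_eq_res, mul_assoc]
    exact mul_le_mul_of_nonneg_left ((hyp _ hMT).2.2.1.trans
      (mul_le_mul_of_nonneg_right (le_max_left _ _) (hW0 _))) (by norm_num)
  have hrecsum : ∑ M ∈ T.image σ, W M ≤ 2 * (2 * b + 2) * ∑ m ∈ Ms, S m := by
    rcases T.eq_empty_or_nonempty with rfl | hne
    · simpa using mul_nonneg (by positivity : (0 : ℝ) ≤ 2 * (2 * (b : ℝ) + 2)) (Finset.sum_nonneg hS)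
    have h := hrec _ (T.max'_mem hne) fun k hk => T.le_max' k hk
    have : ∑ m ∈ Ms, (pot b (T.max' hne) m : ℝ) * S m ≤
        (2 * b + 2) * ∑ m ∈ Ms, S m := by
      rw [Finset.mul_sum]
      refine Finset.sum_le_sum fun m hm => mul_le_mul_of_nonneg_right ?_ (hS m hm)
      exact_mod_cast (show pot b (T.max' hne) m ≤ 2 * b + 2 by unfold pot; omega)
    simp only [Phi] at h
    linarith [hW0 (T.max' hne)]
  have hsel0 : 0 ≤ ∑ k ∈ T, sel k := Finset.sum_nonneg fun k _ => selMass_nonneg hv _ _ _ _ _ _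
  have hS0 : 0 ≤ ∑ m ∈ Ms, S m := Finset.sum_nonneg hS
  refine (Finset.sum_le_sum key).trans ?_
  simp only [Finset.sum_add_distrib, ← Finset.mul_sum]
  have h1 := mul_le_mul_of_nonneg_left hone (by positivity : (0 : ℝ) ≤ 10 * K₁)
  have h2 := mul_le_mul_of_nonneg_left htwo (by positivity : (0 : ℝ) ≤ 9 * K₁)
  have h4 := mul_le_mul_of_nonneg_left hrecsum (by positivity : (0 : ℝ) ≤ 688 * K₁)
  have h5 : 0 ≤ (K₁ + 18) * ∑ m ∈ Ms, S m := by positivity
  have h6 : 0 ≤ K₁ * (160 * B₁ ^ 2 + 688 * (2 * (2 * b + 2))) * ∑ k ∈ T, sel k := by positivity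
  have h7 : 0 ≤ K₁ * ∑ M ∈ T.image σ, W M := mul_nonneg hK (Finset.sum_nonneg fun M _ => hW0 M)
  simp only [hsel, hx, hR] at *
  linarith

end Vale.Agent.P137.Centred
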