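import Vale.Agent.P137.Centred.SelRay
import Vale.Agent.P137.Centred.Core

/-!
# P137, centred operator: the selection lemma for continuous weights

`J l` is a continuous nonnegative compactly supported weight at scale `2 ^ l`.
-/

open MeasureTheory Filter Set Metric Finset
open scoped ENNReal Topology RealInnerProductSpace Pointwise

noncomputable section

namespace Vale.Agent.P137.Centred

variable {d : ℕ}

/-- The index of the cube of side `u` containing `y`. -/
def cubeIdx (u : ℝ) (y : Euc d) : Fin d → ℤ := fun i => ⌊y i / u⌋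

/-- The lower corner of a cube. -/
def cubePt (u : ℝ) (c : Fin d → ℤ) : Euc d := WithLp.toLp 2 fun i => u * c i

lemma norm_sub_cubePt_le {u : ℝ} (hu : 0 < u) (y : Euc d) :
    ‖y - cubePt u (cubeIdx u y)‖ ≤ d * u := by
  refine norm_le_card_mul fun i => ?_
  have e : (y - cubePt u (cubeIdx u y)) i = u * Int.fract (y i / u) := by
    simp only [cubePt, cubeIdx, PiLp.sub_apply, Int.fract]
    field_simp
  rw [e, abs_mul, abs_of_pos hu, Int.abs_fract]
  exact mul_le_of_le_one_right hu.le (Int.fract_lt_one _).le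

lemma measurableSet_cube (u : ℝ) (c : Fin d → ℤ) :
    MeasurableSet {y : Euc d | cubeIdx u y = c} := by
  have : {y : Euc d | cubeIdx u y = c} = ⋂ i, (fun y : Euc d => ⌊y i / u⌋) ⁻¹' {c i} := by
    ext y; simp [cubeIdx, funext_iff]
  rw [this]
  exact MeasurableSet.iInter fun i => (by fun_prop : Measurable fun y : Euc d => ⌊y i / u⌋)
    (measurableSet_singleton _)

lemma integral_ballProb_smul (x₀ : Euc d) (ρ : ℝ) {u : ℝ} (hu : 0 < u) (f : Euc d → ℝ) :
    ⨍ x in closedBall x₀ ρ, f (u • x) = ⨍ x in closedBall (u • x₀) (u * ρ), f x := by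
  have hs : u • closedBall x₀ ρ = closedBall (u • x₀) (u * ρ) := by
    rw [smul_closedBall' hu.ne', Real.norm_of_nonneg hu.le]
  rw [setAverage_eq, setAverage_eq, Measure.setIntegral_comp_smul_of_pos volume f _ hu, ← hs,
    measureReal_def, measureReal_def, Measure.addHaar_smul_of_nonneg volume hu.le,
    ENNReal.toReal_mul, ENNReal.toReal_ofReal (by positivity), mul_inv]
  simp only [smul_eq_mul]
  ring

/-- The lattice point `2 ^ k n`, at every scale. -/
def latPtZ (k : ℤ) (n : Fin d → ℤ) : Euc d := (2 : ℝ) ^ k • WithLp.toLp 2 fun i => (n i : ℝ)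

/-- Selection with ray groups, weights at points. -/
theorem selection_rays_nodes {d : ℕ} (hd : 0 < d) {A : ℝ} (hA : 1 ≤ A) :
    ∃ C B : ℝ, 0 ≤ C ∧ A ≤ B ∧ ∀ (ι : Type) [Fintype ι] (pos : ι → Euc d) (lev : ι → ℤ) (J : ι → ℝ),
      (∀ a, 0 ≤ J a) → ∀ s : Finset (ℤ × (Fin d → ℤ)),
      ∃ (SH : Finset (Fin d → ℕ)) (good : ℤ × (Fin d → ℤ) → Finset (Fin d → ℕ))
        (ystar : (Fin d → ℕ) → ℤ × (Fin d → ℤ) → Euc d)
        (G : (Fin d → ℕ) → ℤ × (Fin d → ℤ) → Euc d → ℝ)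
        (M : Finset ℤ) (S : (Fin d → ℕ) → Euc d → ℤ → Euc d → ℝ),
        SH.Nonempty ∧ (∀ p ∈ s, good p ⊆ SH ∧ SH.card ≤ 2 * (good p).card) ∧
        (∀ t p, Continuous (G t p) ∧ ∀ x, 0 ≤ G t p x) ∧
        (∀ t y m, Continuous (S t y m) ∧ ∀ u, 0 ≤ S t y m u) ∧
        (∀ p ∈ s, ∀ t ∈ good p, ‖ystar t p - latPtZ p.1 p.2‖ ≤ B * 2 ^ p.1) ∧
        (∀ p ∈ s, ∀ t ∈ good p, ∀ x ∈ closedBall (latPtZ p.1 p.2) (A * 2 ^ p.1),
          ∀ r ∈ Icc (0 : ℝ) (A * 2 ^ p.1),
          ∑ a ∈ univ.filter (fun a => lev a ≤ p.1 ∧ |‖pos a - x‖ - r| ≤ A * 2 ^ lev a),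
              J a * Real.sqrt (min 1 ((‖pos a - ystar t p‖ + 2 ^ lev a) / 2 ^ p.1)) ≤ G t p x ∧
          ∑ a ∈ univ.filter (fun a => lev a ≤ p.1 ∧ |‖pos a - x‖ - r| ≤ A * 2 ^ lev a), J a ≤
            ∑ m ∈ M.filter (fun m => (2 : ℝ) ^ m ≤ B * 2 ^ p.1 ∧
                |‖x - ystar t p‖ - r| ≤ B * 2 ^ m),
              S t (ystar t p) m (((2 : ℝ) ^ p.1)⁻¹ • (x - ystar t p))) ∧
        ∑ t ∈ SH, ∑ p ∈ s.filter (fun p => t ∈ good p),
            ⨍ x in closedBall (latPtZ p.1 p.2) (A * 2 ^ p.1), G t p x ≤ C * SH.card * ∑ a, J a ∧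
        ∀ Y : (Fin d → ℕ) → Finset (Euc d),
          ∑ t ∈ SH, ∑ y ∈ Y t, ∑ m ∈ M, ∫ u in closedBall (0 : Euc d) (2 * B), S t y m u
            ≤ C * SH.card * ∑ a, J a := by
  classical
  obtain ⟨C, B, hC, hAB, h⟩ := selection_rays_nat hd hA
  refine ⟨C, B, hC, hAB, fun ι _ pos lev J hJ s => ?_⟩
  set T₀ : Finset ℤ := insert 0 (univ.image lev ∪ s.image Prod.fst) with hT₀
  have hne : T₀.Nonempty := Finset.insert_nonempty _ _
  set b := T₀.min' hne with hb
  have hbl : ∀ a, b ≤ lev a := fun a => Finset.min'_le _ _ (by simp [hT₀])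
  have hbs : ∀ p ∈ s, b ≤ p.1 := fun p hp => Finset.min'_le _ _
    (Finset.mem_insert_of_mem (Finset.mem_union_right _ (Finset.mem_image_of_mem _ hp)))
  set u : ℝ := (2 : ℝ) ^ b with hu
  have hu0 : 0 < u := by positivity
  have hscale : ∀ l : ℤ, b ≤ l → (2 : ℝ) ^ l = u * 2 ^ (l - b).toNat := fun l hl => by
    rw [hu, ← zpow_natCast, Int.toNat_of_nonneg (by omega), ← zpow_add₀ (by norm_num)]
    congr 1; omega
  set f : ℤ × (Fin d → ℤ) → ℕ × (Fin d → ℤ) := fun p => ((p.1 - b).toNat, p.2) with hf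
  have hlat : ∀ p ∈ s, latPtZ p.1 p.2 = u • latPt (f p).1 (f p).2 := fun p hp => by
    ext i
    simp only [latPtZ, latPt, hf, PiLp.smul_apply, smul_eq_mul, hscale p.1 (hbs p hp)]
    ring
  obtain ⟨SH, good, ystar, G, M, S, hSH, hgood, hG, hS, hnear, hpt, hGsum, hSsum⟩ :=
    h ι (fun a => u⁻¹ • pos a) (fun a => (lev a - b).toNat) J hJ (s.image f)
  refine ⟨SH, fun p => good (f p), fun t p => u • ystar t (f p), fun t p x => G t (f p) (u⁻¹ • x),
    M.image fun m : ℕ => (m : ℤ) + b, fun t y m => S t (u⁻¹ • y) (m - b).toNat, hSH,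
    fun p hp => hgood _ (Finset.mem_image_of_mem _ hp),
    fun t p => ⟨(hG t _).1.comp (continuous_const_smul _), fun x => (hG t _).2 _⟩,
    fun t y m => hS t _ _, ?_, ?_, ?_, ?_⟩
  · intro p hp t ht
    rw [hlat p hp, ← smul_sub, norm_smul, Real.norm_of_nonneg hu0.le, hscale p.1 (hbs p hp),
      mul_left_comm B]
    exact mul_le_mul_of_nonneg_left (hnear _ (Finset.mem_image_of_mem _ hp) t ht) hu0.le
  · intro p hp t ht x hx r hr
    have hk := hscale p.1 (hbs p hp)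
    have hui : 0 ≤ u⁻¹ := inv_nonneg.2 hu0.le
    have hx' : u⁻¹ • x ∈ closedBall (latPt (f p).1 (f p).2) (A * 2 ^ (f p).1) := by
      rw [Metric.mem_closedBall, hlat p hp] at hx
      rw [Metric.mem_closedBall, show latPt (f p).1 (f p).2 = u⁻¹ • (u • latPt (f p).1 (f p).2) by
        rw [smul_smul, inv_mul_cancel₀ hu0.ne', one_smul], dist_smul₀, Real.norm_of_nonneg hui,
        inv_mul_le_iff₀ hu0]
      refine hx.trans (le_of_eq ?_)
      rw [hk]; simp only [hf]; ring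
    have hr' : u⁻¹ * r ∈ Icc (0 : ℝ) (A * 2 ^ (f p).1) := by
      refine ⟨mul_nonneg hui hr.1, ?_⟩
      rw [inv_mul_le_iff₀ hu0]
      refine hr.2.trans (le_of_eq ?_)
      rw [hk]; simp only [hf]; ring
    have hnorm : ∀ v w : Euc d, ‖u⁻¹ • v - w‖ = u⁻¹ * ‖v - u • w‖ := fun v w => by
      rw [← Real.norm_of_nonneg hui, ← norm_smul, smul_sub, smul_smul,
        Real.norm_of_nonneg hui, inv_mul_cancel₀ hu0.ne', one_smul]
    have hshell : ∀ (z : ℝ) (l : ℤ) (Kc : ℝ), b ≤ l →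
        (|u⁻¹ * z - u⁻¹ * r| ≤ Kc * 2 ^ (l - b).toNat ↔ |z - r| ≤ Kc * 2 ^ l) := fun z l Kc hl => by
      rw [← mul_sub, abs_mul, abs_of_nonneg hui, inv_mul_le_iff₀ hu0, hscale l hl,
        mul_left_comm Kc u]
    obtain ⟨hG', hW'⟩ := hpt (f p) (Finset.mem_image_of_mem _ hp) t ht _ hx' _ hr'
    have hfil : univ.filter (fun a => lev a ≤ p.1 ∧ |‖pos a - x‖ - r| ≤ A * 2 ^ lev a) =
        univ.filter (fun a => (lev a - b).toNat ≤ (f p).1 ∧
          |‖u⁻¹ • pos a - u⁻¹ • x‖ - u⁻¹ * r| ≤ A * 2 ^ (lev a - b).toNat) := by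
      ext a
      simp only [Finset.mem_filter, Finset.mem_univ, true_and, hf]
      rw [← smul_sub, norm_smul, Real.norm_of_nonneg hui, hshell _ _ _ (hbl a)]
      have := hbl a
      have := hbs p hp
      constructor <;> rintro ⟨h1, h2⟩ <;> refine ⟨?_, h2⟩ <;> omega
    rw [hfil]
    refine ⟨le_of_eq_of_le (sum_congr rfl fun a _ => ?_) hG', hW'.trans (le_of_eq ?_)⟩
    · have : (‖pos a - u • ystar t (f p)‖ + 2 ^ lev a) / 2 ^ p.1 =
          (u⁻¹ * ‖pos a - u • ystar t (f p)‖ + 2 ^ (lev a - b).toNat) / 2 ^ (f p).1 := by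
        rw [hscale _ (hbl a), hk]
        simp only [hf]
        field_simp
      simp only [hnorm, this]
    · rw [sum_filter, sum_filter, sum_image (g := fun m : ℕ => (m : ℤ) + b)
        fun m _ m' _ (e : (m : ℤ) + b = m' + b) => by omega]
      refine sum_congr rfl fun m _ => ?_
      have hm : (2 : ℝ) ^ ((m : ℤ) + b) = u * 2 ^ m := by
        rw [zpow_add₀ (by norm_num), zpow_natCast, mul_comm, ← hu]
      have e1 : ((2 : ℝ) ^ m ≤ B * 2 ^ (f p).1 ∧
          |‖u⁻¹ • x - ystar t (f p)‖ - u⁻¹ * r| ≤ B * 2 ^ m) ↔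
          ((2 : ℝ) ^ ((m : ℤ) + b) ≤ B * 2 ^ p.1 ∧
            |‖x - u • ystar t (f p)‖ - r| ≤ B * 2 ^ ((m : ℤ) + b)) := by
        rw [hnorm, hm, hk, mul_left_comm B u, mul_le_mul_iff_of_pos_left hu0, ← mul_sub, abs_mul,
          abs_of_nonneg hui, inv_mul_le_iff₀ hu0, mul_left_comm B u]
      have e2 : ((2 : ℝ) ^ (f p).1)⁻¹ • (u⁻¹ • x - ystar t (f p)) =
          ((2 : ℝ) ^ p.1)⁻¹ • (x - u • ystar t (f p)) := by
        rw [hk, mul_inv_rev, ← smul_smul, smul_sub u⁻¹, smul_smul u⁻¹ u, inv_mul_cancel₀ hu0.ne',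
          one_smul]
      have e3 : u⁻¹ • (u • ystar t (f p)) = ystar t (f p) := by
        rw [smul_smul, inv_mul_cancel₀ hu0.ne', one_smul]
      simp only [e1, e2, e3, add_sub_cancel_right, Int.toNat_natCast]
  · have hinj : Set.InjOn f (s : Set (ℤ × (Fin d → ℤ))) := by
      intro p hp q hq hpq
      simp only [hf, Prod.mk.injEq] at hpq
      have := hbs p hp
      have := hbs q hq
      exact Prod.ext (by omega) hpq.2
    refine le_of_eq_of_le ?_ hGsum
    refine sum_congr rfl fun t _ => ?_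
    rw [Finset.filter_image, sum_image (hinj.mono (Finset.coe_subset.2 (Finset.filter_subset _ _)))]
    refine sum_congr rfl fun p hp => ?_
    have hp' := (Finset.mem_filter.1 hp).1
    show ⨍ x in closedBall _ _, G t (f p) (u⁻¹ • x) = _
    rw [integral_ballProb_smul _ _ (inv_pos.2 hu0) (G t (f p)), hlat p hp', smul_smul,
      inv_mul_cancel₀ hu0.ne', one_smul, hscale p.1 (hbs p hp')]
    congr 2
    simp only [hf]; field_simp
  · intro Y
    refine le_of_eq_of_le ?_ (hSsum fun t => (Y t).image fun y => u⁻¹ • y)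
    refine sum_congr rfl fun t _ => ?_
    rw [sum_image ((smul_right_injective (Euc d) (inv_ne_zero hu0.ne')).injOn)]
    refine sum_congr rfl fun y _ => ?_
    rw [sum_image (g := fun m : ℕ => (m : ℤ) + b)
      fun m _ m' _ (e : (m : ℤ) + b = m' + b) => by omega]
    simp only [add_sub_cancel_right, Int.toNat_natCast]

/-- Passing from a cube of side `h` to its corner. -/
lemma selWt_le {q c y : Euc d} {h R : ℝ} (hh : 0 ≤ h) (hR : 0 < R) (hyc : ‖y - c‖ ≤ d * h) :
    selWt q h R y ≤ (d + 1) * Real.sqrt (min 1 ((‖c - q‖ + h) / R)) := by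
  rw [selWt, Real.sqrt_le_iff]
  refine ⟨by positivity, ?_⟩
  rw [mul_pow, Real.sq_sqrt (le_min zero_le_one (by positivity))]
  refine le_trans ?_ (mul_le_mul_of_nonneg_right (le_self_pow₀
    (le_add_of_nonneg_left (Nat.cast_nonneg d)) two_ne_zero) (le_min zero_le_one (by positivity)))
  rw [mul_min_of_nonneg _ _ (by positivity), mul_one, ← mul_div_assoc]
  refine min_le_min (le_add_of_nonneg_left (Nat.cast_nonneg d)) ?_
  gcongr
  have := norm_sub_le_norm_sub_add_norm_sub y c q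
  have := mul_nonneg (Nat.cast_nonneg d : (0 : ℝ) ≤ d) (norm_nonneg (c - q))
  linarith

/-- A cube meeting a shell has its corner in the wider shell. -/
lemma cubePt_mem_shell {x y : Euc d} {A r h : ℝ} (hh : 0 < h) (hy : y ∈ shell x r (A * h)) :
    |‖cubePt h (cubeIdx h y) - x‖ - r| ≤ (A + d) * h := by
  have h1 := abs_le.1 (abs_norm_sub_norm_le (cubePt h (cubeIdx h y) - x) (y - x))
  rw [sub_sub_sub_cancel_right, norm_sub_rev] at h1
  have h2 := abs_le.1 (show |‖y - x‖ - r| ≤ A * h from hy)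
  have h3 := norm_sub_cubePt_le hh y
  exact abs_le.2 ⟨by linarith, by linarith⟩

/-- An integral over a shell, cut into cubes. -/
lemma setIntegral_shell_le {J w : Euc d → ℝ} (hJc : Continuous J) (hJs : HasCompactSupport J)
    (hJ0 : ∀ y, 0 ≤ J y) {x : Euc d} {r A h : ℝ} (hh : 0 < h) {cubes : Finset (Fin d → ℤ)}
    (hcover : ∀ y, J y ≠ 0 → cubeIdx h y ∈ cubes) {ω : (Fin d → ℤ) → ℝ}
    (hω : ∀ y, w y ≤ ω (cubeIdx h y)) (hω0 : ∀ c, 0 ≤ ω c) (hw0 : ∀ y, 0 ≤ w y) :
    ∫ y in shell x r (A * h), w y * J y ≤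
      ∑ c ∈ cubes.filter (fun c => |‖cubePt h c - x‖ - r| ≤ (A + d) * h),
        (∫ y in {y | cubeIdx h y = c}, J y) * ω c := by
  classical
  have hint : Integrable J := hJc.integrable_of_hasCompactSupport hJs
  have hm : MeasurableSet (shell x r (A * h)) :=
    (isClosed_le (f := fun y : Euc d => |‖y - x‖ - r|) (by fun_prop) continuous_const).measurableSet
  set g : (Fin d → ℤ) → ℝ := fun c => if |‖cubePt h c - x‖ - r| ≤ (A + d) * h then ω c else 0 with hg
  have hg0 : ∀ c, 0 ≤ g c := fun c => by rw [hg]; dsimp only; split_ifs <;> [exact hω0 c; exact le_rfl]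
  have hi : ∀ c ∈ cubes, Integrable fun y => g c * {y | cubeIdx h y = c}.indicator J y :=
    fun c _ => (hint.indicator (measurableSet_cube _ _)).const_mul _
  have e : ∑ c ∈ cubes.filter (fun c => |‖cubePt h c - x‖ - r| ≤ (A + d) * h),
      (∫ y in {y | cubeIdx h y = c}, J y) * ω c =
      ∫ y, ∑ c ∈ cubes, g c * {y | cubeIdx h y = c}.indicator J y := by
    rw [integral_finsetSum _ hi, sum_filter]
    refine sum_congr rfl fun c _ => ?_
    rw [integral_const_mul, integral_indicator (measurableSet_cube _ _), hg]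
    dsimp only
    split_ifs <;> ring
  rw [e, ← integral_indicator hm]
  refine integral_mono_of_nonneg (ae_of_all _ (indicator_nonneg fun y _ =>
    mul_nonneg (hw0 y) (hJ0 y))) (integrable_finsetSum _ hi) (ae_of_all _ fun y => ?_)
  have hnn : ∀ c ∈ cubes, 0 ≤ g c * {y | cubeIdx h y = c}.indicator J y := fun c _ =>
    mul_nonneg (hg0 c) (indicator_nonneg (fun y _ => hJ0 y) y)
  by_cases hy : y ∈ shell x r (A * h)
  swap
  · rw [indicator_of_notMem hy]; exact sum_nonneg hnn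
  rw [indicator_of_mem hy]
  rcases eq_or_ne (J y) 0 with h0 | h0
  · rw [h0, mul_zero]; exact sum_nonneg hnn
  refine le_trans ?_ (single_le_sum hnn (hcover y h0))
  rw [indicator_of_mem (show y ∈ {z | cubeIdx h z = cubeIdx h y} from rfl), hg]
  dsimp only
  rw [if_pos (cubePt_mem_shell hh hy)]
  exact mul_le_mul_of_nonneg_right (hω y) (hJ0 y)

/-- Averages over a smaller concentric ball. -/
lemma average_ball_le {F : Euc d → ℝ} (hF : Continuous F) (hF0 : ∀ x, 0 ≤ F x) (x₀ : Euc d)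
    {ρ ρ' : ℝ} (hρ : 0 < ρ) (hle : ρ ≤ ρ') :
    ⨍ x in closedBall x₀ ρ, F x ≤ (ρ' / ρ) ^ d * ⨍ x in closedBall x₀ ρ', F x := by
  rw [setAverage_eq, setAverage_eq, smul_eq_mul, smul_eq_mul, measureReal_def, measureReal_def,
    Measure.addHaar_closedBall' volume _ hρ.le,
    Measure.addHaar_closedBall' volume _ (hρ.le.trans hle), ENNReal.toReal_mul,
    ENNReal.toReal_mul, ENNReal.toReal_ofReal (by positivity),
    ENNReal.toReal_ofReal (pow_nonneg (hρ.le.trans hle) _), finrank_euclideanSpace_fin]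
  refine (mul_le_mul_of_nonneg_left (setIntegral_mono_set
    (hF.continuousOn.integrableOn_compact (isCompact_closedBall _ _))
    (ae_of_all _ fun x => hF0 x)
    (ae_of_all _ fun x hx => closedBall_subset_closedBall hle hx)) (by positivity)).trans
    (le_of_eq ?_)
  have : 0 < (volume (closedBall (0 : Euc d) 1)).toReal := ENNReal.toReal_pos
    (measure_closedBall_pos volume 0 one_pos).ne' measure_closedBall_lt_top.ne
  have : 0 < ρ' := hρ.trans_le hle
  simp only [div_pow]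
  field_simp

/-- **Selection with ray groups**, continuous weights. -/
theorem selection_rays (hd : 0 < d) {A : ℝ} (hA : 1 ≤ A) :
    ∃ C B : ℝ, 0 ≤ C ∧ A ≤ B ∧ ∀ (L : Finset ℤ) (J : ℤ → Euc d → ℝ),
      (∀ l ∈ L, Continuous (J l) ∧ HasCompactSupport (J l) ∧ ∀ y, 0 ≤ J l y) →
      ∀ s : Finset (ℤ × (Fin d → ℤ)),
      ∃ (SH : Finset (Fin d → ℕ)) (good : ℤ × (Fin d → ℤ) → Finset (Fin d → ℕ))
        (ystar : (Fin d → ℕ) → ℤ × (Fin d → ℤ) → Euc d)
        (G : (Fin d → ℕ) → ℤ × (Fin d → ℤ) → Euc d → ℝ)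
        (M : Finset ℤ) (S : (Fin d → ℕ) → Euc d → ℤ → Euc d → ℝ),
        SH.Nonempty ∧ (∀ p ∈ s, good p ⊆ SH ∧ SH.card ≤ 2 * (good p).card) ∧
        (∀ t p, Continuous (G t p) ∧ ∀ x, 0 ≤ G t p x) ∧
        (∀ t y m, Continuous (S t y m) ∧ ∀ u, 0 ≤ S t y m u) ∧
        (∀ p ∈ s, ∀ t ∈ good p, ‖ystar t p - latPtZ p.1 p.2‖ ≤ B * 2 ^ p.1) ∧
        (∀ p ∈ s, ∀ t ∈ good p, ∀ x ∈ closedBall (latPtZ p.1 p.2) (A * 2 ^ p.1),
          ∀ r ∈ Icc (0 : ℝ) (A * 2 ^ p.1),
          ∑ l ∈ L.filter (fun l => l ≤ p.1), ∫ y in shell x r (A * 2 ^ l),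
              selWt (ystar t p) (2 ^ l) (2 ^ p.1) y * J l y ≤ G t p x ∧
          ∑ l ∈ L.filter (fun l => l ≤ p.1), ∫ y in shell x r (A * 2 ^ l), J l y ≤
            ∑ m ∈ M.filter (fun m => (2 : ℝ) ^ m ≤ B * 2 ^ p.1 ∧
                |‖x - ystar t p‖ - r| ≤ B * 2 ^ m),
              S t (ystar t p) m (((2 : ℝ) ^ p.1)⁻¹ • (x - ystar t p))) ∧
        ∑ t ∈ SH, ∑ p ∈ s.filter (fun p => t ∈ good p),
            ⨍ x in closedBall (latPtZ p.1 p.2) (A * 2 ^ p.1), G t p x ≤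
          C * SH.card * ∑ l ∈ L, ∫ y, J l y ∧
        ∀ Y : (Fin d → ℕ) → Finset (Euc d),
          ∑ t ∈ SH, ∑ y ∈ Y t, ∑ m ∈ M, ∫ u in closedBall (0 : Euc d) (2 * B), S t y m u ≤
            C * SH.card * ∑ l ∈ L, ∫ y, J l y := by
  classical
  set A' : ℝ := A + d with hA'
  have hd0 : (0 : ℝ) ≤ d := Nat.cast_nonneg d
  have hA0 : 0 < A := by linarith
  obtain ⟨C, B, hC, hAB, hsel⟩ := selection_rays_nodes (A := A') hd (by linarith)
  have hA'0 : 0 < A' := by linarith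
  refine ⟨((A' / A) ^ d * (d + 1) + 1) * C, B, by positivity, by linarith, fun L J hJ s => ?_⟩
  have hsupp : ∀ l ∈ L, ∃ M : ℝ, ∀ y, J l y ≠ 0 → ‖y‖ ≤ M := fun l hl => by
    obtain ⟨M, hM⟩ := (hJ l hl).2.1.isCompact.exists_bound_of_continuousOn
      (f := fun y : Euc d => y) continuous_id.continuousOn
    exact ⟨M, fun y hy => hM y (subset_tsupport _ hy)⟩
  choose! R₀ hR₀ using hsupp
  set cubes : ℤ → Finset (Fin d → ℤ) := fun l => Fintype.piFinset fun _ =>
    Finset.Icc ⌊-(R₀ l) / (2 : ℝ) ^ l⌋ ⌊R₀ l / (2 : ℝ) ^ l⌋ with hcubes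
  have hcover : ∀ l ∈ L, ∀ y, J l y ≠ 0 → cubeIdx ((2 : ℝ) ^ l) y ∈ cubes l := by
    intro l hl y hy
    refine Fintype.mem_piFinset.2 fun i => ?_
    have h := abs_le.1 ((PiLp.norm_apply_le y i).trans (hR₀ l hl y hy))
    exact Finset.mem_Icc.2 ⟨Int.floor_mono (div_le_div_of_nonneg_right h.1 (by positivity)),
      Int.floor_mono (div_le_div_of_nonneg_right h.2 (by positivity))⟩
  set ι := Σ l : {l // l ∈ L}, {c // c ∈ cubes l.1}
  set mass : ι → ℝ := fun a => ∫ y in {y | cubeIdx ((2 : ℝ) ^ a.1.1) y = a.2.1}, J a.1.1 y with hmass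
  obtain ⟨SH, good, ystar, G, M, S, hSH, hgood, hG, hS, hnear, hpt, hGsum, hSsum⟩ :=
    hsel ι (fun a => cubePt ((2 : ℝ) ^ a.1.1) a.2.1) (fun a => a.1.1) mass
      (fun a => integral_nonneg fun y => (hJ a.1.1 a.1.2).2.2 y) s
  have htot : ∑ a, mass a ≤ ∑ l ∈ L, ∫ y, J l y := by
    rw [Fintype.sum_sigma, ← Finset.sum_coe_sort L (fun l => ∫ y, J l y)]
    refine sum_le_sum fun l _ => ?_
    have hint : Integrable (J l.1) :=
      (hJ l.1 l.2).1.integrable_of_hasCompactSupport (hJ l.1 l.2).2.1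
    simp only [hmass]
    rw [Finset.sum_coe_sort (cubes l.1) fun c =>
      ∫ y in {y | cubeIdx ((2 : ℝ) ^ l.1) y = c}, J l.1 y,
      ← integral_biUnion_finset _ (fun c _ => measurableSet_cube _ c) ?_
        fun c _ => hint.integrableOn]
    · exact setIntegral_le_integral hint (ae_of_all _ (hJ l.1 l.2).2.2)
    · intro c _ c' _ hne
      rw [Function.onFun, Set.disjoint_left]
      exact fun y h h' => hne (h.symm.trans h')
  refine ⟨SH, good, ystar, fun t p x => (d + 1) * G t p x, M, S, hSH, hgood,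
    fun t p => ⟨continuous_const.mul (hG t p).1, fun x => mul_nonneg (by positivity) ((hG t p).2 x)⟩,
    hS, hnear, ?_, ?_, ?_⟩
  · intro p hp t ht x hx r hr
    have hAA : A * 2 ^ p.1 ≤ A' * 2 ^ p.1 := by gcongr; linarith
    obtain ⟨hG', hW'⟩ := hpt p hp t ht x (closedBall_subset_closedBall hAA hx) r
      ⟨hr.1, hr.2.trans hAA⟩
    have key : ∀ (w : ℤ → Euc d → ℝ) (ω : ℤ → Euc d → ℝ), (∀ l y, 0 ≤ w l y) →
        (∀ l c, 0 ≤ ω l c) → (∀ l y, w l y ≤ ω l (cubePt ((2 : ℝ) ^ l) (cubeIdx ((2 : ℝ) ^ l) y))) →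
        ∑ l ∈ L.filter (fun l => l ≤ p.1), ∫ y in shell x r (A * 2 ^ l), w l y * J l y ≤
        ∑ a ∈ univ.filter (fun a : ι => a.1.1 ≤ p.1 ∧
            |‖cubePt ((2 : ℝ) ^ a.1.1) a.2.1 - x‖ - r| ≤ A' * 2 ^ a.1.1),
          mass a * ω a.1.1 (cubePt ((2 : ℝ) ^ a.1.1) a.2.1) := by
      intro w ω hw0 hω0 hwω
      refine (sum_le_sum fun l hl => setIntegral_shell_le (hJ l (Finset.mem_filter.1 hl).1).1
        (hJ l (Finset.mem_filter.1 hl).1).2.1 (hJ l (Finset.mem_filter.1 hl).1).2.2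
        (by positivity) (hcover l (Finset.mem_filter.1 hl).1)
        (ω := fun c => ω l (cubePt ((2 : ℝ) ^ l) c)) (hwω l) (fun c => hω0 l _) (hw0 l)).trans
        (le_of_eq ?_)
      rw [sum_filter (s := (univ : Finset ι)), Fintype.sum_sigma, sum_filter, ← Finset.sum_coe_sort L]
      refine sum_congr rfl fun l _ => ?_
      by_cases hl : l.1 ≤ p.1
      · rw [if_pos hl, sum_filter, ← Finset.sum_coe_sort (cubes l.1)]
        refine sum_congr rfl fun c _ => ?_
        simp only [hl, true_and, ← hA', hmass]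
      · rw [if_neg hl]
        exact (sum_eq_zero fun c _ => if_neg fun h => hl h.1).symm
    refine ⟨(key (fun l => selWt (ystar t p) (2 ^ l) (2 ^ p.1))
      (fun l c => (d + 1) * Real.sqrt (min 1 ((‖c - ystar t p‖ + 2 ^ l) / 2 ^ p.1)))
      (fun l y => Real.sqrt_nonneg _) (fun l c => mul_nonneg (by positivity) (Real.sqrt_nonneg _))
      (fun l y => selWt_le (by positivity) (by positivity)
        (norm_sub_cubePt_le (by positivity) y))).trans ?_, le_trans ?_ hW'⟩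
    · refine le_trans (le_of_eq ?_) (mul_le_mul_of_nonneg_left hG' (by positivity))
      rw [mul_sum]
      exact sum_congr rfl fun a _ => by ring
    · simpa using key (fun _ _ => 1) (fun _ _ => 1) (fun _ _ => zero_le_one)
        (fun _ _ => zero_le_one) (fun _ _ => le_rfl)
  · have hC' : (0 : ℝ) ≤ C * SH.card * ∑ l ∈ L, ∫ y, J l y := mul_nonneg (by positivity)
      (sum_nonneg fun l hl => integral_nonneg (hJ l hl).2.2)
    have h1 : ∀ t, ∀ p : ℤ × (Fin d → ℤ),
        ⨍ x in closedBall (latPtZ p.1 p.2) (A * 2 ^ p.1), (d + 1) * G t p x ≤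
        (A' / A) ^ d * (d + 1) * ⨍ x in closedBall (latPtZ p.1 p.2) (A' * 2 ^ p.1), G t p x := by
      intro t p
      have h := average_ball_le (F := G t p) (hG t p).1 (hG t p).2 (latPtZ p.1 p.2)
        (ρ := A * 2 ^ p.1) (ρ' := A' * 2 ^ p.1) (by positivity) (by gcongr; linarith)
      rw [mul_div_mul_right _ _ (by positivity)] at h
      rw [← integral_ballProb, integral_const_mul, integral_ballProb, mul_comm ((A' / A) ^ d),
        mul_assoc]
      exact mul_le_mul_of_nonneg_left h (by positivity)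
    refine (sum_le_sum fun t _ => sum_le_sum fun p _ => h1 t p).trans ?_
    simp only [← mul_sum]
    refine (mul_le_mul_of_nonneg_left (hGsum.trans (mul_le_mul_of_nonneg_left htot (by positivity)))
      (by positivity)).trans ?_
    linarith
  · intro Y
    refine ((hSsum Y).trans (mul_le_mul_of_nonneg_left htot (by positivity))).trans ?_
    have h0 : (0 : ℝ) ≤ C * SH.card * ∑ l ∈ L, ∫ y, J l y := mul_nonneg (by positivity)
      (sum_nonneg fun l hl => integral_nonneg (hJ l hl).2.2)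
    have := mul_nonneg (show (0 : ℝ) ≤ (A' / A) ^ d * (d + 1) by positivity) h0
    linarith

end Vale.Agent.P137.Centred
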