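import Vale.Agent.P137.Defs

/-!
# P137, centred operator: shifted dyadic grids

The cells of level `n` of the grid with shift `t` have side `2 ^ n`. On average over the shift a
point is seldom close to the boundary of its cell.
-/

open MeasureTheory Filter Set Finset

noncomputable section

namespace Vale.Agent.P137.Centred

variable {d : ℕ}

/-- The index of the cell of level `n` containing `y`. -/
def cell (t : Fin d → ℕ) (n : ℕ) (y : Euc d) : Fin d → ℤ := fun i => ⌊(y i + t i) / 2 ^ n⌋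

/-- The parent of a cell. -/
def par (c : Fin d → ℤ) : Fin d → ℤ := fun i => c i / 2

/-- The centre of a cell. -/
def cellCtr (t : Fin d → ℕ) (n : ℕ) (c : Fin d → ℤ) : Euc d :=
  WithLp.toLp 2 fun i => ((c i : ℝ) + 1 / 2) * 2 ^ n - t i

/-- The distance of `y i` from the boundary of the cell of level `n` of `y`. -/
def bdry (t : Fin d → ℕ) (n : ℕ) (y : Euc d) (i : Fin d) : ℝ :=
  2 ^ n * min (Int.fract ((y i + t i) / 2 ^ n)) (1 - Int.fract ((y i + t i) / 2 ^ n))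

/-- The weight `(h / max x h) ^ (1/2)`. -/
def gw (h x : ℝ) : ℝ := Real.sqrt (h / max x h)

/-- The boundary weight of a point at scale `h`. -/
def om (t : Fin d → ℕ) (n : ℕ) (h : ℝ) (y : Euc d) : ℝ := ∑ i, gw h (bdry t n y i)

lemma par_cell (t : Fin d → ℕ) (n : ℕ) (y : Euc d) : par (cell t n y) = cell t (n + 1) y := by
  funext i
  simp only [par, cell]
  set v : ℝ := (y i + t i) / 2 ^ n with hv
  have e : (y i + t i) / 2 ^ (n + 1) = v / 2 := by rw [hv, pow_succ]; field_simp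
  rw [e, eq_comm, Int.floor_eq_iff]
  have h1 : ((⌊v⌋ / 2 : ℤ) : ℝ) * 2 ≤ (⌊v⌋ : ℝ) := by
    exact_mod_cast Int.ediv_mul_le ⌊v⌋ (by norm_num : (2 : ℤ) ≠ 0)
  have h2 : (⌊v⌋ : ℝ) + 1 ≤ ((⌊v⌋ / 2 : ℤ) : ℝ) * 2 + 2 := by
    have : ⌊v⌋ + 1 ≤ ⌊v⌋ / 2 * 2 + 2 := by omega
    exact_mod_cast this
  constructor <;> linarith [Int.floor_le v, Int.lt_floor_add_one v]

lemma norm_le_card_mul {v : Euc d} {b : ℝ} (h : ∀ i, |v i| ≤ b) : ‖v‖ ≤ d * b := by
  conv_lhs => rw [← (EuclideanSpace.basisFun (Fin d) ℝ).sum_repr v]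
  refine (norm_sum_le _ _).trans ?_
  calc ∑ i, ‖(EuclideanSpace.basisFun (Fin d) ℝ).repr v i • EuclideanSpace.basisFun (Fin d) ℝ i‖
      ≤ ∑ _i : Fin d, b := sum_le_sum fun i _ => by
        rw [norm_smul, OrthonormalBasis.norm_eq_one, mul_one]
        simpa using h i
    _ = d * b := by simp

lemma norm_sub_cellCtr_le (t : Fin d → ℕ) (n : ℕ) (y : Euc d) :
    ‖y - cellCtr t n (cell t n y)‖ ≤ d * 2 ^ n := by
  refine norm_le_card_mul fun i => ?_
  set v : ℝ := (y i + t i) / 2 ^ n with hv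
  have hy : y i + t i = v * 2 ^ n := by rw [hv]; field_simp
  have e : (y - cellCtr t n (cell t n y)) i = (v - ⌊v⌋ - 1 / 2) * 2 ^ n := by
    simp only [cellCtr, cell, PiLp.sub_apply, ← hv]
    linear_combination hy
  rw [e, abs_mul, abs_of_pos (by positivity : (0 : ℝ) < 2 ^ n)]
  refine mul_le_of_le_one_left (by positivity) (abs_le.2 ⟨?_, ?_⟩) <;>
    linarith [Int.floor_le v, Int.lt_floor_add_one v]

lemma cell_cellCtr (t : Fin d → ℕ) (n : ℕ) (c : Fin d → ℤ) : cell t n (cellCtr t n c) = c := by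
  funext i
  have e : (cellCtr t n c i + t i) / 2 ^ n = (c i : ℝ) + 1 / 2 := by
    simp only [cellCtr]; field_simp; ring
  rw [cell, e, Int.floor_eq_iff]
  constructor <;> linarith

/-- A point in another cell is at least as far as the boundary. -/
lemma exists_bdry_le (t : Fin d → ℕ) (n : ℕ) {y z : Euc d} (h : cell t n z ≠ cell t n y) :
    ∃ i, bdry t n y i ≤ ‖y - z‖ := by
  obtain ⟨i, hi⟩ := Function.ne_iff.1 h
  refine ⟨i, le_trans ?_ (PiLp.norm_apply_le (y - z) i)⟩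
  simp only [cell] at hi
  set v : ℝ := (y i + t i) / 2 ^ n with hv
  set v' : ℝ := (z i + t i) / 2 ^ n with hv'
  have e : ‖(y - z) i‖ = 2 ^ n * |v - v'| := by
    rw [Real.norm_eq_abs, hv, hv', ← sub_div, abs_div, abs_of_pos (by positivity : (0 : ℝ) < 2 ^ n),
      PiLp.sub_apply]
    field_simp
    ring_nf
  rw [e, bdry, ← hv]
  refine mul_le_mul_of_nonneg_left ?_ (by positivity)
  rcases lt_or_gt_of_ne hi with hlt | hgt
  · refine (min_le_left _ _).trans (le_trans ?_ (le_abs_self _))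
    have h2 : ((⌊v'⌋ + 1 : ℤ) : ℝ) ≤ (⌊v⌋ : ℝ) := Int.cast_le.2 hlt
    push_cast at h2
    rw [Int.fract]
    linarith [Int.lt_floor_add_one v']
  · refine (min_le_right _ _).trans (le_trans ?_ (neg_le_abs _))
    have h2 : ((⌊v⌋ + 1 : ℤ) : ℝ) ≤ (⌊v'⌋ : ℝ) := Int.cast_le.2 hgt
    push_cast at h2
    rw [Int.fract]
    linarith [Int.floor_le v']

lemma gw_nonneg (h x : ℝ) : 0 ≤ gw h x := Real.sqrt_nonneg _

lemma gw_anti {h x y : ℝ} (hh : 0 < h) (hxy : x ≤ y) : gw h y ≤ gw h x := by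
  unfold gw
  gcongr

lemma gw_of_le {h x : ℝ} (hh : 0 < h) (hx : x ≤ h) : gw h x = 1 := by
  rw [gw, max_eq_right hx, div_self hh.ne', Real.sqrt_one]

lemma om_nonneg (t : Fin d → ℕ) (n : ℕ) (h : ℝ) (y : Euc d) : 0 ≤ om t n h y :=
  sum_nonneg fun _ _ => gw_nonneg _ _

lemma gw_le_om (t : Fin d → ℕ) (n : ℕ) (h : ℝ) (y : Euc d) (i : Fin d) :
    gw h (bdry t n y i) ≤ om t n h y :=
  single_le_sum (f := fun j => gw h (bdry t n y j)) (fun _ _ => gw_nonneg _ _) (mem_univ i)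

lemma sum_inv_sqrt_le (S : ℕ) :
    ∑ j ∈ range S, (Real.sqrt ((j : ℝ) + 1))⁻¹ ≤ 2 * Real.sqrt S := by
  induction S with
  | zero => simp
  | succ k ih =>
    rw [sum_range_succ]
    push_cast
    have h : 0 < Real.sqrt ((k : ℝ) + 1) := Real.sqrt_pos.2 (by positivity)
    have hk : Real.sqrt k ≤ Real.sqrt ((k : ℝ) + 1) := Real.sqrt_le_sqrt (by linarith)
    have e1 := Real.mul_self_sqrt (Nat.cast_nonneg k : (0 : ℝ) ≤ k)
    have e2 := Real.mul_self_sqrt (by positivity : (0 : ℝ) ≤ (k : ℝ) + 1)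
    have : (Real.sqrt ((k : ℝ) + 1))⁻¹ ≤ 2 * (Real.sqrt ((k : ℝ) + 1) - Real.sqrt k) := by
      rw [inv_le_iff_one_le_mul₀ h]
      nlinarith
    linarith

lemma sum_gw_le {H S : ℕ} (hH : 1 ≤ H) (hS : 1 ≤ S) :
    ∑ j ∈ range S, gw H j ≤ 3 * Real.sqrt (H * S) := by
  obtain ⟨S, rfl⟩ : ∃ k, S = k + 1 := ⟨S - 1, by omega⟩
  have hH' : (1 : ℝ) ≤ H := by exact_mod_cast hH
  rw [sum_range_succ', Real.sqrt_mul (by linarith)]
  have h0 : gw H ((0 : ℕ) : ℝ) ≤ Real.sqrt H := by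
    rw [gw_of_le (by linarith) (by simp)]
    exact Real.one_le_sqrt.2 hH'
  have h1 : ∀ j ∈ range S,
      gw H ((j + 1 : ℕ) : ℝ) ≤ Real.sqrt H * (Real.sqrt ((j : ℝ) + 1))⁻¹ := by
    intro j _
    rw [← Real.sqrt_inv, ← Real.sqrt_mul (by linarith), gw, ← div_eq_mul_inv]
    refine Real.sqrt_le_sqrt ?_
    push_cast
    gcongr
    exact le_max_left _ _
  have h2 : Real.sqrt S ≤ Real.sqrt ((S + 1 : ℕ) : ℝ) := Real.sqrt_le_sqrt (by simp)
  have h3 : 1 ≤ Real.sqrt ((S + 1 : ℕ) : ℝ) := Real.one_le_sqrt.2 (by simp)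
  have h4 : 0 ≤ Real.sqrt H := Real.sqrt_nonneg _
  calc ∑ j ∈ range S, gw H ((j + 1 : ℕ) : ℝ) + gw H ((0 : ℕ) : ℝ)
      ≤ ∑ j ∈ range S, Real.sqrt H * (Real.sqrt ((j : ℝ) + 1))⁻¹ + Real.sqrt H :=
        add_le_add (sum_le_sum h1) h0
    _ ≤ Real.sqrt H * (2 * Real.sqrt S) + Real.sqrt H * 1 := by
        rw [← mul_sum, mul_one]; gcongr; exact sum_inv_sqrt_le S
    _ ≤ Real.sqrt H * (2 * Real.sqrt ((S + 1 : ℕ) : ℝ)) +
        Real.sqrt H * Real.sqrt ((S + 1 : ℕ) : ℝ) := by gcongr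
    _ = _ := by ring

lemma sum_periodic {S : ℕ} {f : ℕ → ℝ} (hf : ∀ r, f (r + S) = f r) :
    ∀ M : ℕ, ∑ r ∈ range (M * S), f r = M * ∑ r ∈ range S, f r
  | 0 => by simp
  | M + 1 => by
    have h : ∀ (M r : ℕ), f (r + M * S) = f r := by
      intro M
      induction M with
      | zero => simp
      | succ k ih => intro r; rw [add_mul, one_mul, ← add_assoc, hf, ih]
    rw [add_mul, one_mul, sum_range_add, sum_periodic hf M]
    simp only [add_comm (M * S), h, Nat.cast_add, Nat.cast_one]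
    ring

/-- One coordinate, all residues of the shift. -/
lemma sum_gw_fract_le (u : ℝ) {H S : ℕ} (hH : 1 ≤ H) (hS : 1 ≤ S) :
    ∑ r ∈ range S,
      gw H (S * min (Int.fract ((u + r) / S)) (1 - Int.fract ((u + r) / S))) ≤
      6 * Real.sqrt (H * S) := by
  have hS' : (0 : ℝ) < S := by exact_mod_cast hS
  have hSz : (0 : ℤ) < S := by exact_mod_cast hS
  have hH' : (0 : ℝ) < H := by exact_mod_cast hH
  set j : ℕ → ℕ := fun r => ((⌊u⌋ + r) % (S : ℤ)).toNat with hj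
  have hjZ : ∀ r, ((j r : ℕ) : ℤ) = (⌊u⌋ + r) % (S : ℤ) := fun r =>
    Int.toNat_of_nonneg (Int.emod_nonneg _ hSz.ne')
  have hjlt : ∀ r, j r < S := fun r => by
    have := Int.emod_lt_of_pos (⌊u⌋ + r) hSz
    rw [← hjZ] at this
    exact_mod_cast this
  have hinj : Set.InjOn j (range S : Finset ℕ) := by
    intro a ha b hb hab
    rw [coe_range, Set.mem_Iio] at ha hb
    have h : (⌊u⌋ + a) % (S : ℤ) = (⌊u⌋ + b) % (S : ℤ) := by rw [← hjZ, ← hjZ, hab]
    rw [Int.emod_eq_emod_iff_emod_sub_eq_zero] at h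
    obtain ⟨q, hq⟩ := Int.dvd_of_emod_eq_zero h
    have : (a : ℤ) - b = (S : ℤ) * q := by linarith
    rcases lt_trichotomy q 0 with hq0 | hq0 | hq0
    · nlinarith
    · subst hq0; omega
    · nlinarith
  have himg : (range S).image j = range S :=
    eq_of_subset_of_card_le (fun x hx => by
      obtain ⟨r, _, rfl⟩ := mem_image.1 hx
      exact mem_range.2 (hjlt r)) (by rw [card_image_of_injOn hinj])
  have key : ∀ r ∈ range S,
      gw H (S * min (Int.fract ((u + r) / S)) (1 - Int.fract ((u + r) / S))) ≤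
        gw H (j r) + gw H ((S - 1 - j r : ℕ) : ℝ) := by
    intro r _
    have hv : (u + r) / S = (((j r : ℕ) : ℝ) + Int.fract u) / S + (((⌊u⌋ + r) / (S : ℤ) : ℤ) : ℝ) := by
      have h1 := Int.mul_ediv_add_emod (⌊u⌋ + r) (S : ℤ)
      rw [← hjZ] at h1
      have h2 : (S : ℝ) * (((⌊u⌋ + r) / (S : ℤ) : ℤ) : ℝ) + ((j r : ℕ) : ℝ) = (⌊u⌋ : ℝ) + r := by
        exact_mod_cast h1
      rw [Int.fract]
      field_simp
      linarith
    have hlt : ((j r : ℕ) : ℝ) + 1 ≤ S := by exact_mod_cast hjlt r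
    have hf : Int.fract ((u + r) / S) = (((j r : ℕ) : ℝ) + Int.fract u) / S := by
      rw [hv, Int.fract_add_intCast, Int.fract_eq_self]
      refine ⟨div_nonneg (add_nonneg (Nat.cast_nonneg _) (Int.fract_nonneg u)) hS'.le, ?_⟩
      rw [div_lt_one hS']
      linarith [Int.fract_lt_one u]
    rw [hf, mul_min_of_nonneg _ _ hS'.le, mul_sub, mul_one, mul_div_cancel₀ _ hS'.ne']
    have hcast : ((S - 1 - j r : ℕ) : ℝ) = (S : ℝ) - 1 - (j r : ℕ) := by
      rw [Nat.cast_sub (by have := hjlt r; omega), Nat.cast_sub hS, Nat.cast_one]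
    rcases le_total (((j r : ℕ) : ℝ) + Int.fract u) (S - (((j r : ℕ) : ℝ) + Int.fract u)) with h | h
    · rw [min_eq_left h]
      exact le_add_of_le_of_nonneg (gw_anti hH' (by linarith [Int.fract_nonneg u])) (gw_nonneg _ _)
    · rw [min_eq_right h]
      refine le_add_of_nonneg_of_le (gw_nonneg _ _) (gw_anti hH' ?_)
      rw [hcast]
      linarith [Int.fract_lt_one u]
  refine (sum_le_sum key).trans ?_
  rw [sum_add_distrib, ← sum_image (f := fun x : ℕ => gw (H : ℝ) x) hinj,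
    ← sum_image (f := fun x : ℕ => gw (H : ℝ) ((S - 1 - x : ℕ) : ℝ)) hinj, himg,
    sum_range_reflect (fun x : ℕ => gw (H : ℝ) x) S]
  linarith [sum_gw_le hH hS]

/-- The shifts. -/
def shifts (d N : ℕ) : Finset (Fin d → ℕ) := Fintype.piFinset fun _ => range (2 ^ N)

lemma card_shifts (d N : ℕ) : (shifts d N).card = (2 ^ N) ^ d := by simp [shifts]

lemma shifts_nonempty (d N : ℕ) : (shifts d N).Nonempty :=
  card_pos.1 (by rw [card_shifts]; positivity)

lemma sum_shifts_coord (N : ℕ) (i : Fin d) (f : ℕ → ℝ) :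
    ∑ t ∈ shifts d N, f (t i) = ((2 : ℝ) ^ N) ^ (d - 1) * ∑ r ∈ range (2 ^ N), f r := by
  have h := (prod_univ_sum (fun _ : Fin d => range (2 ^ N))
    (fun k r => if k = i then f r else 1)).symm
  simp only [prod_ite_eq', Finset.mem_univ, if_true] at h
  rw [shifts, h, ← mul_prod_erase univ _ (mem_univ i)]
  simp only [if_true]
  rw [prod_congr rfl (g := fun _ => (2 : ℝ) ^ N) fun k hk => by simp [(mem_erase.1 hk).1]]
  rw [prod_const, card_erase_of_mem (mem_univ i), card_univ, Fintype.card_fin]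
  ring

/-- On average over the shifts the boundary weight at scale `2 ^ l` in cells of level `n` is at most
`6 d 2 ^ ((l - n) / 2)`. -/
theorem sum_om_le {l n N : ℕ} (hnN : n ≤ N) (y : Euc d) :
    ∑ t ∈ shifts d N, om t n (2 ^ l) y ≤
      6 * d * Real.sqrt (2 ^ l / 2 ^ n) * ((shifts d N).card : ℝ) := by
  simp only [om]
  rw [sum_comm]
  refine (sum_le_sum (g := fun _ => 6 * Real.sqrt (2 ^ l / 2 ^ n) * ((shifts d N).card : ℝ))
    fun i _ => ?_).trans (le_of_eq (by simp; ring))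
  have e : ∀ t : Fin d → ℕ, gw ((2 : ℝ) ^ l) (bdry t n y i) =
      (fun r : ℕ => gw ((2 ^ l : ℕ) : ℝ) (((2 ^ n : ℕ) : ℝ) *
        min (Int.fract ((y i + r) / ((2 ^ n : ℕ) : ℝ)))
          (1 - Int.fract ((y i + r) / ((2 ^ n : ℕ) : ℝ))))) (t i) := fun t => by
    simp [bdry]
  rw [sum_congr rfl fun t _ => e t]
  rw [sum_shifts_coord N i (fun r : ℕ => gw ((2 ^ l : ℕ) : ℝ) (((2 ^ n : ℕ) : ℝ) *
    min (Int.fract ((y i + r) / ((2 ^ n : ℕ) : ℝ)))
      (1 - Int.fract ((y i + r) / ((2 ^ n : ℕ) : ℝ)))))]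
  set F : ℕ → ℝ := fun r => gw ((2 ^ l : ℕ) : ℝ) (((2 ^ n : ℕ) : ℝ) *
    min (Int.fract ((y i + r) / ((2 ^ n : ℕ) : ℝ)))
      (1 - Int.fract ((y i + r) / ((2 ^ n : ℕ) : ℝ)))) with hF
  have hper : ∀ r, F (r + 2 ^ n) = F r := by
    intro r
    have : (y i + ((r + 2 ^ n : ℕ) : ℝ)) / ((2 ^ n : ℕ) : ℝ) =
        (y i + r) / ((2 ^ n : ℕ) : ℝ) + 1 := by
      push_cast; field_simp; ring
    simp only [hF, this, Int.fract_add_one]
  have hNn : 2 ^ N = 2 ^ (N - n) * 2 ^ n := by rw [← pow_add]; congr 1; omega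
  have h1 := sum_gw_fract_le (y i) (Nat.one_le_two_pow (n := l)) (Nat.one_le_two_pow (n := n))
  have h2 : ∑ r ∈ range (2 ^ N), F r ≤ (2 : ℝ) ^ N * (6 * Real.sqrt (2 ^ l / 2 ^ n)) := by
    rw [hNn, sum_periodic hper]
    push_cast
    refine (mul_le_mul_of_nonneg_left h1 (by positivity)).trans (le_of_eq ?_)
    have e2 : (2 : ℝ) ^ N = 2 ^ (N - n) * 2 ^ n := by rw [← pow_add]; congr 1; omega
    have e3 : Real.sqrt ((2 : ℝ) ^ l * 2 ^ n) = 2 ^ n * Real.sqrt (2 ^ l / 2 ^ n) := by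
      rw [show (2 : ℝ) ^ l * 2 ^ n = (2 ^ n) ^ 2 * (2 ^ l / 2 ^ n) by field_simp,
        Real.sqrt_mul (by positivity), Real.sqrt_sq (by positivity)]
    push_cast
    rw [e2, e3]
    ring
  refine (mul_le_mul_of_nonneg_left h2 (by positivity)).trans (le_of_eq ?_)
  rw [card_shifts]
  push_cast
  obtain ⟨m, rfl⟩ := Nat.exists_eq_succ_of_ne_zero (Fin.pos i).ne'
  simp only [Nat.succ_eq_add_one, Nat.add_sub_cancel]
  ring

lemma sqrt_two_pow_le {l n : ℕ} (h : l ≤ n) :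
    Real.sqrt ((2 : ℝ) ^ l / 2 ^ n) ≤ (71 / 100) ^ (n - l) := by
  obtain ⟨k, rfl⟩ := Nat.exists_eq_add_of_le h
  rw [Real.sqrt_le_iff]
  refine ⟨by positivity, ?_⟩
  rw [Nat.add_sub_cancel_left, pow_add, ← pow_mul, mul_comm k 2, pow_mul,
    show (2 : ℝ) ^ l / (2 ^ l * 2 ^ k) = (1 / 2) ^ k by rw [div_pow, one_pow]; field_simp]
  exact pow_le_pow_left₀ (by norm_num) (by norm_num) k

end Vale.Agent.P137.Centred
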