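import Vale.Agent.P137.Centred.Selection

/-!
# P137, centred operator: selection with ray groups, for weights at points

`grp y i` is what the path with bottom `y` leaves aside at level `i`, as a function of the position
`u = (x - y) / 2 ^ k` on the ray. The shell sum at `x` is at most the sum of the groups of scale
between the distance of the sphere from `y` and the radius, and all groups add up to the total
weight.
-/

open MeasureTheory Filter Set Metric Finset
open scoped ENNReal Topology RealInnerProductSpace Pointwise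

noncomputable section

namespace Vale.Agent.P137.Centred

variable {d : ℕ} {ι : Type*} [Fintype ι] (pos : ι → Euc d) (lev : ι → ℕ) (J : ι → ℝ) (A κ : ℝ)
  (t : Fin d → ℕ) (Jm : ℕ) (U : ℝ) (m₀ : ℕ)

/-- What the path with bottom `y` leaves aside at each level. -/
def grp (y : Euc d) : ℕ → Euc d → ℝ
  | 0, _ => if cellCtr t 0 (cell t 0 y) = y then ∑ a ∈ nodes pos lev t 0 (cell t 0 y), J a else 0
  | i + 1, u =>
    if star pos lev J A κ t Jm (i + 1) (cell t (i + 1) y) = y then
      top pos lev J t i (cell t (i + 1) y) +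
        ∑ c ∈ (below pos t (i + 1) (cell t (i + 1) y) i).erase
            (best pos lev J A κ t Jm i (cell t (i + 1) y)),
          supRay pos lev J A t Jm i c y (U * (2 ^ i / 2 ^ m₀)) (y + ((2 : ℝ) ^ i / 2 ^ m₀) • u)
    else 0

variable {pos lev J A κ t Jm U m₀}

lemma continuous_grp (y : Euc d) : ∀ i, Continuous (grp pos lev J A κ t Jm U m₀ y i)
  | 0 => continuous_const
  | i + 1 => by
    show Continuous fun u : Euc d => ite _ _ _
    split_ifs
    · exact continuous_const.add (continuous_finsetSum _ fun c _ =>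
        (continuous_supRay i c y _).comp (by fun_prop))
    · exact continuous_const

variable (hJ : ∀ a, 0 ≤ J a)

include hJ in
lemma top_nonneg (n : ℕ) (P : Fin d → ℤ) : 0 ≤ top pos lev J t n P := sum_nonneg fun a _ => hJ a

include hJ in
lemma grp_nonneg (hU : 0 ≤ U) (y : Euc d) :
    ∀ i u, 0 ≤ grp pos lev J A κ t Jm U m₀ y i u
  | 0, u => by
    rw [grp]; split_ifs <;> [exact sum_nonneg fun a _ => hJ a; exact le_rfl]
  | i + 1, u => by
    rw [grp]
    split_ifs
    · exact add_nonneg (top_nonneg hJ _ _)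
        (sum_nonneg fun c _ => supRay_nonneg hJ i c y (by positivity) _)
    · exact le_rfl

include hJ in
/-- The shell sum of a cell is at most the groups of its path. -/
theorem W_le_grp (hA : 0 < A) (hU : A ≤ U) {k : ℕ} (hJm : k + m₀ ≤ Jm) (x : Euc d) {r : ℝ}
    (hr : r ∈ Icc 0 (A * 2 ^ k)) :
    ∀ n : ℕ, n ≤ k + m₀ → ∀ P ∈ cells pos t n,
      W pos lev J A t n P x r ≤
        ∑ i ∈ (range (n + 1)).filter (fun i =>
            |‖x - star pos lev J A κ t Jm n P‖ - r| ≤ (4 * d + 2 * A) * 2 ^ i),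
          grp pos lev J A κ t Jm U m₀ (star pos lev J A κ t Jm n P) i
            (((2 : ℝ) ^ k)⁻¹ • (x - star pos lev J A κ t Jm n P))
  | 0, _, P, hP => by
    classical
    have hc := cell_star (pos := pos) (lev := lev) (J := J) (A := A) (κ := κ) (Jm := Jm) 0 hP
    have hU0 : 0 ≤ U := hA.le.trans hU
    set y := star pos lev J A κ t Jm 0 P with hy
    rcases eq_or_ne (W pos lev J A t 0 P x r) 0 with h0 | h0
    · rw [h0]; exact sum_nonneg fun i _ => grp_nonneg hJ hU0 _ _ _
    obtain ⟨a, ha, hne⟩ := exists_ne_zero_of_sum_ne_zero h0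
    obtain ⟨hl, hcell⟩ := (Finset.mem_filter.1 ha).2
    have hmem : (0 : ℕ) ∈ (range (0 + 1)).filter
        (fun i => |‖x - y‖ - r| ≤ (4 * d + 2 * A) * 2 ^ i) := by
      refine Finset.mem_filter.2 ⟨by simp, ?_⟩
      have h1 := lt_two_of_tent_ne_zero (mul_ne_zero_iff.1 hne).2
      rw [div_lt_iff₀ (by positivity), show lev a = 0 by omega, pow_zero, mul_one] at h1
      have h2 := norm_sub_le_of_cell_eq (hcell.trans hc.symm)
      rw [pow_zero, mul_one] at h2 ⊢
      have h3 := abs_le.1 (abs_norm_sub_norm_le (pos a - x) (y - x))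
      rw [sub_sub_sub_cancel_right, norm_sub_rev y x] at h3
      have h4 := abs_lt.1 h1
      have : (0 : ℝ) ≤ d := Nat.cast_nonneg d
      exact abs_le.2 ⟨by linarith, by linarith⟩
    refine le_trans ?_ (single_le_sum (fun i _ => grp_nonneg hJ hU0 _ _ _) hmem)
    rw [grp, hc, if_pos (by rw [hy]; rfl)]
    exact W_le_sum hJ 0 P x r
  | n + 1, hn, P, hP => by
    classical
    have hU0 : 0 ≤ U := hA.le.trans hU
    have hb := (best_mem (J := J) (A := A) (κ := κ) (Jm := Jm) (lev := lev)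
      (children_nonempty hP)).1
    set b := best pos lev J A κ t Jm n P with hbdef
    have hcy := cell_star (pos := pos) (lev := lev) (J := J) (A := A) (κ := κ) (Jm := Jm) (n + 1) hP
    have ih := W_le_grp hA hU hJm x hr n (by omega) b (below_subset_cells P hb)
    have hstar : star pos lev J A κ t Jm (n + 1) P = star pos lev J A κ t Jm n b := rfl
    rw [hstar] at hcy ⊢
    set y := star pos lev J A κ t Jm n b with hy
    set u := ((2 : ℝ) ^ k)⁻¹ • (x - y) with hu
    set f : ι → ℝ := fun a => J a * band pos lev A a x r with hf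
    have hsplit : W pos lev J A t (n + 1) P x r =
        ∑ a ∈ univ.filter (fun a => lev a = n + 1 ∧ cell t (n + 1) (pos a) = P), f a +
          (W pos lev J A t n b x r +
            ∑ c ∈ (below pos t (n + 1) P n).erase b, W pos lev J A t n c x r) := by
      rw [add_sum_erase _ (fun c => W pos lev J A t n c x r) hb, W,
        ← sum_filter_add_sum_filter_not (nodes pos lev t (n + 1) P) (fun a => lev a = n + 1)]
      have e : (nodes pos lev t (n + 1) P).filter (fun a => lev a = n + 1) =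
          univ.filter (fun a => lev a = n + 1 ∧ cell t (n + 1) (pos a) = P) := by
        ext a
        simp only [nodes, Finset.mem_filter, Finset.mem_univ, true_and]
        exact ⟨fun ⟨⟨_, h2⟩, h3⟩ => ⟨h3, h2⟩, fun ⟨h1, h2⟩ => ⟨⟨h1.le, h2⟩, h1⟩⟩
      rw [e]
      refine congrArg (_ + ·) ?_
      rw [← sum_fiberwise_of_maps_to (g := fun a => cell t n (pos a))
        (t := below pos t (n + 1) P n) fun a ha => mem_below.2
          ⟨a, (Finset.mem_filter.1 (Finset.mem_filter.1 ha).1).2.2, rfl⟩]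
      refine sum_congr rfl fun c hc => ?_
      rw [W]
      refine sum_congr ?_ fun _ _ => rfl
      ext a
      obtain ⟨a', ha1, ha2⟩ := mem_below.1 hc
      simp only [nodes, Finset.mem_filter, Finset.mem_univ, true_and]
      constructor
      · rintro ⟨⟨⟨h1, h2⟩, h3⟩, h4⟩; exact ⟨by omega, h4⟩
      · rintro ⟨h1, h2⟩
        exact ⟨⟨⟨by omega, by rw [cell_congr (Nat.le_succ n) (h2.trans ha2.symm), ha1]⟩, by omega⟩,
          h2⟩
    rw [hsplit, range_add_one (n := n + 1), Finset.filter_insert]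
    by_cases hnear : |‖x - y‖ - r| ≤ (4 * d + 2 * A) * 2 ^ (n + 1)
    · rw [if_pos hnear, sum_insert (by simp), grp, hcy, if_pos hstar]
      have hsib : ∑ c ∈ (below pos t (n + 1) P n).erase b, W pos lev J A t n c x r ≤
          ∑ c ∈ (below pos t (n + 1) P n).erase b, supRay pos lev J A t Jm n c y
            (U * (2 ^ n / 2 ^ m₀)) (y + ((2 : ℝ) ^ n / 2 ^ m₀) • u) := by
        refine sum_le_sum fun c _ => ?_
        obtain ⟨j, hj⟩ := Nat.exists_eq_add_of_le (by omega : n ≤ k + m₀)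
        have e1 : (2 : ℝ) ^ j * (2 ^ n / 2 ^ m₀) = 2 ^ k := by
          rw [← mul_div_assoc, ← pow_add, add_comm j, ← hj, pow_add]
          field_simp
        have e2 : x = y + (2 : ℝ) ^ j • (y + ((2 : ℝ) ^ n / 2 ^ m₀) • u - y) := by
          rw [add_sub_cancel_left, smul_smul, e1, hu, smul_smul,
            mul_inv_cancel₀ (by positivity), one_smul, add_sub_cancel]
        conv_lhs => rw [e2]
        refine (W_le_supW hJ n c _ ?_).trans
          (supW_le_supRay n c y _ _ (by omega : j ≤ Jm))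
        refine ⟨hr.1, hr.2.trans ?_⟩
        rw [mul_left_comm, e1]
        gcongr
      have htop : ∑ a ∈ univ.filter (fun a => lev a = n + 1 ∧ cell t (n + 1) (pos a) = P), f a ≤
          top pos lev J t n P := sum_le_sum fun a _ => mul_le_of_le_one_right (hJ a) (tent_le_one _)
      linarith
    · rw [if_neg hnear]
      have hzero : ∀ a, lev a ≤ n + 1 → cell t (n + 1) (pos a) = P → f a = 0 := by
        intro a hl hP'
        by_contra hne
        apply hnear
        have h1 := lt_two_of_tent_ne_zero (mul_ne_zero_iff.1 hne).2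
        rw [div_lt_iff₀ (by positivity)] at h1
        have h2 := norm_sub_le_of_cell_eq (hP'.trans hcy.symm)
        have h3 := abs_le.1 (abs_norm_sub_norm_le (pos a - x) (y - x))
        rw [sub_sub_sub_cancel_right, norm_sub_rev y x] at h3
        have h4 := abs_lt.1 h1
        have h5 : A * 2 ^ lev a ≤ A * 2 ^ (n + 1) := by gcongr; norm_num
        have : (0 : ℝ) ≤ d * 2 ^ (n + 1) := by positivity
        exact abs_le.2 ⟨by linarith, by linarith⟩
      have h1 : ∑ a ∈ univ.filter (fun a => lev a = n + 1 ∧ cell t (n + 1) (pos a) = P), f a = 0 :=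
        sum_eq_zero fun a ha => by
          obtain ⟨h1, h2⟩ := (Finset.mem_filter.1 ha).2
          exact hzero a h1.le h2
      have h2 : ∑ c ∈ (below pos t (n + 1) P n).erase b, W pos lev J A t n c x r = 0 := by
        refine sum_eq_zero fun c hc => sum_eq_zero fun a ha => ?_
        obtain ⟨hl, hca⟩ := (Finset.mem_filter.1 ha).2
        obtain ⟨a', ha1, ha2⟩ := mem_below.1 (Finset.mem_of_mem_erase hc)
        exact hzero a (by omega) (by rw [cell_congr (Nat.le_succ n) (hca.trans ha2.symm), ha1])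
      linarith

omit [Fintype ι] in
lemma integral_ball_affine (f : Euc d → ℝ) (y : Euc d) {σ U : ℝ} (hσ : 0 < σ) (hU : 0 < U) :
    ∫ u in closedBall (0 : Euc d) U, f (y + σ • u) =
      volume.real (closedBall (0 : Euc d) U) * ⨍ z in closedBall y (σ * U), f z := by
  have e : σ • closedBall (0 : Euc d) U = closedBall 0 (σ * U) := by
    rw [smul_closedBall' hσ.ne', smul_zero, Real.norm_of_nonneg hσ.le]
  rw [Measure.setIntegral_comp_smul_of_pos volume (fun z => f (y + z)) _ hσ, e, setAverage_eq]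
  have htr : ∫ z in closedBall (0 : Euc d) (σ * U), f (y + z) =
      ∫ z in closedBall y (σ * U), f z := by
    have h := (measurePreserving_add_left volume y).setIntegral_preimage_emb
      (measurableEmbedding_addLeft y) f (closedBall y (σ * U))
    rw [preimage_add_closedBall] at h
    simpa using h
  rw [htr, smul_eq_mul, smul_eq_mul, finrank_euclideanSpace_fin]
  rw [measureReal_def, measureReal_def, Measure.addHaar_closedBall' volume y (by positivity),
    Measure.addHaar_closedBall' volume (0 : Euc d) hU.le, ENNReal.toReal_mul, ENNReal.toReal_mul,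
    ENNReal.toReal_ofReal (by positivity), ENNReal.toReal_ofReal (by positivity), mul_pow,
    finrank_euclideanSpace_fin]
  have : 0 < (volume (closedBall (0 : Euc d) 1)).toReal := ENNReal.toReal_pos
    (measure_closedBall_pos volume 0 one_pos).ne' measure_closedBall_lt_top.ne
  field_simp

include hJ in
lemma sum_top_le (N : ℕ) :
    ∑ n ∈ range N, ∑ P ∈ cells pos t (n + 1), top pos lev J t n P ≤ ∑ a, J a := by
  classical
  have : ∀ n, ∑ P ∈ cells pos t (n + 1), top pos lev J t n P =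
      ∑ a ∈ univ.filter (fun a => lev a = n + 1), J a := fun n => by
    rw [← sum_fiberwise_of_maps_to (s := univ.filter fun a => lev a = n + 1)
      (g := fun a => cell t (n + 1) (pos a)) (t := cells pos t (n + 1))
      fun a _ => mem_cells.2 ⟨a, rfl⟩]
    simp only [top, filter_filter]
  simp only [this, sum_filter]
  rw [sum_comm]
  refine sum_le_sum fun a _ => ?_
  rw [← sum_filter, sum_const, nsmul_eq_mul]
  refine mul_le_of_le_one_left (hJ a) ?_
  exact_mod_cast Finset.card_le_one.2 fun i hi j hj => by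
    have := (Finset.mem_filter.1 hi).2
    have := (Finset.mem_filter.1 hj).2
    omega

omit [Fintype ι] in
lemma sum_bottoms_le {α : Type*} [DecidableEq α] (Y : Finset (Euc d)) (g : Euc d → α)
    (h : α → Euc d) (S : Finset α) {F : α → ℝ} (hF : ∀ c, 0 ≤ F c) (hS : ∀ c, c ∉ S → F c = 0) :
    ∑ y ∈ Y, (if h (g y) = y then F (g y) else 0) ≤ ∑ c ∈ S, F c := by
  classical
  rw [← sum_filter, ← sum_image (f := F) fun a ha b hb e => by
    rw [mem_coe, Finset.mem_filter] at ha hb
    rw [← ha.2, ← hb.2, e]]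
  calc _ = ∑ c ∈ ((Y.filter fun y => h (g y) = y).image g).filter (· ∈ S), F c := by
        rw [sum_filter_of_ne]; exact fun c _ hne => by_contra fun hc => hne (hS c hc)
    _ ≤ _ := sum_le_sum_of_subset_of_nonneg (fun c hc => (Finset.mem_filter.1 hc).2) fun c _ _ => hF c

include hJ in
/-- All groups of one grid. -/
theorem sum_grp_le (hκ : 0 < κ) (hU : κ * 2 ^ m₀ ≤ U) (N : ℕ)
    (Y : Finset (Euc d)) :
    ∑ y ∈ Y, ∑ i ∈ range (N + 1), ∫ u in closedBall (0 : Euc d) U,
        grp pos lev J A κ t Jm U m₀ y i u ≤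
      volume.real (closedBall (0 : Euc d) U) * (2 * ∑ a, J a +
        ∑ n ∈ range N, ∑ P ∈ cells pos t (n + 1), rest pos lev J A κ t Jm n P) := by
  classical
  set V := volume.real (closedBall (0 : Euc d) U) with hV
  have hV0 : 0 ≤ V := measureReal_nonneg
  have : IsFiniteMeasure (volume.restrict (closedBall (0 : Euc d) U)) :=
    ⟨by rw [Measure.restrict_apply_univ]; exact measure_closedBall_lt_top⟩
  have hU0 : 0 < U := lt_of_lt_of_le (by positivity) hU
  set Ns : (Fin d → ℤ) → ℝ := fun c => ∑ a ∈ nodes pos lev t 0 c, J a with hNs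
  have hbase : ∑ y ∈ Y, ∫ u in closedBall (0 : Euc d) U, grp pos lev J A κ t Jm U m₀ y 0 u ≤
      V * ∑ a, J a := by
    simp only [grp, setIntegral_const, smul_eq_mul, ← hV, ← mul_sum]
    refine mul_le_mul_of_nonneg_left ?_ hV0
    refine (sum_bottoms_le Y (cell t 0) (cellCtr t 0) (cells pos t 0) (F := Ns)
      (fun c => sum_nonneg fun a _ => hJ a) fun c hc => sum_eq_zero fun a ha =>
        absurd (mem_cells.2 ⟨a, (Finset.mem_filter.1 ha).2.2⟩) hc).trans ?_
    rw [← sum_fiberwise_of_maps_to (s := univ) (g := fun a => cell t 0 (pos a))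
      (t := cells pos t 0) fun a _ => mem_cells.2 ⟨a, rfl⟩]
    refine sum_le_sum fun c _ => sum_le_sum_of_subset_of_nonneg (fun a ha => ?_) fun a _ _ => hJ a
    simp only [nodes, Finset.mem_filter, Finset.mem_univ, true_and] at ha ⊢
    exact ha.2
  have hstep : ∀ i, ∑ y ∈ Y, ∫ u in closedBall (0 : Euc d) U,
      grp pos lev J A κ t Jm U m₀ y (i + 1) u ≤
      V * ∑ P ∈ cells pos t (i + 1), (top pos lev J t i P + rest pos lev J A κ t Jm i P) := by
    intro i
    set Fi : (Fin d → ℤ) → ℝ := fun P =>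
      top pos lev J t i P + rest pos lev J A κ t Jm i P with hFi
    have h1 : ∀ y, ∫ u in closedBall (0 : Euc d) U, grp pos lev J A κ t Jm U m₀ y (i + 1) u ≤
        V * (if star pos lev J A κ t Jm (i + 1) (cell t (i + 1) y) = y
          then Fi (cell t (i + 1) y) else 0) := by
      intro y
      simp only [grp]
      split_ifs with hy
      swap
      · simp
      set σ := (2 : ℝ) ^ i / 2 ^ m₀ with hσ
      have hσ0 : 0 < σ := by positivity
      have hint : ∀ c, Integrable (fun u => supRay pos lev J A t Jm i c y (U * σ) (y + σ • u))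
          (volume.restrict (closedBall (0 : Euc d) U)) := fun c =>
        ((continuous_supRay i c y _).comp (by fun_prop)).continuousOn.integrableOn_compact
          (isCompact_closedBall _ _)
      rw [integral_add (integrable_const _) (integrable_finsetSum _ fun c _ => hint c),
        setIntegral_const, smul_eq_mul, ← hV, integral_finsetSum _ fun c _ => hint c, hFi, mul_add,
        rest, mul_sum (a := V)]
      refine add_le_add le_rfl (sum_le_sum fun c _ => ?_)
      rw [integral_ball_affine _ y hσ0 hU0, ← hV, mul_comm σ U, ← integral_ballProb]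
      refine mul_le_mul_of_nonneg_left (avg_supRay_le hJ hκ i c y ?_) hV0
      calc κ * 2 ^ i = κ * 2 ^ m₀ * σ := by rw [hσ]; field_simp
        _ ≤ U * σ := mul_le_mul_of_nonneg_right hU hσ0.le
    refine (sum_le_sum fun y _ => h1 y).trans ?_
    rw [← mul_sum]
    refine mul_le_mul_of_nonneg_left (sum_bottoms_le Y (cell t (i + 1))
      (star pos lev J A κ t Jm (i + 1)) _ (F := Fi)
      (fun P => add_nonneg (top_nonneg hJ i P) (rest_nonneg i P)) fun P hP => ?_) hV0
    have hb : below pos t (i + 1) P i = ∅ := Finset.eq_empty_iff_forall_notMem.2 fun c hc => by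
      obtain ⟨a, ha, -⟩ := mem_below.1 hc
      exact hP (mem_cells.2 ⟨a, ha⟩)
    have htop : top pos lev J t i P = 0 := sum_eq_zero fun a ha =>
      absurd (mem_cells.2 ⟨a, (Finset.mem_filter.1 ha).2.2⟩) hP
    simp [hFi, htop, rest, hb]
  rw [sum_comm, sum_range_succ']
  refine (add_le_add (sum_le_sum fun i _ => hstep i) hbase).trans ?_
  rw [← mul_sum, ← mul_add]
  refine mul_le_mul_of_nonneg_left ?_ hV0
  simp only [sum_add_distrib]
  have := sum_top_le (pos := pos) (lev := lev) (t := t) hJ N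
  linarith

include hJ in
/-- What the children other than the best carry, over all grids. -/
theorem sum_shifts_rest_le (hd : 0 < d) (hA : 0 < A) (hκ : 0 < κ) (N : ℕ) :
    ∑ t ∈ shifts d N, ∑ n ∈ range N, ∑ P ∈ cells pos t (n + 1),
        rest pos lev J A κ t Jm n P ≤
      (14 + 7 * recConst d A κ * (90 * d)) * (shifts d N).card * ∑ a, J a := by
  refine (sum_le_sum fun t _ => sum_rest_le hJ hd hA hκ N).trans ?_
  rw [sum_add_distrib, sum_const, nsmul_eq_mul, ← mul_sum]
  have h := mul_le_mul_of_nonneg_left (sum_shifts_leak_le (pos := pos) (lev := lev) hJ N)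
    (show 0 ≤ 7 * recConst d A κ from mul_nonneg (by norm_num) (recConst_nonneg d A κ))
  linarith

omit [Fintype ι] in
/-- Most grids keep a lattice point far from the boundary of its cell. -/
lemma card_le_two_mul_good {k m₁ Mh N : ℕ} (hN : k + (m₁ + Mh) ≤ N)
    (hM : (71 / 100 : ℝ) ^ Mh < 1 / (12 * d + 1)) (x : Euc d) :
    ((shifts d N).card : ℝ) ≤ 2 * (((shifts d N).filter fun t =>
      ∀ i, (2 : ℝ) ^ (k + m₁) < bdry t (k + (m₁ + Mh)) x i).card : ℝ) := by
  classical
  set SH := shifts d N with hSH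
  have h1 : ((SH.filter fun t => ¬∀ i,
      (2 : ℝ) ^ (k + m₁) < bdry t (k + (m₁ + Mh)) x i).card : ℝ) ≤
      ∑ t ∈ SH, om t (k + (m₁ + Mh)) (2 ^ (k + m₁)) x := by
    rw [card_eq_sum_ones, sum_filter, Nat.cast_sum]
    refine sum_le_sum fun t _ => ?_
    by_cases h : ∀ i, (2 : ℝ) ^ (k + m₁) < bdry t (k + (m₁ + Mh)) x i
    · rw [if_neg (not_not.2 h), Nat.cast_zero]
      exact om_nonneg _ _ _ _
    · rw [if_pos h]
      obtain ⟨i, hi⟩ := not_forall.1 h
      rw [Nat.cast_one, ← gw_of_le (by positivity : (0 : ℝ) < 2 ^ (k + m₁)) (le_of_not_gt hi)]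
      exact gw_le_om _ _ _ _ i
  have h2 := (sum_om_le (l := k + m₁) hN x).trans
    (mul_le_mul_of_nonneg_right (mul_le_mul_of_nonneg_left
      (sqrt_two_pow_le (by omega)) (by positivity)) (by positivity))
  rw [show k + (m₁ + Mh) - (k + m₁) = Mh by omega] at h2
  have h3 : 6 * (d : ℝ) * (71 / 100) ^ Mh ≤ 1 / 2 := by
    rw [lt_div_iff₀ (by positivity)] at hM
    nlinarith [pow_pos (by norm_num : (0 : ℝ) < 71 / 100) Mh]
  have h4 := mul_le_mul_of_nonneg_right h3 (Nat.cast_nonneg SH.card)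
  have h5 := card_filter_add_card_filter_not (s := SH)
    (fun t => ∀ i, (2 : ℝ) ^ (k + m₁) < bdry t (k + (m₁ + Mh)) x i)
  have h6 : ((SH.filter fun t => ∀ i,
      (2 : ℝ) ^ (k + m₁) < bdry t (k + (m₁ + Mh)) x i).card : ℝ) +
      ((SH.filter fun t => ¬∀ i,
      (2 : ℝ) ^ (k + m₁) < bdry t (k + (m₁ + Mh)) x i).card : ℝ) = SH.card := by
    rw [← Nat.cast_add, h5]
  rw [← hSH] at h2
  linarith

omit [Fintype ι] in
/-- In a good grid the shells at a lattice point stay in its cell. -/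
lemma cell_eq_of_band {n : ℕ} {m : ℝ} {x₀ x : Euc d} {r : ℝ} {y : Euc d}
    (hgood : ∀ i, m < bdry t n x₀ i) {a b w : ℝ} (hx : ‖x - x₀‖ ≤ a) (hr : r ≤ b)
    (hband : |‖y - x‖ - r| ≤ w) (hm : a + b + w ≤ m) : cell t n y = cell t n x₀ := by
  by_contra hne
  obtain ⟨i, hi⟩ := exists_bdry_le t n hne
  have h1 := hgood i
  have h2 := norm_sub_le_norm_sub_add_norm_sub x₀ x y
  rw [norm_sub_rev x₀ x, norm_sub_rev x y] at h2
  have h6 := (abs_le.1 hband).2
  linarith

include hJ in
/-- The two bounds at one lattice point and one grid. -/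
lemma pointwise_le (hA : 1 ≤ A) {B : ℝ} (hB1 : 2 ^ m₀ ≤ B) (hB2 : 4 * (d : ℝ) + 2 * A ≤ B)
    {k m₁ Jm : ℕ} (hJm : k + m₀ ≤ Jm) (hm₁ : 3 * A < 2 ^ m₁) {x₀ : Euc d}
    (hgood : ∀ i, (2 : ℝ) ^ (k + m₁) < bdry t (k + m₀) x₀ i) {y : Euc d}
    (hy : cell t (k + m₀) x₀ ∈ cells pos t (k + m₀) →
      y = star pos lev J A κ t Jm (k + m₀) (cell t (k + m₀) x₀))
    {x : Euc d} (hx : x ∈ closedBall x₀ (A * 2 ^ k)) {r : ℝ} (hr : r ∈ Icc (0 : ℝ) (A * 2 ^ k)) :
    ∑ a ∈ univ.filter (fun a => lev a ≤ k ∧ |‖pos a - x‖ - r| ≤ A * 2 ^ lev a),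
        J a * Real.sqrt (min 1 ((‖pos a - y‖ + 2 ^ lev a) / 2 ^ k)) ≤
      dom pos lev J A κ t Jm k (k + m₀) (cell t (k + m₀) x₀) (A * 2 ^ k) x ∧
    ∑ a ∈ univ.filter (fun a => lev a ≤ k ∧ |‖pos a - x‖ - r| ≤ A * 2 ^ lev a), J a ≤
      ∑ i ∈ (range (Jm + 1)).filter (fun i => (2 : ℝ) ^ i ≤ B * 2 ^ k ∧
          |‖x - y‖ - r| ≤ B * 2 ^ i),
        grp pos lev J A κ t Jm (2 * B) m₀ y i (((2 : ℝ) ^ k)⁻¹ • (x - y)) := by
  classical
  have hA0 : 0 < A := by linarith
  have hB0 : 0 ≤ 2 * B := by linarith [Nat.cast_nonneg (α := ℝ) d]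
  set n := k + m₀
  set F := univ.filter (fun a => lev a ≤ k ∧ |‖pos a - x‖ - r| ≤ A * 2 ^ lev a)
  set Q := cell t n x₀
  have hSQ : ∀ a ∈ F, cell t n (pos a) = Q := by
    intro a ha
    obtain ⟨hl, hband⟩ := (Finset.mem_filter.1 ha).2
    refine cell_eq_of_band hgood (mem_closedBall_iff_norm.1 hx) hr.2 hband ?_
    have h4 : A * 2 ^ lev a ≤ A * 2 ^ k := by gcongr; norm_num
    have h5 : 3 * A * 2 ^ k ≤ 2 ^ (k + m₁) := by
      rw [pow_add, mul_comm ((2 : ℝ) ^ k)]; gcongr
    linarith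
  have hband : ∀ a ∈ F, band pos lev A a x r = 1 := fun a ha => by
    rw [band, tent_of_le]
    rw [div_le_one (by positivity)]
    exact (Finset.mem_filter.1 ha).2.2
  by_cases hQ : Q ∈ cells pos t n
  swap
  · rw [Finset.eq_empty_iff_forall_notMem.2 fun a ha => hQ (mem_cells.2 ⟨a, hSQ a ha⟩)]
    simp only [sum_empty]
    exact ⟨dom_nonneg hJ _ _ _ (by positivity) x, sum_nonneg fun i _ => grp_nonneg hJ hB0 _ _ _⟩
  rw [hy hQ]
  refine ⟨?_, ?_⟩
  · refine le_trans ?_ (weighted_le_dom hJ k hr x n _ hQ)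
    refine (le_of_eq (sum_congr rfl fun a ha => ?_)).trans
      (sum_le_sum_of_subset_of_nonneg (fun a ha => Finset.mem_filter.2
        ⟨Finset.mem_univ a, hSQ a ha, (Finset.mem_filter.1 ha).2.1⟩)
        fun a _ _ => mul_nonneg (mul_nonneg (hJ a) (band_nonneg a x r)) (Real.sqrt_nonneg _))
    rw [hband a ha, mul_one]
  · have hW : ∑ a ∈ F, J a ≤ W pos lev J A t n Q x r := by
      refine (le_of_eq (sum_congr rfl fun a ha => by rw [hband a ha, mul_one])).trans
        (sum_le_sum_of_subset_of_nonneg (fun a ha => Finset.mem_filter.2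
          ⟨Finset.mem_univ a, (Finset.mem_filter.1 ha).2.1.trans (Nat.le_add_right _ _),
            hSQ a ha⟩) fun a _ _ => mul_nonneg (hJ a) (band_nonneg a x r))
    refine hW.trans ((W_le_grp (U := 2 * B) (m₀ := m₀) hJ hA0 (by linarith [Nat.cast_nonneg (α := ℝ) d])
      hJm x hr n le_rfl _ hQ).trans
      (sum_le_sum_of_subset_of_nonneg ?_ fun i _ _ => grp_nonneg hJ hB0 _ _ _))
    intro i hi
    obtain ⟨hi1, hi2⟩ := Finset.mem_filter.1 hi
    rw [Finset.mem_range] at hi1
    refine Finset.mem_filter.2 ⟨Finset.mem_range.2 (by omega), ?_, hi2.trans ?_⟩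
    · refine (pow_le_pow_right₀ one_le_two (Nat.lt_succ_iff.1 hi1)).trans ?_
      rw [pow_add, mul_comm]
      exact mul_le_mul_of_nonneg_right hB1 (by positivity)
    · exact mul_le_mul_of_nonneg_right hB2 (by positivity)

include hJ in
/-- The averages of the dominating functions, over one grid. -/
theorem sum_avg_dom_le (hA : 0 < A) (hκ : 0 < κ) (hκA : κ * 2 ^ m₀ ≤ A) (N : ℕ)
    (s s' : Finset (ℕ × (Fin d → ℤ))) (hs : s' ⊆ s) (hN : ∀ p ∈ s, p.1 + m₀ ≤ N) :
    ∑ p ∈ s', ⨍ x in closedBall (latPt p.1 p.2) (A * 2 ^ p.1),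
        dom pos lev J A κ t Jm p.1 (p.1 + m₀) (cell t (p.1 + m₀) (latPt p.1 p.2)) (A * 2 ^ p.1) x ≤
      2 ^ (m₀ * d) * (4 * d + 1) * (4 * ∑ a, J a + (m₀ + 4) *
        ∑ n ∈ range N, ∑ P ∈ cells pos t (n + 1), rest pos lev J A κ t Jm n P) := by
  refine le_trans ?_ (sum_bound_le (pos := pos) (lev := lev) (A := A) (κ := κ) (t := t) (Jm := Jm)
    hJ m₀ N s hN)
  refine (sum_le_sum (g := fun p : ℕ × (Fin d → ℤ) => bound pos lev J A κ t Jm p.1 (p.1 + m₀)
    (cell t (p.1 + m₀) (latPt p.1 p.2))) fun p _ => ?_).trans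
    (sum_le_sum_of_subset_of_nonneg hs fun p _ _ => bound_nonneg hJ _ _ _)
  rw [← integral_ballProb]
  refine avg_dom_le hJ hκ _ _ (fun m hm => ?_) (by positivity)
  calc κ * 2 ^ m ≤ κ * 2 ^ (p.1 + m₀) := mul_le_mul_of_nonneg_left (pow_le_pow_right₀ one_le_two (by omega)) hκ.le
    _ = κ * 2 ^ m₀ * 2 ^ p.1 := by rw [pow_add]; ring
    _ ≤ _ := mul_le_mul_of_nonneg_right hκA (by positivity)

/-- Selection with ray groups, in natural units. -/
theorem selection_rays_nat {d : ℕ} (hd : 0 < d) {A : ℝ} (hA : 1 ≤ A) :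
    ∃ C B : ℝ, 0 ≤ C ∧ A ≤ B ∧ ∀ (ι : Type) [Fintype ι] (pos : ι → Euc d) (lev : ι → ℕ) (J : ι → ℝ),
      (∀ a, 0 ≤ J a) → ∀ s : Finset (ℕ × (Fin d → ℤ)),
      ∃ (SH : Finset (Fin d → ℕ)) (good : ℕ × (Fin d → ℤ) → Finset (Fin d → ℕ))
        (ystar : (Fin d → ℕ) → ℕ × (Fin d → ℤ) → Euc d)
        (G : (Fin d → ℕ) → ℕ × (Fin d → ℤ) → Euc d → ℝ)
        (M : Finset ℕ) (S : (Fin d → ℕ) → Euc d → ℕ → Euc d → ℝ),
        SH.Nonempty ∧ (∀ p ∈ s, good p ⊆ SH ∧ SH.card ≤ 2 * (good p).card) ∧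
        (∀ t p, Continuous (G t p) ∧ ∀ x, 0 ≤ G t p x) ∧
        (∀ t y m, Continuous (S t y m) ∧ ∀ u, 0 ≤ S t y m u) ∧
        (∀ p ∈ s, ∀ t ∈ good p, ‖ystar t p - latPt p.1 p.2‖ ≤ B * 2 ^ p.1) ∧
        (∀ p ∈ s, ∀ t ∈ good p, ∀ x ∈ closedBall (latPt p.1 p.2) (A * 2 ^ p.1),
          ∀ r ∈ Icc (0 : ℝ) (A * 2 ^ p.1),
          ∑ a ∈ univ.filter (fun a => lev a ≤ p.1 ∧ |‖pos a - x‖ - r| ≤ A * 2 ^ lev a),
              J a * Real.sqrt (min 1 ((‖pos a - ystar t p‖ + 2 ^ lev a) / 2 ^ p.1)) ≤ G t p x ∧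
          ∑ a ∈ univ.filter (fun a => lev a ≤ p.1 ∧ |‖pos a - x‖ - r| ≤ A * 2 ^ lev a), J a ≤
            ∑ m ∈ M.filter (fun m => (2 : ℝ) ^ m ≤ B * 2 ^ p.1 ∧
                |‖x - ystar t p‖ - r| ≤ B * 2 ^ m),
              S t (ystar t p) m (((2 : ℝ) ^ p.1)⁻¹ • (x - ystar t p))) ∧
        ∑ t ∈ SH, ∑ p ∈ s.filter (fun p => t ∈ good p),
            ⨍ x in closedBall (latPt p.1 p.2) (A * 2 ^ p.1), G t p x ≤ C * SH.card * ∑ a, J a ∧
        ∀ Y : (Fin d → ℕ) → Finset (Euc d),
          ∑ t ∈ SH, ∑ y ∈ Y t, ∑ m ∈ M, ∫ u in closedBall (0 : Euc d) (2 * B), S t y m u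
            ≤ C * SH.card * ∑ a, J a := by
  classical
  have hA0 : 0 < A := one_pos.trans_le hA
  obtain ⟨m₁, hm₁⟩ : ∃ m : ℕ, 3 * A < 2 ^ m := pow_unbounded_of_one_lt _ one_lt_two
  obtain ⟨Mh, hM⟩ : ∃ M : ℕ, (71 / 100 : ℝ) ^ M < 1 / (12 * d + 1) :=
    exists_pow_lt_of_lt_one (by positivity) (by norm_num)
  set m₀ := m₁ + Mh with hm₀
  set κ := A / 2 ^ m₀ with hκdef
  have hκ : 0 < κ := by positivity
  have hκA : κ * 2 ^ m₀ ≤ A := by rw [hκdef, div_mul_cancel₀ _ (by positivity)]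
  set K := recConst d A κ with hKdef
  have hK0 : 0 ≤ K := recConst_nonneg d A κ
  set B : ℝ := (2 * d + 1) * 2 ^ m₀ + 4 * d + 3 * A with hB
  have h2m : (1 : ℝ) ≤ 2 ^ m₀ := one_le_pow₀ one_le_two
  have hd0 : (0 : ℝ) ≤ d := Nat.cast_nonneg d
  have hdm : 0 ≤ (d : ℝ) * 2 ^ m₀ := by positivity
  set V := volume.real (closedBall (0 : Euc d) (2 * B)) with hV
  have hV0 : 0 ≤ V := measureReal_nonneg
  set R := 14 + 7 * K * (90 * d) with hR
  set C := 2 ^ (m₀ * d) * (4 * d + 1) * (4 + (m₀ + 4) * R) + V * (2 + R) with hC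
  refine ⟨C, B, by positivity, by linarith, ?_⟩
  intro ι _ pos lev J hJ s
  set N := s.sup Prod.fst + m₀ with hN
  have hN' : ∀ p ∈ s, p.1 + m₀ ≤ N := fun p hp => by
    rw [hN]; exact Nat.add_le_add_right (Finset.le_sup (f := Prod.fst) hp) _
  set SH := shifts d N with hSH
  set good : ℕ × (Fin d → ℤ) → Finset (Fin d → ℕ) := fun p => SH.filter fun t =>
    ∀ i, (2 : ℝ) ^ (p.1 + m₁) < bdry t (p.1 + m₀) (latPt p.1 p.2) i with hgood
  have hgcard : ∀ p ∈ s, (SH.card : ℝ) ≤ 2 * ((good p).card : ℝ) := fun p hp =>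
    card_le_two_mul_good (hN' p hp) hM (latPt p.1 p.2)
  set Q : (Fin d → ℕ) → ℕ × (Fin d → ℤ) → Fin d → ℤ := fun t p =>
    cell t (p.1 + m₀) (latPt p.1 p.2) with hQdef
  set ystar : (Fin d → ℕ) → ℕ × (Fin d → ℤ) → Euc d := fun t p =>
    if Q t p ∈ cells pos t (p.1 + m₀) then star pos lev J A κ t N (p.1 + m₀) (Q t p)
    else latPt p.1 p.2 with hys
  set G : (Fin d → ℕ) → ℕ × (Fin d → ℤ) → Euc d → ℝ := fun t p =>
    dom pos lev J A κ t N p.1 (p.1 + m₀) (Q t p) (A * 2 ^ p.1) with hG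
  set S : (Fin d → ℕ) → Euc d → ℕ → Euc d → ℝ := fun t y i =>
    grp pos lev J A κ t N (2 * B) m₀ y i with hS
  have hB0 : 0 ≤ 2 * B := by linarith
  have hrest : ∑ t ∈ SH, ∑ n ∈ range N, ∑ P ∈ cells pos t (n + 1),
      rest pos lev J A κ t N n P ≤ R * SH.card * ∑ a, J a :=
    sum_shifts_rest_le hJ hd hA0 hκ N
  have hM0 : (0 : ℝ) ≤ SH.card * ∑ a, J a :=
    mul_nonneg (Nat.cast_nonneg _) (sum_nonneg fun a _ => hJ a)
  refine ⟨SH, good, ystar, G, range (N + 1), S, shifts_nonempty d N,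
    fun p hp => ⟨Finset.filter_subset _ _, by exact_mod_cast hgcard p hp⟩,
    fun t p => ⟨continuous_dom _ _ _ _, dom_nonneg hJ _ _ _ (by positivity)⟩,
    fun t y i => ⟨continuous_grp y i, grp_nonneg hJ hB0 y i⟩, ?_, ?_, ?_, ?_⟩
  · intro p hp t _
    have hle : 2 * (d : ℝ) * 2 ^ (p.1 + m₀) ≤ B * 2 ^ p.1 := by
      rw [pow_add, hB]
      have h1 : (0 : ℝ) ≤ 2 ^ p.1 := by positivity
      have h2 := mul_nonneg h1 (show (0 : ℝ) ≤ 2 ^ m₀ + 4 * d + 3 * A by positivity)
      linarith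
    simp only [hys]
    split_ifs with hQ
    · exact (norm_sub_le_of_cell_eq (cell_star _ hQ)).trans hle
    · rw [sub_self, norm_zero]; positivity
  · intro p hp t ht x hx r hr
    exact pointwise_le hJ hA (by linarith) (by linarith) (hN' p hp) hm₁
      (Finset.mem_filter.1 ht).2 (fun hQ => if_pos hQ) hx hr
  · calc ∑ t ∈ SH, ∑ p ∈ s.filter (fun p => t ∈ good p),
          ⨍ x in closedBall (latPt p.1 p.2) (A * 2 ^ p.1), G t p x
        ≤ ∑ t ∈ SH, 2 ^ (m₀ * d) * (4 * d + 1) * (4 * ∑ a, J a + (m₀ + 4) *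
            ∑ n ∈ range N, ∑ P ∈ cells pos t (n + 1), rest pos lev J A κ t N n P) := by
          refine sum_le_sum fun t _ => ?_
          exact sum_avg_dom_le (pos := pos) (lev := lev) (A := A) (κ := κ) (t := t) (Jm := N)
            (m₀ := m₀) hJ hA0 hκ hκA N s _ (Finset.filter_subset _ _) hN'
      _ ≤ _ := by
          rw [← mul_sum, sum_add_distrib, sum_const, nsmul_eq_mul, ← mul_sum, hC]
          have h1 := mul_le_mul_of_nonneg_left hrest
            (show (0 : ℝ) ≤ 2 ^ (m₀ * d) * (4 * d + 1) * (m₀ + 4) by positivity)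
          have h2 := mul_nonneg (show 0 ≤ V * (2 + R) by positivity) hM0
          linarith
  · intro Y
    have hU : κ * 2 ^ m₀ ≤ 2 * B := by
      rw [hκdef, div_mul_cancel₀ _ (by positivity)]; linarith
    refine (sum_le_sum fun t _ => sum_grp_le hJ hκ hU N (Y t)).trans ?_
    rw [← mul_sum, sum_add_distrib, sum_const, nsmul_eq_mul, ← hV, hC]
    have h1 := mul_le_mul_of_nonneg_left hrest hV0
    have h2 := mul_nonneg
      (show (0 : ℝ) ≤ 2 ^ (m₀ * d) * (4 * d + 1) * (4 + (m₀ + 4) * R) by positivity) hM0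
    linarith

end Vale.Agent.P137.Centred
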