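import Vale.Agent.P137.Defs

/-!
# P137, centred operator: probabilities of slabs in balls

The set of centres `x` in a ball of radius `ρ` which are at almost equal distance (up to `w`) from
two points at mutual distance `D` is a slab of width `w ρ / D`.
-/

open MeasureTheory Filter Set Metric ProbabilityTheory
open scoped ENNReal Topology RealInnerProductSpace

noncomputable section

namespace Vale.Agent.P137.Centred

variable {d : ℕ}

/-- Volume of a ball intersected with a slab. -/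
lemma volume_slab_le (hd : 0 < d) (x₀ : Euc d) {ρ : ℝ} (hρ : 0 ≤ ρ) {u : Euc d} (hu : ‖u‖ = 1)
    (γ : ℝ) {w : ℝ} (hw : 0 ≤ w) :
    volume (closedBall x₀ ρ ∩ {x : Euc d | |⟪x, u⟫ - γ| ≤ w}) ≤
      ENNReal.ofReal (2 * w * (2 * ρ) ^ (d - 1)) := by
  obtain ⟨m, rfl⟩ := Nat.exists_eq_succ_of_ne_zero hd.ne'
  obtain ⟨b, hb⟩ := Orthonormal.exists_orthonormalBasis_extension_of_card_eq
    (𝕜 := ℝ) (E := Euc (m + 1)) (ι := Fin (m + 1)) (by simp) (v := fun _ => u)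
    (s := ({0} : Set (Fin (m + 1)))) (by
      rw [orthonormal_iff_ite]
      intro i j
      have : i = j := Subtype.ext (i.2.trans j.2.symm)
      simp [this, hu])
  have hb0 : b 0 = u := hb 0 rfl
  set z₀ := b.repr x₀ with hz₀
  set lo : Fin (m + 1) → ℝ := Fin.cons (γ - w) fun i => z₀ i.succ - ρ with hlo
  set hi : Fin (m + 1) → ℝ := Fin.cons (γ + w) fun i => z₀ i.succ + ρ with hhi
  have hsub : closedBall x₀ ρ ∩ {x : Euc (m + 1) | |⟪x, u⟫ - γ| ≤ w} ⊆
      b.repr ⁻¹' ((fun z : Euc (m + 1) => WithLp.ofLp z) ⁻¹' Icc lo hi) := by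
    rintro x ⟨hx, hxw⟩
    have key : ∀ i, lo i ≤ b.repr x i ∧ b.repr x i ≤ hi i := by
      intro i
      refine Fin.cases ?_ (fun j => ?_) i
      · have h : b.repr x 0 = ⟪x, u⟫ := by rw [b.repr_apply_apply, hb0, real_inner_comm]
        have := abs_le.1 (show |⟪x, u⟫ - γ| ≤ w from hxw)
        simp only [hlo, hhi, Fin.cons_zero, h]
        constructor <;> linarith
      · have h1 : |b.repr x j.succ - z₀ j.succ| ≤ ρ := by
          have h2 := PiLp.norm_apply_le (b.repr x - z₀) j.succ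
          rw [hz₀, ← map_sub, b.repr.norm_map, map_sub, Real.norm_eq_abs, PiLp.sub_apply] at h2
          exact h2.trans (by simpa [dist_eq_norm] using hx)
        have := abs_le.1 h1
        simp only [hlo, hhi, Fin.cons_succ]
        constructor <;> linarith
    exact ⟨fun i => (key i).1, fun i => (key i).2⟩
  refine (measure_mono hsub).trans ?_
  have hmI : MeasurableSet ((fun z : Euc (m + 1) => WithLp.ofLp z) ⁻¹' Icc lo hi) :=
    (PiLp.volume_preserving_ofLp (Fin (m + 1))).measurable measurableSet_Icc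
  rw [b.repr.measurePreserving.measure_preimage hmI.nullMeasurableSet,
    (PiLp.volume_preserving_ofLp (Fin (m + 1))).measure_preimage
      measurableSet_Icc.nullMeasurableSet, Real.volume_Icc_pi, Fin.prod_univ_succ]
  simp only [hlo, hhi, Fin.cons_zero, Fin.cons_succ, add_sub_sub_cancel,
    Finset.prod_const, Finset.card_univ, Fintype.card_fin, Nat.succ_eq_add_one, Nat.add_sub_cancel]
  rw [← ENNReal.ofReal_pow (by linarith), ← ENNReal.ofReal_mul (by linarith)]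
  exact ENNReal.ofReal_le_ofReal (le_of_eq (by ring))

/-- Uniform probability on a closed ball. -/
def ballProb (x₀ : Euc d) (ρ : ℝ) : Measure (Euc d) := volume[|closedBall x₀ ρ]

lemma isProbabilityMeasure_ballProb (x₀ : Euc d) {ρ : ℝ} (hρ : 0 < ρ) :
    IsProbabilityMeasure (ballProb x₀ ρ) :=
  cond_isProbabilityMeasure_of_finite (measure_closedBall_pos volume x₀ hρ).ne'
    measure_closedBall_lt_top.ne

lemma integral_ballProb (x₀ : Euc d) (ρ : ℝ) (f : Euc d → ℝ) :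
    ∫ x, f x ∂(ballProb x₀ ρ) = ⨍ x in closedBall x₀ ρ, f x := by
  simp [ballProb, average, ProbabilityTheory.cond]

lemma ae_mem_ballProb (x₀ : Euc d) (ρ : ℝ) : ∀ᵐ x ∂(ballProb x₀ ρ), x ∈ closedBall x₀ ρ :=
  ae_cond_mem measurableSet_closedBall

/-- The slab constant. -/
def slabConst (d : ℕ) : ℝ := 2 ^ d / (volume (closedBall (0 : Euc d) 1)).toReal

lemma slabConst_pos (d : ℕ) : 0 < slabConst d :=
  div_pos (by positivity) (ENNReal.toReal_pos (measure_closedBall_pos volume 0 one_pos).ne'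
    measure_closedBall_lt_top.ne)

lemma ballProb_slab_le (hd : 0 < d) (x₀ : Euc d) {ρ : ℝ} (hρ : 0 < ρ) {u : Euc d}
    (hu : ‖u‖ = 1) (γ : ℝ) {w : ℝ} (hw : 0 ≤ w) :
    (ballProb x₀ ρ).real {x : Euc d | |⟪x, u⟫ - γ| ≤ w} ≤ slabConst d * w / ρ := by
  rw [measureReal_def, ballProb, cond_apply measurableSet_closedBall, ENNReal.toReal_mul,
    ENNReal.toReal_inv]
  have hball : (volume (closedBall x₀ ρ)).toReal =
      ρ ^ d * (volume (closedBall (0 : Euc d) 1)).toReal := by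
    rw [Measure.addHaar_closedBall' volume x₀ hρ.le, finrank_euclideanSpace_fin,
      ENNReal.toReal_mul, ENNReal.toReal_ofReal (by positivity)]
  have hpos : 0 < (volume (closedBall (0 : Euc d) 1)).toReal :=
    ENNReal.toReal_pos (measure_closedBall_pos volume 0 one_pos).ne' measure_closedBall_lt_top.ne
  have h := ENNReal.toReal_le_of_le_ofReal (by positivity) (volume_slab_le hd x₀ hρ.le hu γ hw)
  refine (mul_le_mul_of_nonneg_left h (by positivity)).trans (le_of_eq ?_)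
  obtain ⟨m, rfl⟩ := Nat.exists_eq_succ_of_ne_zero hd.ne'
  rw [hball, slabConst, Nat.succ_eq_add_one, Nat.add_sub_cancel, pow_succ, pow_succ, mul_pow]
  field_simp

/-- Two points `a`, `z` at almost equal distance from a centre in the ball. -/
lemma ballProb_equidist_le (hd : 0 < d) (x₀ : Euc d) {ρ : ℝ} (hρ : 0 < ρ) {a z : Euc d}
    (hD : a ≠ z) {w B : ℝ} (hw : 0 ≤ w) (hB : 0 ≤ B) :
    (ballProb x₀ ρ).real {x : Euc d | |‖z - x‖ - ‖a - x‖| ≤ w ∧ ‖a - x‖ ≤ B ∧ ‖z - x‖ ≤ B} ≤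
      slabConst d * (w * B / ‖a - z‖) / ρ := by
  have := isProbabilityMeasure_ballProb x₀ hρ
  have hn : 0 < ‖a - z‖ := norm_pos_iff.2 (sub_ne_zero.2 hD)
  set u : Euc d := ‖a - z‖⁻¹ • (a - z) with hu
  have hu1 : ‖u‖ = 1 := by
    rw [hu, norm_smul, norm_inv, norm_norm, inv_mul_cancel₀ hn.ne']
  refine le_trans (measureReal_mono ?_) (ballProb_slab_le hd x₀ hρ hu1
    ((‖a‖ ^ 2 - ‖z‖ ^ 2) / (2 * ‖a - z‖)) (by positivity))
  rintro x ⟨h1, h2, h3⟩
  show |⟪x, u⟫ - (‖a‖ ^ 2 - ‖z‖ ^ 2) / (2 * ‖a - z‖)| ≤ w * B / ‖a - z‖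
  have e : ⟪x, u⟫ - (‖a‖ ^ 2 - ‖z‖ ^ 2) / (2 * ‖a - z‖) =
      (‖z - x‖ - ‖a - x‖) * (‖z - x‖ + ‖a - x‖) / (2 * ‖a - z‖) := by
    have h4 : (‖z - x‖ - ‖a - x‖) * (‖z - x‖ + ‖a - x‖) =
        2 * ⟪x, a - z⟫ - (‖a‖ ^ 2 - ‖z‖ ^ 2) := by
      rw [inner_sub_right, real_inner_comm a x, real_inner_comm z x]
      linear_combination norm_sub_sq_real z x - norm_sub_sq_real a x
    rw [h4, hu, inner_smul_right]
    field_simp
  rw [e, abs_div, abs_mul, abs_of_pos (by positivity : (0 : ℝ) < 2 * ‖a - z‖),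
    div_le_div_iff₀ (by positivity) hn]
  have h5 : |‖z - x‖ + ‖a - x‖| ≤ 2 * B := by
    rw [abs_of_nonneg (by positivity)]; linarith
  calc |‖z - x‖ - ‖a - x‖| * |‖z - x‖ + ‖a - x‖| * ‖a - z‖
      ≤ w * (2 * B) * ‖a - z‖ := by gcongr
    _ = w * B * (2 * ‖a - z‖) := by ring

/-- Two points at almost equal distance from some point `x₀ + 2 ^ j (x - x₀)` of the ray through
`x`: the slabs of the far `j` miss the ball and those of the near `j` almost coincide. -/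
lemma ballProb_ray_equidist_le (hd : 0 < d) (x₀ : Euc d) {ρ : ℝ} (hρ : 0 < ρ) {a z : Euc d}
    (hD : a ≠ z) {w B : ℝ} (hw : 0 < w) (hB : 0 < B) {q : ℕ}
    (hq : ρ + w * B / ‖a - z‖ < 2 ^ q * (w * B / ‖a - z‖)) (M : ℕ) :
    (ballProb x₀ ρ).real {x : Euc d | ∃ j ∈ Finset.range M,
      |‖z - (x₀ + (2 : ℝ) ^ j • (x - x₀))‖ - ‖a - (x₀ + (2 : ℝ) ^ j • (x - x₀))‖| ≤ w ∧
      ‖a - (x₀ + (2 : ℝ) ^ j • (x - x₀))‖ ≤ 2 ^ j * B ∧
      ‖z - (x₀ + (2 : ℝ) ^ j • (x - x₀))‖ ≤ 2 ^ j * B} ≤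
      slabConst d * ((q + 2 : ℕ) * (w * B / ‖a - z‖)) / ρ := by
  classical
  have := isProbabilityMeasure_ballProb x₀ hρ
  have hn : 0 < ‖a - z‖ := norm_pos_iff.2 (sub_ne_zero.2 hD)
  set u : Euc d := ‖a - z‖⁻¹ • (a - z) with hu
  have hu1 : ‖u‖ = 1 := by
    rw [hu, norm_smul, norm_inv, norm_norm, inv_mul_cancel₀ hn.ne']
  set w' := w * B / ‖a - z‖ with hw'
  have hw0 : 0 < w' := by positivity
  set γ₀ := ⟪x₀, u⟫ with hγ₀
  set b := (‖a‖ ^ 2 - ‖z‖ ^ 2) / (2 * ‖a - z‖) - γ₀ with hb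
  set F := (Finset.range M).filter fun j : ℕ => w' < |b| / 2 ^ j ∧ |b| / 2 ^ j ≤ ρ + w'
  have hcard : F.card ≤ q := by
    rcases F.eq_empty_or_nonempty with h | h
    · simp [h]
    refine (Finset.card_le_card (t := Finset.Ico (F.min' h) (F.min' h + q)) fun j hj => ?_).trans
      (by simp)
    have h1 := F.min'_le j hj
    refine Finset.mem_Ico.2 ⟨h1, ?_⟩
    by_contra hjq
    obtain ⟨-, -, hmin⟩ := Finset.mem_filter.1 (F.min'_mem h)
    obtain ⟨-, hj', -⟩ := Finset.mem_filter.1 hj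
    obtain ⟨e, he⟩ := Nat.exists_eq_add_of_le (not_lt.1 hjq)
    rw [he, lt_div_iff₀ (by positivity)] at hj'
    rw [div_le_iff₀ (by positivity)] at hmin
    have h3 : (1 : ℝ) ≤ 2 ^ e := one_le_pow₀ one_le_two
    have h4 : (0 : ℝ) < 2 ^ F.min' h := by positivity
    have h5 := mul_lt_mul_of_pos_right hq h4
    have h6 : w' * ((2 : ℝ) ^ F.min' h * 2 ^ q) * 1 ≤ w' * ((2 : ℝ) ^ F.min' h * 2 ^ q) * 2 ^ e :=
      mul_le_mul_of_nonneg_left h3 (by positivity)
    rw [pow_add, pow_add] at hj'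
    linarith
  set slab : ℝ → ℝ → Set (Euc d) := fun γ δ => {x : Euc d | |⟪x, u⟫ - γ| ≤ δ} with hslab
  have hnull : (ballProb x₀ ρ).real (closedBall x₀ ρ)ᶜ = 0 := by
    have h : (ballProb x₀ ρ) (closedBall x₀ ρ)ᶜ = 0 := ae_mem_ballProb x₀ ρ
    rw [measureReal_def, h, ENNReal.toReal_zero]
  have hsub : {x : Euc d | ∃ j ∈ Finset.range M,
      |‖z - (x₀ + (2 : ℝ) ^ j • (x - x₀))‖ - ‖a - (x₀ + (2 : ℝ) ^ j • (x - x₀))‖| ≤ w ∧
      ‖a - (x₀ + (2 : ℝ) ^ j • (x - x₀))‖ ≤ 2 ^ j * B ∧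
      ‖z - (x₀ + (2 : ℝ) ^ j • (x - x₀))‖ ≤ 2 ^ j * B} ⊆
      (slab γ₀ (2 * w') ∪ ⋃ j ∈ F, slab (γ₀ + b / 2 ^ j) w') ∪ (closedBall x₀ ρ)ᶜ := by
    rintro x ⟨j, hj, h1, h2, h3⟩
    by_cases hx : x ∈ closedBall x₀ ρ
    swap
    · exact Or.inr hx
    left
    set y := x₀ + (2 : ℝ) ^ j • (x - x₀) with hy
    have hP : (0 : ℝ) < 2 ^ j := by positivity
    have e : ⟪y, u⟫ - (γ₀ + b) =
        (‖z - y‖ - ‖a - y‖) * (‖z - y‖ + ‖a - y‖) / (2 * ‖a - z‖) := by
      have h4 : (‖z - y‖ - ‖a - y‖) * (‖z - y‖ + ‖a - y‖) =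
          2 * ⟪y, a - z⟫ - (‖a‖ ^ 2 - ‖z‖ ^ 2) := by
        rw [inner_sub_right, real_inner_comm a y, real_inner_comm z y]
        linear_combination norm_sub_sq_real z y - norm_sub_sq_real a y
      rw [h4, hb, hu, inner_smul_right]
      field_simp
      ring
    have hsl : |⟪x, u⟫ - γ₀ - b / 2 ^ j| ≤ w' := by
      have e2 : ⟪y, u⟫ - (γ₀ + b) = 2 ^ j * (⟪x, u⟫ - γ₀ - b / 2 ^ j) := by
        rw [hy, inner_add_left, real_inner_smul_left, inner_sub_left]
        field_simp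
        ring
      have h5 : |⟪y, u⟫ - (γ₀ + b)| ≤ 2 ^ j * w' := by
        rw [e, abs_div, abs_mul, abs_of_pos (by positivity : (0 : ℝ) < 2 * ‖a - z‖),
          div_le_iff₀ (by positivity)]
        have h6 : |‖z - y‖ + ‖a - y‖| ≤ 2 * (2 ^ j * B) := by
          rw [abs_of_nonneg (by positivity)]; linarith
        calc |‖z - y‖ - ‖a - y‖| * |‖z - y‖ + ‖a - y‖| ≤ w * (2 * (2 ^ j * B)) := by gcongr
          _ = _ := by rw [hw']; field_simp
      rw [e2, abs_mul, abs_of_pos hP] at h5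
      exact le_of_mul_le_mul_left h5 hP
    have hsl' := abs_le.1 hsl
    by_cases hnear : |b| / 2 ^ j ≤ w'
    · have h7 := abs_le.1 (show |b / 2 ^ j| ≤ w' by rwa [abs_div, abs_of_pos hP])
      left
      show |⟪x, u⟫ - γ₀| ≤ 2 * w'
      exact abs_le.2 ⟨by linarith, by linarith⟩
    · refine Or.inr (Set.mem_biUnion (Finset.mem_filter.2 ⟨hj, not_le.1 hnear, ?_⟩) ?_)
      · have h8 : |⟪x, u⟫ - γ₀| ≤ ρ := by
          rw [hγ₀, ← inner_sub_left]
          refine (abs_real_inner_le_norm _ _).trans ?_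
          rw [hu1, mul_one]
          exact mem_closedBall_iff_norm.1 hx
        have h9 := abs_le.1 h8
        rw [← abs_of_pos hP, ← abs_div]
        exact abs_le.2 ⟨by linarith, by linarith⟩
      · show |⟪x, u⟫ - (γ₀ + b / 2 ^ j)| ≤ w'
        rwa [← sub_sub]
  refine (measureReal_mono hsub).trans ((measureReal_union_le _ _).trans ?_)
  rw [hnull, add_zero]
  refine (measureReal_union_le _ _).trans ((add_le_add (ballProb_slab_le hd x₀ hρ hu1 γ₀
    (by positivity)) ((measureReal_biUnion_finset_le F _).trans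
      (Finset.sum_le_sum fun j _ => ballProb_slab_le hd x₀ hρ hu1 (γ₀ + b / 2 ^ j) hw0.le))).trans ?_)
  rw [Finset.sum_const, nsmul_eq_mul]
  have h : (F.card : ℝ) * (slabConst d * w' / ρ) ≤ q * (slabConst d * w' / ρ) :=
    mul_le_mul_of_nonneg_right (Nat.cast_le.2 hcard)
      (div_nonneg (mul_nonneg (slabConst_pos d).le hw0.le) hρ.le)
  push_cast
  refine (add_le_add le_rfl h).trans (le_of_eq ?_)
  ring

end Vale.Agent.P137.Centred
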