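import Vale.Agent.P137.Centred.SelSlab
import Vale.Agent.P137.Centred.SelGrid

/-!
# P137, centred operator: the recursion behind the selection lemma

`ι` is a finite set of nodes; node `a` has a place `pos a`, a scale `2 ^ lev a` and a weight `J a`.
`T n P` is the supremum, over sampling balls, of the `L²` average of the largest shell sum of the
nodes of the cell `P` of level `n`. It is almost the `ℓ²` norm of the same quantity at the children.
-/

open MeasureTheory Filter Set Metric Finset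
open scoped ENNReal Topology RealInnerProductSpace

noncomputable section

namespace Vale.Agent.P137.Centred

/-- The trapezoid cutoff. -/
def tent (s : ℝ) : ℝ := max 0 (min 1 (2 - s))

lemma tent_nonneg (s : ℝ) : 0 ≤ tent s := le_max_left _ _

lemma tent_le_one (s : ℝ) : tent s ≤ 1 := max_le zero_le_one (min_le_left _ _)

lemma tent_of_le {s : ℝ} (h : s ≤ 1) : tent s = 1 := by
  rw [tent, min_eq_left (by linarith), max_eq_right zero_le_one]

lemma lt_two_of_tent_ne_zero {s : ℝ} (h : tent s ≠ 0) : s < 2 := by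
  by_contra hs
  apply h
  rw [tent, min_eq_right (by linarith), max_eq_left (by linarith)]

lemma continuous_tent : Continuous tent := by unfold tent; fun_prop

section Prob

variable {X : Type*} [MeasurableSpace X] {μ : Measure X} [IsProbabilityMeasure μ]

/-- Cauchy-Schwarz against a set. -/
lemma integral_indicator_le_sqrt {S : Set X} (hS : MeasurableSet S) {f : X → ℝ}
    (hf : Integrable f μ) (hf2 : Integrable (fun x => f x ^ 2) μ) :
    ∫ x, S.indicator f x ∂μ ≤ Real.sqrt (μ.real S) * Real.sqrt (∫ x, f x ^ 2 ∂μ) := by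
  have hQ : 0 ≤ ∫ x, f x ^ 2 ∂μ := integral_nonneg fun x => sq_nonneg _
  have hP : 0 ≤ μ.real S := measureReal_nonneg
  set P := μ.real S
  set Q := ∫ x, f x ^ 2 ∂μ
  have key : ∀ lam : ℝ, 0 < lam →
      ∫ x, S.indicator f x ∂μ ≤ (lam * P + lam⁻¹ * Q) / 2 := by
    intro lam hl
    have hi : Integrable (S.indicator fun _ => (1 : ℝ)) μ := (integrable_const 1).indicator hS
    refine (integral_mono (hf.indicator hS)
      (((hi.const_mul lam).add (hf2.const_mul lam⁻¹)).div_const 2) fun x => ?_).trans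
      (le_of_eq ?_)
    · simp only [Pi.add_apply]
      by_cases hx : x ∈ S
      · rw [indicator_of_mem hx, indicator_of_mem hx, mul_one, le_div_iff₀ two_pos]
        have := sq_nonneg (lam - f x)
        have e : lam + lam⁻¹ * f x ^ 2 - f x * 2 = lam⁻¹ * (lam - f x) ^ 2 := by field_simp; ring
        nlinarith [mul_nonneg (inv_nonneg.2 hl.le) this]
      · rw [indicator_of_notMem hx, indicator_of_notMem hx]
        have : 0 ≤ lam⁻¹ * f x ^ 2 := mul_nonneg (inv_nonneg.2 hl.le) (sq_nonneg _)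
        linarith
    · simp only [Pi.add_apply]
      rw [integral_div, integral_add (hi.const_mul lam) (hf2.const_mul lam⁻¹),
        integral_const_mul, integral_const_mul, integral_indicator_const _ hS, smul_eq_mul,
        mul_one]
  refine le_of_forall_pos_le_add fun ε hε => ?_
  set p := Real.sqrt P with hp
  set q := Real.sqrt Q with hq
  have hp0 : 0 ≤ p := Real.sqrt_nonneg _
  have hq0 : 0 ≤ q := Real.sqrt_nonneg _
  have hPp : P = p * p := (Real.mul_self_sqrt hP).symm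
  have hQq : Q = q * q := (Real.mul_self_sqrt hQ).symm
  have h1 : p ≤ 1 := by rw [hp, Real.sqrt_le_one]; exact measureReal_le_one
  obtain ⟨δ, hδ, hδle⟩ : ∃ δ : ℝ, 0 < δ ∧ δ * (1 + q) ≤ ε :=
    ⟨ε / (1 + q), by positivity, by rw [div_mul_cancel₀ _ (by positivity)]⟩
  refine (key ((q + δ) / (p + δ)) (by positivity)).trans ?_
  rw [hPp, hQq, inv_div]
  have a1 : (q + δ) / (p + δ) * (p * p) ≤ (q + δ) * p := by
    rw [div_mul_eq_mul_div, div_le_iff₀ (by positivity)]
    nlinarith [mul_nonneg (mul_nonneg (add_nonneg hq0 hδ.le) hp0) hδ.le]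
  have a2 : (p + δ) / (q + δ) * (q * q) ≤ (p + δ) * q := by
    rw [div_mul_eq_mul_div, div_le_iff₀ (by positivity)]
    nlinarith [mul_nonneg (mul_nonneg (add_nonneg hp0 hδ.le) hq0) hδ.le]
  nlinarith

/-- The mean is at most the root mean square. -/
lemma integral_le_sqrt {f : X → ℝ} (hf : Integrable f μ)
    (hf2 : Integrable (fun x => f x ^ 2) μ) :
    ∫ x, f x ∂μ ≤ Real.sqrt (∫ x, f x ^ 2 ∂μ) := by
  have h := integral_indicator_le_sqrt MeasurableSet.univ hf hf2
  simpa using h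

end Prob

variable {d : ℕ} {ι : Type*} [Fintype ι] (pos : ι → Euc d) (lev : ι → ℕ) (J : ι → ℝ) (A κ : ℝ)
  (t : Fin d → ℕ) (Jm : ℕ)

/-- The cutoff of the shell of node `a` around the sphere of centre `x` and radius `r`. -/
def band (a : ι) (x : Euc d) (r : ℝ) : ℝ := tent (|‖pos a - x‖ - r| / (A * 2 ^ lev a))

/-- The nodes of level at most `n` in the cell `c`. -/
def nodes (n : ℕ) (c : Fin d → ℤ) : Finset ι :=
  univ.filter fun a => lev a ≤ n ∧ cell t n (pos a) = c

/-- The shell sum of a cell. -/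
def W (n : ℕ) (c : Fin d → ℤ) (x : Euc d) (r : ℝ) : ℝ :=
  ∑ a ∈ nodes pos lev t n c, J a * band pos lev A a x r

/-- The largest shell sum of a cell, over radii at most `ρ`. -/
def supW (n : ℕ) (c : Fin d → ℤ) (ρ : ℝ) (x : Euc d) : ℝ :=
  sSup (W pos lev J A t n c x '' Icc 0 ρ)

/-- The occupied cells. -/
def cells (n : ℕ) : Finset (Fin d → ℤ) := univ.image fun a => cell t n (pos a)

/-- The occupied cells of level `m` in the cell `P` of level `n`. -/
def below (n : ℕ) (P : Fin d → ℤ) (m : ℕ) : Finset (Fin d → ℤ) :=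
  (univ.filter fun a => cell t n (pos a) = P).image fun a => cell t m (pos a)

/-- The largest shell sum of a cell along the dyadic dilations of `x` about `c₀`. -/
def supRay (n : ℕ) (c : Fin d → ℤ) (c₀ : Euc d) (ρ : ℝ) (x : Euc d) : ℝ :=
  (Finset.range (Jm + 1)).sup' Finset.nonempty_range_add_one fun j =>
    supW pos lev J A t n c (2 ^ j * ρ) (c₀ + (2 : ℝ) ^ j • (x - c₀))

/-- The supremum over sampling balls of the root mean square of the largest shell sum along the
dilations about the centre of the ball. -/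
def T (n : ℕ) (c : Fin d → ℤ) : ℝ :=
  ⨆ p : {p : ℝ × Euc d // κ * 2 ^ n ≤ p.1},
    Real.sqrt (∫ x, supRay pos lev J A t Jm n c p.1.2 p.1.1 x ^ 2 ∂ballProb p.1.2 p.1.1)

/-- The weight of the nodes of level exactly `n + 1`. -/
def top (n : ℕ) (P : Fin d → ℤ) : ℝ :=
  ∑ a ∈ univ.filter (fun a => lev a = n + 1 ∧ cell t (n + 1) (pos a) = P), J a

/-- The boundary-weighted mass. -/
def leak (n : ℕ) (P : Fin d → ℤ) : ℝ :=
  ∑ a ∈ univ.filter (fun a => lev a ≤ n ∧ cell t (n + 1) (pos a) = P),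
    J a * (om t n (2 ^ lev a) (pos a) * (21 / 16) ^ (n - lev a))

/-- The positive part of the increment. -/
def inc (n : ℕ) (P : Fin d → ℤ) : ℝ :=
  max 0 ((∑ c ∈ below pos t (n + 1) P n, T pos lev J A κ t Jm n c) - T pos lev J A κ t Jm (n + 1) P)

/-- Geometrically discounted increments below `P`. -/
def incBelow (n : ℕ) (P : Fin d → ℤ) : ℝ :=
  ∑ m ∈ range n, (4 / 5 : ℝ) ^ (n - m) *
    ∑ N ∈ below pos t (n + 1) P (m + 1), inc pos lev J A κ t Jm m N

variable {pos lev J A κ t Jm}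

omit [Fintype ι] in
lemma cell_congr {m n : ℕ} (hmn : m ≤ n) {y z : Euc d} (h : cell t m y = cell t m z) :
    cell t n y = cell t n z := by
  induction n, hmn using Nat.le_induction with
  | base => exact h
  | succ k _ ih => rw [← par_cell, ← par_cell, ih]

lemma mem_below {n m : ℕ} {P N : Fin d → ℤ} :
    N ∈ below pos t n P m ↔ ∃ a, cell t n (pos a) = P ∧ cell t m (pos a) = N := by
  simp [below]

lemma mem_cells {n : ℕ} {c : Fin d → ℤ} : c ∈ cells pos t n ↔ ∃ a, cell t n (pos a) = c := by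
  simp [cells]

lemma below_subset_cells {n m : ℕ} (P : Fin d → ℤ) : below pos t n P m ⊆ cells pos t m := by
  intro N hN
  obtain ⟨a, -, h⟩ := mem_below.1 hN
  exact mem_cells.2 ⟨a, h⟩

lemma sum_below {n m : ℕ} (hmn : m ≤ n) (f : (Fin d → ℤ) → ℝ) :
    ∑ P ∈ cells pos t n, ∑ N ∈ below pos t n P m, f N = ∑ N ∈ cells pos t m, f N := by
  rw [← sum_biUnion]
  · refine sum_congr ?_ fun _ _ => rfl
    ext N
    simp only [Finset.mem_biUnion, mem_cells, mem_below]
    constructor
    · rintro ⟨P, -, a, -, h⟩; exact ⟨a, h⟩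
    · rintro ⟨a, h⟩; exact ⟨_, ⟨a, rfl⟩, a, rfl, h⟩
  · intro P _ P' _ hne
    simp only [Function.onFun, Finset.disjoint_left, mem_below]
    rintro N ⟨a, ha, haN⟩ ⟨b, hb, hbN⟩
    exact hne (by rw [← ha, ← hb, cell_congr hmn (haN.trans hbN.symm)])

lemma sum_below_below {n k m : ℕ} (hmk : m ≤ k) (hkn : k ≤ n) (P : Fin d → ℤ)
    (f : (Fin d → ℤ) → ℝ) :
    ∑ N ∈ below pos t n P k, ∑ M ∈ below pos t k N m, f M = ∑ M ∈ below pos t n P m, f M := by
  rw [← sum_biUnion]
  · refine sum_congr ?_ fun _ _ => rfl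
    ext M
    simp only [Finset.mem_biUnion, mem_below]
    constructor
    · rintro ⟨N, ⟨a, ha, haN⟩, b, hb, hbM⟩
      exact ⟨b, by rw [cell_congr hkn (hb.trans haN.symm), ha], hbM⟩
    · rintro ⟨a, h1, h2⟩
      exact ⟨_, ⟨a, h1, rfl⟩, a, rfl, h2⟩
  · intro N _ N' _ hne
    simp only [Function.onFun, Finset.disjoint_left, mem_below]
    rintro M ⟨a, ha, haM⟩ ⟨b, hb, hbM⟩
    exact hne (by rw [← ha, ← hb, cell_congr hmk (haM.trans hbM.symm)])

lemma below_self_of_mem {n : ℕ} {P : Fin d → ℤ} (hP : P ∈ cells pos t n) :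
    below pos t n P n = {P} := by
  ext N
  simp only [mem_below, Finset.mem_singleton]
  obtain ⟨a, ha⟩ := mem_cells.1 hP
  exact ⟨fun ⟨b, hb, h⟩ => by rw [← h, hb], fun h => ⟨a, ha, by rw [ha, h]⟩⟩

lemma card_children_le (n : ℕ) (P : Fin d → ℤ) : (below pos t (n + 1) P n).card ≤ 2 ^ d := by
  refine (Finset.card_le_card (t := Fintype.piFinset fun i => ({2 * P i, 2 * P i + 1} : Finset ℤ))
    ?_).trans ?_
  · intro c hc
    obtain ⟨a, h1, h2⟩ := mem_below.1 hc
    rw [← par_cell, h2] at h1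
    refine Fintype.mem_piFinset.2 fun i => ?_
    have := congrFun h1 i
    simp only [par] at this
    simp only [Finset.mem_insert, Finset.mem_singleton]
    omega
  · rw [Fintype.card_piFinset]
    refine (prod_le_prod' fun i _ => Finset.card_le_two).trans ?_
    simp

variable (hJ : ∀ a, 0 ≤ J a)

omit [Fintype ι] in
lemma band_nonneg (a : ι) (x : Euc d) (r : ℝ) : 0 ≤ band pos lev A a x r := tent_nonneg _

omit [Fintype ι] in
lemma continuous_band (a : ι) : Continuous fun p : Euc d × ℝ => band pos lev A a p.1 p.2 := by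
  unfold band
  exact continuous_tent.comp (by fun_prop)

include hJ in
lemma W_nonneg (n : ℕ) (c : Fin d → ℤ) (x : Euc d) (r : ℝ) : 0 ≤ W pos lev J A t n c x r :=
  sum_nonneg fun a _ => mul_nonneg (hJ a) (band_nonneg a x r)

include hJ in
lemma W_le_sum (n : ℕ) (c : Fin d → ℤ) (x : Euc d) (r : ℝ) :
    W pos lev J A t n c x r ≤ ∑ a ∈ nodes pos lev t n c, J a :=
  sum_le_sum fun a _ => mul_le_of_le_one_right (hJ a) (tent_le_one _)

lemma continuous_W (n : ℕ) (c : Fin d → ℤ) :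
    Continuous fun p : Euc d × ℝ => W pos lev J A t n c p.1 p.2 :=
  continuous_finsetSum _ fun a _ => continuous_const.mul (continuous_band a)

lemma continuous_supW (n : ℕ) (c : Fin d → ℤ) (ρ : ℝ) :
    Continuous (supW pos lev J A t n c ρ) :=
  isCompact_Icc.continuous_sSup (f := W pos lev J A t n c) (continuous_W n c)

include hJ in
lemma W_le_supW (n : ℕ) (c : Fin d → ℤ) {ρ r : ℝ} (x : Euc d) (hr : r ∈ Icc 0 ρ) :
    W pos lev J A t n c x r ≤ supW pos lev J A t n c ρ x :=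
  le_csSup ⟨∑ a ∈ nodes pos lev t n c, J a, forall_mem_image.2 fun _ _ => W_le_sum hJ n c x _⟩
    (mem_image_of_mem _ hr)

include hJ in
lemma supW_nonneg (n : ℕ) (c : Fin d → ℤ) {ρ : ℝ} (hρ : 0 ≤ ρ) (x : Euc d) :
    0 ≤ supW pos lev J A t n c ρ x :=
  (W_nonneg hJ n c x 0).trans (W_le_supW hJ n c x ⟨le_rfl, hρ⟩)

include hJ in
lemma supW_le_sum (n : ℕ) (c : Fin d → ℤ) {ρ : ℝ} (hρ : 0 ≤ ρ) (x : Euc d) :
    supW pos lev J A t n c ρ x ≤ ∑ a ∈ nodes pos lev t n c, J a :=
  csSup_le ((Set.nonempty_Icc.2 hρ).image _) (forall_mem_image.2 fun _ _ => W_le_sum hJ n c x _)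

include hJ in
lemma integrable_supW (n : ℕ) (c : Fin d → ℤ) {ρ : ℝ} (hρ : 0 ≤ ρ) (μ : Measure (Euc d))
    [IsFiniteMeasure μ] : Integrable (supW pos lev J A t n c ρ) μ :=
  Integrable.of_bound (continuous_supW n c ρ).aestronglyMeasurable
    (∑ a ∈ nodes pos lev t n c, J a) (ae_of_all _ fun x => by
      rw [Real.norm_eq_abs, abs_of_nonneg (supW_nonneg hJ n c hρ x)]
      exact supW_le_sum hJ n c hρ x)

include hJ in
lemma integrable_supW_sq (n : ℕ) (c : Fin d → ℤ) {ρ : ℝ} (hρ : 0 ≤ ρ) (μ : Measure (Euc d))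
    [IsFiniteMeasure μ] : Integrable (fun x => supW pos lev J A t n c ρ x ^ 2) μ :=
  Integrable.of_bound ((continuous_supW n c ρ).pow 2).aestronglyMeasurable
    ((∑ a ∈ nodes pos lev t n c, J a) ^ 2) (ae_of_all _ fun x => by
      rw [Real.norm_eq_abs, abs_pow, abs_of_nonneg (supW_nonneg hJ n c hρ x)]
      exact pow_le_pow_left₀ (supW_nonneg hJ n c hρ x) (supW_le_sum hJ n c hρ x) 2)

lemma T_nonneg (n : ℕ) (c : Fin d → ℤ) : 0 ≤ T pos lev J A κ t Jm n c :=
  Real.iSup_nonneg fun _ => Real.sqrt_nonneg _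

lemma continuous_supRay (n : ℕ) (c : Fin d → ℤ) (c₀ : Euc d) (ρ : ℝ) :
    Continuous (supRay pos lev J A t Jm n c c₀ ρ) :=
  Continuous.finset_sup'_apply _ fun j _ =>
    (continuous_supW n c (2 ^ j * ρ)).comp (by fun_prop)

lemma supW_le_supRay (n : ℕ) (c : Fin d → ℤ) (c₀ : Euc d) (ρ : ℝ) (x : Euc d) {j : ℕ}
    (hj : j ≤ Jm) :
    supW pos lev J A t n c (2 ^ j * ρ) (c₀ + (2 : ℝ) ^ j • (x - c₀)) ≤
      supRay pos lev J A t Jm n c c₀ ρ x :=
  Finset.le_sup' (f := fun j => supW pos lev J A t n c (2 ^ j * ρ) (c₀ + (2 : ℝ) ^ j • (x - c₀)))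
    (Finset.mem_range.2 (Nat.lt_succ_of_le hj))

lemma supW_le_supRay_zero (n : ℕ) (c : Fin d → ℤ) (c₀ : Euc d) (ρ : ℝ) (x : Euc d) :
    supW pos lev J A t n c ρ x ≤ supRay pos lev J A t Jm n c c₀ ρ x := by
  simpa using supW_le_supRay (pos := pos) (lev := lev) (J := J) (A := A) (t := t)
    n c c₀ ρ x (Nat.zero_le Jm)

include hJ in
lemma supRay_nonneg (n : ℕ) (c : Fin d → ℤ) (c₀ : Euc d) {ρ : ℝ} (hρ : 0 ≤ ρ) (x : Euc d) :
    0 ≤ supRay pos lev J A t Jm n c c₀ ρ x :=
  (supW_nonneg hJ n c hρ x).trans (supW_le_supRay_zero n c c₀ ρ x)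

include hJ in
lemma supRay_le_sum (n : ℕ) (c : Fin d → ℤ) (c₀ : Euc d) {ρ : ℝ} (hρ : 0 ≤ ρ) (x : Euc d) :
    supRay pos lev J A t Jm n c c₀ ρ x ≤ ∑ a ∈ nodes pos lev t n c, J a :=
  Finset.sup'_le _ _ fun _ _ => supW_le_sum hJ n c (by positivity) _

include hJ in
lemma integrable_supRay (n : ℕ) (c : Fin d → ℤ) (c₀ : Euc d) {ρ : ℝ} (hρ : 0 ≤ ρ)
    (μ : Measure (Euc d)) [IsFiniteMeasure μ] :
    Integrable (supRay pos lev J A t Jm n c c₀ ρ) μ :=
  Integrable.of_bound (continuous_supRay n c c₀ ρ).aestronglyMeasurable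
    (∑ a ∈ nodes pos lev t n c, J a) (ae_of_all _ fun x => by
      rw [Real.norm_eq_abs, abs_of_nonneg (supRay_nonneg hJ n c c₀ hρ x)]
      exact supRay_le_sum hJ n c c₀ hρ x)

include hJ in
lemma integrable_supRay_sq (n : ℕ) (c : Fin d → ℤ) (c₀ : Euc d) {ρ : ℝ} (hρ : 0 ≤ ρ)
    (μ : Measure (Euc d)) [IsFiniteMeasure μ] :
    Integrable (fun x => supRay pos lev J A t Jm n c c₀ ρ x ^ 2) μ :=
  Integrable.of_bound ((continuous_supRay n c c₀ ρ).pow 2).aestronglyMeasurable
    ((∑ a ∈ nodes pos lev t n c, J a) ^ 2) (ae_of_all _ fun x => by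
      rw [Real.norm_eq_abs, abs_pow, abs_of_nonneg (supRay_nonneg hJ n c c₀ hρ x)]
      exact pow_le_pow_left₀ (supRay_nonneg hJ n c c₀ hρ x) (supRay_le_sum hJ n c c₀ hρ x) 2)

include hJ in
lemma sqrt_sq_supRay_le (hκ : 0 < κ) (n : ℕ) (c : Fin d → ℤ) (x₀ : Euc d) {ρ : ℝ}
    (hρ : κ * 2 ^ n ≤ ρ) :
    Real.sqrt (∫ x, supRay pos lev J A t Jm n c x₀ ρ x ^ 2 ∂ballProb x₀ ρ) ≤
      ∑ a ∈ nodes pos lev t n c, J a := by
  have hρ0 : 0 < ρ := lt_of_lt_of_le (by positivity) hρ
  have := isProbabilityMeasure_ballProb x₀ hρ0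
  refine Real.sqrt_le_iff.2 ⟨sum_nonneg fun a _ => hJ a, ?_⟩
  refine (integral_mono (integrable_supRay_sq hJ n c x₀ hρ0.le _) (integrable_const _) fun x =>
    pow_le_pow_left₀ (supRay_nonneg hJ n c x₀ hρ0.le x) (supRay_le_sum hJ n c x₀ hρ0.le x) 2).trans ?_
  simp

include hJ in
lemma T_le_sum (hκ : 0 < κ) (n : ℕ) (c : Fin d → ℤ) :
    T pos lev J A κ t Jm n c ≤ ∑ a ∈ nodes pos lev t n c, J a :=
  Real.iSup_le (fun p => sqrt_sq_supRay_le hJ hκ n c p.1.2 p.2) (sum_nonneg fun a _ => hJ a)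

include hJ in
lemma le_T (hκ : 0 < κ) (n : ℕ) (c : Fin d → ℤ) (x₀ : Euc d) {ρ : ℝ} (hρ : κ * 2 ^ n ≤ ρ) :
    Real.sqrt (∫ x, supRay pos lev J A t Jm n c x₀ ρ x ^ 2 ∂ballProb x₀ ρ) ≤
      T pos lev J A κ t Jm n c := by
  refine le_ciSup (f := fun p : {p : ℝ × Euc d // κ * 2 ^ n ≤ p.1} =>
    Real.sqrt (∫ x, supRay pos lev J A t Jm n c p.1.2 p.1.1 x ^ 2 ∂ballProb p.1.2 p.1.1)) ?_
    ⟨(ρ, x₀), hρ⟩
  exact ⟨∑ a ∈ nodes pos lev t n c, J a, forall_mem_range.2 fun p =>
    sqrt_sq_supRay_le hJ hκ n c p.1.2 p.2⟩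

include hJ in
lemma avg_supRay_le (hκ : 0 < κ) (n : ℕ) (c : Fin d → ℤ) (x₀ : Euc d) {ρ : ℝ}
    (hρ : κ * 2 ^ n ≤ ρ) :
    ∫ x, supRay pos lev J A t Jm n c x₀ ρ x ∂ballProb x₀ ρ ≤ T pos lev J A κ t Jm n c := by
  have hρ0 : 0 < ρ := lt_of_lt_of_le (by positivity) hρ
  have := isProbabilityMeasure_ballProb x₀ hρ0
  exact (integral_le_sqrt (integrable_supRay hJ n c x₀ hρ0.le _)
    (integrable_supRay_sq hJ n c x₀ hρ0.le _)).trans (le_T hJ hκ n c x₀ hρ)

include hJ in
lemma avg_supW_le (hκ : 0 < κ) (n : ℕ) (c : Fin d → ℤ) (x₀ : Euc d) {ρ : ℝ}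
    (hρ : κ * 2 ^ n ≤ ρ) :
    ∫ x, supW pos lev J A t n c ρ x ∂ballProb x₀ ρ ≤ T pos lev J A κ t Jm n c := by
  have hρ0 : 0 < ρ := lt_of_lt_of_le (by positivity) hρ
  have := isProbabilityMeasure_ballProb x₀ hρ0
  exact (integral_mono (integrable_supW hJ n c hρ0.le _) (integrable_supRay hJ n c x₀ hρ0.le _)
    fun x => supW_le_supRay_zero n c x₀ ρ x).trans (avg_supRay_le hJ hκ n c x₀ hρ)

lemma inc_nonneg (n : ℕ) (P : Fin d → ℤ) : 0 ≤ inc pos lev J A κ t Jm n P := le_max_left _ _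

lemma incBelow_nonneg (n : ℕ) (P : Fin d → ℤ) : 0 ≤ incBelow pos lev J A κ t Jm n P :=
  sum_nonneg fun _ _ => mul_nonneg (by positivity) (sum_nonneg fun _ _ => inc_nonneg _ _)

include hJ in
lemma leak_nonneg (n : ℕ) (P : Fin d → ℤ) : 0 ≤ leak pos lev J t n P :=
  sum_nonneg fun a _ => mul_nonneg (hJ a) (mul_nonneg (om_nonneg _ _ _ _) (by positivity))

/-- Telescoping along the levels below a cell. -/
lemma sum_T_below_le (n : ℕ) (P : Fin d → ℤ) : ∀ k l : ℕ, l + k = n →
    ∑ σ ∈ below pos t (n + 1) P l, T pos lev J A κ t Jm l σ ≤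
      ∑ c ∈ below pos t (n + 1) P n, T pos lev J A κ t Jm n c +
        ∑ m ∈ Ico l n, ∑ N ∈ below pos t (n + 1) P (m + 1), inc pos lev J A κ t Jm m N
  | 0, l, h => by simp at h; subst h; simp
  | k + 1, l, h => by
    have ih := sum_T_below_le n P k (l + 1) (by omega)
    rw [← sum_below_below (k := l + 1) (Nat.le_succ l) (by omega : l + 1 ≤ n + 1) P,
      Finset.sum_eq_sum_Ico_succ_bot (by omega : l < n)]
    have h1 : ∀ N, ∑ σ ∈ below pos t (l + 1) N l, T pos lev J A κ t Jm l σ ≤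
        T pos lev J A κ t Jm (l + 1) N + inc pos lev J A κ t Jm l N := by
      intro N
      have : (∑ σ ∈ below pos t (l + 1) N l, T pos lev J A κ t Jm l σ) -
          T pos lev J A κ t Jm (l + 1) N ≤ inc pos lev J A κ t Jm l N := le_max_right _ _
      linarith
    refine (sum_le_sum fun N _ => h1 N).trans ?_
    rw [sum_add_distrib]
    linarith

/-- The constant of the recursion. -/
def recConst (d : ℕ) (A κ : ℝ) : ℝ :=
  Real.sqrt (1 + slabConst d * (4 * A + d) * (1 + (6 * A + d) / κ) * (20 * (8 * d + 5))) *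
    (Real.sqrt (2 ^ d) + 10)

lemma recConst_nonneg (d : ℕ) (A κ : ℝ) : 0 ≤ recConst d A κ :=
  mul_nonneg (Real.sqrt_nonneg _) (add_nonneg (Real.sqrt_nonneg _) (by norm_num))

/-- The centres near the bisector of `pos a` and the centre of `σ`, along the dilations. -/
def nearSet (pos : ι → Euc d) (lev : ι → ℕ) (A κ : ℝ) (t : Fin d → ℕ) (Jm : ℕ) (x₀ : Euc d)
    (ρ : ℝ) (a : ι) (σ : Fin d → ℤ) : Set (Euc d) :=
  {x | ∃ j ∈ Finset.range (Jm + 1),
      |‖cellCtr t (lev a) σ - (x₀ + (2 : ℝ) ^ j • (x - x₀))‖ -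
        ‖pos a - (x₀ + (2 : ℝ) ^ j • (x - x₀))‖| ≤ (4 * A + d) * 2 ^ lev a ∧
      ‖pos a - (x₀ + (2 : ℝ) ^ j • (x - x₀))‖ ≤ 2 ^ j * (ρ * (1 + (6 * A + d) / κ)) ∧
      ‖cellCtr t (lev a) σ - (x₀ + (2 : ℝ) ^ j • (x - x₀))‖ ≤
        2 ^ j * (ρ * (1 + (6 * A + d) / κ))}

omit [Fintype ι] in
lemma measurableSet_nearSet (x₀ : Euc d) (ρ : ℝ) (a : ι) (σ : Fin d → ℤ) :
    MeasurableSet (nearSet pos lev A κ t Jm x₀ ρ a σ) := by
  simp only [nearSet, Set.ofPred_exists, Set.ofPred_and]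
  refine MeasurableSet.iUnion fun j => ((MeasurableSet.const _).inter
    (((isClosed_le (by fun_prop) continuous_const).inter
      ((isClosed_le (by fun_prop) continuous_const).inter
        (isClosed_le (by fun_prop) continuous_const))).measurableSet))

/-- The cells of the level of `a` in `P` but not in the child of `a`. -/
def farCells (pos : ι → Euc d) (lev : ι → ℕ) (t : Fin d → ℕ) (n : ℕ) (P : Fin d → ℤ) (a : ι) :
    Finset (Fin d → ℤ) :=
  (below pos t (n + 1) P (lev a)).filter fun σ =>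
    cell t n (cellCtr t (lev a) σ) ≠ cell t n (pos a)

include hJ in
/-- One cross term of the recursion. -/
lemma integral_nearSet_le (hd : 0 < d) (hA : 0 < A) (hκ : 0 < κ) {n : ℕ} {P : Fin d → ℤ}
    (x₀ : Euc d) {ρ : ℝ} (hρn : κ * 2 ^ n ≤ ρ) {a : ι} (hla : lev a ≤ n)
    (haP : cell t (n + 1) (pos a) = P) {σ : Fin d → ℤ} (hσ : σ ∈ farCells pos lev t n P a) :
    ∫ x, (nearSet pos lev A κ t Jm x₀ ρ a σ).indicator (supRay pos lev J A t Jm (lev a) σ x₀ ρ) x
        ∂ballProb x₀ ρ ≤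
      Real.sqrt (1 + slabConst d * (4 * A + d) * (1 + (6 * A + d) / κ) * (20 * (8 * d + 5))) *
        (om t n (2 ^ lev a) (pos a) * (21 / 20) ^ (n - lev a)) *
          T pos lev J A κ t Jm (lev a) σ := by
  have hρ0 : 0 < ρ := lt_of_lt_of_le (by positivity) hρn
  have := isProbabilityMeasure_ballProb x₀ hρ0
  set Cs := Real.sqrt (1 + slabConst d * (4 * A + d) * (1 + (6 * A + d) / κ) * (20 * (8 * d + 5)))
    with hCsdef
  have hCs : 0 ≤ Cs := Real.sqrt_nonneg _
  have hρl : κ * 2 ^ lev a ≤ ρ := le_trans (by gcongr; norm_num) hρn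
  have hom := om_nonneg t n (2 ^ lev a) (pos a)
  refine (integral_indicator_le_sqrt (measurableSet_nearSet x₀ ρ a σ) (integrable_supRay hJ _ σ x₀ hρ0.le _)
    (integrable_supRay_sq hJ _ σ x₀ hρ0.le _)).trans (mul_le_mul ?_
      (le_T hJ hκ _ σ x₀ hρl) (Real.sqrt_nonneg _)
      (mul_nonneg hCs (mul_nonneg hom (by positivity))))
  obtain ⟨hσb, hne⟩ := Finset.mem_filter.1 hσ
  obtain ⟨i, hi⟩ := exists_bdry_le t n hne
  refine le_trans ?_ (mul_le_mul_of_nonneg_left (mul_le_mul_of_nonneg_right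
    (gw_le_om t n _ (pos a) i) (by positivity)) hCs)
  have hh : (0 : ℝ) < 2 ^ lev a := by positivity
  set E := slabConst d * (4 * A + d) * (1 + (6 * A + d) / κ) with hE
  have hE0 : 0 ≤ E := mul_nonneg (mul_nonneg (slabConst_pos d).le (by positivity))
    (by positivity)
  set g := (21 / 20 : ℝ) ^ (n - lev a) with hg
  have hg1 : 1 ≤ g := one_le_pow₀ (by norm_num)
  rw [gw, ← Real.sqrt_sq (by linarith : 0 ≤ g), hCsdef, ← Real.sqrt_mul (by positivity),
    ← Real.sqrt_mul (by positivity)]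
  refine Real.sqrt_le_sqrt ?_
  have hg2 : g ≤ g ^ 2 := le_self_pow₀ hg1 two_ne_zero
  rcases le_total (bdry t n (pos a) i) (2 ^ lev a) with hb | hb
  · rw [max_eq_right hb, div_self hh.ne', one_mul]
    have h0 : 0 ≤ E * (20 * (8 * (d : ℝ) + 5)) := by positivity
    have := mul_nonneg h0 (sq_nonneg g)
    exact measureReal_le_one.trans (by linarith)
  · rw [max_eq_left hb]
    have hD : pos a ≠ cellCtr t (lev a) σ := by
      intro e; exact hne (by rw [← e])
    set D := ‖pos a - cellCtr t (lev a) σ‖ with hDdef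
    have hD0 : 0 < D := norm_pos_iff.2 (sub_ne_zero.2 hD)
    have hbd : (0 : ℝ) < bdry t n (pos a) i := lt_of_lt_of_le hh hb
    obtain ⟨b, hbP, hbσ⟩ := mem_below.1 hσb
    have hDle : D ≤ 8 * d * 2 ^ n := by
      have h1 := norm_sub_cellCtr_le t (lev a) (pos b)
      rw [hbσ] at h1
      have h2 := norm_sub_cellCtr_le t (n + 1) (pos a)
      have h3 := norm_sub_cellCtr_le t (n + 1) (pos b)
      rw [haP] at h2
      rw [hbP, norm_sub_rev] at h3
      have h4 : (2 : ℝ) ^ lev a ≤ 2 ^ n := pow_le_pow_right₀ one_le_two hla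
      have h5 := mul_le_mul_of_nonneg_left h4 (Nat.cast_nonneg d)
      have h6 := norm_sub_le_norm_sub_add_norm_sub (pos a) (cellCtr t (n + 1) P) (pos b)
      have h7 := norm_sub_le_norm_sub_add_norm_sub (pos a) (pos b) (cellCtr t (lev a) σ)
      rw [pow_succ] at h2 h3
      have h8 : 0 ≤ (d : ℝ) * 2 ^ n := by positivity
      linarith
    set B' := 1 + (6 * A + d) / κ with hB'
    have hA4 : 1 ≤ 4 * A + d := by
      have : (1 : ℝ) ≤ d := by exact_mod_cast hd
      linarith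
    have hB1 : 1 ≤ B' := le_add_of_nonneg_right (by positivity)
    set q := n - lev a + (8 * d + 2) with hq
    have hqb : 8 * (d : ℝ) * 2 ^ (n - lev a) + 1 < 2 ^ q := by
      rw [hq, pow_add]
      have h1 : ((8 * d + 2 : ℕ) : ℝ) ≤ 2 ^ (8 * d + 2) := by
        exact_mod_cast Nat.lt_two_pow_self.le
      push_cast at h1
      have h2 : (1 : ℝ) ≤ 2 ^ (n - lev a) := one_le_pow₀ one_le_two
      have h9 := mul_le_mul_of_nonneg_left h1 (zero_le_one.trans h2)
      linarith
    have hw' : ρ + (4 * A + d) * 2 ^ lev a * (ρ * B') / D <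
        2 ^ q * ((4 * A + d) * 2 ^ lev a * (ρ * B') / D) := by
      rw [← mul_div_assoc, lt_div_iff₀ hD0, add_mul, div_mul_cancel₀ _ hD0.ne']
      set X := (4 * A + d) * 2 ^ lev a * (ρ * B') with hX
      have h1 : ρ * D ≤ X * (8 * d * 2 ^ (n - lev a)) := by
        rw [hX]
        calc ρ * D ≤ ρ * (8 * d * 2 ^ n) := mul_le_mul_of_nonneg_left hDle hρ0.le
          _ = 1 * 2 ^ lev a * (ρ * 1) * (8 * d * 2 ^ (n - lev a)) := by
            rw [show (2 : ℝ) ^ n = 2 ^ lev a * 2 ^ (n - lev a) by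
              rw [← pow_add, Nat.add_sub_cancel' hla]]
            ring
          _ ≤ _ := by gcongr
      have hX0 : 0 < X := by positivity
      have h2 := mul_lt_mul_of_pos_left hqb hX0
      linarith
    refine (ballProb_ray_equidist_le hd x₀ hρ0 hD (by positivity) (by positivity) hw'
      (Jm + 1)).trans ?_
    have hcnt : ((q + 2 : ℕ) : ℝ) ≤ 20 * (8 * d + 5) * g := by
      have hber := one_add_mul_le_pow (a := (1 / 20 : ℝ)) (by norm_num) (n - lev a)
      rw [show (1 : ℝ) + 1 / 20 = 21 / 20 by norm_num, ← hg] at hber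
      have := mul_nonneg (show (0 : ℝ) ≤ 8 * d + 4 by positivity)
        (show (0 : ℝ) ≤ g - 1 by linarith)
      rw [hq]; push_cast
      nlinarith
    calc slabConst d * (((q + 2 : ℕ) : ℝ) * ((4 * A + d) * 2 ^ lev a * (ρ * B') / D)) / ρ
        = E * ((q + 2 : ℕ) : ℝ) * (2 ^ lev a / D) := by rw [hE]; field_simp
      _ ≤ E * (20 * (8 * d + 5) * g ^ 2) * (2 ^ lev a / bdry t n (pos a) i) := by
          gcongr
          exact hcnt.trans (mul_le_mul_of_nonneg_left hg2 (by positivity))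
      _ ≤ _ := by
          have : 0 ≤ (2 : ℝ) ^ lev a / bdry t n (pos a) i * g ^ 2 := by positivity
          linarith

include hJ in
/-- The pointwise recursion. -/
lemma supRay_succ_le (hA : 0 < A) (hκ : 0 < κ) (n : ℕ) (P : Fin d → ℤ) (x₀ : Euc d) {ρ : ℝ}
    (hρn : κ * 2 ^ n ≤ ρ) (z : Euc d) :
    supRay pos lev J A t Jm (n + 1) P x₀ ρ z ≤ top pos lev J t n P +
      Real.sqrt (∑ c ∈ below pos t (n + 1) P n, supRay pos lev J A t Jm n c x₀ ρ z ^ 2 +
        2 * ∑ a ∈ univ.filter (fun a => lev a ≤ n ∧ cell t (n + 1) (pos a) = P), J a *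
          ∑ σ ∈ farCells pos lev t n P a, (nearSet pos lev A κ t Jm x₀ ρ a σ).indicator
            (supRay pos lev J A t Jm (lev a) σ x₀ ρ) z) := by
  classical
  have hρ0 : 0 < ρ := lt_of_lt_of_le (by positivity) hρn
  set F : Finset ι := univ.filter fun a => lev a ≤ n ∧ cell t (n + 1) (pos a) = P with hF
  set SS := nearSet pos lev A κ t Jm x₀ ρ with hSS
  set others := farCells pos lev t n P with hothers
  refine Finset.sup'_le _ _ fun j hj => ?_
  set x := x₀ + (2 : ℝ) ^ j • (z - x₀) with hx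
  have hP2 : (1 : ℝ) ≤ 2 ^ j := one_le_pow₀ one_le_two
  have hjJ : j ≤ Jm := Nat.lt_succ_iff.1 (Finset.mem_range.1 hj)
  refine csSup_le ((Set.nonempty_Icc.2 (by positivity)).image _)
    (forall_mem_image.2 fun r hr => ?_)
  set f : ι → ℝ := fun a => J a * band pos lev A a x r with hf
  have hf0 : ∀ a, 0 ≤ f a := fun a => mul_nonneg (hJ a) (band_nonneg a x r)
  have hsplit : W pos lev J A t (n + 1) P x r ≤ top pos lev J t n P + ∑ a ∈ F, f a := by
    have e : nodes pos lev t (n + 1) P =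
        univ.filter (fun a => lev a = n + 1 ∧ cell t (n + 1) (pos a) = P) ∪ F := by
      ext a
      simp only [nodes, hF, Finset.mem_union, Finset.mem_filter, Finset.mem_univ, true_and]
      constructor
      · rintro ⟨h1, h2⟩
        rcases Nat.lt_or_ge n (lev a) with h | h
        · exact Or.inl ⟨by omega, h2⟩
        · exact Or.inr ⟨h, h2⟩
      · rintro (⟨h1, h2⟩ | ⟨h1, h2⟩) <;> exact ⟨by omega, h2⟩
    rw [W, e]
    refine (le_of_eq (sum_union ?_)).trans (add_le_add ?_ le_rfl)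
    · simp only [hF, Finset.disjoint_left, Finset.mem_filter, Finset.mem_univ, true_and]
      rintro a ⟨h1, -⟩ ⟨h2, -⟩
      omega
    · exact sum_le_sum fun a _ => mul_le_of_le_one_right (hJ a) (tent_le_one _)
  refine hsplit.trans (add_le_add le_rfl (Real.le_sqrt_of_sq_le ?_))
  have hdiag : ∑ a ∈ F, ∑ b ∈ F.filter (fun b => cell t n (pos b) = cell t n (pos a)),
      f a * f b ≤ ∑ c ∈ below pos t (n + 1) P n, supRay pos lev J A t Jm n c x₀ ρ z ^ 2 := by
    rw [← sum_fiberwise_of_maps_to (g := fun a => cell t n (pos a))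
      (t := below pos t (n + 1) P n) fun a ha => mem_below.2 ⟨a, (Finset.mem_filter.1 ha).2.2, rfl⟩]
    refine sum_le_sum fun c hc => ?_
    have e : F.filter (fun a => cell t n (pos a) = c) = nodes pos lev t n c := by
      ext a
      obtain ⟨b, hb1, hb2⟩ := mem_below.1 hc
      simp only [nodes, hF, Finset.mem_filter, Finset.mem_univ, true_and]
      exact ⟨fun ⟨⟨h1, _⟩, h3⟩ => ⟨h1, h3⟩, fun ⟨h1, h3⟩ =>
        ⟨⟨h1, by rw [cell_congr (Nat.le_succ n) (h3.trans hb2.symm), hb1]⟩, h3⟩⟩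
    rw [sum_congr rfl fun a ha => by rw [(Finset.mem_filter.1 ha).2, ← mul_sum, e],
      ← sum_mul, e, ← sq]
    exact pow_le_pow_left₀ (W_nonneg hJ n c x r)
      ((W_le_supW hJ n c x hr).trans (supW_le_supRay n c x₀ ρ z hjJ)) 2
  have hcross : ∀ a ∈ F,
      f a * ∑ b ∈ F.filter (fun b => cell t n (pos b) ≠ cell t n (pos a) ∧ lev b ≤ lev a), f b ≤
        J a * ∑ σ ∈ others a,
          (SS a σ).indicator (supRay pos lev J A t Jm (lev a) σ x₀ ρ) z := by
    intro a ha
    obtain ⟨hla, haP⟩ := (Finset.mem_filter.1 ha).2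
    rw [← sum_fiberwise_of_maps_to (g := fun b => cell t (lev a) (pos b)) (t := others a)]
    · rw [mul_sum, mul_sum]
      refine sum_le_sum fun σ hσ => ?_
      have hfib : ∑ b ∈ (F.filter fun b => cell t n (pos b) ≠ cell t n (pos a) ∧
          lev b ≤ lev a).filter (fun b => cell t (lev a) (pos b) = σ), f b ≤
          W pos lev J A t (lev a) σ x r := by
        refine sum_le_sum_of_subset_of_nonneg (fun b hb => ?_) fun b _ _ => hf0 b
        simp only [nodes, Finset.mem_filter, Finset.mem_univ, true_and] at hb ⊢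
        exact ⟨hb.1.2.2, hb.2⟩
      refine (mul_le_mul_of_nonneg_left hfib (hf0 a)).trans ?_
      show J a * band pos lev A a x r * _ ≤ _
      rw [mul_assoc]
      refine mul_le_mul_of_nonneg_left ?_ (hJ a)
      have hW0 := W_nonneg (A := A) (t := t) (pos := pos) (lev := lev) hJ (lev a) σ x r
      rcases eq_or_ne (band pos lev A a x r * W pos lev J A t (lev a) σ x r) 0 with h0 | h0
      · rw [h0]
        exact indicator_nonneg (fun y _ => supRay_nonneg hJ _ _ _ hρ0.le y) z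
      obtain ⟨hb0, hW⟩ := mul_ne_zero_iff.1 h0
      obtain ⟨b, hb, hbne⟩ := exists_ne_zero_of_sum_ne_zero hW
      obtain ⟨hbl, hbσ⟩ := (Finset.mem_filter.1 hb).2
      have h1 := lt_two_of_tent_ne_zero hb0
      have h2 := lt_two_of_tent_ne_zero (mul_ne_zero_iff.1 hbne).2
      rw [div_lt_iff₀ (by positivity)] at h1 h2
      have hhb : (2 : ℝ) ^ lev b ≤ 2 ^ lev a := pow_le_pow_right₀ one_le_two hbl
      have hhn : (2 : ℝ) ^ lev a ≤ ρ / κ := by
        rw [le_div_iff₀ hκ]
        refine le_trans ?_ hρn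
        rw [mul_comm]
        gcongr
        norm_num
      have h3 := norm_sub_cellCtr_le t (lev a) (pos b)
      rw [hbσ] at h3
      have h4 : |‖cellCtr t (lev a) σ - x‖ - ‖pos b - x‖| ≤ d * 2 ^ lev a := by
        refine (abs_norm_sub_norm_le _ _).trans ?_
        rw [sub_sub_sub_cancel_right, norm_sub_rev]
        exact h3
      have hmem : z ∈ SS a σ := by
        have e1 := abs_lt.1 h1
        have e2 := abs_lt.1 h2
        have e4 := abs_le.1 h4
        have hd0 : (0 : ℝ) ≤ d := Nat.cast_nonneg d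
        have eA : A * 2 ^ lev b ≤ A * 2 ^ lev a := mul_le_mul_of_nonneg_left hhb hA.le
        have eB : (6 * A + d) * 2 ^ lev a ≤ ρ * ((6 * A + d) / κ) := by
          refine (mul_le_mul_of_nonneg_left hhn (by positivity)).trans (le_of_eq ?_)
          ring
        have hAh : 0 ≤ A * 2 ^ lev a := by positivity
        have hdh : 0 ≤ (d : ℝ) * 2 ^ lev a := by positivity
        have eC : ρ * ((6 * A + d) / κ) ≤ 2 ^ j * (ρ * ((6 * A + d) / κ)) :=
          le_mul_of_one_le_left (by positivity) hP2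
        refine ⟨j, hj, ?_⟩
        rw [← hx]
        refine ⟨abs_le.2 ⟨?_, ?_⟩, ?_, ?_⟩ <;> linarith [hr.1, hr.2]
      rw [indicator_of_mem hmem]
      calc band pos lev A a x r * W pos lev J A t (lev a) σ x r
          ≤ 1 * W pos lev J A t (lev a) σ x r := by
            gcongr
            exact tent_le_one _
        _ ≤ _ := by rw [one_mul]; exact (W_le_supW hJ _ σ x hr).trans (supW_le_supRay _ σ x₀ ρ z hjJ)
    · intro b hb
      obtain ⟨hbF, hne, hlb⟩ := Finset.mem_filter.1 hb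
      obtain ⟨-, hbP⟩ := (Finset.mem_filter.1 hbF).2
      refine Finset.mem_filter.2 ⟨mem_below.2 ⟨b, hbP, rfl⟩, ?_⟩
      rwa [cell_congr hla (cell_cellCtr t (lev a) (cell t (lev a) (pos b)))]
  have hsq : (∑ a ∈ F, f a) ^ 2 ≤
      ∑ a ∈ F, ∑ b ∈ F.filter (fun b => cell t n (pos b) = cell t n (pos a)), f a * f b +
        2 * ∑ a ∈ F, f a *
          ∑ b ∈ F.filter (fun b => cell t n (pos b) ≠ cell t n (pos a) ∧ lev b ≤ lev a), f b := by
    rw [sq, sum_mul_sum]
    set G : ι → ι → ℝ := fun a b =>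
      if cell t n (pos b) ≠ cell t n (pos a) ∧ lev b ≤ lev a then f a * f b else 0 with hG
    have e2 : ∑ a ∈ F, f a * ∑ b ∈ F.filter
        (fun b => cell t n (pos b) ≠ cell t n (pos a) ∧ lev b ≤ lev a), f b =
        ∑ a ∈ F, ∑ b ∈ F, G a b := by
      simp only [hG, mul_sum, sum_filter]
      exact sum_congr rfl fun a _ => sum_congr rfl fun b _ => by split_ifs <;> simp
    rw [e2, two_mul]
    nth_rewrite 2 [sum_comm (f := fun a b => G a b)]
    simp only [sum_filter]
    rw [← sum_add_distrib, ← sum_add_distrib]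
    refine sum_le_sum fun a _ => ?_
    rw [← sum_add_distrib, ← sum_add_distrib]
    refine sum_le_sum fun b _ => ?_
    have h0 : 0 ≤ f a * f b := mul_nonneg (hf0 a) (hf0 b)
    have hG0 : ∀ a b, 0 ≤ G a b := fun a b => by
      simp only [hG]
      split_ifs <;> [exact mul_nonneg (hf0 a) (hf0 b); exact le_rfl]
    by_cases he : cell t n (pos b) = cell t n (pos a)
    · rw [if_pos he]
      linarith [hG0 a b, hG0 b a]
    · rw [if_neg he]
      rcases le_total (lev b) (lev a) with h | h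
      · have : G a b = f a * f b := if_pos ⟨he, h⟩
        linarith [hG0 b a]
      · have : G b a = f b * f a := if_pos ⟨Ne.symm he, h⟩
        linarith [hG0 a b, mul_comm (f a) (f b)]
  exact hsq.trans (add_le_add hdiag
    (mul_le_mul_of_nonneg_left (sum_le_sum hcross) two_pos.le))

include hJ in
/-- The `L²` recursion. -/
theorem T_succ_le (hd : 0 < d) (hA : 0 < A) (hκ : 0 < κ) (n : ℕ) (P : Fin d → ℤ) :
    T pos lev J A κ t Jm (n + 1) P ≤
      top pos lev J t n P +
        Real.sqrt (∑ c ∈ below pos t (n + 1) P n, T pos lev J A κ t Jm n c ^ 2) +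
        recConst d A κ * leak pos lev J t n P + incBelow pos lev J A κ t Jm n P / 10 := by
  classical
  set S := Real.sqrt (∑ c ∈ below pos t (n + 1) P n, T pos lev J A κ t Jm n c ^ 2) with hSdef
  set Cs := Real.sqrt (1 + slabConst d * (4 * A + d) * (1 + (6 * A + d) / κ) * (20 * (8 * d + 5)))
    with hCsdef
  have hS0 : 0 ≤ S := Real.sqrt_nonneg _
  have hL0 : 0 ≤ leak pos lev J t n P := leak_nonneg hJ n P
  have hY0 : 0 ≤ incBelow pos lev J A κ t Jm n P := incBelow_nonneg n P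
  have hK0 := recConst_nonneg d A κ
  have htop : 0 ≤ top pos lev J t n P := sum_nonneg fun a _ => hJ a
  refine Real.iSup_le ?_ (by positivity)
  rintro ⟨⟨ρ, x₀⟩, hρ : κ * 2 ^ (n + 1) ≤ ρ⟩
  have hρn : κ * 2 ^ n ≤ ρ := le_trans (by gcongr <;> norm_num) hρ
  have hρ0 : 0 < ρ := lt_of_lt_of_le (by positivity) hρn
  have := isProbabilityMeasure_ballProb x₀ hρ0
  set μ := ballProb x₀ ρ with hμ
  set F : Finset ι := univ.filter fun a => lev a ≤ n ∧ cell t (n + 1) (pos a) = P with hF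
  set SS := nearSet pos lev A κ t Jm x₀ ρ with hSS
  have hSSm : ∀ a σ, MeasurableSet (SS a σ) := fun a σ => measurableSet_nearSet x₀ ρ a σ
  set others := farCells pos lev t n P with hothers
  set Φ : Euc d → ℝ := fun x =>
    ∑ c ∈ below pos t (n + 1) P n, supRay pos lev J A t Jm n c x₀ ρ x ^ 2 +
      2 * ∑ a ∈ F, J a *
        ∑ σ ∈ others a, (SS a σ).indicator (supRay pos lev J A t Jm (lev a) σ x₀ ρ) x with hΦ
  have hpt : ∀ z, supRay pos lev J A t Jm (n + 1) P x₀ ρ z ≤
      top pos lev J t n P + Real.sqrt (Φ z) := supRay_succ_le hJ hA hκ n P x₀ hρn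
  have hind : ∀ a σ, Integrable ((SS a σ).indicator (supRay pos lev J A t Jm (lev a) σ x₀ ρ)) μ :=
    fun a σ => (integrable_supRay hJ _ σ x₀ hρ0.le _).indicator (hSSm a σ)
  have hiS : Integrable (fun x => ∑ c ∈ below pos t (n + 1) P n,
      supRay pos lev J A t Jm n c x₀ ρ x ^ 2) μ :=
    integrable_finsetSum _ fun c _ => integrable_supRay_sq hJ n c x₀ hρ0.le _
  have hiC : ∀ a ∈ F, Integrable (fun x => J a *
      ∑ σ ∈ others a, (SS a σ).indicator (supRay pos lev J A t Jm (lev a) σ x₀ ρ) x) μ :=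
    fun a _ => (integrable_finsetSum _ fun σ _ => hind a σ).const_mul _
  have hΦi : Integrable Φ μ := hiS.add ((integrable_finsetSum _ hiC).const_mul 2)
  have hΦ0 : ∀ x, 0 ≤ Φ x := fun x => add_nonneg (sum_nonneg fun c _ => sq_nonneg _)
    (mul_nonneg two_pos.le (sum_nonneg fun a _ => mul_nonneg (hJ a)
      (sum_nonneg fun σ _ => indicator_nonneg (fun y _ => supRay_nonneg hJ _ _ _ hρ0.le y) x)))
  have hQ : ∫ x, Φ x ∂μ ≤ (S + recConst d A κ * leak pos lev J t n P +
      incBelow pos lev J A κ t Jm n P / 10) ^ 2 := by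
    rw [hΦ, integral_add hiS ((integrable_finsetSum _ hiC).const_mul 2), integral_const_mul,
      integral_finsetSum _ fun c _ => integrable_supRay_sq hJ n c x₀ hρ0.le _, integral_finsetSum _ hiC]
    have h1 : ∑ c ∈ below pos t (n + 1) P n, ∫ x, supRay pos lev J A t Jm n c x₀ ρ x ^ 2 ∂μ ≤ S ^ 2 := by
      rw [hSdef, Real.sq_sqrt (sum_nonneg fun c _ => sq_nonneg _)]
      refine sum_le_sum fun c _ => ?_
      have h := le_T (pos := pos) (lev := lev) (A := A) (t := t) (Jm := Jm) hJ hκ n c x₀ hρn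
      rw [Real.sqrt_le_iff] at h
      exact h.2
    have hCs : 0 ≤ Cs := Real.sqrt_nonneg _
    have h2 : ∀ a ∈ F, ∫ x, J a *
          ∑ σ ∈ others a, (SS a σ).indicator (supRay pos lev J A t Jm (lev a) σ x₀ ρ) x ∂μ ≤
        Cs * (J a * (om t n (2 ^ lev a) (pos a) * (21 / 16) ^ (n - lev a))) *
          (∑ c ∈ below pos t (n + 1) P n, T pos lev J A κ t Jm n c +
            incBelow pos lev J A κ t Jm n P) := by
      intro a ha
      obtain ⟨hla, -⟩ := (Finset.mem_filter.1 ha).2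
      rw [integral_const_mul, integral_finsetSum _ fun σ _ => hind a σ]
      have hρl : κ * 2 ^ lev a ≤ ρ := le_trans (by gcongr; norm_num) hρn
      have hom := om_nonneg t n (2 ^ lev a) (pos a)
      have h54 : (1 : ℝ) ≤ (5 / 4) ^ (n - lev a) := one_le_pow₀ (by norm_num)
      have hstep : ∀ σ ∈ others a,
          ∫ x, (SS a σ).indicator (supRay pos lev J A t Jm (lev a) σ x₀ ρ) x ∂μ ≤
            Cs * (om t n (2 ^ lev a) (pos a) * (21 / 20) ^ (n - lev a)) *
              T pos lev J A κ t Jm (lev a) σ :=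
        fun σ hσ => integral_nearSet_le hJ hd hA hκ x₀ hρn hla (Finset.mem_filter.1 ha).2.2 hσ
      refine (mul_le_mul_of_nonneg_left ((sum_le_sum hstep).trans (le_of_eq
        (mul_sum _ _ _).symm)) (hJ a)).trans ?_
      have htel := sum_T_below_le (pos := pos) (lev := lev) (J := J) (A := A) (κ := κ) (t := t)
        (Jm := Jm)
        n P (n - lev a) (lev a) (by omega)
      have hsubσ : ∑ σ ∈ others a, T pos lev J A κ t Jm (lev a) σ ≤
          ∑ σ ∈ below pos t (n + 1) P (lev a), T pos lev J A κ t Jm (lev a) σ :=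
        sum_le_sum_of_subset_of_nonneg (Finset.filter_subset _ _) fun σ _ _ => T_nonneg _ σ
      have hinc : ∑ m ∈ Finset.Ico (lev a) n,
          ∑ N ∈ below pos t (n + 1) P (m + 1), inc pos lev J A κ t Jm m N ≤
          (5 / 4) ^ (n - lev a) * incBelow pos lev J A κ t Jm n P := by
        rw [incBelow, mul_sum]
        refine (sum_le_sum fun m hm => ?_).trans (sum_le_sum_of_subset_of_nonneg
          (fun m hm => Finset.mem_range.2 (Finset.mem_Ico.1 hm).2) fun m _ _ =>
            mul_nonneg (by positivity) (mul_nonneg (by positivity)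
              (sum_nonneg fun N _ => inc_nonneg _ _)))
        rw [← mul_assoc]
        refine le_mul_of_one_le_left (sum_nonneg fun N _ => inc_nonneg _ _) ?_
        obtain ⟨j, hj⟩ := Nat.exists_eq_add_of_le
          (by have := (Finset.mem_Ico.1 hm).1; omega : n - m ≤ n - lev a)
        rw [hj, pow_add, mul_right_comm, ← mul_pow]
        norm_num
        exact one_le_pow₀ (by norm_num)
      have hC0 : 0 ≤ ∑ c ∈ below pos t (n + 1) P n, T pos lev J A κ t Jm n c :=
        sum_nonneg fun c _ => T_nonneg _ c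
      calc J a * (Cs * (om t n (2 ^ lev a) (pos a) * (21 / 20) ^ (n - lev a)) *
            ∑ σ ∈ others a, T pos lev J A κ t Jm (lev a) σ)
          ≤ J a * (Cs * (om t n (2 ^ lev a) (pos a) * (21 / 20) ^ (n - lev a)) *
            ((5 / 4) ^ (n - lev a) * (∑ c ∈ below pos t (n + 1) P n, T pos lev J A κ t Jm n c +
              incBelow pos lev J A κ t Jm n P))) := by
            refine mul_le_mul_of_nonneg_left (mul_le_mul_of_nonneg_left ?_
              (mul_nonneg hCs (mul_nonneg hom (by positivity)))) (hJ a)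
            refine (hsubσ.trans htel).trans ?_
            rw [mul_add]
            exact add_le_add (le_mul_of_one_le_left hC0 h54) hinc
        _ = _ := by
            rw [show (21 / 16 : ℝ) = 21 / 20 * (5 / 4) by norm_num, mul_pow]
            ring
    have h3 : ∑ c ∈ below pos t (n + 1) P n, T pos lev J A κ t Jm n c ≤ Real.sqrt (2 ^ d) * S := by
      rw [hSdef, ← Real.sqrt_mul (by positivity)]
      refine Real.le_sqrt_of_sq_le ((sq_sum_le_card_mul_sum_sq).trans ?_)
      refine mul_le_mul_of_nonneg_right ?_ (sum_nonneg fun c _ => sq_nonneg _)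
      exact_mod_cast card_children_le (pos := pos) (t := t) n P
    have h4 : ∑ a ∈ F, ∫ x, J a *
        ∑ σ ∈ others a, (SS a σ).indicator (supRay pos lev J A t Jm (lev a) σ x₀ ρ) x ∂μ ≤
        Cs * leak pos lev J t n P * (Real.sqrt (2 ^ d) * S + incBelow pos lev J A κ t Jm n P) := by
      refine (sum_le_sum h2).trans ?_
      rw [← sum_mul, ← mul_sum]
      refine mul_le_mul_of_nonneg_left (by linarith) (mul_nonneg hCs hL0)
    set Y := incBelow pos lev J A κ t Jm n P with hYdef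
    set L := leak pos lev J t n P with hLdef
    have hK : recConst d A κ = Cs * (Real.sqrt (2 ^ d) + 10) := rfl
    have hD0 : 0 ≤ Real.sqrt ((2 : ℝ) ^ d) := Real.sqrt_nonneg _
    have := mul_nonneg (mul_nonneg hCs hL0) hS0
    have := mul_nonneg (mul_nonneg (mul_nonneg hCs hL0) hY0) hD0
    rw [hK]
    nlinarith [sq_nonneg (Cs * (Real.sqrt (2 ^ d) + 10) * L), sq_nonneg Y, mul_nonneg hS0 hY0]
  have hg : Integrable (fun x => Real.sqrt (Φ x)) μ := by
    refine Integrable.mono' ((integrable_const (1 : ℝ)).add hΦi)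
      (Real.continuous_sqrt.comp_aestronglyMeasurable hΦi.aestronglyMeasurable)
      (ae_of_all _ fun x => ?_)
    rw [Real.norm_eq_abs, abs_of_nonneg (Real.sqrt_nonneg _), Pi.add_apply, Real.sqrt_le_iff]
    exact ⟨by linarith [hΦ0 x], by nlinarith [hΦ0 x]⟩
  have hg2 : Integrable (fun x => Real.sqrt (Φ x) ^ 2) μ := by
    simpa only [Real.sq_sqrt (hΦ0 _)] using hΦi
  set U := S + recConst d A κ * leak pos lev J t n P + incBelow pos lev J A κ t Jm n P / 10
  have hU0 : 0 ≤ U := by positivity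
  have hmid : ∫ x, Real.sqrt (Φ x) ∂μ ≤ U := by
    refine (integral_le_sqrt hg hg2).trans ?_
    simp only [Real.sq_sqrt (hΦ0 _)]
    exact Real.sqrt_le_iff.2 ⟨hU0, hQ⟩
  show Real.sqrt (∫ x, supRay pos lev J A t Jm (n + 1) P x₀ ρ x ^ 2 ∂μ) ≤ _
  rw [show top pos lev J t n P + S + recConst d A κ * leak pos lev J t n P +
      incBelow pos lev J A κ t Jm n P / 10 = top pos lev J t n P + U by simp only [U]; ring]
  refine Real.sqrt_le_iff.2 ⟨by positivity, ?_⟩
  set L := top pos lev J t n P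
  refine (integral_mono (g := fun x => L ^ 2 + 2 * L * Real.sqrt (Φ x) + Φ x)
    (integrable_supRay_sq hJ _ P x₀ hρ0.le _)
    (((integrable_const _).add (hg.const_mul _)).add hΦi) fun x => ?_).trans ?_
  · refine (pow_le_pow_left₀ (supRay_nonneg hJ _ P x₀ hρ0.le x) (hpt x) 2).trans (le_of_eq ?_)
    rw [add_sq, Real.sq_sqrt (hΦ0 x)]
  · have hcL : Integrable (fun x => L ^ 2 + 2 * L * Real.sqrt (Φ x)) μ :=
      (integrable_const _).add (hg.const_mul _)
    rw [integral_add hcL hΦi, integral_add (integrable_const _) (hg.const_mul _),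
      integral_const_mul, integral_const, smul_eq_mul, probReal_univ, one_mul, add_sq]
    have := mul_le_mul_of_nonneg_left hmid (by positivity : 0 ≤ 2 * L)
    linarith

end Vale.Agent.P137.Centred
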