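import Vale.Agent.P137.Centred.Pointwise
import Vale.Agent.P137.Centred.Ray
import Vale.Agent.P137.Centred.SelCont

/-!
# P137, centred operator: selection and rays together

For every scale and cube one selected point is fixed; the weighted gaps seen from it and the polar
remainders add up to the total mass.
-/

open MeasureTheory Filter Set Metric
open scoped ENNReal NNReal Topology RealInnerProductSpace

noncomputable section

namespace Vale.Agent.P137.Centred

variable {d : ℕ}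

/-- The number of levels used at scale `k`. -/
def nLev (c k : ℕ) : ℕ := k - (c - 6)

lemma scaled_nLev {c : ℕ} (hc : 7 ≤ c) {s : ℝ} (hs : 0 < s) {k : ℕ} {r : ℝ}
    (hr : r ∈ Icc (stp s k) (2 * stp s k)) : Scaled s (2 ^ c) (stp s k) r (nLev c k) := by
  have h1 : s ≤ stp s k := le_mul_of_one_le_right hs.le (one_le_pow₀ one_le_two)
  refine ⟨hs, h1, hr, ?_, ?_⟩
  · rcases le_total (c - 6) k with h | h
    · have e : (2 : ℝ) ^ c * stp s (nLev c k) = 2 ^ 6 * stp s k := by
        rw [stp, stp, nLev, mul_left_comm, mul_left_comm ((2:ℝ) ^ 6), ← pow_add, ← pow_add]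
        congr 2; omega
      rw [e]; nlinarith [stp_pos hs k]
    · rw [nLev, Nat.sub_eq_zero_of_le h, stp_zero, stp]
      have : (2 : ℝ) ^ k * 2 ^ 6 ≤ 2 ^ c := by
        rw [← pow_add]; exact pow_le_pow_right₀ one_le_two (by omega)
      nlinarith [pow_pos (two_pos : (0:ℝ) < 2) k]
  · exact mul_le_mul_of_nonneg_left (pow_le_pow_right₀ one_le_two (Nat.sub_le _ _)) hs.le

/-- The cube of scale `k` and index `n`. -/
def cubeSet (s : ℝ) (p : ℕ × (Fin d → ℤ)) : Set (Euc d) :=
  {x | cubeIdx (stp s p.1) x = p.2}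

lemma zpow_add_nat (z : ℤ) (l : ℕ) : (2 : ℝ) ^ (z + l) = stp ((2 : ℝ) ^ z) l := by
  rw [stp, zpow_add₀ two_ne_zero, zpow_natCast]

lemma cubePt_eq_latPtZ (k : ℤ) (n : Fin d → ℤ) : cubePt ((2 : ℝ) ^ k) n = latPtZ k n := by
  ext i; simp [cubePt, latPtZ]

lemma cubeSet_subset (z : ℤ) (p : ℕ × (Fin d → ℤ)) {A : ℝ} (hA : (d : ℝ) ≤ A) :
    cubeSet ((2 : ℝ) ^ z) p ⊆ closedBall (latPtZ (z + p.1) p.2) (A * 2 ^ (z + p.1)) := by
  intro x hx
  have hpos : (0 : ℝ) < 2 ^ (z + (p.1 : ℤ)) := by positivity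
  have h := norm_sub_cubePt_le hpos x
  have hx' : cubeIdx ((2 : ℝ) ^ (z + (p.1 : ℤ))) x = p.2 := by rw [zpow_add_nat]; exact hx
  rw [hx', cubePt_eq_latPtZ] at h
  exact mem_closedBall_iff_norm.2 (h.trans (mul_le_mul_of_nonneg_right hA hpos.le))

lemma integral_comp_affine (q : Euc d) {R : ℝ} (hR : 0 < R) (g : Euc d → ℝ) :
    ∫ u, g (q + R • u) = (R ^ d)⁻¹ * ∫ x, g x := by
  rw [Measure.integral_comp_smul volume (fun x => g (q + x)) R, integral_add_left_eq_self,
    finrank_euclideanSpace_fin, abs_of_nonneg (by positivity), smul_eq_mul]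

lemma integrable_comp_affine {g : Euc d → ℝ} (hg : Integrable g) (q : Euc d) {R : ℝ} (hR : R ≠ 0) :
    Integrable fun u => g (q + R • u) :=
  (hg.comp_add_left q).comp_smul hR

/-- Shell masses at a given scale, as the selection lemma sees them. -/
lemma shell_le_select {v : Euc d → Euc d} (hv : Continuous v) (hvc : HasCompactSupport v) (z : ℤ)
    {Nt k N : ℕ} (hN : N ≤ k) (hk : k < Nt) {A A' : ℝ} (hA : A ≤ A') (q x : Euc d) (r : ℝ) :
    let L : Finset ℤ := (Finset.range Nt).image fun l : ℕ => z + (l : ℤ)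
    let J : ℤ → Euc d → ℝ := fun j => gap v ((2 : ℝ) ^ z) (j - z).toNat
    selMass v ((2 : ℝ) ^ z) A x r N q (stp ((2 : ℝ) ^ z) k) ≤
        ∑ j ∈ L.filter (fun j => j ≤ z + k), ∫ y in shell x r (A' * 2 ^ j),
          selWt q (2 ^ j) (2 ^ (z + (k : ℤ))) y * J j y ∧
      shellMass v ((2 : ℝ) ^ z) A x r N ≤
        ∑ j ∈ L.filter (fun j => j ≤ z + k), ∫ y in shell x r (A' * 2 ^ j), J j y := by
  intro L J
  set s : ℝ := 2 ^ z with hs_def
  have hs : 0 < s := by positivity
  have e : L.filter (fun j => j ≤ z + k) =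
      ((Finset.range Nt).filter fun l => l ≤ k).image fun l : ℕ => z + (l : ℤ) := by
    ext j
    simp only [L, Finset.mem_filter, Finset.mem_image, Finset.mem_range]
    constructor
    · rintro ⟨⟨l, hl, rfl⟩, h⟩; exact ⟨l, ⟨hl, by omega⟩, rfl⟩
    · rintro ⟨l, ⟨hl, h⟩, rfl⟩; exact ⟨⟨l, hl, rfl⟩, by omega⟩
  have hinj : ∀ a ∈ (Finset.range Nt).filter (fun l => l ≤ k),
      ∀ b ∈ (Finset.range Nt).filter (fun l => l ≤ k), z + (a : ℤ) = z + (b : ℤ) → a = b :=
    fun a _ b _ h => by omega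
  have hsub : Finset.range N ⊆ (Finset.range Nt).filter fun l => l ≤ k := fun l hl => by
    have := Finset.mem_range.1 hl
    exact Finset.mem_filter.2 ⟨Finset.mem_range.2 (by omega), by omega⟩
  have hJ : ∀ l : ℕ, J (z + l) = gap v s l := fun l => by simp [J, hs_def]
  have hsh : ∀ l : ℕ, shell x r (A * stp s l) ⊆ shell x r (A' * stp s l) := fun l y hy =>
    le_trans (show |‖y - x‖ - r| ≤ A * stp s l from hy)
      (mul_le_mul_of_nonneg_right hA (stp_pos hs l).le)
  rw [e, Finset.sum_image hinj, Finset.sum_image hinj]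
  refine ⟨(Finset.sum_le_sum fun l _ => ?_).trans (Finset.sum_le_sum_of_subset_of_nonneg hsub
    fun l _ _ => ?_), (Finset.sum_le_sum fun l _ => ?_).trans
    (Finset.sum_le_sum_of_subset_of_nonneg hsub fun l _ _ => ?_)⟩
  · rw [zpow_add_nat, zpow_add_nat, hJ]
    exact setIntegral_mono_set (integrableOn_gap_mul hv hvc l (continuous_selWt _ _ _) _)
      (ae_of_all _ fun y => mul_nonneg (selWt_nonneg _ _ _ y) (gap_nonneg hv l y))
      (hsh l).eventuallyLE
  · exact setIntegral_nonneg (measurableSet_shell _ _ _)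
      fun y _ => mul_nonneg (selWt_nonneg _ _ _ y) (by rw [hJ]; exact gap_nonneg hv l y)
  · rw [zpow_add_nat, hJ]
    exact setIntegral_mono_set (integrableOn_gap hv hvc l _)
      (ae_of_all _ fun y => gap_nonneg hv l y) (hsh l).eventuallyLE
  · exact setIntegral_nonneg (measurableSet_shell _ _ _)
      fun y _ => by rw [hJ]; exact gap_nonneg hv l y

/-- A crude finite bound for the polar mass, uniform in the centre. -/
lemma polMass_le_crude {v : Euc d → Euc d} (hv : Continuous v) (hvc : HasCompactSupport v)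
    {s C R r : ℝ} {N : ℕ} {x q : Euc d} (hC : 1 ≤ C) {C' : ℝ} (hS : Scaled s C' R r N)
    (hD : |‖x - q‖ - r| ≤ R) :
    polMass v s C x r N q R ≤
      10 * ((∫ y, ‖v y‖) + ∑ l ∈ Finset.range N, ∫ y, ‖hier v s l y‖) := by
  have hs := hS.hs
  have hR : 0 < R := lt_of_lt_of_le hs hS.hsR
  have hw : ∀ l, stp s l ≤ R → ∀ y ∈ ball x r,
      (‖y - q‖ + stp s l + |‖x - q‖ - r|) / R ≤ 10 := by
    intro l hl y hy
    rw [div_le_iff₀ hR]
    have h1 := (abs_le.1 hD).2
    linarith [norm_sub_le_norm_sub_add_norm_sub y x q, mem_ball_iff_norm.1 hy, hS.hr.2]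
  have hbd : ∀ (φ : Euc d → ℝ), BM φ → (∀ y, y ∉ ball x r → φ y = 0) → (∀ y, 0 ≤ φ y ∧ φ y ≤ 1) →
      ∀ l, stp s l ≤ R → ∀ g : Euc d → Euc d, Continuous g → HasCompactSupport g →
      ∫ y, φ y * ((‖y - q‖ + stp s l + |‖x - q‖ - r|) / R) * ‖g y‖ ≤ 10 * ∫ y, ‖g y‖ := by
    intro φ hφ hsupp h01 l hl g hg hgc
    rw [← integral_const_mul]
    refine integral_mono ?_ ((hg.norm.integrable_of_hasCompactSupport hgc.norm).const_mul 10) fun y => ?_
    · simp only [mul_assoc]
      exact hφ.integrable_mul hsupp (((by fun_prop : Continuous fun y =>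
        (‖y - q‖ + stp s l + |‖x - q‖ - r|) / R)).mul hg.norm).continuousOn
    · refine mul_le_mul_of_nonneg_right ?_ (norm_nonneg _)
      by_cases hy : y ∈ ball x r
      · have h0 : 0 ≤ (‖y - q‖ + stp s l + |‖x - q‖ - r|) / R :=
          div_nonneg (by have := stp_pos hs l; positivity) hR.le
        exact (mul_le_mul_of_nonneg_right (h01 y).2 h0).trans (by rw [one_mul]; exact hw l hl y hy)
      · rw [hsupp y hy, zero_mul]; norm_num
  rw [polMass, resInt, mul_add, Finset.mul_sum]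
  refine add_le_add (hbd _ bm_fin0 (fun y => fin0_eq_zero_of_notMem hs (by linarith))
    (fun y => ⟨fin0_nonneg hs (by linarith) y, (fin0_le_cut y).trans (cut_le_one y)⟩) 0
    (by rw [stp_zero]; exact hS.hsR) v hv hvc) (Finset.sum_le_sum fun l hl => ?_)
  refine hbd _ bm_incr (fun y => incr_eq_zero_of_notMem hs hC)
    (fun y => ⟨incr_nonneg hs hC l y, incr_le_one l y⟩) l ?_ _ (continuous_hier hv l)
    (hasCompactSupport_hier hvc l)
  exact le_trans (mul_le_mul_of_nonneg_left (pow_le_pow_right₀ one_le_two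
    (Finset.mem_range.1 hl).le) hs.le) hS.low

/-- Selection and rays: one point per scale and cube, with all weighted gaps and polar remainders
paid by the mass. `H` is any quantity which is dominated by the polar mass at some radius whenever
it does not vanish. -/
theorem exists_selected (hd : 0 < d) {c : ℕ} (hc : 7 ≤ c) {K₁ : ℝ} (hK₁ : 0 ≤ K₁) :
    ∃ C : ℝ, 0 ≤ C ∧ ∀ v : Euc d → Euc d, Continuous v → HasCompactSupport v →
      ∀ (z : ℤ) (Nt : ℕ) (P₀ : Finset (ℕ × (Fin d → ℤ))), (∀ p ∈ P₀, p.1 < Nt) →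
      ∀ H : ℕ × (Fin d → ℤ) → Euc d → (Euc d → ℝ) → Euc d → ℝ,
      (∀ p q g x, 0 ≤ H p q g x) →
      (∀ p q g, Continuous g → Measurable (H p q g)) →
      (∀ p ∈ P₀, ∀ q g, ∀ x ∈ cubeSet ((2 : ℝ) ^ z) p, H p q g x ≠ 0 →
        (∀ r ∈ Icc (stp ((2 : ℝ) ^ z) p.1) (2 * stp ((2 : ℝ) ^ z) p.1),
          selMass v ((2 : ℝ) ^ z) (2 * 2 ^ c) x r (nLev c p.1) q (stp ((2 : ℝ) ^ z) p.1) ≤ g x) →
        ∃ r ∈ Icc (stp ((2 : ℝ) ^ z) p.1) (2 * stp ((2 : ℝ) ^ z) p.1),
          |‖x - q‖ - r| ≤ 1 / 4 * stp ((2 : ℝ) ^ z) p.1 ∧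
          allMass v ((2 : ℝ) ^ z) (2 ^ c) x r (nLev c p.1) ≤
            K₁ * shellMass v ((2 : ℝ) ^ z) (2 * 2 ^ c) x r (nLev c p.1) ∧
          allMass v ((2 : ℝ) ^ z) (2 ^ c / 2) x r (nLev c p.1) ≤
            K₁ * shellMass v ((2 : ℝ) ^ z) (2 * 2 ^ c) x r (nLev c p.1) ∧
          H p q g x ≤ K₁ * polMass v ((2 : ℝ) ^ z) (2 ^ c) x r (nLev c p.1) q
            (stp ((2 : ℝ) ^ z) p.1)) →
      ∃ (ys : ℕ × (Fin d → ℤ) → Euc d) (G : ℕ × (Fin d → ℤ) → Euc d → ℝ),
        (∀ p, Continuous (G p) ∧ ∀ x, 0 ≤ G p x) ∧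
        (∀ p ∈ P₀, ∀ x ∈ cubeSet ((2 : ℝ) ^ z) p,
          ∀ r ∈ Icc (stp ((2 : ℝ) ^ z) p.1) (2 * stp ((2 : ℝ) ^ z) p.1),
          selMass v ((2 : ℝ) ^ z) (2 * 2 ^ c) x r (nLev c p.1) (ys p) (stp ((2 : ℝ) ^ z) p.1) ≤
            G p x) ∧
        (∀ p ∈ P₀, IntegrableOn (fun x => G p x + H p (ys p) (G p) x) (cubeSet ((2 : ℝ) ^ z) p)) ∧
        ∑ p ∈ P₀, (stp ((2 : ℝ) ^ z) p.1 ^ d)⁻¹ *
            ∫ x in cubeSet ((2 : ℝ) ^ z) p, (G p x + H p (ys p) (G p) x) ≤
          C * ∫ y, ‖v y‖ := by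
  classical
  set A' : ℝ := 2 * 2 ^ c + 2 + d with hA'
  have hd0 : (0 : ℝ) ≤ d := Nat.cast_nonneg d
  have h2c : (0 : ℝ) < 2 ^ c := by positivity
  obtain ⟨C₁, B, hC₁, hAB, hsel⟩ := selection_rays (A := A') hd (by linarith)
  obtain ⟨Kr, hKr, hray⟩ := exists_ray d c hc K₁ B
  set V : ℝ := A' ^ d * ballVol d with hV
  have hV0 : 0 < V := mul_pos (pow_pos (by linarith) d) ballVol_pos
  refine ⟨2 * ((1 + K₁ * Kr) * V + K₁ * Kr) * C₁, by positivity,
    fun v hv hvc z Nt P₀ hP₀ H hH0 hHm hHb => ?_⟩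
  set s : ℝ := (2 : ℝ) ^ z with hs_def
  have hs : 0 < s := by positivity
  set L : Finset ℤ := (Finset.range Nt).image fun l : ℕ => z + (l : ℤ) with hL
  set J : ℤ → Euc d → ℝ := fun j => gap v s (j - z).toNat with hJ
  set σ : ℕ × (Fin d → ℤ) → ℤ × (Fin d → ℤ) := fun p => (z + (p.1 : ℤ), p.2) with hσ
  have hσinj : Function.Injective σ := by
    intro p q h
    simp only [hσ, Prod.mk.injEq] at h
    exact Prod.ext (by omega) h.2
  obtain ⟨SH, good, ystar, G₀, Ms, S, hSH, hgood, hG, hS, hnear, hpt, hGsum, hSsum⟩ :=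
    hsel L J (fun l _ => ⟨Energy.gap_cont hv _, hasCompactSupport_gap hvc _,
      fun y => gap_nonneg hv _ y⟩) (P₀.image σ)
  have hJsum : ∑ l ∈ L, ∫ y, J l y ≤ ∫ y, ‖v y‖ := by
    rw [hL, Finset.sum_image fun a _ b _ h => by omega]
    refine le_trans (le_of_eq (Finset.sum_congr rfl fun l _ => ?_))
      (sum_integral_gapW_le (s := s) hv hvc (m := 1) (M := 1) le_rfl 0 Nt)
    simp [hJ, gap]
  have hR : ∀ p : ℕ × (Fin d → ℤ), 0 < stp s p.1 := fun p => stp_pos hs p.1
  have hsub : ∀ p, cubeSet s p ⊆ closedBall (latPtZ (σ p).1 (σ p).2) (A' * 2 ^ (σ p).1) :=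
    fun p => cubeSet_subset z p (by linarith)
  have hσpow : ∀ p : ℕ × (Fin d → ℤ), (2 : ℝ) ^ (σ p).1 = stp s p.1 := fun p => zpow_add_nat z p.1
  -- the two bounds of the selection lemma, at a point of a cube
  have hsel2 : ∀ p ∈ P₀, ∀ t ∈ good (σ p), ∀ x ∈ cubeSet s p,
      ∀ r ∈ Icc (stp s p.1) (2 * stp s p.1),
      selMass v s (2 * 2 ^ c) x r (nLev c p.1) (ystar t (σ p)) (stp s p.1) ≤ G₀ t (σ p) x ∧
      shellMass v s (2 * 2 ^ c) x r (nLev c p.1) ≤
        ∑ m ∈ Ms.filter (fun m => (2 : ℝ) ^ m ≤ B * stp s p.1 ∧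
          |‖x - ystar t (σ p)‖ - r| ≤ B * 2 ^ m),
          S t (ystar t (σ p)) m ((stp s p.1)⁻¹ • (x - ystar t (σ p))) := by
    intro p hp t ht x hx r hr
    obtain ⟨h1, h2⟩ := shell_le_select (A := 2 * 2 ^ c) (A' := A') hv hvc z (N := nLev c p.1)
      (k := p.1) (Nat.sub_le _ _) (hP₀ p hp) (by linarith) (ystar t (σ p)) x r
    obtain ⟨g1, g2⟩ := hpt (σ p) (Finset.mem_image_of_mem σ hp) t ht x (hsub p hx) r
      ⟨(hR p).le.trans hr.1, hr.2.trans (by rw [hσpow]; nlinarith [hR p])⟩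
    rw [hσpow] at g2
    exact ⟨h1.trans g1, h2.trans g2⟩
  -- the localised functions
  set F : (Fin d → ℕ) → ℕ × (Fin d → ℤ) → Euc d → ℝ := fun t p => (cubeSet s p).indicator
    fun x => G₀ t (σ p) x + H p (ystar t (σ p)) (G₀ t (σ p)) x with hF
  set FG : (Fin d → ℕ) → ℕ × (Fin d → ℤ) → Euc d → ℝ := fun t p =>
    (cubeSet s p).indicator (G₀ t (σ p)) with hFG
  have hcm : ∀ p, MeasurableSet (cubeSet (d := d) s p) := fun p => measurableSet_cube _ _
  have hF0 : ∀ t p x, 0 ≤ F t p x := fun t p x =>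
    indicator_nonneg (fun y _ => add_nonneg ((hG t (σ p)).2 y) (hH0 _ _ _ y)) x
  have hFGi : ∀ t p, Integrable (FG t p) := fun t p =>
    (integrable_indicator_iff (hcm p)).2 (((hG t (σ p)).1.continuousOn.integrableOn_compact
      (isCompact_closedBall _ _)).mono_set (hsub p))
  have hFi : ∀ p ∈ P₀, ∀ t ∈ good (σ p), Integrable (F t p) := by
    intro p hp t ht
    refine (integrable_indicator_iff (hcm p)).2 (Integrable.add
      (((hG t (σ p)).1.continuousOn.integrableOn_compact (isCompact_closedBall _ _)).mono_set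
        (hsub p)) ?_)
    set bd := K₁ * (10 * ((∫ y, ‖v y‖) + ∑ l ∈ Finset.range (nLev c p.1), ∫ y, ‖hier v s l y‖))
      with hbd
    refine IntegrableOn.of_bound (C := bd) ((measure_mono (hsub p)).trans_lt measure_closedBall_lt_top)
      (hHm p _ _ (hG t (σ p)).1).aestronglyMeasurable ?_
    filter_upwards [ae_restrict_mem (hcm p)] with x hx
    rw [Real.norm_eq_abs, abs_of_nonneg (hH0 _ _ _ _)]
    by_cases h0 : H p (ystar t (σ p)) (G₀ t (σ p)) x = 0
    · rw [h0, hbd]
      exact mul_nonneg hK₁ (mul_nonneg (by norm_num) (add_nonneg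
        (integral_nonneg fun y => norm_nonneg _)
        (Finset.sum_nonneg fun l _ => integral_nonneg fun y => norm_nonneg _)))
    · obtain ⟨r, hr, hD, -, -, hle⟩ := hHb p hp _ _ x hx h0 fun r hr => (hsel2 p hp t ht x hx r hr).1
      exact hle.trans (mul_le_mul_of_nonneg_left (polMass_le_crude hv hvc
        (one_le_pow₀ one_le_two) (scaled_nLev hc hs hr) (by linarith [hR p])) hK₁)
  -- one shift and one selected point
  have hone : ∀ (t : Fin d → ℕ) (Py : Finset (ℕ × (Fin d → ℤ))) (y : Euc d),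
      (∀ p ∈ Py, p ∈ P₀ ∧ t ∈ good (σ p) ∧ ystar t (σ p) = y) →
      ∑ p ∈ Py, (stp s p.1 ^ d)⁻¹ * ∫ x, F t p x ≤
        K₁ * Kr * (∑ m ∈ Ms, ∫ u in closedBall (0 : Euc d) (2 * B), S t y m u) +
          (1 + K₁ * Kr) * ∑ p ∈ Py, (stp s p.1 ^ d)⁻¹ * ∫ x, FG t p x := by
    intro t Py y hPy
    set U := closedBall (0 : Euc d) (2 * B) with hU
    have hpoint : ∀ u, ∑ p ∈ Py, F t p (y + stp s p.1 • u) ≤
        K₁ * Kr * U.indicator (fun u => ∑ m ∈ Ms, S t y m u) u +
          (1 + K₁ * Kr) * ∑ p ∈ Py, FG t p (y + stp s p.1 • u) := by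
      intro u
      set P' := Py.filter fun p => y + stp s p.1 • u ∈ cubeSet s p ∧
        H p (ystar t (σ p)) (G₀ t (σ p)) (y + stp s p.1 • u) ≠ 0 with hP'
      have hmem : ∀ p ∈ P', (p ∈ P₀ ∧ t ∈ good (σ p) ∧ ystar t (σ p) = y) ∧
          y + stp s p.1 • u ∈ cubeSet s p ∧
          H p y (G₀ t (σ p)) (y + stp s p.1 • u) ≠ 0 := fun p hp => by
        obtain ⟨h1, h2, h3⟩ := Finset.mem_filter.1 hp
        rw [(hPy p h1).2.2] at h3
        exact ⟨hPy p h1, h2, h3⟩
      have hsum : ∑ p ∈ P', H p y (G₀ t (σ p)) (y + stp s p.1 • u) ≤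
          K₁ * Kr * (U.indicator (fun u => ∑ m ∈ Ms, S t y m u) u +
            ∑ p ∈ P', G₀ t (σ p) (y + stp s p.1 • u)) := by
        rcases P'.eq_empty_or_nonempty with he | ⟨p₁, hp₁⟩
        · rw [he, Finset.sum_empty, Finset.sum_empty, add_zero]
          exact mul_nonneg (mul_nonneg hK₁ hKr)
            (indicator_nonneg (fun u _ => Finset.sum_nonneg fun m _ => (hS t y m).2 u) u)
        have hu : u ∈ U := by
          obtain ⟨⟨h0, ht, hys⟩, hcube, -⟩ := hmem p₁ hp₁
          have h1 := hnear (σ p₁) (Finset.mem_image_of_mem σ h0) t ht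
          rw [hys, hσpow] at h1
          have h2 := mem_closedBall_iff_norm.1 (cubeSet_subset z p₁ (le_refl (d : ℝ)) hcube)
          rw [zpow_add_nat] at h2
          rw [hU, mem_closedBall_zero_iff]
          have h3 : ‖stp s p₁.1 • u‖ ≤ (d + B) * stp s p₁.1 := by
            calc ‖stp s p₁.1 • u‖ = ‖(y + stp s p₁.1 • u - latPtZ (z + (p₁.1 : ℤ)) p₁.2) -
                  (y - latPtZ (σ p₁).1 (σ p₁).2)‖ := by simp [hσ]
              _ ≤ _ := (norm_sub_le _ _).trans (by rw [add_mul]; exact add_le_add h2 h1)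
          rw [norm_smul, Real.norm_of_nonneg (hR p₁).le, mul_comm] at h3
          have := le_of_mul_le_mul_right h3 (hR p₁)
          linarith
        have hinj : Set.InjOn (fun p : ℕ × (Fin d → ℤ) => z + (p.1 : ℤ)) P' := by
          intro p hp q hq h
          obtain ⟨-, hpc, -⟩ := hmem p hp
          obtain ⟨-, hqc, -⟩ := hmem q hq
          have h1 : p.1 = q.1 := by simp only at h; omega
          refine Prod.ext h1 ?_
          simp only [cubeSet, mem_ofPred_eq] at hpc hqc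
          rw [← hpc, ← hqc, h1]
        have hchoose : ∀ p ∈ P', ∃ r ∈ Icc (stp s p.1) (2 * stp s p.1),
            |‖(y + stp s p.1 • u) - y‖ - r| ≤ 1 / 4 * stp s p.1 ∧
            allMass v s (2 ^ c) (y + stp s p.1 • u) r (nLev c p.1) ≤
              K₁ * shellMass v s (2 * 2 ^ c) (y + stp s p.1 • u) r (nLev c p.1) ∧
            allMass v s (2 ^ c / 2) (y + stp s p.1 • u) r (nLev c p.1) ≤
              K₁ * shellMass v s (2 * 2 ^ c) (y + stp s p.1 • u) r (nLev c p.1) ∧
            H p y (G₀ t (σ p)) (y + stp s p.1 • u) ≤ K₁ * polMass v s (2 ^ c)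
              (y + stp s p.1 • u) r (nLev c p.1) y (stp s p.1) := by
          intro p hp
          obtain ⟨⟨h0, ht, hys⟩, hcube, hne⟩ := hmem p hp
          refine hHb p h0 y _ _ hcube hne fun r hr => ?_
          have := (hsel2 p h0 t ht _ hcube r hr).1
          rwa [hys] at this
        choose! rr hrr hD hE1 hE2 hle using hchoose
        set T := P'.image fun p => z + (p.1 : ℤ) with hT
        set ρ : ℤ → ℝ := fun k => ∑ p ∈ P'.filter (fun p => z + (p.1 : ℤ) = k), rr p with hρ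
        have hρp : ∀ p ∈ P', ρ (z + (p.1 : ℤ)) = rr p := by
          intro p hp
          simp only [hρ]
          refine Finset.sum_eq_single_of_mem p (Finset.mem_filter.2 ⟨hp, rfl⟩) fun q hq hne => ?_
          obtain ⟨hq1, hq2⟩ := Finset.mem_filter.1 hq
          exact absurd (hinj hq1 hp hq2) hne
        have hk : ∀ p : ℕ × (Fin d → ℤ), (2 : ℝ) ^ (z + (p.1 : ℤ)) = stp s p.1 :=
          fun p => zpow_add_nat z p.1
        have hkN : ∀ p : ℕ × (Fin d → ℤ), nLev c (z + (p.1 : ℤ) - z).toNat = nLev c p.1 :=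
          fun p => by rw [show (z + (p.1 : ℤ) - z).toNat = p.1 by omega]
        have hr := hray v hv hvc s y u ρ (fun k => nLev c (k - z).toNat) T Ms (S t y · u)
          (fun m _ => (hS t y m).2 u) ?_ ?_ ?_
        · rw [hT, Finset.sum_image hinj, Finset.sum_image hinj] at hr
          rw [indicator_of_mem hu, mul_assoc]
          calc ∑ p ∈ P', H p y (G₀ t (σ p)) (y + stp s p.1 • u)
              ≤ K₁ * ∑ p ∈ P', polMass v s (2 ^ c) (y + stp s p.1 • u) (rr p) (nLev c p.1) y
                  (stp s p.1) := by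
                rw [Finset.mul_sum]; exact Finset.sum_le_sum hle
            _ ≤ K₁ * (Kr * ((∑ m ∈ Ms, S t y m u) + ∑ p ∈ P', selMass v s (2 * 2 ^ c)
                  (y + stp s p.1 • u) (rr p) (nLev c p.1) y (stp s p.1))) := by
                refine mul_le_mul_of_nonneg_left (le_of_eq_of_le ?_ (hr.trans_eq ?_)) hK₁
                · exact Finset.sum_congr rfl fun p hp => by rw [hk, hkN, hρp p hp]
                · congr 2
                  exact Finset.sum_congr rfl fun p hp => by rw [hk, hkN, hρp p hp]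
            _ ≤ _ := by
                refine mul_le_mul_of_nonneg_left (mul_le_mul_of_nonneg_left (add_le_add le_rfl
                  (Finset.sum_le_sum fun p hp => ?_)) hKr) hK₁
                obtain ⟨⟨h0, ht, hys⟩, hcube, -⟩ := hmem p hp
                have := (hsel2 p h0 t ht _ hcube (rr p) (hrr p hp)).1
                rwa [hys] at this
        · intro k hk'
          obtain ⟨p, hp, rfl⟩ := Finset.mem_image.1 hk'
          rw [hk, hkN, hρp p hp]
          exact scaled_nLev hc hs (hrr p hp)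
        · intro k _ k' _ hkk
          simp only [nLev]
          omega
        · intro k hk'
          obtain ⟨p, hp, rfl⟩ := Finset.mem_image.1 hk'
          obtain ⟨⟨h0, ht, hys⟩, hcube, -⟩ := hmem p hp
          simp only [hk, hkN, hρp p hp]
          refine ⟨hD p hp, hE1 p hp, hE2 p hp, ?_⟩
          have h2 := (hsel2 p h0 t ht _ hcube (rr p) (hrr p hp)).2
          rw [hys, add_sub_cancel_left, smul_smul, inv_mul_cancel₀ (hR p).ne', one_smul] at h2
          rwa [add_sub_cancel_left]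
      have hGP : ∑ p ∈ P', G₀ t (σ p) (y + stp s p.1 • u) ≤
          ∑ p ∈ Py, FG t p (y + stp s p.1 • u) := by
        refine le_of_eq_of_le (Finset.sum_congr rfl fun p hp => ?_)
          (Finset.sum_le_sum_of_subset_of_nonneg (Finset.filter_subset _ _) fun p _ _ =>
            indicator_nonneg (fun w _ => (hG t (σ p)).2 w) _)
        simp only [hFG]
        rw [indicator_of_mem (hmem p hp).2.1]
      have hFeq : ∑ p ∈ Py, F t p (y + stp s p.1 • u) =
          (∑ p ∈ Py, FG t p (y + stp s p.1 • u)) +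
            ∑ p ∈ P', H p y (G₀ t (σ p)) (y + stp s p.1 • u) := by
        rw [hP', Finset.sum_filter, ← Finset.sum_add_distrib]
        refine Finset.sum_congr rfl fun p hp => ?_
        simp only [hF, hFG]
        rw [(hPy p hp).2.2]
        by_cases hc1 : y + stp s p.1 • u ∈ cubeSet s p
        · rw [indicator_of_mem hc1, indicator_of_mem hc1]
          by_cases h0 : H p y (G₀ t (σ p)) (y + stp s p.1 • u) = 0
          · rw [if_neg fun h => h.2 h0, h0]
          · rw [if_pos ⟨hc1, h0⟩]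
        · rw [indicator_of_notMem hc1, indicator_of_notMem hc1, if_neg fun h => hc1 h.1, add_zero]
      rw [hFeq]
      have := mul_le_mul_of_nonneg_left hGP (mul_nonneg hK₁ hKr)
      linarith
    have hUi : Integrable (U.indicator fun u => ∑ m ∈ Ms, S t y m u) :=
      (integrable_indicator_iff measurableSet_closedBall).2
        ((continuous_finsetSum _ fun m _ => (hS t y m).1).continuousOn.integrableOn_compact
          (isCompact_closedBall _ _))
    have i1 : ∀ p ∈ Py, Integrable fun u => F t p (y + stp s p.1 • u) := fun p hp =>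
      integrable_comp_affine (hFi p (hPy p hp).1 t (hPy p hp).2.1) y (hR p).ne'
    have i2 : ∀ p ∈ Py, Integrable fun u => FG t p (y + stp s p.1 • u) := fun p _ =>
      integrable_comp_affine (hFGi t p) y (hR p).ne'
    have h := integral_mono (integrable_finsetSum _ i1)
      ((hUi.const_mul _).add ((integrable_finsetSum _ i2).const_mul _)) hpoint
    rw [integral_finsetSum _ i1] at h
    simp only [Pi.add_apply] at h
    rw [integral_add (hUi.const_mul _) ((integrable_finsetSum _ i2).const_mul _),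
      integral_const_mul, integral_const_mul, integral_finsetSum _ i2,
      integral_indicator measurableSet_closedBall,
      integral_finsetSum _ fun m _ => (hS t y m).1.continuousOn.integrableOn_compact
        (isCompact_closedBall _ _)] at h
    simpa only [integral_comp_affine y (hR _)] using h
  -- averaging over the shifts
  set a : (Fin d → ℕ) → ℕ × (Fin d → ℤ) → ℝ := fun t p => (stp s p.1 ^ d)⁻¹ * ∫ x, F t p x with ha
  have ha0 : ∀ t p, 0 ≤ a t p := fun t p =>
    mul_nonneg (inv_nonneg.2 (pow_nonneg (hR p).le d)) (integral_nonneg (hF0 t p))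
  have hG' : ∀ t p, (stp s p.1 ^ d)⁻¹ * ∫ x, FG t p x ≤
      V * ⨍ x in closedBall (latPtZ (σ p).1 (σ p).2) (A' * 2 ^ (σ p).1), G₀ t (σ p) x := by
    intro t p
    haveI : Nontrivial (Euc d) := Module.nontrivial_of_finrank_pos (R := ℝ) (by simpa using hd)
    simp only [hFG]
    rw [integral_indicator (hcm p), setAverage_eq, measureReal_def, smul_eq_mul, hσpow,
      Measure.addHaar_closedBall_eq_addHaar_ball, volume_ball_toReal _ (mul_pos (by linarith) (hR p))]
    rw [hV, mul_pow]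
    have hp0 := pow_pos (hR p) d
    have hA'0 : 0 < A' ^ d := pow_pos (by linarith) d
    have hb := ballVol_pos (d := d)
    rw [show A' ^ d * ballVol d * ((A' ^ d * stp s p.1 ^ d * ballVol d)⁻¹ *
      ∫ x in closedBall (latPtZ (σ p).1 (σ p).2) (A' * stp s p.1), G₀ t (σ p) x) =
      (stp s p.1 ^ d)⁻¹ * ∫ x in closedBall (latPtZ (σ p).1 (σ p).2) (A' * stp s p.1), G₀ t (σ p) x
      by field_simp]
    refine mul_le_mul_of_nonneg_left (setIntegral_mono_set
      ((hG t (σ p)).1.continuousOn.integrableOn_compact (isCompact_closedBall _ _))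
      (ae_of_all _ (hG t (σ p)).2) ?_) (by positivity)
    have := hsub p
    rw [hσpow] at this
    exact this.eventuallyLE
  have hall : ∑ t ∈ SH, ∑ p ∈ P₀.filter (fun p => t ∈ good (σ p)), a t p ≤
      ((1 + K₁ * Kr) * V + K₁ * Kr) * C₁ * SH.card * ∫ y, ‖v y‖ := by
    set Y : (Fin d → ℕ) → Finset (Euc d) := fun t =>
      (P₀.filter fun p => t ∈ good (σ p)).image fun p => ystar t (σ p) with hY
    have hstep : ∀ t ∈ SH, ∑ p ∈ P₀.filter (fun p => t ∈ good (σ p)), a t p ≤
        K₁ * Kr * (∑ y ∈ Y t, ∑ m ∈ Ms, ∫ u in closedBall (0 : Euc d) (2 * B), S t y m u) +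
          (1 + K₁ * Kr) * (V * ∑ p ∈ P₀.filter (fun p => t ∈ good (σ p)),
            ⨍ x in closedBall (latPtZ (σ p).1 (σ p).2) (A' * 2 ^ (σ p).1), G₀ t (σ p) x) := by
      intro t _
      rw [← Finset.sum_fiberwise_of_maps_to (g := fun p => ystar t (σ p)) (t := Y t)
        (f := fun p => a t p) fun p hp => Finset.mem_image_of_mem _ hp]
      refine (Finset.sum_le_sum fun y _ => hone t _ y fun p hp => ?_).trans ?_
      · obtain ⟨h1, h2⟩ := Finset.mem_filter.1 hp
        exact ⟨(Finset.mem_filter.1 h1).1, (Finset.mem_filter.1 h1).2, h2⟩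
      rw [Finset.sum_add_distrib, ← Finset.mul_sum, ← Finset.mul_sum,
        Finset.sum_fiberwise_of_maps_to (g := fun p => ystar t (σ p)) (t := Y t)
          (f := fun p => (stp s p.1 ^ d)⁻¹ * ∫ x, FG t p x) fun p hp => Finset.mem_image_of_mem _ hp]
      refine add_le_add le_rfl (mul_le_mul_of_nonneg_left ?_ (by positivity))
      rw [Finset.mul_sum]
      exact Finset.sum_le_sum fun p _ => hG' t p
    refine (Finset.sum_le_sum hstep).trans ?_
    rw [Finset.sum_add_distrib, ← Finset.mul_sum, ← Finset.mul_sum, ← Finset.mul_sum]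
    have hS' := (hSsum Y).trans
      (mul_le_mul_of_nonneg_left hJsum (mul_nonneg hC₁ (Nat.cast_nonneg SH.card)))
    have hGs : ∑ t ∈ SH, ∑ p ∈ P₀.filter (fun p => t ∈ good (σ p)),
        ⨍ x in closedBall (latPtZ (σ p).1 (σ p).2) (A' * 2 ^ (σ p).1), G₀ t (σ p) x ≤
        C₁ * SH.card * ∫ y, ‖v y‖ := by
      refine le_trans (le_of_eq (Finset.sum_congr rfl fun t _ => ?_))
        (hGsum.trans (mul_le_mul_of_nonneg_left hJsum (mul_nonneg hC₁ (Nat.cast_nonneg SH.card))))
      rw [Finset.filter_image, Finset.sum_image fun p _ q _ h => hσinj h]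
    have e1 := mul_le_mul_of_nonneg_left hS' (mul_nonneg hK₁ hKr)
    have e2 := mul_le_mul_of_nonneg_left (mul_le_mul_of_nonneg_left hGs hV0.le)
      (show 0 ≤ 1 + K₁ * Kr by positivity)
    linarith
  have hchoice : ∀ p ∈ P₀, ∃ t ∈ good (σ p), ∀ t' ∈ good (σ p), a t p ≤ a t' p := by
    intro p hp
    refine Finset.exists_min_image _ _ (Finset.card_pos.1 ?_)
    have := (hgood (σ p) (Finset.mem_image_of_mem σ hp)).2
    have := hSH.card_pos
    omega
  choose! ts hts htmin using hchoice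
  refine ⟨fun p => ystar (ts p) (σ p), fun p => G₀ (ts p) (σ p), fun p => hG _ _,
    fun p hp x hx r hr => (hsel2 p hp (ts p) (hts p hp) x hx r hr).1,
    fun p hp => (integrable_indicator_iff (hcm p)).1 (hFi p hp (ts p) (hts p hp)), ?_⟩
  have key : (SH.card : ℝ) * ∑ p ∈ P₀, a (ts p) p ≤
      2 * ∑ t ∈ SH, ∑ p ∈ P₀.filter (fun p => t ∈ good (σ p)), a t p := by
    have e : ∑ t ∈ SH, ∑ p ∈ P₀.filter (fun p => t ∈ good (σ p)), a t p =
        ∑ p ∈ P₀, ∑ t ∈ good (σ p), a t p := by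
      refine Finset.sum_comm' fun t p => ?_
      simp only [Finset.mem_filter]
      constructor
      · rintro ⟨-, hp, ht⟩; exact ⟨ht, hp⟩
      · rintro ⟨ht, hp⟩; exact ⟨(hgood (σ p) (Finset.mem_image_of_mem σ hp)).1 ht, hp, ht⟩
    rw [e, Finset.mul_sum, Finset.mul_sum]
    refine Finset.sum_le_sum fun p hp => ?_
    have hc2 : (SH.card : ℝ) ≤ 2 * (good (σ p)).card := by
      exact_mod_cast (hgood (σ p) (Finset.mem_image_of_mem σ hp)).2
    refine (mul_le_mul_of_nonneg_right hc2 (ha0 _ _)).trans ?_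
    rw [mul_assoc]
    refine mul_le_mul_of_nonneg_left ?_ zero_le_two
    rw [← nsmul_eq_mul]
    exact Finset.card_nsmul_le_sum _ _ _ (htmin p hp)
  have hcard : (0 : ℝ) < SH.card := Nat.cast_pos.2 hSH.card_pos
  refine le_of_mul_le_mul_left ((le_of_eq ?_).trans (key.trans ?_)) hcard
  · simp only [ha, hF, integral_indicator (hcm _)]
  · linarith [mul_le_mul_of_nonneg_left hall (zero_le_two (α := ℝ))]

end Vale.Agent.P137.Centred
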