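import Vale.Agent.P137.Centred.SelTree

/-!
# P137, centred operator: the selected point and the weighted shell sums

For every grid and cell, `star` is the end of the chain of best children. The shell sums weighted by
`(min 1 ((|y - star| + 2 ^ lev) / 2 ^ k)) ^ (1 / 2)` are dominated by `dom`, whose averages add up
over all scales to the total of the weights and of what the children other than the best carry.
-/

open MeasureTheory Filter Set Metric Finset
open scoped ENNReal Topology RealInnerProductSpace Pointwise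

noncomputable section

namespace Vale.Agent.P137.Centred

variable {d : ℕ} {ι : Type*} [Fintype ι] (pos : ι → Euc d) (lev : ι → ℕ) (J : ι → ℝ) (A κ : ℝ)
  (t : Fin d → ℕ) (Jm : ℕ)

/-- The root of the ratio of the scales, capped at one. -/
def wt (m k : ℕ) : ℝ := Real.sqrt (min 1 (2 ^ m / 2 ^ k))

lemma wt_nonneg (m k : ℕ) : 0 ≤ wt m k := Real.sqrt_nonneg _

/-- A child with the largest value of `T`. -/
def best (n : ℕ) (P : Fin d → ℤ) : Fin d → ℤ :=
  if h : (below pos t (n + 1) P n).Nonempty then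
    (exists_max_image _ (fun c => T pos lev J A κ t Jm n c) h).choose
  else 0

/-- The selected point of a cell: the end of the chain of best children. -/
def star : ℕ → (Fin d → ℤ) → Euc d
  | 0, P => cellCtr t 0 P
  | n + 1, P => star n (best pos lev J A κ t Jm n P)

/-- What the children other than the best one carry. -/
def rest (n : ℕ) (P : Fin d → ℤ) : ℝ :=
  ∑ c ∈ (below pos t (n + 1) P n).erase (best pos lev J A κ t Jm n P), T pos lev J A κ t Jm n c

/-- The weighted mass of the nodes below scale `2 ^ k` in a cell. -/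
def geo (k n : ℕ) (P : Fin d → ℤ) : ℝ :=
  ∑ a ∈ univ.filter (fun a => cell t n (pos a) = P ∧ lev a ≤ k), J a * wt (lev a) k

/-- The function dominating the weighted shell sums. -/
def dom (k n : ℕ) (P : Fin d → ℤ) (ρ : ℝ) (x : Euc d) : ℝ :=
  (4 * d + 1) * (geo pos lev J t k n P + ∑ m ∈ range n, wt m k *
    ∑ N ∈ below pos t n P (m + 1),
      ∑ c ∈ (below pos t (m + 1) N m).erase (best pos lev J A κ t Jm m N),
        supW pos lev J A t m c ρ x)

/-- The bound for its average. -/
def bound (k n : ℕ) (P : Fin d → ℤ) : ℝ :=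
  (4 * d + 1) * (geo pos lev J t k n P + ∑ m ∈ range n, wt m k *
    ∑ N ∈ below pos t n P (m + 1), rest pos lev J A κ t Jm m N)

variable {pos lev J A κ t Jm}

lemma best_mem {n : ℕ} {P : Fin d → ℤ} (h : (below pos t (n + 1) P n).Nonempty) :
    best pos lev J A κ t Jm n P ∈ below pos t (n + 1) P n ∧
      ∀ c ∈ below pos t (n + 1) P n,
        T pos lev J A κ t Jm n c ≤ T pos lev J A κ t Jm n (best pos lev J A κ t Jm n P) := by
  rw [best, dif_pos h]
  exact (exists_max_image _ _ h).choose_spec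

lemma children_nonempty {n : ℕ} {P : Fin d → ℤ} (hP : P ∈ cells pos t (n + 1)) :
    (below pos t (n + 1) P n).Nonempty := by
  obtain ⟨a, ha⟩ := mem_cells.1 hP
  exact ⟨_, mem_below.2 ⟨a, ha, rfl⟩⟩

lemma cell_star : ∀ (n : ℕ) {P : Fin d → ℤ}, P ∈ cells pos t n →
    cell t n (star pos lev J A κ t Jm n P) = P
  | 0, P, _ => cell_cellCtr t 0 P
  | n + 1, P, hP => by
    have hb := (best_mem (J := J) (A := A) (κ := κ) (Jm := Jm) (lev := lev) (children_nonempty hP)).1
    have h := cell_star n (below_subset_cells P hb)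
    obtain ⟨a, ha1, ha2⟩ := mem_below.1 hb
    rw [star, cell_congr (Nat.le_succ n) (h.trans ha2.symm), ha1]

omit [Fintype ι] in
lemma norm_sub_le_of_cell_eq {n : ℕ} {y z : Euc d} (h : cell t n y = cell t n z) :
    ‖y - z‖ ≤ 2 * d * 2 ^ n := by
  have h1 := norm_sub_cellCtr_le t n y
  have h2 := norm_sub_cellCtr_le t n z
  rw [← h] at h2
  calc ‖y - z‖ ≤ ‖y - cellCtr t n (cell t n y)‖ + ‖z - cellCtr t n (cell t n y)‖ := by
        refine le_trans (le_of_eq ?_) (norm_sub_le _ _)
        rw [sub_sub_sub_cancel_right]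
    _ ≤ _ := by linarith

variable (hJ : ∀ a, 0 ≤ J a)

include hJ in
lemma geo_nonneg (k n : ℕ) (P : Fin d → ℤ) : 0 ≤ geo pos lev J t k n P :=
  sum_nonneg fun a _ => mul_nonneg (hJ a) (wt_nonneg _ _)

include hJ in
lemma dom_nonneg (k n : ℕ) (P : Fin d → ℤ) {ρ : ℝ} (hρ : 0 ≤ ρ) (x : Euc d) :
    0 ≤ dom pos lev J A κ t Jm k n P ρ x :=
  mul_nonneg (by positivity) (add_nonneg (geo_nonneg hJ k n P) (sum_nonneg fun m _ =>
    mul_nonneg (wt_nonneg _ _) (sum_nonneg fun N _ => sum_nonneg fun c _ =>
      supW_nonneg hJ m c hρ x)))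

lemma continuous_dom (k n : ℕ) (P : Fin d → ℤ) (ρ : ℝ) :
    Continuous (dom pos lev J A κ t Jm k n P ρ) :=
  continuous_const.mul (continuous_const.add (continuous_finsetSum _ fun m _ =>
    continuous_const.mul (continuous_finsetSum _ fun _ _ => continuous_finsetSum _ fun c _ =>
      continuous_supW m c ρ)))

omit [Fintype ι] in
lemma sqrt_min_le {z : ℝ} {C : ℝ} (hC : 1 ≤ C) {m k : ℕ} (hz : z ≤ C * 2 ^ m) :
    Real.sqrt (min 1 (z / 2 ^ k)) ≤ C * wt m k := by
  refine Real.sqrt_le_iff.2 ⟨mul_nonneg (by linarith) (wt_nonneg _ _), ?_⟩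
  rw [mul_pow, wt, Real.sq_sqrt (le_min zero_le_one (by positivity))]
  have hC2 : C ≤ C ^ 2 := le_self_pow₀ hC two_ne_zero
  refine le_trans ?_ (mul_le_mul_of_nonneg_right hC2 (le_min zero_le_one (by positivity)))
  rw [mul_min_of_nonneg _ _ (by linarith), mul_one, ← mul_div_assoc]
  exact min_le_min hC (by gcongr)

include hJ in
/-- Shell sums weighted by the distance to the selected point. -/
theorem weighted_le_dom (k : ℕ) {ρ r : ℝ} (hr : r ∈ Icc 0 ρ) (x : Euc d) :
    ∀ n : ℕ, ∀ P ∈ cells pos t n,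
      ∑ a ∈ univ.filter (fun a => cell t n (pos a) = P ∧ lev a ≤ k),
        J a * band pos lev A a x r *
          Real.sqrt (min 1 ((‖pos a - star pos lev J A κ t Jm n P‖ + 2 ^ lev a) / 2 ^ k)) ≤
      dom pos lev J A κ t Jm k n P ρ x
  | 0, P, hP => by
    rw [dom, range_zero, sum_empty, add_zero, geo, mul_sum]
    refine sum_le_sum fun a ha => ?_
    have h := norm_sub_le_of_cell_eq ((Finset.mem_filter.1 ha).2.1.trans
      (cell_star (lev := lev) (J := J) (A := A) (κ := κ) (Jm := Jm) 0 hP).symm)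
    have h1 : (1 : ℝ) ≤ 2 ^ lev a := one_le_pow₀ one_le_two
    have hd0 : (0 : ℝ) ≤ d := Nat.cast_nonneg d
    calc J a * band pos lev A a x r *
          Real.sqrt (min 1 ((‖pos a - star pos lev J A κ t Jm 0 P‖ + 2 ^ lev a) / 2 ^ k))
        ≤ J a * 1 * ((4 * d + 1) * wt (lev a) k) := by
          refine mul_le_mul (mul_le_mul_of_nonneg_left (tent_le_one _) (hJ a))
            (sqrt_min_le (by linarith) (by nlinarith)) (Real.sqrt_nonneg _)
            (mul_nonneg (hJ a) zero_le_one)
      _ = _ := by ring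
  | n + 1, P, hP => by
    classical
    have hb := (best_mem (J := J) (A := A) (κ := κ) (Jm := Jm) (lev := lev) (children_nonempty hP)).1
    set b := best pos lev J A κ t Jm n P with hbdef
    have ih := weighted_le_dom k hr x n b (below_subset_cells P hb)
    have hbP : ∀ y, cell t n y = b → cell t (n + 1) y = P := by
      intro y hy
      obtain ⟨a, ha1, ha2⟩ := mem_below.1 hb
      rw [cell_congr (Nat.le_succ n) (hy.trans ha2.symm), ha1]
    set F := univ.filter (fun a => cell t (n + 1) (pos a) = P ∧ lev a ≤ k) with hF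
    have eF : F.filter (fun a => cell t n (pos a) = b) =
        univ.filter (fun a => cell t n (pos a) = b ∧ lev a ≤ k) := by
      ext a
      simp only [hF, Finset.mem_filter, Finset.mem_univ, true_and]
      exact ⟨fun ⟨⟨_, h2⟩, h3⟩ => ⟨h3, h2⟩, fun ⟨h3, h2⟩ => ⟨⟨hbP _ h3, h2⟩, h3⟩⟩
    rw [← sum_filter_add_sum_filter_not F (fun a => cell t n (pos a) = b), eF]
    set ω : ι → ℝ := fun a =>
      Real.sqrt (min 1 ((‖pos a - star pos lev J A κ t Jm n b‖ + 2 ^ lev a) / 2 ^ k)) with hω
    show ∑ a ∈ univ.filter (fun a => cell t n (pos a) = b ∧ lev a ≤ k),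
        J a * band pos lev A a x r * ω a +
      ∑ a ∈ F.filter (fun a => ¬cell t n (pos a) = b), J a * band pos lev A a x r * ω a ≤ _
    set F' := F.filter (fun a => ¬cell t n (pos a) = b) with hF'
    have hsib : ∑ a ∈ F'.filter (fun a => lev a ≤ n), J a * band pos lev A a x r ≤
        ∑ c ∈ (below pos t (n + 1) P n).erase b, supW pos lev J A t n c ρ x := by
      rw [← sum_fiberwise_of_maps_to (g := fun a => cell t n (pos a))
        (t := (below pos t (n + 1) P n).erase b) fun a ha => by
          obtain ⟨ha1, -⟩ := Finset.mem_filter.1 ha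
          obtain ⟨ha2, ha3⟩ := Finset.mem_filter.1 ha1
          exact Finset.mem_erase.2 ⟨ha3, mem_below.2 ⟨a, (Finset.mem_filter.1 ha2).2.1, rfl⟩⟩]
      refine sum_le_sum fun c _ => le_trans ?_ (W_le_supW hJ n c x hr)
      refine sum_le_sum_of_subset_of_nonneg (fun a ha => ?_) fun a _ _ =>
        mul_nonneg (hJ a) (band_nonneg a x r)
      simp only [nodes, Finset.mem_filter, Finset.mem_univ, true_and] at ha ⊢
      exact ⟨ha.1.2, ha.2⟩
    have hother : ∑ a ∈ F', J a * band pos lev A a x r * ω a ≤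
        (4 * d + 1) * (∑ a ∈ F', J a * wt (lev a) k +
          wt n k * ∑ a ∈ F'.filter (fun a => lev a ≤ n), J a * band pos lev A a x r) := by
      rw [sum_filter (s := F'), mul_sum (a := wt n k), ← sum_add_distrib, mul_sum]
      refine sum_le_sum fun a ha => ?_
      have hsame : cell t (n + 1) (pos a) = cell t (n + 1) (star pos lev J A κ t Jm n b) := by
        rw [(Finset.mem_filter.1 (Finset.mem_filter.1 ha).1).2.1,
          hbP _ (cell_star n (below_subset_cells P hb))]
      have h := norm_sub_le_of_cell_eq hsame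
      rw [pow_succ] at h
      have hJb := mul_nonneg (hJ a) (band_nonneg (pos := pos) (lev := lev) (A := A) a x r)
      have hd0 : (0 : ℝ) ≤ d := Nat.cast_nonneg d
      have hw : ∀ i, 0 ≤ (4 * (d : ℝ) + 1) * (J a * wt i k) := fun i =>
        mul_nonneg (by positivity) (mul_nonneg (hJ a) (wt_nonneg _ _))
      rcases le_or_gt (lev a) n with hl | hl
      · rw [if_pos hl]
        have h4 : (2 : ℝ) ^ lev a ≤ 2 ^ n := pow_le_pow_right₀ one_le_two hl
        have hm : ω a ≤ (4 * d + 1) * wt n k := sqrt_min_le (by linarith) (by linarith)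
        have := mul_le_mul_of_nonneg_left hm hJb
        have := hw (lev a)
        linarith
      · rw [if_neg (by omega), mul_zero, add_zero]
        have h4 : (2 : ℝ) ^ n ≤ 2 ^ lev a := pow_le_pow_right₀ one_le_two hl.le
        have h5 := mul_le_mul_of_nonneg_left h4 hd0
        have hm : ω a ≤ (4 * d + 1) * wt (lev a) k := sqrt_min_le (by linarith) (by linarith)
        calc J a * band pos lev A a x r * ω a
            ≤ J a * 1 * ((4 * d + 1) * wt (lev a) k) :=
              mul_le_mul (mul_le_mul_of_nonneg_left (tent_le_one _) (hJ a)) hm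
                (Real.sqrt_nonneg _) (mul_nonneg (hJ a) zero_le_one)
          _ = _ := by ring
    have hlow : geo pos lev J t k n b + ∑ a ∈ F', J a * wt (lev a) k =
        geo pos lev J t k (n + 1) P := by
      rw [geo, geo, ← eF, hF', sum_filter_add_sum_filter_not]
    have hmono : ∑ m ∈ range n, wt m k * ∑ N ∈ below pos t n b (m + 1),
          ∑ c ∈ (below pos t (m + 1) N m).erase (best pos lev J A κ t Jm m N),
            supW pos lev J A t m c ρ x ≤
        ∑ m ∈ range n, wt m k * ∑ N ∈ below pos t (n + 1) P (m + 1),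
          ∑ c ∈ (below pos t (m + 1) N m).erase (best pos lev J A κ t Jm m N),
            supW pos lev J A t m c ρ x := by
      refine sum_le_sum fun m _ => mul_le_mul_of_nonneg_left ?_ (wt_nonneg _ _)
      refine sum_le_sum_of_subset_of_nonneg (fun N hN => ?_) fun N _ _ =>
        sum_nonneg fun c _ => supW_nonneg hJ m c (hr.1.trans hr.2) x
      obtain ⟨a, ha1, ha2⟩ := mem_below.1 hN
      exact mem_below.2 ⟨a, hbP _ ha1, ha2⟩
    rw [dom, sum_range_succ, below_self_of_mem hP, sum_singleton, ← hlow]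
    rw [dom] at ih
    have hD : (0 : ℝ) ≤ 4 * d + 1 := by positivity
    have := mul_le_mul_of_nonneg_left hmono hD
    have := mul_le_mul_of_nonneg_left (mul_le_mul_of_nonneg_left hsib (wt_nonneg n k)) hD
    linarith

include hJ in
lemma avg_dom_le (hκ : 0 < κ) {k n : ℕ} (P : Fin d → ℤ) (x₀ : Euc d) {ρ : ℝ}
    (hρ : ∀ m < n, κ * 2 ^ m ≤ ρ) (hρ0 : 0 < ρ) :
    ∫ x, dom pos lev J A κ t Jm k n P ρ x ∂ballProb x₀ ρ ≤ bound pos lev J A κ t Jm k n P := by
  have := isProbabilityMeasure_ballProb x₀ hρ0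
  have hiN : ∀ m, ∀ N, Integrable (fun x =>
      ∑ c ∈ (below pos t (m + 1) N m).erase (best pos lev J A κ t Jm m N),
        supW pos lev J A t m c ρ x) (ballProb x₀ ρ) :=
    fun m N => integrable_finsetSum _ fun c _ => integrable_supW hJ m c hρ0.le _
  have him : ∀ m, Integrable (fun x => wt m k * ∑ N ∈ below pos t n P (m + 1),
      ∑ c ∈ (below pos t (m + 1) N m).erase (best pos lev J A κ t Jm m N),
        supW pos lev J A t m c ρ x) (ballProb x₀ ρ) :=
    fun m => (integrable_finsetSum _ fun N _ => hiN m N).const_mul _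
  unfold dom bound
  rw [integral_const_mul, integral_add (integrable_const _) (integrable_finsetSum _ fun m _ => him m),
    integral_const, probReal_univ, one_smul, integral_finsetSum _ fun m _ => him m]
  refine mul_le_mul_of_nonneg_left (add_le_add le_rfl (sum_le_sum fun m hm => ?_)) (by positivity)
  rw [integral_const_mul, integral_finsetSum _ fun N _ => hiN m N]
  refine mul_le_mul_of_nonneg_left (sum_le_sum fun N _ => ?_) (wt_nonneg _ _)
  rw [integral_finsetSum _ fun c _ => integrable_supW hJ m c hρ0.le _]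
  exact sum_le_sum fun c _ => avg_supW_le hJ hκ m c x₀ (hρ m (Finset.mem_range.1 hm))

lemma rest_nonneg (n : ℕ) (P : Fin d → ℤ) : 0 ≤ rest pos lev J A κ t Jm n P :=
  sum_nonneg fun c _ => T_nonneg _ c

include hJ in
lemma bound_nonneg (k n : ℕ) (P : Fin d → ℤ) : 0 ≤ bound pos lev J A κ t Jm k n P :=
  mul_nonneg (by positivity) (add_nonneg (geo_nonneg hJ k n P) (sum_nonneg fun m _ =>
    mul_nonneg (wt_nonneg _ _) (sum_nonneg fun N _ => rest_nonneg m N)))

lemma bound_eq_zero {k n : ℕ} {P : Fin d → ℤ} (hP : P ∉ cells pos t n) :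
    bound pos lev J A κ t Jm k n P = 0 := by
  have h : ∀ a, cell t n (pos a) ≠ P := fun a ha => hP (mem_cells.2 ⟨a, ha⟩)
  have hb : ∀ m, below pos t n P m = ∅ := fun m => Finset.eq_empty_iff_forall_notMem.2 fun N hN => by
    obtain ⟨a, ha, -⟩ := mem_below.1 hN
    exact h a ha
  simp [bound, geo, h, hb]

lemma sum_sub_max_le {α : Type*} [DecidableEq α] {s : Finset α} {f : α → ℝ} {b : α}
    (hb : b ∈ s) (hf : ∀ a ∈ s, 0 ≤ f a) (hmax : ∀ a ∈ s, f a ≤ f b) :
    ∑ a ∈ s.erase b, f a ≤ 2 * (∑ a ∈ s, f a - Real.sqrt (∑ a ∈ s, f a ^ 2)) := by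
  have hR : 0 ≤ ∑ a ∈ s.erase b, f a := sum_nonneg fun a ha => hf a (Finset.mem_of_mem_erase ha)
  have h2 : ∑ a ∈ s.erase b, f a ^ 2 ≤ f b * ∑ a ∈ s.erase b, f a := by
    rw [mul_sum]
    refine sum_le_sum fun a ha => ?_
    have ha' := Finset.mem_of_mem_erase ha
    rw [sq]
    exact mul_le_mul_of_nonneg_right (hmax a ha') (hf a ha')
  have hS : Real.sqrt (∑ a ∈ s, f a ^ 2) ≤ f b + (∑ a ∈ s.erase b, f a) / 2 := by
    rw [Real.sqrt_le_iff, ← add_sum_erase s _ hb]
    exact ⟨by linarith [hf b hb], by nlinarith⟩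
  rw [← add_sum_erase s f hb]
  linarith

include hJ in
/-- The total increment and the total rest. -/
theorem sum_rest_le (hd : 0 < d) (hA : 0 < A) (hκ : 0 < κ) (N : ℕ) :
    ∑ n ∈ range N, ∑ P ∈ cells pos t (n + 1), rest pos lev J A κ t Jm n P ≤
      14 * ∑ a, J a + 7 * recConst d A κ *
        ∑ n ∈ range N, ∑ P ∈ cells pos t (n + 1), leak pos lev J t n P := by
  classical
  set K := recConst d A κ with hK
  set M := ∑ a, J a with hM
  set Tot : ℕ → ℝ := fun m => ∑ c ∈ cells pos t m, T pos lev J A κ t Jm m c with hTot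
  set I := ∑ n ∈ range N, ∑ P ∈ cells pos t (n + 1), inc pos lev J A κ t Jm n P with hI
  set L := ∑ n ∈ range N, ∑ P ∈ cells pos t (n + 1), leak pos lev J t n P with hL
  set Y := ∑ n ∈ range N, ∑ P ∈ cells pos t (n + 1), incBelow pos lev J A κ t Jm n P with hY
  set Top := ∑ n ∈ range N, ∑ P ∈ cells pos t (n + 1), top pos lev J t n P with hTop
  have hTop' : Top ≤ M := by
    have : ∀ n, ∑ P ∈ cells pos t (n + 1), top pos lev J t n P =
        ∑ a ∈ univ.filter (fun a => lev a = n + 1), J a := fun n => by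
      rw [← sum_fiberwise_of_maps_to (s := univ.filter fun a => lev a = n + 1)
        (g := fun a => cell t (n + 1) (pos a)) (t := cells pos t (n + 1))
        fun a _ => mem_cells.2 ⟨a, rfl⟩]
      simp only [top, filter_filter]
    simp only [hTop, this, sum_filter]
    rw [sum_comm]
    refine sum_le_sum fun a _ => ?_
    rw [← sum_filter, sum_const, nsmul_eq_mul]
    refine mul_le_of_le_one_left (hJ a) ?_
    exact_mod_cast Finset.card_le_one.2 fun i hi j hj => by
      have := (Finset.mem_filter.1 hi).2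
      have := (Finset.mem_filter.1 hj).2
      omega
  have hTot0 : Tot 0 ≤ M := by
    refine (sum_le_sum fun c _ => T_le_sum hJ hκ 0 c).trans ?_
    rw [hM, ← sum_fiberwise_of_maps_to (s := univ) (g := fun a => cell t 0 (pos a))
      (t := cells pos t 0) fun a _ => mem_cells.2 ⟨a, rfl⟩]
    refine sum_le_sum fun c _ => sum_le_sum_of_subset_of_nonneg (fun a ha => ?_) fun a _ _ => hJ a
    simp only [nodes, Finset.mem_filter, Finset.mem_univ, true_and] at ha ⊢
    exact ha.2
  have hYI : Y ≤ 4 * I := by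
    have e : ∀ n, ∑ P ∈ cells pos t (n + 1), incBelow pos lev J A κ t Jm n P =
        ∑ m ∈ range n, (4 / 5 : ℝ) ^ (n - m) *
          ∑ Q ∈ cells pos t (m + 1), inc pos lev J A κ t Jm m Q := fun n => by
      unfold incBelow
      rw [sum_comm]
      refine sum_congr rfl fun m hm => ?_
      rw [← mul_sum, sum_below (by have := Finset.mem_range.1 hm; omega)]
    simp only [hY, e, hI, mul_sum (a := (4 : ℝ))]
    rw [sum_comm' (t' := range N) (s' := fun m => Finset.Ico (m + 1) N)
      (h := fun n m => by simp only [Finset.mem_range, Finset.mem_Ico]; omega)]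
    refine sum_le_sum fun m _ => ?_
    rw [← sum_mul, ← mul_sum]
    refine mul_le_mul_of_nonneg_right ?_ (sum_nonneg fun Q _ =>
      inc_nonneg (pos := pos) (lev := lev) (J := J) (A := A) (κ := κ) (t := t) (Jm := Jm) m Q)
    rw [sum_Ico_eq_sum_range]
    have : ∀ i, (4 / 5 : ℝ) ^ (m + 1 + i - m) = 4 / 5 * (4 / 5) ^ i := fun i => by
      rw [← pow_succ']; congr 1; omega
    simp only [this]
    rw [← mul_sum, geom_sum_eq (by norm_num)]
    have : 0 ≤ (4 / 5 : ℝ) ^ (N - (m + 1)) := by positivity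
    rw [show (4 / 5 : ℝ) - 1 = -(1 / 5) by norm_num, div_neg, ← neg_div, ← mul_div_assoc,
      div_le_iff₀ (by norm_num)]
    linarith
  have hrec : ∀ n, ∀ P, T pos lev J A κ t Jm (n + 1) P ≤ top pos lev J t n P +
      Real.sqrt (∑ c ∈ below pos t (n + 1) P n, T pos lev J A κ t Jm n c ^ 2) +
      K * leak pos lev J t n P + incBelow pos lev J A κ t Jm n P / 10 :=
    fun n P => T_succ_le hJ hd hA hκ n P
  have hneg : ∀ n, ∀ P, T pos lev J A κ t Jm (n + 1) P -
      ∑ c ∈ below pos t (n + 1) P n, T pos lev J A κ t Jm n c ≤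
      top pos lev J t n P + K * leak pos lev J t n P + incBelow pos lev J A κ t Jm n P / 10 := by
    intro n P
    have h := hrec n P
    have : Real.sqrt (∑ c ∈ below pos t (n + 1) P n, T pos lev J A κ t Jm n c ^ 2) ≤
        ∑ c ∈ below pos t (n + 1) P n, T pos lev J A κ t Jm n c :=
      Real.sqrt_le_iff.2 ⟨sum_nonneg fun c _ => T_nonneg _ c,
        sum_sq_le_sq_sum_of_nonneg fun c _ => T_nonneg _ c⟩
    linarith
  have hI' : I ≤ (Tot 0 - Tot N) + (Top + K * L + Y / 10) := by
    have e : Tot 0 - Tot N = ∑ n ∈ range N, ∑ P ∈ cells pos t (n + 1),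
        ((∑ c ∈ below pos t (n + 1) P n, T pos lev J A κ t Jm n c) -
          T pos lev J A κ t Jm (n + 1) P) := by
      rw [← sum_range_sub' Tot N]
      refine sum_congr rfl fun n _ => ?_
      rw [sum_sub_distrib, sum_below (Nat.le_succ n)]
    rw [e, hTop, hL, hY, mul_sum, sum_div, ← sum_add_distrib, ← sum_add_distrib, ← sum_add_distrib]
    refine sum_le_sum fun n _ => ?_
    rw [mul_sum, sum_div, ← sum_add_distrib, ← sum_add_distrib, ← sum_add_distrib]
    refine sum_le_sum fun P _ => ?_
    have h := hneg n P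
    have h0 : 0 ≤ top pos lev J t n P := sum_nonneg fun a _ => hJ a
    have h1 := mul_nonneg (recConst_nonneg d A κ) (leak_nonneg (pos := pos) (lev := lev) (t := t) hJ n P)
    have h2 := incBelow_nonneg (pos := pos) (lev := lev) (J := J) (A := A) (κ := κ) (t := t) (Jm := Jm) n P
    rw [inc]
    refine max_le ?_ ?_ <;> linarith
  have hTN : 0 ≤ Tot N := sum_nonneg fun c _ => T_nonneg _ c
  have hrest : ∑ n ∈ range N, ∑ P ∈ cells pos t (n + 1), rest pos lev J A κ t Jm n P ≤
      2 * (I + Top + K * L + Y / 10) := by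
    rw [hI, hTop, hL, hY, mul_sum, sum_div, ← sum_add_distrib, ← sum_add_distrib,
      ← sum_add_distrib, mul_sum]
    refine sum_le_sum fun n _ => ?_
    rw [mul_sum, sum_div, ← sum_add_distrib, ← sum_add_distrib, ← sum_add_distrib, mul_sum]
    refine sum_le_sum fun P hP => ?_
    obtain ⟨hb, hmax⟩ :=
      best_mem (J := J) (A := A) (κ := κ) (Jm := Jm) (lev := lev) (children_nonempty hP)
    refine (sum_sub_max_le (f := fun c => T pos lev J A κ t Jm n c) hb
      (fun c _ => T_nonneg _ c) hmax).trans ?_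
    have h := hrec n P
    have hinc : (∑ c ∈ below pos t (n + 1) P n, T pos lev J A κ t Jm n c) -
        T pos lev J A κ t Jm (n + 1) P ≤ inc pos lev J A κ t Jm n P := le_max_right _ _
    linarith
  have hL0 : 0 ≤ K * L := mul_nonneg (recConst_nonneg d A κ)
    (sum_nonneg fun n _ => sum_nonneg fun P _ => leak_nonneg hJ n P)
  have hJM : 0 ≤ M := sum_nonneg fun a _ => hJ a
  linarith

include hJ in
/-- The boundary-weighted mass, averaged over the shifts. -/
theorem sum_shifts_leak_le (N : ℕ) :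
    ∑ t ∈ shifts d N, ∑ n ∈ range N, ∑ P ∈ cells pos t (n + 1), leak pos lev J t n P ≤
      90 * d * ((shifts d N).card : ℝ) * ∑ a, J a := by
  have e : ∀ t : Fin d → ℕ, ∀ n, ∑ P ∈ cells pos t (n + 1), leak pos lev J t n P =
      ∑ a ∈ univ.filter (fun a => lev a ≤ n),
        J a * (om t n (2 ^ lev a) (pos a) * (21 / 16) ^ (n - lev a)) := fun t n => by
    rw [← sum_fiberwise_of_maps_to (s := univ.filter fun a => lev a ≤ n)
      (g := fun a => cell t (n + 1) (pos a)) (t := cells pos t (n + 1))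
      fun a _ => mem_cells.2 ⟨a, rfl⟩]
    simp only [leak, filter_filter]
  simp only [e, sum_filter, mul_sum]
  rw [sum_comm]
  simp only [sum_comm (s := shifts d N)]
  rw [sum_comm]
  refine sum_le_sum fun a _ => ?_
  calc ∑ n ∈ range N, ∑ t ∈ shifts d N,
        (if lev a ≤ n then J a * (om t n (2 ^ lev a) (pos a) * (21 / 16) ^ (n - lev a)) else 0)
      = ∑ n ∈ (range N).filter (fun n => lev a ≤ n), ∑ t ∈ shifts d N,
        J a * (om t n (2 ^ lev a) (pos a) * (21 / 16) ^ (n - lev a)) := by
        rw [sum_filter]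
        exact sum_congr rfl fun n _ => by split_ifs <;> simp
    _ ≤ ∑ n ∈ (range N).filter (fun n => lev a ≤ n),
        J a * (6 * d * ((shifts d N).card : ℝ) * (1491 / 1600) ^ (n - lev a)) := by
        refine sum_le_sum fun n hn => ?_
        obtain ⟨hnN, hl⟩ := Finset.mem_filter.1 hn
        rw [← mul_sum, ← sum_mul]
        refine mul_le_mul_of_nonneg_left ?_ (hJ a)
        refine (mul_le_mul_of_nonneg_right ((sum_om_le (Finset.mem_range.1 hnN).le (pos a)).trans
          (mul_le_mul_of_nonneg_right (mul_le_mul_of_nonneg_left (sqrt_two_pow_le hl)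
            (by positivity)) (by positivity))) (by positivity)).trans (le_of_eq ?_)
        rw [show (1491 / 1600 : ℝ) = 71 / 100 * (21 / 16) by norm_num, mul_pow]
        ring
    _ ≤ J a * (6 * d * ((shifts d N).card : ℝ) * 15) := by
        rw [← mul_sum, ← mul_sum]
        refine mul_le_mul_of_nonneg_left (mul_le_mul_of_nonneg_left ?_ (by positivity)) (hJ a)
        refine (sum_le_sum_of_subset_of_nonneg (t := Finset.Ico (lev a) (lev a + N))
          (fun n hn => ?_) fun n _ _ => by positivity).trans ?_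
        · simp only [Finset.mem_filter, Finset.mem_range, Finset.mem_Ico] at hn ⊢; omega
        · rw [sum_Ico_eq_sum_range]
          simp only [add_tsub_cancel_left]
          rw [geom_sum_eq (by norm_num), show (1491 / 1600 : ℝ) - 1 = -(109 / 1600) by norm_num, div_neg,
            ← neg_div, div_le_iff₀ (by norm_num)]
          have : 0 ≤ (1491 / 1600 : ℝ) ^ N := by positivity
          linarith
    _ = _ := by ring

lemma sum_wt_high_le (m : ℕ) (s : Finset ℕ) :
    ∑ k ∈ s.filter (fun k => m ≤ k), wt m k ≤ 4 := by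
  refine (sum_le_sum (g := fun k => (71 / 100 : ℝ) ^ (k - m)) fun k hk =>
    (Real.sqrt_le_sqrt (min_le_right _ _)).trans (sqrt_two_pow_le (Finset.mem_filter.1 hk).2)).trans ?_
  rw [← sum_image (f := fun j : ℕ => (71 / 100 : ℝ) ^ j) (g := fun k => k - m)]
  · obtain ⟨B, hB⟩ := ((s.filter fun k => m ≤ k).image fun k => k - m).exists_nat_subset_range
    refine (sum_le_sum_of_subset_of_nonneg hB fun _ _ _ => by positivity).trans ?_
    rw [geom_sum_eq (by norm_num), show (71 / 100 : ℝ) - 1 = -(29 / 100) by norm_num, div_neg,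
      ← neg_div, div_le_iff₀ (by norm_num)]
    have : 0 ≤ (71 / 100 : ℝ) ^ B := by positivity
    linarith
  · intro a ha b hb (hab : a - m = b - m)
    simp only [mem_coe, Finset.mem_filter] at ha hb
    omega

lemma sum_weight_le (m₀ m : ℕ) (s : Finset ℕ) :
    ∑ k ∈ s.filter (fun k => m < k + m₀), wt m k ≤ m₀ + 4 := by
  rw [← sum_filter_add_sum_filter_not (s.filter fun k => m < k + m₀) (fun k => k < m)]
  refine add_le_add ?_ ?_
  · refine (sum_le_sum (g := fun _ => (1 : ℝ)) fun k _ =>
      Real.sqrt_le_one.2 (min_le_left _ _)).trans ?_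
    rw [sum_const, nsmul_eq_mul, mul_one]
    have h : ((s.filter fun k => m < k + m₀).filter fun k => k < m).card ≤
        (Finset.Ico (m + 1 - m₀) (m + 1)).card :=
      Finset.card_le_card fun k hk => by
        simp only [Finset.mem_filter, Finset.mem_Ico] at hk ⊢; omega
    rw [Nat.card_Ico] at h
    exact_mod_cast h.trans (by omega)
  · refine (sum_le_sum_of_subset_of_nonneg (fun k hk => ?_) fun k _ _ => wt_nonneg _ _).trans
      (sum_wt_high_le m s)
    simp only [Finset.mem_filter] at hk ⊢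
    exact ⟨hk.1.1, not_lt.1 hk.2⟩

lemma sum_ratio_le (l : ℕ) (s : Finset ℕ) :
    ∑ k ∈ s.filter (fun k => l ≤ k), wt l k ≤ 4 := sum_wt_high_le l s

/-- The lattice point `2 ^ k n`. -/
def latPt (k : ℕ) (n : Fin d → ℤ) : Euc d := WithLp.toLp 2 fun i => (2 : ℝ) ^ k * n i

omit [Fintype ι] in
lemma card_latPt_fiber_le (k m₀ : ℕ) (Q : Fin d → ℤ) (s : Finset (Fin d → ℤ)) :
    (s.filter fun n => cell t (k + m₀) (latPt k n) = Q).card ≤ 2 ^ (m₀ * d) := by
  have h : (s.filter fun n => cell t (k + m₀) (latPt k n) = Q).card ≤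
      (Fintype.piFinset fun _ : Fin d => Finset.Ico (0 : ℤ) (2 ^ m₀)).card := by
    refine card_le_card_of_injOn (fun n i => n i % 2 ^ m₀) (fun n _ => ?_) ?_
    · exact Fintype.mem_piFinset.2 fun i => Finset.mem_Ico.2
        ⟨Int.emod_nonneg _ (by positivity), Int.emod_lt_of_pos _ (by positivity)⟩
    · intro a ha b hb hab
      rw [mem_coe, Finset.mem_filter] at ha hb
      funext i
      have hQa := congrFun ha.2 i
      have hQb := congrFun hb.2 i
      simp only [cell, latPt, Int.floor_eq_iff] at hQa hQb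
      rw [le_div_iff₀ (by positivity), div_lt_iff₀ (by positivity), pow_add] at hQa hQb
      have hp : (0 : ℝ) < 2 ^ k := by positivity
      have h1 : ((a i - b i : ℤ) : ℝ) < ((2 ^ m₀ : ℤ) : ℝ) := by push_cast; nlinarith
      have h2 : ((b i - a i : ℤ) : ℝ) < ((2 ^ m₀ : ℤ) : ℝ) := by push_cast; nlinarith
      rw [Int.cast_lt] at h1 h2
      obtain ⟨q, hq⟩ := Int.modEq_iff_dvd.1 (congrFun hab i : a i % 2 ^ m₀ = b i % 2 ^ m₀)
      have h0 : (0 : ℤ) < 2 ^ m₀ := by positivity
      rcases lt_trichotomy q 0 with hq0 | hq0 | hq0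
      · nlinarith
      · subst hq0; linarith
      · nlinarith
  refine h.trans (le_of_eq ?_)
  have h2 : ((2 : ℤ) ^ m₀).toNat = 2 ^ m₀ := by
    rw [show (2 : ℤ) ^ m₀ = ((2 ^ m₀ : ℕ) : ℤ) by push_cast; rfl, Int.toNat_natCast]
  simp [pow_mul, h2]

include hJ in
/-- All scales and lattice points, one shift. -/
theorem sum_bound_le (m₀ N : ℕ)
    (s : Finset (ℕ × (Fin d → ℤ))) (hN : ∀ p ∈ s, p.1 + m₀ ≤ N) :
    ∑ p ∈ s, bound pos lev J A κ t Jm p.1 (p.1 + m₀) (cell t (p.1 + m₀) (latPt p.1 p.2)) ≤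
      2 ^ (m₀ * d) * (4 * d + 1) * (4 * ∑ a, J a + (m₀ + 4) *
        ∑ n ∈ range N, ∑ P ∈ cells pos t (n + 1), rest pos lev J A κ t Jm n P) := by
  classical
  set D : ℝ := 2 ^ (m₀ * d) with hD
  have hstep : ∀ k ∈ s.image Prod.fst,
      ∑ p ∈ s.filter (fun p => p.1 = k),
          bound pos lev J A κ t Jm p.1 (p.1 + m₀) (cell t (p.1 + m₀) (latPt p.1 p.2)) ≤
        D * ∑ Q ∈ cells pos t (k + m₀), bound pos lev J A κ t Jm k (k + m₀) Q := by
    intro k _
    set s' := (s.filter fun p => p.1 = k).image Prod.snd with hs'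
    have e : ∑ p ∈ s.filter (fun p => p.1 = k),
        bound pos lev J A κ t Jm p.1 (p.1 + m₀) (cell t (p.1 + m₀) (latPt p.1 p.2)) =
        ∑ n ∈ s', bound pos lev J A κ t Jm k (k + m₀) (cell t (k + m₀) (latPt k n)) := by
      rw [hs', sum_image]
      · exact sum_congr rfl fun p hp => by rw [(Finset.mem_filter.1 hp).2]
      · intro p hp q hq h
        rw [mem_coe, Finset.mem_filter] at hp hq
        exact Prod.ext (hp.2.trans hq.2.symm) h
    rw [e, ← sum_fiberwise_of_maps_to (g := fun n => cell t (k + m₀) (latPt k n))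
      (t := s'.image fun n => cell t (k + m₀) (latPt k n)) fun n hn => Finset.mem_image_of_mem _ hn]
    calc ∑ Q ∈ s'.image (fun n => cell t (k + m₀) (latPt k n)),
          ∑ n ∈ s'.filter (fun n => cell t (k + m₀) (latPt k n) = Q),
            bound pos lev J A κ t Jm k (k + m₀) (cell t (k + m₀) (latPt k n))
        ≤ ∑ Q ∈ s'.image (fun n => cell t (k + m₀) (latPt k n)),
            D * bound pos lev J A κ t Jm k (k + m₀) Q := by
          refine sum_le_sum fun Q _ => ?_
          rw [sum_congr rfl fun n hn => by rw [(Finset.mem_filter.1 hn).2], sum_const,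
            nsmul_eq_mul]
          refine mul_le_mul_of_nonneg_right ?_ (bound_nonneg hJ _ _ _)
          rw [hD]
          exact_mod_cast card_latPt_fiber_le (t := t) k m₀ Q s'
      _ = ∑ Q ∈ (s'.image fun n => cell t (k + m₀) (latPt k n)).filter
            (fun Q => Q ∈ cells pos t (k + m₀)), D * bound pos lev J A κ t Jm k (k + m₀) Q := by
          rw [sum_filter_of_ne]
          intro Q _ hne
          by_contra hQ
          exact hne (by rw [bound_eq_zero hQ, mul_zero])
      _ ≤ ∑ Q ∈ cells pos t (k + m₀), D * bound pos lev J A κ t Jm k (k + m₀) Q :=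
          sum_le_sum_of_subset_of_nonneg (fun Q hQ => (Finset.mem_filter.1 hQ).2)
            fun Q _ _ => mul_nonneg (by positivity) (bound_nonneg hJ _ _ _)
      _ = _ := (mul_sum _ _ _).symm
  set R := fun m => ∑ P ∈ cells pos t (m + 1), rest pos lev J A κ t Jm m P with hR
  have hcell : ∀ k, ∑ Q ∈ cells pos t (k + m₀), bound pos lev J A κ t Jm k (k + m₀) Q =
      (4 * d + 1) * (∑ a ∈ univ.filter (fun a => lev a ≤ k), J a * wt (lev a) k +
        ∑ m ∈ range (k + m₀), wt m k * R m) := by
    intro k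
    unfold bound
    rw [← mul_sum, sum_add_distrib]
    congr 2
    · rw [← sum_fiberwise_of_maps_to (s := univ.filter fun a => lev a ≤ k)
        (g := fun a => cell t (k + m₀) (pos a)) (t := cells pos t (k + m₀))
        fun a _ => mem_cells.2 ⟨a, rfl⟩]
      simp only [geo, filter_filter, and_comm]
    · rw [sum_comm]
      refine sum_congr rfl fun m hm => ?_
      rw [← mul_sum, sum_below (Nat.succ_le_of_lt (Finset.mem_range.1 hm))]
  rw [← sum_fiberwise_of_maps_to (g := Prod.fst) (t := s.image Prod.fst)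
    fun p hp => Finset.mem_image_of_mem _ hp]
  refine (sum_le_sum hstep).trans ?_
  simp only [hcell]
  rw [← mul_sum, ← mul_sum, sum_add_distrib, ← mul_assoc]
  refine mul_le_mul_of_nonneg_left (add_le_add ?_ ?_) (by positivity)
  · simp only [sum_filter]
    rw [sum_comm, mul_sum]
    refine sum_le_sum fun a _ => ?_
    rw [← sum_filter, ← mul_sum, mul_comm (4 : ℝ)]
    exact mul_le_mul_of_nonneg_left (sum_ratio_le _ _) (hJ a)
  · rw [mul_sum, sum_comm' (t' := range N) (s' := fun m => (s.image Prod.fst).filter fun k => m < k + m₀)]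
    · refine sum_le_sum fun m _ => ?_
      rw [← sum_mul]
      exact mul_le_mul_of_nonneg_right (sum_weight_le _ _ _)
        (sum_nonneg fun P _ => rest_nonneg m P)
    · intro k m
      simp only [Finset.mem_range, Finset.mem_filter]
      constructor
      · rintro ⟨hk, hm⟩
        obtain ⟨p, hp, rfl⟩ := Finset.mem_image.1 hk
        have := hN p hp
        exact ⟨⟨Finset.mem_image_of_mem _ hp, hm⟩, by omega⟩
      · rintro ⟨⟨hk, hm⟩, -⟩; exact ⟨hk, hm⟩

end Vale.Agent.P137.Centred
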