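import Vale.Agent.P137.Centred.Bound

/-!
# P137, centred operator: the killed mass against the neighbourhoods of the mass
-/

open MeasureTheory Filter Set Metric Finset
open scoped ENNReal NNReal Topology RealInnerProductSpace

noncomputable section

namespace Vale.Agent.P137.Centred

variable {d : ℕ}

/-- A pairing of a weight with the mass in the balls of a fixed radius. -/
lemma lintegral_pairing_le {U : Set (Euc d)} (hU : MeasurableSet U) (a : ℝ) {φ h H : Euc d → ℝ}
    (hφ : Measurable φ) (hh : Measurable h) (hφ0 : ∀ y, 0 ≤ φ y)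
    (hle : ∀ x y, x ∈ U → φ y ≠ 0 → ‖x - y‖ ≤ a → h x ≤ H y) :
    ∫⁻ x in U, ENNReal.ofReal (h x) * ∫⁻ y in closedBall x a, ENNReal.ofReal (φ y) ≤
      volume (closedBall (0 : Euc d) a) * ∫⁻ y, ENNReal.ofReal (φ y * H y) := by
  classical
  set K : Euc d → Euc d → ℝ≥0∞ := fun x y => {p : Euc d × Euc d | p.1 ∈ U ∧ dist p.2 p.1 ≤ a}.indicator
    (fun p => ENNReal.ofReal (h p.1) * ENNReal.ofReal (φ p.2)) (x, y) with hK
  have hset : MeasurableSet {p : Euc d × Euc d | p.1 ∈ U ∧ dist p.2 p.1 ≤ a} :=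
    (hU.preimage measurable_fst).inter
      (measurableSet_le (f := fun p : Euc d × Euc d => dist p.2 p.1) (by fun_prop) measurable_const)
  have hKm : Measurable (Function.uncurry K) :=
    ((hh.ennreal_ofReal.comp measurable_fst).mul (hφ.ennreal_ofReal.comp measurable_snd)).indicator
      hset
  have e1 : ∀ x, U.indicator (fun x => ENNReal.ofReal (h x) *
      ∫⁻ y in closedBall x a, ENNReal.ofReal (φ y)) x = ∫⁻ y, K x y := by
    intro x
    by_cases hx : x ∈ U
    · rw [indicator_of_mem hx, ← lintegral_indicator measurableSet_closedBall,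
        ← lintegral_const_mul _ (hφ.ennreal_ofReal.indicator measurableSet_closedBall)]
      refine lintegral_congr fun y => ?_
      simp [hK, indicator_apply, hx, mem_closedBall]
    · simp [hK, hx, indicator_apply]
  rw [← lintegral_indicator hU]
  simp only [e1]
  rw [lintegral_lintegral_swap hKm.aemeasurable]
  rw [← lintegral_const_mul' _ _ measure_closedBall_lt_top.ne]
  refine lintegral_mono fun y => ?_
  rw [← Measure.addHaar_closedBall_center volume y a, mul_comm,
    ← setLIntegral_const, ← lintegral_indicator measurableSet_closedBall]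
  refine lintegral_mono fun x => ?_
  simp only [hK, indicator_apply, mem_ofPred_eq]
  split_ifs with h1 h2
  · by_cases h0 : φ y = 0
    · simp [h0]
    · rw [mul_comm, ← ENNReal.ofReal_mul (hφ0 y)]
      refine ENNReal.ofReal_le_ofReal (mul_le_mul_of_nonneg_left ?_ (hφ0 y))
      exact hle x y h1.1 h0 (by rw [← dist_eq_norm, dist_comm]; exact h1.2)
  · exact absurd (mem_closedBall'.2 h1.2) h2
  · exact zero_le
  · exact le_rfl

namespace Params

variable {P : Params d}

/-- The variation of the weights at the scale of block `j`. -/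
def varW (P : Params d) (lam : ℝ) (j : ℕ) (x : Euc d) : ℝ :=
  d * cnt d (lam0 d) * P.decay (P.N - j) +
    2 * d * ∑ l ∈ Finset.Ico j P.N, P.decay (l - j) * P.S lam l x

lemma measurable_varW (lam : ℝ) (j : ℕ) : Measurable (P.varW lam j) :=
  measurable_const.add (measurable_const.mul (Finset.measurable_sum _ fun l _ =>
    measurable_const.mul (measurable_S lam l)))

lemma varW_nonneg (lam : ℝ) (j : ℕ) (x : Euc d) : 0 ≤ P.varW lam j x :=
  add_nonneg (mul_nonneg (mul_nonneg (Nat.cast_nonneg d) (cnt_nonneg _)) (decay_nonneg _))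
    (mul_nonneg (by positivity) (sum_nonneg fun l _ =>
      mul_nonneg (decay_nonneg _) (S_nonneg _ _ _)))

lemma Valid.sum_Ico_decay_le (hP : P.Valid) (j n : ℕ) :
    ∑ l ∈ Finset.Ico j n, P.decay (l - j) ≤ 2 := by
  rw [sum_Ico_eq_sum_range]
  simpa using hP.sum_decay_le (n := n - j)

lemma Valid.varW_le (hP : P.Valid) {lam : ℝ} (j : ℕ) (x : Euc d) :
    P.varW lam j x ≤ d * cnt d (lam0 d) + 4 * d * cnt d lam := by
  refine add_le_add (mul_le_of_le_one_right (mul_nonneg (Nat.cast_nonneg d) (cnt_nonneg _))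
    (pow_le_one₀ (by positivity) (inv_le_one_of_one_le₀ (one_le_pow₀ one_le_two)))) ?_
  refine (mul_le_mul_of_nonneg_left ((Finset.sum_le_sum fun l hl => mul_le_mul_of_nonneg_left
    (hP.S_le (Finset.mem_Ico.1 hl).2 lam x) (decay_nonneg _)).trans_eq (sum_mul _ _ _).symm)
    (by positivity)).trans ?_
  refine (mul_le_mul_of_nonneg_left (mul_le_mul_of_nonneg_right (hP.sum_Ico_decay_le j P.N)
    (cnt_nonneg _)) (by positivity)).trans_eq (by ring)

lemma Valid.S_mono (hP : P.Valid) {lam lam' : ℝ} (h : lam ≤ lam') (J : ℕ) (y : Euc d) :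
    P.S lam J y ≤ P.S lam' J y :=
  Finset.sum_le_sum fun c _ => indicator_le_indicator_of_subset
    (closedBall_subset_closedBall (mul_le_mul_of_nonneg_right h (hP.rho_pos J).le))
    (fun _ => killed_nonneg _ _ _) y

lemma Valid.killMass_mono (hP : P.Valid) {lam lam' : ℝ} (h : lam ≤ lam') {J : ℕ} (hJ : J < P.N) :
    P.killMass lam J ≤ P.killMass lam' J :=
  integral_mono (hP.integrable_norm_mul_S J hJ lam) (hP.integrable_norm_mul_S J hJ lam')
    fun y => mul_le_mul_of_nonneg_left (hP.S_mono h J y) (norm_nonneg _)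

/-- Killed mass at a distance of the scale of a finer block. -/
lemma Valid.S_le_varW (hP : P.Valid) {j l : ℕ} (hjl : j ≤ l) (hl : l < P.N) {Λ : ℝ} (hΛ : 0 ≤ Λ)
    (hΛM : Λ ≤ (2 : ℝ) ^ P.M) {x y : Euc d} (hx : ∀ i, |x i| ≤ P.Ω) (hy : ∀ i, |y i| ≤ P.Ω)
    (hxy : ‖x - y‖ ≤ Λ * P.rho j) :
    P.S (lam0 d) l x ≤ P.S (lam0 d + Λ) l y + cnt d (lam0 d) * (Λ * P.varW (lam0 d) j y) := by
  have hd0 : (0:ℝ) ≤ d := Nat.cast_nonneg d
  have hyx : ‖y - x‖ ≤ Λ * P.rho j := by rwa [norm_sub_rev]
  refine (hP.S_le_add (hyx.trans (mul_le_mul_of_nonneg_left (hP.rho_mono hjl) hΛ))).trans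
    (add_le_add le_rfl (mul_le_mul_of_nonneg_left ?_ (cnt_nonneg _)))
  have hb : ‖y - x‖ ≤ 2 * P.rho (l + 1) := by
    refine hyx.trans ((mul_le_mul_of_nonneg_right hΛM (hP.rho_pos j).le).trans ?_)
    have e : (2 : ℝ) ^ P.M * P.rho j = P.rho (j + 1) := by
      rw [Params.rho, Params.rho, mul_add, mul_one, pow_add]; ring
    rw [e]
    linarith [hP.rho_mono (show j + 1 ≤ l + 1 by omega), hP.rho_pos (l + 1)]
  have hdiv : ∀ I, j ≤ I → ‖y - x‖ / P.rho I ≤ Λ * P.decay (I - j) := fun I hI => by
    rw [← hP.rho_div hI, ← mul_div_assoc]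
    exact div_le_div_of_nonneg_right hyx (hP.rho_pos I).le
  refine (hP.V_le (show l + 1 ≤ P.N from hl) hy hx hb).trans ?_
  refine (add_le_add (mul_le_mul_of_nonneg_left (hdiv P.N (by omega))
    (mul_nonneg hd0 (cnt_nonneg _))) (mul_le_mul_of_nonneg_left
      (((Finset.sum_le_sum fun I hI => mul_le_mul_of_nonneg_right
        (hdiv I (by have := Finset.mem_Ico.1 hI; omega)) (S_nonneg _ _ _))).trans
        (sum_le_sum_of_subset_of_nonneg (Finset.Ico_subset_Ico (show j ≤ l + 1 by omega) le_rfl)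
          fun I _ _ => mul_nonneg (mul_nonneg hΛ (decay_nonneg _)) (S_nonneg _ _ _)))
      (by positivity : (0:ℝ) ≤ 2 * d))).trans ?_
  refine le_of_eq ?_
  simp only [Params.varW, mul_assoc, ← mul_sum]
  ring

/-- The variation of the weights at a distance of the scale of its block. -/
lemma Valid.varW_transfer (hP : P.Valid) {j : ℕ} {Λ : ℝ} (hΛ : 0 ≤ Λ)
    (hΛM : Λ ≤ (2 : ℝ) ^ P.M) {x y : Euc d} (hx : ∀ i, |x i| ≤ P.Ω) (hy : ∀ i, |y i| ≤ P.Ω)
    (hxy : ‖x - y‖ ≤ Λ * P.rho j) :
    P.varW (lam0 d) j x ≤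
      (1 + 4 * d * cnt d (lam0 d) * Λ) * P.varW (lam0 d + Λ) j y := by
  have hc := cnt_nonneg (d := d) (lam0 d)
  have hW := varW_nonneg (P := P) (lam0 d) j y
  have hmono : P.varW (lam0 d) j y ≤ P.varW (lam0 d + Λ) j y :=
    add_le_add le_rfl (mul_le_mul_of_nonneg_left (Finset.sum_le_sum fun l _ =>
      mul_le_mul_of_nonneg_left (hP.S_mono (by linarith) l y) (decay_nonneg _)) (by positivity))
  calc P.varW (lam0 d) j x ≤ d * cnt d (lam0 d) * P.decay (P.N - j) + 2 * d *
        ∑ l ∈ Finset.Ico j P.N, P.decay (l - j) *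
          (P.S (lam0 d + Λ) l y + cnt d (lam0 d) * (Λ * P.varW (lam0 d) j y)) :=
        add_le_add le_rfl (mul_le_mul_of_nonneg_left (Finset.sum_le_sum fun l hl =>
          mul_le_mul_of_nonneg_left (hP.S_le_varW (Finset.mem_Ico.1 hl).1 (Finset.mem_Ico.1 hl).2
            hΛ hΛM hx hy hxy) (decay_nonneg _)) (by positivity))
    _ = P.varW (lam0 d + Λ) j y + 2 * d * (∑ l ∈ Finset.Ico j P.N, P.decay (l - j)) *
          (cnt d (lam0 d) * (Λ * P.varW (lam0 d) j y)) := by
        simp only [Params.varW, mul_add, sum_add_distrib, ← sum_mul]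
        ring
    _ ≤ P.varW (lam0 d + Λ) j y + 2 * d * 2 *
          (cnt d (lam0 d) * (Λ * P.varW (lam0 d + Λ) j y)) := by
        have h2 := hP.sum_Ico_decay_le j P.N
        have h3 : 0 ≤ P.varW (lam0 d + Λ) j y := varW_nonneg _ _ _
        gcongr
    _ = _ := by ring

lemma Valid.integrable_mul_varW (hP : P.Valid) (lam : ℝ) (j : ℕ) :
    Integrable fun y => ‖P.F j y‖ * P.varW lam j y :=
  integrable_mul_bdd (hP.continuous_F j).norm (hP.compact_F j).norm (measurable_varW lam j)
    (varW_nonneg lam j) (hP.varW_le j)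

lemma Valid.integral_mul_varW (hP : P.Valid) (lam : ℝ) (j : ℕ) :
    ∫ y, ‖P.F j y‖ * P.varW lam j y = d * cnt d (lam0 d) * P.decay (P.N - j) * P.mass j +
      2 * d * ∑ l ∈ Finset.Ico j P.N, P.decay (l - j) * P.crossL lam j l := by
  have iS : ∀ l ∈ Finset.Ico j P.N,
      Integrable fun y => P.decay (l - j) * (‖P.F j y‖ * P.S lam l y) := fun l hl =>
    (hP.integrable_norm_mul_S j (Finset.mem_Ico.1 hl).2 lam).const_mul _
  have iF : Integrable fun y => ‖P.F j y‖ := integrable_norm_hier hP.hv hP.hvc _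
  have e : (fun y => ‖P.F j y‖ * P.varW lam j y) = fun y =>
      d * cnt d (lam0 d) * P.decay (P.N - j) * ‖P.F j y‖ +
        2 * d * ∑ l ∈ Finset.Ico j P.N, P.decay (l - j) * (‖P.F j y‖ * P.S lam l y) := by
    funext y
    simp only [Params.varW, mul_add, mul_sum]
    congr 1
    · ring
    · exact Finset.sum_congr rfl fun l _ => by ring
  rw [e, integral_add (iF.const_mul _) ((integrable_finsetSum _ iS).const_mul _),
    integral_const_mul, integral_const_mul, integral_finsetSum _ iS]
  simp only [integral_const_mul, Params.mass, Params.crossL]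

/-- All pairings of the mass with the variation of the weights. -/
lemma Valid.sum_mul_varW_le (hP : P.Valid) {R : ℝ} (hR : P.Big R) {lam Φ : ℝ}
    (hK : ∑ J ∈ Finset.range P.N, P.killMass (lam + 1) J ≤ Φ)
    (hA : ∑ J ∈ Finset.range P.N, P.adjCross J ≤ Φ)
    (hE : ∑ J ∈ Finset.range P.N, P.older J ≤ Φ) :
    ∑ j ∈ Finset.range (P.N + 1), ∫ y, ‖P.F j y‖ * P.varW lam j y ≤
      3 * d * cnt d (lam0 d) * (∫ y, ‖P.v y‖) + 2 * d * (Φ + 6 * (3 * 2 ^ d * (Φ +
        cnt d lam * (2 * d * (2 * Φ)) + d * cnt d lam * cnt d (lam0 d) * (3 * ∫ y, ‖P.v y‖)) +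
        3 * 2 ^ d * (cnt d (lam + 1) + 5 * d * cnt d lam * cnt d (lam0 d)) *
          ∫ y, ‖P.v y‖)) := by
  set T := ∫ y, ‖P.v y‖
  set c0 := cnt d (lam0 d)
  set cl := cnt d lam
  have hc0 : 0 ≤ c0 := cnt_nonneg _
  have hcl : 0 ≤ cl := cnt_nonneg _
  have hc1 : 0 ≤ cnt d (lam + 1) := cnt_nonneg _
  have hT : 0 ≤ T := integral_nonneg fun _ => norm_nonneg _
  set k := 3 * 2 ^ d * (cnt d (lam + 1) + 5 * d * cl * c0) with hk_def
  have hk : 0 ≤ k := by positivity
  set b : ℕ → ℝ := fun J => 3 * 2 ^ d * (P.killMass (lam + 1) J +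
    cl * (2 * d * (P.invL * (P.adjCross J + P.older J))) + d * cl * c0 * P.decay (P.N - J) * T)
    with hb
  have hb0 : ∀ J, 0 ≤ b J := fun J => by
    have := killMass_nonneg (P := P) (lam + 1) J
    have := adjCross_nonneg (P := P) J
    have := older_nonneg (P := P) J
    have := decay_nonneg (P := P) (P.N - J)
    have := invL_nonneg (P := P)
    simp only [hb]; positivity
  have hcr : ∀ K J, K < J → J < P.N → P.crossL lam K J ≤ b J + k * (P.mass K - P.mass J) := by
    intro K J hKJ hJ
    refine (hP.crossL_le hR hKJ hJ lam).trans ?_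
    rw [hP.integral_gapW_block hKJ.le]
    refine add_le_add (mul_le_mul_of_nonneg_left (add_le_add (add_le_add le_rfl
      (mul_le_mul_of_nonneg_left (mul_le_mul_of_nonneg_left (hP.sum_older_step J)
        (by positivity)) hcl)) le_rfl) (by positivity)) le_rfl
  have hΦ : 0 ≤ Φ := (sum_nonneg fun J _ => killMass_nonneg _ J).trans hK
  have hB : ∑ J ∈ Finset.range P.N, b J ≤
      3 * 2 ^ d * (Φ + cl * (2 * d * (2 * Φ)) + d * cl * c0 * (3 * T)) := by
    simp only [hb, ← mul_sum, sum_add_distrib, ← sum_mul]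
    refine mul_le_mul_of_nonneg_left (add_le_add (add_le_add hK (mul_le_mul_of_nonneg_left
      (mul_le_mul_of_nonneg_left ?_ (by positivity)) hcl)) ?_) (by positivity)
    · refine (mul_le_of_le_one_left ?_ (by linarith [hP.invL_le_half])).trans (by linarith)
      exact add_nonneg (sum_nonneg fun J _ => adjCross_nonneg J)
        (sum_nonneg fun J _ => older_nonneg J)
    · rw [mul_assoc (d * cl * c0)]
      exact mul_le_mul_of_nonneg_left (mul_le_mul_of_nonneg_right hP.sum_decay_rev_le hT)
        (by positivity)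
  set B := ∑ J ∈ Finset.range P.N, b J
  have ha := hP.antitone_mass
  have hcl0 : ∀ K J, 0 ≤ P.crossL lam K J := fun K J =>
    integral_nonneg fun _ => mul_nonneg (norm_nonneg _) (S_nonneg _ _ _)
  have hwin : ∀ c : ℕ, 0 < c → ∑ K ∈ Finset.range P.N,
      (if K + c < P.N then P.crossL lam K (K + c) else 0) ≤ B + k * (c * T) := by
    intro c hc
    calc ∑ K ∈ Finset.range P.N, (if K + c < P.N then P.crossL lam K (K + c) else 0)
        ≤ ∑ K ∈ Finset.range P.N, ((if K + c < P.N then b (K + c) else 0) +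
            k * (P.mass K - P.mass (K + c))) := by
          refine Finset.sum_le_sum fun K _ => ?_
          have h0 : 0 ≤ k * (P.mass K - P.mass (K + c)) :=
            mul_nonneg hk (sub_nonneg.2 (ha (Nat.le_add_right K c)))
          split_ifs with h
          · exact hcr K (K + c) (by omega) h
          · linarith
      _ ≤ _ := by
          rw [sum_add_distrib, ← mul_sum]
          refine add_le_add (sum_shift_le hb0 _ _) (mul_le_mul_of_nonneg_left ?_ hk)
          exact (sum_window_le ha mass_nonneg _ _).trans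
            (mul_le_mul_of_nonneg_left (hP.integral_F_le 0) (Nat.cast_nonneg c))
  have hsum : ∑ j ∈ Finset.range P.N, ∑ l ∈ Finset.Ico j P.N,
      P.decay (l - j) * P.crossL lam j l ≤ Φ + 6 * (B + k * T) := by
    have e : ∀ j ∈ Finset.range P.N, ∑ l ∈ Finset.Ico j P.N, P.decay (l - j) * P.crossL lam j l =
        P.killMass lam j + ∑ i ∈ Finset.range P.N, P.decay (i + 1) *
          (if j + (i + 1) < P.N then P.crossL lam j (j + (i + 1)) else 0) := by
      intro j hj
      rw [sum_eq_sum_Ico_succ_bot (Finset.mem_range.1 hj), Nat.sub_self]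
      congr 1
      · simp [Params.decay, Params.crossL, Params.killMass]
      · simp only [mul_ite, mul_zero]
        rw [← sum_filter]
        refine sum_bij' (fun l _ => l - (j + 1)) (fun i _ => j + (i + 1)) ?_ ?_ ?_ ?_ ?_
        · intro l hl
          have := Finset.mem_Ico.1 hl
          rw [Finset.mem_filter, Finset.mem_range]
          omega
        · intro i hi
          rw [Finset.mem_filter, Finset.mem_range] at hi
          rw [Finset.mem_Ico]
          omega
        · intro l hl
          have := Finset.mem_Ico.1 hl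
          omega
        · intro i _
          omega
        · intro l hl
          have := Finset.mem_Ico.1 hl
          congr 2 <;> omega
    rw [Finset.sum_congr rfl e, sum_add_distrib, sum_comm]
    refine add_le_add ((Finset.sum_le_sum fun J hJ =>
      hP.killMass_mono (by linarith) (Finset.mem_range.1 hJ)).trans hK) ?_
    simp only [← mul_sum]
    refine (Finset.sum_le_sum (g := fun i => P.decay (i + 1) * ((i : ℝ) + 2) * (B + k * T))
      fun i _ => ?_).trans ?_
    · rw [mul_assoc]
      refine mul_le_mul_of_nonneg_left ((hwin (i + 1) (by omega)).trans ?_) (decay_nonneg _)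
      push_cast
      have : (0 : ℝ) ≤ i := Nat.cast_nonneg i
      have hB0 : 0 ≤ B := sum_nonneg fun J _ => hb0 J
      nlinarith [mul_nonneg hk hT]
    · rw [← sum_mul]
      refine mul_le_mul_of_nonneg_right ((hP.sum_decay_succ_le _).trans
        (by linarith [hP.invL_le_half])) ?_
      have hB0 : 0 ≤ B := sum_nonneg fun J _ => hb0 J
      positivity
  simp only [hP.integral_mul_varW, sum_add_distrib, ← mul_sum]
  refine add_le_add ?_ (mul_le_mul_of_nonneg_left ?_ (by positivity))
  · simp only [mul_assoc, ← mul_sum]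
    refine le_trans ?_ (le_of_eq (show (d:ℝ) * (c0 * (3 * T)) = 3 * ((d:ℝ) * (c0 * T)) by ring))
    refine mul_le_mul_of_nonneg_left (mul_le_mul_of_nonneg_left ?_ hc0) (Nat.cast_nonneg d)
    refine (Finset.sum_le_sum fun j _ => mul_le_mul_of_nonneg_left (hP.integral_F_le j)
      (decay_nonneg _)).trans ?_
    rw [← sum_mul]
    refine mul_le_mul_of_nonneg_right ?_ hT
    refine le_trans (le_of_eq ?_) ((hP.sum_decay_le (n := P.N + 1)).trans (by norm_num))
    rw [← sum_range_reflect (fun j => P.decay j) (P.N + 1)]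
    exact Finset.sum_congr rfl fun J _ => by congr 1
  · rw [sum_range_succ, Finset.Ico_self, sum_empty, add_zero]
    refine hsum.trans (add_le_add le_rfl (mul_le_mul_of_nonneg_left
      (add_le_add hB le_rfl) (by norm_num)))

end Params

end Vale.Agent.P137.Centred
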