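import Vale.Agent.P137.Main
import Vale.Agent.P137.Centred.Core

/-!
# P137, centred operator: from the band bound to the variation bound for smooth data

`centeredMax` is the centred maximal function, `radMaxC f ρ` its truncation to radii at least `ρ`.
The only input is `BandBound`: a bound on the gradient of the maximal functions over the bands
`[2^(-L j), 2^(L j)]` for nonnegative C¹ data with compact support.
-/

open MeasureTheory Filter Set Metric
open scoped ENNReal NNReal Topology RealInnerProductSpace Gradient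

noncomputable section

namespace Vale.Agent.P137.Centred

variable {d : ℕ}

/-- The centred maximal function: supremum of averages of `|f|` over open balls centred at `x`. -/
def centeredMax (f : Euc d → ℝ) (x : Euc d) : ℝ≥0∞ :=
  ⨆ (r : ℝ) (_ : 0 < r), ⨍⁻ y in ball x r, ‖f y‖ₑ ∂volume

/-- Real valued version of the centred maximal function. -/
def centMaxFn (f : Euc d → ℝ) (x : Euc d) : ℝ := (centeredMax f x).toReal

/-- The variation bound for maximal functions over bands of radii, the input of this file. -/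
def BandBound (d : ℕ) : Prop :=
  ∃ (C : ℝ≥0) (L : ℕ), 1 ≤ L ∧ ∀ f : Euc d → ℝ, ContDiff ℝ 1 f → HasCompactSupport f →
    (∀ y, 0 ≤ f y) → ∀ j : ℕ,
      ∫⁻ x, ‖∇ (bandMax f ((2 ^ (L * j) : ℝ))⁻¹ (2 ^ (L * j))) x‖ₑ ≤ C * ∫⁻ x, ‖∇ f x‖ₑ

/-- The centred averages of `|f|` with radius at least `ρ`. -/
def avgSetC (f : Euc d → ℝ) (ρ : ℝ) (x : Euc d) : Set ℝ :=
  (fun r => ballAvg (fun y => |f y|) x r) '' Ici ρ

/-- The centred maximal function over radii at least `ρ`. -/
def radMaxC (f : Euc d → ℝ) (ρ : ℝ) (x : Euc d) : ℝ := sSup (avgSetC f ρ x)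

variable {f : Euc d → ℝ} {ρ : ℝ}

lemma le_radMaxC (hf : Integrable f) (hρ : 0 < ρ) {x : Euc d} {R : ℝ} (hR : ρ ≤ R) :
    ballAvg (fun y => |f y|) x R ≤ radMaxC f ρ x :=
  le_csSup ⟨_, by rintro _ ⟨r, hr, rfl⟩; exact ballAvg_le hf x hρ hr⟩ ⟨R, hR, rfl⟩

lemma radMaxC_le {x : Euc d} {B : ℝ}
    (h : ∀ R, ρ ≤ R → ballAvg (fun y => |f y|) x R ≤ B) : radMaxC f ρ x ≤ B :=
  csSup_le ⟨_, ⟨ρ, le_refl ρ, rfl⟩⟩ (by rintro _ ⟨r, hr, rfl⟩; exact h r hr)

lemma radMaxC_nonneg (hf : Integrable f) (hρ : 0 < ρ) (x : Euc d) : 0 ≤ radMaxC f ρ x :=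
  (ballAvg_nonneg (fun y => abs_nonneg _) x hρ.le).trans (le_radMaxC hf hρ le_rfl)

lemma radMaxC_le_radMax (hf : Integrable f) (hρ : 0 < ρ) (x : Euc d) :
    radMaxC f ρ x ≤ radMax f ρ x :=
  radMaxC_le fun R hR => le_radMax hf hρ hR (by simpa using (hρ.trans_le hR).le)

lemma lipschitz_radMaxC (hf : Integrable f) (hρ : 0 < ρ) :
    LipschitzWith (radLip f ρ).toNNReal (radMaxC f ρ) := by
  refine LipschitzWith.of_le_add_mul _ fun x y => radMaxC_le fun R hR => ?_
  have hR0 : 0 < R := hρ.trans_le hR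
  set δ := dist x y with hδ
  have hδ0 : 0 ≤ δ := dist_nonneg
  set A := ballAvg (fun z => |f z|) x R with hA
  have hA0 : 0 ≤ A := ballAvg_nonneg (fun z => abs_nonneg _) x hR0.le
  have h1 : (R / (R + δ)) ^ d * A ≤ ballAvg (fun z => |f z|) y (R + δ) :=
    ballAvg_grow (fun z => abs_nonneg _) hf.abs hR0 (by linarith)
      (ball_subset_ball' (by rw [← hδ]))
  have h2 : 1 - d * δ / R ≤ (R / (R + δ)) ^ d := by
    have h := one_sub_mul_le_inv_pow (div_nonneg hδ0 hR0.le) d
    rw [show R / (R + δ) = (1 + δ / R)⁻¹ by field_simp, inv_pow]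
    rwa [mul_div_assoc]
  have h3 : A ≤ (ρ ^ d * ballVol d)⁻¹ * ∫ z, |f z| := ballAvg_le hf x hρ hR
  have h4 : d * δ / R * A ≤ radLip f ρ * δ := by
    calc d * δ / R * A ≤ d * δ / ρ * A :=
          mul_le_mul_of_nonneg_right (div_le_div_of_nonneg_left (by positivity) hρ hR) hA0
      _ ≤ d * δ / ρ * ((ρ ^ d * ballVol d)⁻¹ * ∫ z, |f z|) :=
          mul_le_mul_of_nonneg_left h3 (by positivity)
      _ = _ := by rw [radLip]; ring
  have h5 : radLip f ρ * δ ≤ ((radLip f ρ).toNNReal : ℝ) * δ :=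
    mul_le_mul_of_nonneg_right (Real.le_coe_toNNReal _) hδ0
  have h6 := le_radMaxC hf hρ (x := y) (R := R + δ) (by linarith)
  have h7 := mul_le_mul_of_nonneg_right h2 hA0
  linarith

lemma continuous_radMaxC (hf : Integrable f) (hρ : 0 < ρ) : Continuous (radMaxC f ρ) :=
  (lipschitz_radMaxC hf hρ).continuous

/-- Averages of Lipschitz data are Lipschitz in the centre. -/
lemma ballAvg_le_add_of_lipschitz {L : ℝ≥0} (hf : LipschitzWith L f) (hfc : HasCompactSupport f)
    {R : ℝ} (hR : 0 < R) (x y : Euc d) :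
    ballAvg (fun z => |f z|) x R ≤ ballAvg (fun z => |f z|) y R + L * dist x y := by
  rw [ballAvg_eq_unit _ _ hR, ballAvg_eq_unit _ _ hR]
  have hfin : IsFiniteMeasure (volume.restrict (ball (0 : Euc d) 1)) :=
    ⟨by rw [Measure.restrict_apply_univ]; exact measure_ball_lt_top⟩
  have hint : ∀ c : Euc d, IntegrableOn (fun u => |f (c + R • u)|) (ball (0 : Euc d) 1) := by
    intro c
    have hcont : Continuous fun u : Euc d => |f (c + R • u)| :=
      (hf.continuous.comp (continuous_const.add (continuous_id.const_smul R))).abs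
    obtain ⟨B, hB⟩ := hfc.exists_bound_of_continuous hf.continuous
    exact Integrable.of_bound hcont.aestronglyMeasurable B
      (ae_of_all _ fun u => by simpa using hB (c + R • u))
  have hle : ∫ u in ball (0 : Euc d) 1, |f (x + R • u)| ≤
      ∫ u in ball (0 : Euc d) 1, (|f (y + R • u)| + L * dist x y) := by
    refine integral_mono (hint x) ((hint y).add (integrable_const _)) fun u => ?_
    have h1 := hf.dist_le_mul (x + R • u) (y + R • u)
    rw [Real.dist_eq, dist_add_right] at h1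
    have h2 := abs_sub_abs_le_abs_sub (f (x + R • u)) (f (y + R • u))
    show |f (x + R • u)| ≤ _
    linarith
  rw [integral_add (hint _) (integrable_const _), setIntegral_const, smul_eq_mul] at hle
  have hV : 0 < ballVol d := ballVol_pos
  have h4 := mul_le_mul_of_nonneg_left hle (inv_nonneg.2 hV.le)
  rw [mul_add, measureReal_def, ← ballVol, ← mul_assoc (ballVol d)⁻¹ (ballVol d),
    inv_mul_cancel₀ hV.ne', one_mul] at h4
  exact h4

lemma ballAvg_le_bound {B : ℝ} (hi : Integrable f) (hB : ∀ y, |f y| ≤ B) (x : Euc d) {R : ℝ}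
    (hR : 0 < R) : ballAvg (fun y => |f y|) x R ≤ B :=
  (le_radMax hi hR le_rfl (by simpa using hR.le)).trans (radMax_le_bound hi hB hR x)

lemma laverage_eq (hi : Integrable f) (x : Euc d) {r : ℝ} (hr : 0 < r) :
    ⨍⁻ y in ball x r, ‖f y‖ₑ ∂volume = ENNReal.ofReal (ballAvg (fun y => |f y|) x r) :=
  laverage_eq_ballAvg hi x hr

lemma le_centeredMax (f : Euc d → ℝ) (x : Euc d) {r : ℝ} (hr : 0 < r) :
    ⨍⁻ y in ball x r, ‖f y‖ₑ ∂volume ≤ centeredMax f x :=
  le_iSup_of_le r (le_iSup_of_le hr le_rfl)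

lemma centeredMax_le_uncenteredMax (f : Euc d → ℝ) (x : Euc d) :
    centeredMax f x ≤ uncenteredMax f x :=
  iSup_le fun _ => iSup_le fun hr => le_uncenteredMax f (mem_ball_self hr)

/-- The centred maximal function is the supremum of the truncated ones. -/
lemma centeredMax_eq_iSup (hi : Integrable f) (x : Euc d) :
    centeredMax f x = ⨆ n : ℕ, ENNReal.ofReal (radMaxC f ((1 / 2) ^ n) x) := by
  refine le_antisymm (iSup_le fun r => iSup_le fun hr => ?_) (iSup_le fun n => ?_)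
  · obtain ⟨n, hn⟩ := exists_pow_lt_of_lt_one hr (by norm_num : (1 / 2 : ℝ) < 1)
    rw [laverage_eq hi x hr]
    exact le_iSup_of_le n (ENNReal.ofReal_le_ofReal (le_radMaxC hi (by positivity) hn.le))
  · rcases eq_or_ne (centeredMax f x) ∞ with h | h
    · simp [h]
    rw [← ENNReal.ofReal_toReal h]
    refine ENNReal.ofReal_le_ofReal (radMaxC_le fun R hR => ?_)
    have hR0 : 0 < R := lt_of_lt_of_le (by positivity) hR
    refine (ENNReal.ofReal_le_iff_le_toReal h).1 ?_
    rw [← laverage_eq hi x hR0]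
    exact le_centeredMax f x hR0

/-- Everything about bounded data: finiteness and the two characterisations of `centMaxFn`. -/
lemma centMaxFn_spec {B : ℝ} (hi : Integrable f) (hB : ∀ y, |f y| ≤ B) (x : Euc d) :
    centeredMax f x ≠ ∞ ∧ (∀ r, 0 < r → ballAvg (fun y => |f y|) x r ≤ centMaxFn f x) ∧
      ∀ M, (∀ r, 0 < r → ballAvg (fun y => |f y|) x r ≤ M) → centMaxFn f x ≤ M := by
  have hle : ∀ M : ℝ, (∀ r, 0 < r → ballAvg (fun y => |f y|) x r ≤ M) →
      centeredMax f x ≤ ENNReal.ofReal M := fun M hM =>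
    iSup_le fun r => iSup_le fun hr => by
      rw [laverage_eq hi x hr]; exact ENNReal.ofReal_le_ofReal (hM r hr)
  have hfin : centeredMax f x ≠ ∞ :=
    ne_top_of_le_ne_top ENNReal.ofReal_ne_top (hle B fun r hr => ballAvg_le_bound hi hB x hr)
  refine ⟨hfin, fun r hr => ?_, fun M hM => ?_⟩
  · refine (ENNReal.ofReal_le_iff_le_toReal hfin).1 ?_
    rw [← laverage_eq hi x hr]
    exact le_centeredMax f x hr
  · have h0 : 0 ≤ M := (ballAvg_nonneg (fun y => abs_nonneg _) x one_pos.le).trans (hM 1 one_pos)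
    exact ENNReal.toReal_le_of_le_ofReal h0 (hle M hM)

lemma lipschitz_centMaxFn {L : ℝ≥0} (hf : LipschitzWith L f) (hfc : HasCompactSupport f) :
    LipschitzWith L (centMaxFn f) := by
  have hi : Integrable f := hf.continuous.integrable_of_hasCompactSupport hfc
  obtain ⟨B, hB⟩ := hfc.exists_bound_of_continuous hf.continuous
  refine LipschitzWith.of_le_add_mul _ fun x y => (centMaxFn_spec hi hB x).2.2 _ fun r hr => ?_
  linarith [ballAvg_le_add_of_lipschitz hf hfc hr x y, (centMaxFn_spec hi hB y).2.1 r hr]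

lemma centMaxFn_le_add {h : Euc d → ℝ} {B B' ε : ℝ} (hf : Integrable f) (hh : Integrable h)
    (hB : ∀ y, |f y| ≤ B) (hB' : ∀ y, |h y| ≤ B') (hε : ∀ y, |h y| ≤ |f y| + ε) (x : Euc d) :
    centMaxFn h x ≤ centMaxFn f x + ε := by
  refine (centMaxFn_spec hh hB' x).2.2 _ fun r hr => ?_
  refine le_trans ?_ (add_le_add ((centMaxFn_spec hf hB x).2.1 r hr) le_rfl)
  have hc : IntegrableOn (fun _ : Euc d => ε) (ball x r) :=
    integrableOn_const measure_ball_lt_top.ne
  have h1 : ∫ y in ball x r, |h y| ≤ ∫ y in ball x r, (|f y| + ε) :=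
    setIntegral_mono hh.abs.integrableOn (hf.abs.integrableOn.add hc) hε
  rw [integral_add hf.abs.integrableOn hc, setIntegral_const, smul_eq_mul, measureReal_def,
    volume_ball_toReal x hr] at h1
  have hV : 0 < r ^ d * ballVol d := mul_pos (pow_pos hr d) ballVol_pos
  unfold ballAvg
  rw [inv_mul_le_iff₀ hV, mul_add, ← mul_assoc, mul_inv_cancel₀ hV.ne', one_mul]
  exact h1

lemma centMaxFn_le_maxFn {B : ℝ} (hi : Integrable f) (hB : ∀ y, |f y| ≤ B) (x : Euc d) :
    centMaxFn f x ≤ maxFn f x :=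
  ENNReal.toReal_mono (tendsto_radMax_maxFn hi hB x).1 (centeredMax_le_uncenteredMax f x)

/-! ### Bands -/

variable {a b : ℝ}

lemma ballAvg_abs_of_nonneg (h0 : ∀ y, 0 ≤ f y) (x : Euc d) (r : ℝ) :
    ballAvg (fun y => |f y|) x r = ballAvg f x r := by
  simp only [abs_of_nonneg (h0 _)]

lemma le_bandMax {B : ℝ} (hi : Integrable f) (hB : ∀ y, |f y| ≤ B) (h0 : ∀ y, 0 ≤ f y)
    (ha : 0 < a) {r : ℝ} (hr : r ∈ Icc a b) (x : Euc d) :
    ballAvg (fun y => |f y|) x r ≤ bandMax f a b x := by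
  rw [ballAvg_abs_of_nonneg h0]
  refine le_csSup ⟨B, ?_⟩ ⟨r, hr, rfl⟩
  rintro _ ⟨s, hs, rfl⟩
  simp only
  rw [← ballAvg_abs_of_nonneg h0]
  exact ballAvg_le_bound hi hB x (ha.trans_le hs.1)

lemma bandMax_le (h0 : ∀ y, 0 ≤ f y) (hab : a ≤ b) {x : Euc d} {M : ℝ}
    (h : ∀ r ∈ Icc a b, ballAvg (fun y => |f y|) x r ≤ M) : bandMax f a b x ≤ M := by
  refine csSup_le ⟨_, ⟨a, left_mem_Icc.2 hab, rfl⟩⟩ ?_
  rintro _ ⟨s, hs, rfl⟩
  simp only
  rw [← ballAvg_abs_of_nonneg h0]
  exact h s hs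

lemma lipschitz_bandMax' {L : ℝ≥0} (hf : LipschitzWith L f) (hfc : HasCompactSupport f)
    (h0 : ∀ y, 0 ≤ f y) (ha : 0 < a) (hab : a ≤ b) : LipschitzWith L (bandMax f a b) := by
  have hi : Integrable f := hf.continuous.integrable_of_hasCompactSupport hfc
  obtain ⟨B, hB⟩ := hfc.exists_bound_of_continuous hf.continuous
  refine LipschitzWith.of_le_add_mul _ fun x y => bandMax_le h0 hab fun r hr => ?_
  linarith [ballAvg_le_add_of_lipschitz hf hfc (ha.trans_le hr.1) x y,
    le_bandMax hi hB h0 ha hr y]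

/-- Exhausting the radii by bands. -/
lemma tendsto_bandMax {B : ℝ} (hi : Integrable f) (hB : ∀ y, |f y| ≤ B) (h0 : ∀ y, 0 ≤ f y)
    {L : ℕ} (hL : 1 ≤ L) (x : Euc d) :
    Tendsto (fun j : ℕ => bandMax f ((2 ^ (L * j) : ℝ))⁻¹ (2 ^ (L * j)) x) atTop
      (𝓝 (centMaxFn f x)) := by
  obtain ⟨-, hup, hleast⟩ := centMaxFn_spec hi hB x
  refine tendsto_order.2 ⟨fun v hv => ?_, fun v hv => Eventually.of_forall fun j => ?_⟩
  · obtain ⟨r, hr, hvr⟩ : ∃ r, 0 < r ∧ v < ballAvg (fun y => |f y|) x r := by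
      by_contra h
      push Not at h
      exact not_le.2 hv (hleast v h)
    have hj : Tendsto (fun j : ℕ => (2 : ℝ) ^ (L * j)) atTop atTop :=
      (tendsto_pow_atTop_atTop_of_one_lt one_lt_two).comp
        (tendsto_atTop_mono (fun j => Nat.le_mul_of_pos_left j hL) tendsto_id)
    filter_upwards [hj.eventually (eventually_ge_atTop r),
      hj.eventually (eventually_ge_atTop r⁻¹)] with j h1 h2
    refine hvr.trans_le (le_bandMax hi hB h0 (by positivity) ⟨?_, h1⟩ x)
    rw [inv_le_comm₀ (by positivity) hr]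
    exact h2
  · refine lt_of_le_of_lt (bandMax_le h0 ?_ fun r hr => hup r ?_) hv
    · have h1 : (1 : ℝ) ≤ 2 ^ (L * j) := one_le_pow₀ one_le_two
      exact (inv_le_one_of_one_le₀ h1).trans h1
    · exact lt_of_lt_of_le (by positivity) hr.1

/-- The variation bound for compactly supported C¹ data of any sign. -/
theorem exists_lineVar_centMaxFn_le (hd : 0 < d) (hband : BandBound d) :
    ∃ C : ℝ≥0, ∀ (u : Euc d → ℝ), ContDiff ℝ 1 u → HasCompactSupport u →
      Continuous (centMaxFn u) ∧ (∀ x, centeredMax u x ≠ ∞) ∧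
      Tendsto (centMaxFn u) (cocompact _) (𝓝 0) ∧
      ∀ i, lineVar i (centMaxFn u) ≤ C * ∫⁻ x, ‖fderiv ℝ u x‖ₑ := by
  obtain ⟨C, N, hN, hC⟩ := hband
  obtain ⟨C', hC'⟩ := exists_lineVar_maxFn_le (d := d) hd
  refine ⟨C, fun u hu huc => ?_⟩
  have hi : Integrable u := hu.continuous.integrable_of_hasCompactSupport huc
  obtain ⟨B, hB⟩ := huc.exists_bound_of_continuous hu.continuous
  obtain ⟨L, hL⟩ := hu.lipschitzWith_of_hasCompactSupport huc one_ne_zero
  refine ⟨(lipschitz_centMaxFn hL huc).continuous, fun x => (centMaxFn_spec hi hB x).1,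
    squeeze_zero (fun x => ENNReal.toReal_nonneg) (centMaxFn_le_maxFn hi hB)
      (hC' u hu huc).2.2.1, fun i => ?_⟩
  set ε : ℕ → ℝ := fun k => 1 / ((k : ℝ) + 1) with hεdef
  have hε : ∀ k, 0 < ε k := fun k => by rw [hεdef]; positivity
  set f : ℕ → Euc d → ℝ := fun k => smoothAbs (ε k) u with hfdef
  have hsp := fun k => smoothAbs_spec (hε k) hu huc
  have hfi : ∀ k, Integrable (f k) := fun k =>
    (hsp k).1.continuous.integrable_of_hasCompactSupport (hsp k).2.1
  have hfB : ∀ k y, |f k y| ≤ B := fun k y => by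
    rw [abs_of_nonneg ((hsp k).2.2.1 y)]; exact ((hsp k).2.2.2.2 y).2.trans (hB y)
  have hfL : ∀ k, ∃ L, LipschitzWith L (f k) := fun k =>
    (hsp k).1.lipschitzWith_of_hasCompactSupport (hsp k).2.1 one_ne_zero
  refine lineVar_le_of_tendsto i (F := fun k => centMaxFn (f k))
    (fun k => by obtain ⟨L', hL'⟩ := hfL k; exact (lipschitz_centMaxFn hL' (hsp k).2.1).continuous)
    (fun x => ?_) fun k => ?_
  · refine tendsto_iff_dist_tendsto_zero.2 (squeeze_zero (fun k => dist_nonneg) (fun k => ?_)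
      (tendsto_one_div_add_atTop_nhds_zero_nat (𝕜 := ℝ)))
    have a1 := centMaxFn_le_add (h := u) (hfi k) hi (hfB k) hB (ε := ε k) (fun y => by
      rw [abs_of_nonneg ((hsp k).2.2.1 y)]; exact ((hsp k).2.2.2.2 y).1) x
    have a2 := centMaxFn_le_add (h := f k) hi (hfi k) hB (hfB k) (ε := ε k) (fun y => by
      rw [abs_of_nonneg ((hsp k).2.2.1 y)]; linarith [((hsp k).2.2.2.2 y).2, hε k]) x
    rw [Real.dist_eq, abs_le]
    constructor <;> simp only [hεdef] at * <;> linarith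
  · obtain ⟨L', hL'⟩ := hfL k
    have hb : ∀ j : ℕ, ((2 ^ (N * j) : ℝ))⁻¹ ≤ 2 ^ (N * j) := fun j => by
      have h1 : (1 : ℝ) ≤ 2 ^ (N * j) := one_le_pow₀ one_le_two
      exact (inv_le_one_of_one_le₀ h1).trans h1
    have hlip : ∀ j : ℕ, LipschitzWith L' (bandMax (f k) ((2 ^ (N * j) : ℝ))⁻¹ (2 ^ (N * j))) :=
      fun j => lipschitz_bandMax' hL' (hsp k).2.1 (hsp k).2.2.1 (by positivity) (hb j)
    refine lineVar_le_of_tendsto i
      (F := fun j : ℕ => bandMax (f k) ((2 ^ (N * j) : ℝ))⁻¹ (2 ^ (N * j)))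
      (fun j => (hlip j).continuous)
      (fun x => tendsto_bandMax (hfi k) (hfB k) (hsp k).2.2.1 hN x) fun j => ?_
    refine (lineVar_le_lintegral_fderiv i (hlip j)).trans ?_
    refine le_trans ?_ ((hC (f k) (hsp k).1 (hsp k).2.1 (hsp k).2.2.1 j).trans
      (mul_le_mul_right (lintegral_mono fun y => ?_) _))
    · simp only [enorm_gradient]; exact le_rfl
    · rw [enorm_gradient]; exact enorm_le_iff_norm_le.2 ((hsp k).2.2.2.1 y)

end Vale.Agent.P137.Centred
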